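import Mathlib
import Vale.Agent.P234.Bd3.B3

set_option linter.all false

section

section

open Matrix Finset

namespace Vale.Agent.P231.Kazdan

section
variable {ι κ μ : Type*}

/-- Entrywise derivative of a matrix valued function of a real variable. -/
def ED (A : ℝ → Matrix ι κ ℝ) (A' : Matrix ι κ ℝ) (t : ℝ) : Prop :=
  ∀ i j, HasDerivAt (fun x => A x i j) (A' i j) t

/-- Entrywise continuity of a matrix valued function on a topological space. -/
def EC {T : Type*} [TopologicalSpace T] (A : T → Matrix ι κ ℝ) : Prop :=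
  ∀ i j, Continuous (fun x => A x i j)

theorem EC.continuous {T : Type*} [TopologicalSpace T] {A : T → Matrix ι κ ℝ} (h : EC A) :
    Continuous A :=
  continuous_pi fun i => continuous_pi fun j => h i j

theorem ED.add {A B : ℝ → Matrix ι κ ℝ} {A' B' : Matrix ι κ ℝ} {t : ℝ}
    (hA : ED A A' t) (hB : ED B B' t) : ED (fun x => A x + B x) (A' + B') t :=
  fun i j => (hA i j).add (hB i j)

theorem ED.sub {A B : ℝ → Matrix ι κ ℝ} {A' B' : Matrix ι κ ℝ} {t : ℝ}
    (hA : ED A A' t) (hB : ED B B' t) : ED (fun x => A x - B x) (A' - B') t :=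
  fun i j => (hA i j).sub (hB i j)

theorem ED.neg {A : ℝ → Matrix ι κ ℝ} {A' : Matrix ι κ ℝ} {t : ℝ}
    (hA : ED A A' t) : ED (fun x => - A x) (- A') t :=
  fun i j => (hA i j).neg

theorem ED.const (A : Matrix ι κ ℝ) (t : ℝ) : ED (fun _ => A) 0 t :=
  fun i j => by simpa only [Matrix.zero_apply] using hasDerivAt_const t (A i j)

theorem ED.transpose {A : ℝ → Matrix ι κ ℝ} {A' : Matrix ι κ ℝ} {t : ℝ}
    (hA : ED A A' t) : ED (fun x => (A x)ᵀ) A'ᵀ t :=
  fun i j => hA j i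

theorem ED.mul [Fintype κ] {A : ℝ → Matrix ι κ ℝ} {B : ℝ → Matrix κ μ ℝ}
    {A' : Matrix ι κ ℝ} {B' : Matrix κ μ ℝ} {t : ℝ}
    (hA : ED A A' t) (hB : ED B B' t) :
    ED (fun x => A x * B x) (A' * B t + A t * B') t := by
  intro i j
  have h : HasDerivAt (fun x => ∑ k, A x i k * B x k j)
      (∑ k, (A' i k * B t k j + A t i k * B' k j)) t :=
    HasDerivAt.fun_sum fun k _ => (hA i k).mul (hB k j)
  rw [Finset.sum_add_distrib] at h
  exact h

theorem ED.mul_const [Fintype κ] {A : ℝ → Matrix ι κ ℝ} {B : Matrix κ μ ℝ}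
    {A' : Matrix ι κ ℝ} {t : ℝ} (hA : ED A A' t) :
    ED (fun x => A x * B) (A' * B) t := by
  simpa using hA.mul (ED.const B t)

theorem ED.const_mul [Fintype κ] {A : Matrix ι κ ℝ} {B : ℝ → Matrix κ μ ℝ}
    {B' : Matrix κ μ ℝ} {t : ℝ} (hB : ED B B' t) :
    ED (fun x => A * B x) (A * B') t := by
  simpa only [Matrix.zero_mul, zero_add] using (ED.const A t).mul hB

theorem ED.smul {f : ℝ → ℝ} {A : ℝ → Matrix ι κ ℝ} {f' : ℝ} {A' : Matrix ι κ ℝ} {t : ℝ}
    (hf : HasDerivAt f f' t) (hA : ED A A' t) :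
    ED (fun x => f x • A x) (f' • A t + f t • A') t :=
  fun i j => hf.mul (hA i j)

theorem ED.congr_deriv {A : ℝ → Matrix ι κ ℝ} {A' B' : Matrix ι κ ℝ} {t : ℝ}
    (hA : ED A A' t) (h : A' = B') : ED A B' t := h ▸ hA

theorem ED.unique {A : ℝ → Matrix ι κ ℝ} {A' B' : Matrix ι κ ℝ} {t : ℝ}
    (hA : ED A A' t) (hB : ED A B' t) : A' = B' := by
  ext i j
  exact (hA i j).unique (hB i j)

end

section Det

variable {ι : Type*} [Fintype ι] [DecidableEq ι]

end Det

end Vale.Agent.P231.Kazdan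
end
end

section

section

/-! P231 core: matrix level Jacobi data of a closed geodesic. -/

open Matrix Real Set Filter Topology MeasureTheory
open scoped ContDiff

namespace Vale.Agent.P231

noncomputable section

/-- Jacobi data of a closed geodesic of length `2 * D`, written in an arbitrary
`2 * D`-periodic family of orthonormal frames (no regularity of the frames is assumed):
column `j` of `A s t` is the value at `t` of the Jacobi field which vanishes at `s` with
derivative the `j`-th frame vector. -/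
structure JData {ι : Type*} [Fintype ι] [DecidableEq ι] (D : ℝ)
    (A : ℝ → ℝ → Matrix ι ι ℝ) : Prop where
  pos : 0 < D
  diag : ∀ s, A s s = 0
  anti : ∀ s t, A t s = -(A s t)ᵀ
  rel : ∀ s t a b, IsUnit (A a b) →
    A s t = A a t * (A a b)⁻¹ * A s b + A b t * (A b a)⁻¹ * A s a
  smooth : ∀ a b i j, ContDiff ℝ ∞ (fun t => ((A a t)ᵀ * A b t) i j)
  der : ∀ a b i j, HasDerivAt (fun t => ((A a t)ᵀ * A b t) i j) (A a b j i) b
  per : ∀ s t, A s (t + 2 * D) = A s t
  unit : ∀ s t, s < t → t < s + D → IsUnit (A s t)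

/-- Coordinate of the Lagrangian at time `t` with respect to the base time `a`
(normalised to vanish at `b`). -/
def Hc {ι : Type*} [Fintype ι] [DecidableEq ι] (A : ℝ → ℝ → Matrix ι ι ℝ) (a b t : ℝ) :
    Matrix ι ι ℝ :=
  (A a t)⁻¹ * A b t * ((A a b)⁻¹)ᵀ

/-- Gram matrix. -/
def Gm {ι : Type*} [Fintype ι] [DecidableEq ι] (A : ℝ → ℝ → Matrix ι ι ℝ) (a t : ℝ) :
    Matrix ι ι ℝ :=
  (A a t)ᵀ * A a t

/-- The strip `0 < t - s < T`. -/
def strip (T : ℝ) : Set (ℝ × ℝ) := {p | p.1 < p.2 ∧ p.2 < p.1 + T}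

end

end Vale.Agent.P231
end
end

section

section

open Matrix Real Set Filter Topology MeasureTheory
open scoped ContDiff

namespace Vale.Agent.P231

noncomputable section

variable {κ ν : Type*} [Fintype κ] [DecidableEq κ] [Fintype ν] [DecidableEq ν]

/-- The kernel of `A 0 (π / 2)` is the first block. -/
def Adapted (A : ℝ → ℝ → Matrix (κ ⊕ ν) (κ ⊕ ν) ℝ) : Prop :=
  ∀ v : κ ⊕ ν → ℝ, A 0 (π / 2) *ᵥ v = 0 ↔ ∀ j, v (Sum.inr j) = 0

/-- `cos`-like matrix function. -/
structure CData (C C' : ℝ → Matrix ν ν ℝ) : Prop where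
  der : ∀ t i j, HasDerivAt (fun t => C t i j) (C' t i j) t
  cont : ∀ i j, Continuous (fun t => C' t i j)
  symm : ∀ t, (C t)ᵀ = C t
  anti : ∀ t, C (t + π) = -C t
  zero : C 0 = 1
  pos : ∀ t, (cos t • C t - sin t • C' t).PosDef

/-- `sin (t - s)`-like matrix function -/
def Xc (C : ℝ → Matrix ν ν ℝ) (s t : ℝ) : Matrix ν ν ℝ := sin t • C s - sin s • C t

/-- its weight -/
def Gc (C C' : ℝ → Matrix ν ν ℝ) (t : ℝ) : Matrix ν ν ℝ := cos t • C t - sin t • C' t

end

end Vale.Agent.P231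
end
end

section

section

open Matrix Real Set Filter Topology MeasureTheory
open scoped ContDiff

namespace Vale.Agent.P231

noncomputable section

section Basic

variable {ι : Type*} [Fintype ι] [DecidableEq ι] {D : ℝ} {A : ℝ → ℝ → Matrix ι ι ℝ}

/-- Conjugation by a constant orthogonal matrix. -/
theorem JData.conj {μ : Type*} [Fintype μ] [DecidableEq μ] (h : JData D A)
    {O : Matrix ι μ ℝ} (h1 : Oᵀ * O = 1) (h2 : O * Oᵀ = 1) :
    JData D (fun s t => Oᵀ * A s t * O) := by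
  have hinv : ∀ M : Matrix ι ι ℝ, IsUnit M → (Oᵀ * M * O)⁻¹ = Oᵀ * M⁻¹ * O := by
    intro M hM
    apply Matrix.inv_eq_right_inv
    have hdet : IsUnit M.det := (Matrix.isUnit_iff_isUnit_det M).1 hM
    calc Oᵀ * M * O * (Oᵀ * M⁻¹ * O) = Oᵀ * M * (O * Oᵀ) * M⁻¹ * O := by
          simp only [Matrix.mul_assoc]
      _ = Oᵀ * (M * M⁻¹) * O := by rw [h2]; simp only [Matrix.mul_assoc, Matrix.one_mul]
      _ = 1 := by rw [Matrix.mul_nonsing_inv _ hdet, Matrix.mul_one, h1]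
  have hcomp : ∀ M N : Matrix ι ι ℝ, Oᵀ * M * O * (Oᵀ * N * O) = Oᵀ * (M * N) * O := by
    intro M N
    calc Oᵀ * M * O * (Oᵀ * N * O) = Oᵀ * M * (O * Oᵀ) * N * O := by
          simp only [Matrix.mul_assoc]
      _ = Oᵀ * (M * N) * O := by rw [h2]; simp only [Matrix.mul_assoc, Matrix.one_mul]
  have htr : ∀ M : Matrix ι ι ℝ, (Oᵀ * M * O)ᵀ = Oᵀ * Mᵀ * O := by
    intro M
    simp only [Matrix.transpose_mul, Matrix.transpose_transpose, Matrix.mul_assoc]
  have hunit : ∀ M : Matrix ι ι ℝ, IsUnit M → IsUnit (Oᵀ * M * O) := by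
    intro M hM
    have hdet : IsUnit M.det := (Matrix.isUnit_iff_isUnit_det M).1 hM
    have : Oᵀ * M * O * (Oᵀ * M⁻¹ * O) = 1 := by
      rw [hcomp, Matrix.mul_nonsing_inv _ hdet, Matrix.mul_one, h1]
    exact (Matrix.isUnit_iff_isUnit_det _).2 (Matrix.isUnit_det_of_right_inverse this)
  have hunit' : ∀ M : Matrix ι ι ℝ, IsUnit (Oᵀ * M * O) → IsUnit M := by
    intro M hM
    have e : M = O * (Oᵀ * M * O) * Oᵀ := by
      calc M = (O * Oᵀ) * M * (O * Oᵀ) := by rw [h2]; simp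
        _ = O * (Oᵀ * M * O) * Oᵀ := by simp only [Matrix.mul_assoc]
    have hdet : IsUnit (Oᵀ * M * O).det := (Matrix.isUnit_iff_isUnit_det _).1 hM
    have : M * (O * (Oᵀ * M * O)⁻¹ * Oᵀ) = 1 := by
      calc M * (O * (Oᵀ * M * O)⁻¹ * Oᵀ)
          = (O * Oᵀ) * M * O * (Oᵀ * M * O)⁻¹ * Oᵀ := by
            rw [h2]; simp only [Matrix.mul_assoc, Matrix.one_mul]
        _ = O * ((Oᵀ * M * O) * (Oᵀ * M * O)⁻¹) * Oᵀ := by simp only [Matrix.mul_assoc]
        _ = 1 := by rw [Matrix.mul_nonsing_inv _ hdet, Matrix.mul_one, h2]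
    exact (Matrix.isUnit_iff_isUnit_det _).2 (Matrix.isUnit_det_of_right_inverse this)
  refine ⟨h.pos, ?_, ?_, ?_, ?_, ?_, ?_, ?_⟩
  · intro s; simp only [h.diag s, Matrix.mul_zero, Matrix.zero_mul]
  · intro s t
    rw [h.anti s t, htr]
    simp only [Matrix.mul_neg, Matrix.neg_mul]
  · intro s t a b hab
    have hab' := hunit' _ hab
    have hba' : IsUnit (A b a) := by
      rw [h.anti a b]
      exact ((Matrix.isUnit_transpose _).2 hab').neg
    show Oᵀ * A s t * O = Oᵀ * A a t * O * (Oᵀ * A a b * O)⁻¹ * (Oᵀ * A s b * O) +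
      Oᵀ * A b t * O * (Oᵀ * A b a * O)⁻¹ * (Oᵀ * A s a * O)
    rw [h.rel s t a b hab', hinv _ hab', hinv _ hba', hcomp, hcomp, hcomp, hcomp,
      Matrix.mul_add, Matrix.add_mul]
  · intro a b i j
    have e : (fun t => ((Oᵀ * A a t * O)ᵀ * (Oᵀ * A b t * O)) i j) =
        fun t => ∑ y, ∑ x, Oᵀ i x * ((A a t)ᵀ * A b t) x y * O y j := by
      funext t
      rw [htr, hcomp]
      simp only [Matrix.mul_apply, Finset.sum_mul]
    rw [e]
    refine ContDiff.sum fun y _ => ContDiff.sum fun x _ => ?_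
    exact (contDiff_const.mul (h.smooth a b x y)).mul contDiff_const
  · intro a b i j
    have e : (fun t => ((Oᵀ * A a t * O)ᵀ * (Oᵀ * A b t * O)) i j) =
        fun t => ∑ y, ∑ x, Oᵀ i x * ((A a t)ᵀ * A b t) x y * O y j := by
      funext t
      rw [htr, hcomp]
      simp only [Matrix.mul_apply, Finset.sum_mul]
    have e2 : (Oᵀ * A a b * O) j i = ∑ y, ∑ x, Oᵀ i x * (A a b y x) * O y j := by
      simp only [Matrix.mul_apply, Finset.sum_mul, Matrix.transpose_apply]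
      rw [Finset.sum_comm]
      refine Finset.sum_congr rfl fun y _ => Finset.sum_congr rfl fun x _ => ?_
      ring
    show HasDerivAt (fun t => ((Oᵀ * A a t * O)ᵀ * (Oᵀ * A b t * O)) i j)
      ((Oᵀ * A a b * O) j i) b
    rw [e, e2]
    refine HasDerivAt.fun_sum fun y _ => HasDerivAt.fun_sum fun x _ => ?_
    exact ((h.der a b x y).const_mul _).mul_const _
  · intro s t
    show Oᵀ * A s (t + 2 * D) * O = _
    rw [h.per]
  · intro s t h3 h4
    exact hunit _ (h.unit s t h3 h4)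


theorem JData.unit_symm_aux (h : JData D A) {s t : ℝ} (hu : IsUnit (A s t)) :
    IsUnit (A t s) := by
  rw [h.anti s t]
  exact ((Matrix.isUnit_transpose _).2 hu).neg

/-- Translation of the parameter. -/
theorem JData.shift (h : JData D A) (c : ℝ) : JData D (fun s t => A (c + s) (c + t)) := by
  refine ⟨h.pos, fun s => h.diag _, fun s t => h.anti _ _, fun s t a b hab => h.rel _ _ _ _ hab,
    ?_, ?_, ?_, ?_⟩
  · intro a b i j
    exact (h.smooth (c + a) (c + b) i j).comp (contDiff_const.add contDiff_id)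
  · intro a b i j
    have h1 := h.der (c + a) (c + b) i j
    have h2 : HasDerivAt (fun t : ℝ => c + t) 1 b := by
      simpa using (hasDerivAt_id b).const_add c
    have h3 := h1.comp b h2
    simpa using! h3
  · intro s t
    show A (c + s) (c + (t + 2 * D)) = _
    rw [← add_assoc, h.per]
  · intro s t h1 h2
    exact h.unit _ _ (by (clear * - h1; linarith)) (by linarith only [h2])

/-- Reversal of the parameter. -/
theorem JData.reverse (h : JData D A) : JData D (fun s t => -A (-s) (-t)) := by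
  refine ⟨h.pos, fun s => by simp [h.diag], ?_, ?_, ?_, ?_, ?_, ?_⟩
  · intro s t
    show -A (-t) (-s) = -(-A (-s) (-t))ᵀ
    rw [h.anti (-s) (-t)]
    simp
  · intro s t a b hab
    have hab' : IsUnit (A (-a) (-b)) := by simpa only [neg_neg] using hab.neg
    have hba' : IsUnit (A (-b) (-a)) := h.unit_symm_aux hab'
    have hinv : ∀ M : Matrix ι ι ℝ, IsUnit M → (-M)⁻¹ = -M⁻¹ := by
      intro M hM
      apply Matrix.inv_eq_right_inv
      rw [neg_mul_neg, Matrix.mul_nonsing_inv _ ((Matrix.isUnit_iff_isUnit_det M).1 hM)]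
    show -A (-s) (-t) = -A (-a) (-t) * (-A (-a) (-b))⁻¹ * -A (-s) (-b) +
      -A (-b) (-t) * (-A (-b) (-a))⁻¹ * -A (-s) (-a)
    rw [hinv _ hab', hinv _ hba', h.rel (-s) (-t) (-a) (-b) hab']
    simp only [neg_mul, mul_neg, neg_neg, neg_add]
  · intro a b i j
    have := (h.smooth (-a) (-b) i j).comp (contDiff_neg (𝕜 := ℝ) (F := ℝ) (n := ∞))
    have e : (fun t => ((-A (-a) (-t))ᵀ * -A (-b) (-t)) i j) =
        (fun t => ((A (-a) t)ᵀ * A (-b) t) i j) ∘ fun t => -t := by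
      funext t
      simp only [transpose_neg, mul_neg, neg_mul, Matrix.neg_apply, neg_neg, Function.comp]
    rw [e]
    exact this
  · intro a b i j
    have h1 := h.der (-a) (-b) i j
    have h2 : HasDerivAt (fun t : ℝ => -t) (-1) b := hasDerivAt_neg b
    have h3 := h1.comp b h2
    show HasDerivAt (fun t => ((-A (-a) (-t))ᵀ * -A (-b) (-t)) i j) ((-A (-a) (-b)) j i) b
    have e : (fun t => ((-A (-a) (-t))ᵀ * -A (-b) (-t)) i j) =
        (fun t => ((A (-a) t)ᵀ * A (-b) t) i j) ∘ Neg.neg := by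
      funext t
      simp only [transpose_neg, mul_neg, neg_mul, Matrix.neg_apply, neg_neg, Function.comp]
    rw [e]
    have e2 : (-A (-a) (-b)) j i = A (-a) (-b) j i * -1 := by simp
    rw [e2]
    exact h3
  · intro s t
    show -A (-s) (-(t + 2 * D)) = -A (-s) (-t)
    have := h.per (-s) (-(t + 2 * D))
    rw [← this]
    congr 2
    ring
  · intro s t h1 h2
    have := h.unit (-t) (-s) (by linarith only [h1]) (by linarith only [h2])
    exact (h.unit_symm_aux this).neg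

end Basic


section Frame

variable {ι : Type*} [Fintype ι] [DecidableEq ι]

open Module in
/-- An orthogonal matrix whose first columns span a given subspace. -/
theorem exists_frame (K : Submodule ℝ (ι → ℝ)) {k : ℕ} (hk : finrank ℝ K = k) :
    ∃ O : Matrix ι (Fin k ⊕ Fin (Fintype.card ι - k)) ℝ,
      Oᵀ * O = 1 ∧ O * Oᵀ = 1 ∧
      ∀ v, O *ᵥ v ∈ K ↔ ∀ j, v (Sum.inr j) = 0 := by
  classical
  have hkle : k ≤ Fintype.card ι := by
    have := Submodule.finrank_le K
    rw [Module.finrank_fintype_fun_eq_card, hk] at this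
    exact this
  set e : EuclideanSpace ℝ ι ≃ₗ[ℝ] (ι → ℝ) := WithLp.linearEquiv 2 ℝ (ι → ℝ) with he
  set K' : Submodule ℝ (EuclideanSpace ℝ ι) := K.comap e.toLinearMap with hK'
  have hK'K : ∀ x, x ∈ K' ↔ e x ∈ K := fun x => Iff.rfl
  have hfin : finrank ℝ K' = k := by
    have hmap : K'.map e.toLinearMap = K := by
      rw [hK', Submodule.map_comap_eq_of_surjective e.surjective]
    have := LinearEquiv.finrank_map_eq e K'
    rw [hmap, hk] at this
    exact this.symm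
  let b0 : OrthonormalBasis (Fin (finrank ℝ K')) ℝ K' := stdOrthonormalBasis ℝ K'
  let b1 : OrthonormalBasis (Fin k) ℝ K' := b0.reindex (finCongr hfin)
  let w : Fin k ⊕ Fin (Fintype.card ι - k) → EuclideanSpace ℝ ι :=
    Sum.elim (fun i => (b1 i : EuclideanSpace ℝ ι)) (fun _ => 0)
  have hw : Orthonormal ℝ ((Set.range (Sum.inl : Fin k → Fin k ⊕ Fin (Fintype.card ι - k))).domRestrict
      w) := by
    rw [orthonormal_iff_ite]
    rintro ⟨_, i, rfl⟩ ⟨_, j, rfl⟩
    have hb := orthonormal_iff_ite.1 b1.orthonormal i j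
    simp only [domRestrict, Sum.elim_inl, w]
    rw [← Submodule.coe_inner, hb]
    by_cases hij : i = j
    · subst hij; simp
    · have : (Sum.inl i : Fin k ⊕ Fin (Fintype.card ι - k)) ≠ Sum.inl j := by
        intro hh; exact hij (Sum.inl.inj hh)
      rw [if_neg hij, if_neg (fun hh => this (congrArg Subtype.val hh))]
  have hcard : finrank ℝ (EuclideanSpace ℝ ι) = Fintype.card (Fin k ⊕ Fin (Fintype.card ι - k)) := by
    simp only [finrank_euclideanSpace, Fintype.card_sum, Fintype.card_fin]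
    omega
  obtain ⟨b, hb⟩ := hw.exists_orthonormalBasis_extension_of_card_eq hcard
  have hbl : ∀ i, b (Sum.inl i) = (b1 i : EuclideanSpace ℝ ι) := fun i => hb _ ⟨i, rfl⟩
  let O : Matrix ι (Fin k ⊕ Fin (Fintype.card ι - k)) ℝ := Matrix.of fun i j => b j i
  have hO1 : Oᵀ * O = 1 := by
    ext i j
    rw [Matrix.mul_apply, Matrix.one_apply]
    have := orthonormal_iff_ite.1 b.orthonormal i j
    rw [← this, PiLp.inner_apply]
    refine Finset.sum_congr rfl fun x _ => ?_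
    simp [O, mul_comm]
  have hO2 : O * Oᵀ = 1 := by
    refine (Matrix.mul_eq_one_comm_of_card_eq (Fin k ⊕ Fin (Fintype.card ι - k)) ι ℝ ?_).1 hO1
    simp only [Fintype.card_sum, Fintype.card_fin]
    omega
  have hOv : ∀ v : Fin k ⊕ Fin (Fintype.card ι - k) → ℝ, O *ᵥ v = e (∑ j, v j • b j) := by
    intro v
    funext x
    rw [he]
    simp only [mulVec, dotProduct, of_apply, mul_comm, Fintype.sum_sum_type, WithLp.linearEquiv_apply, AddEquiv.toEquiv_eq_coe, Equiv.toFun_as_coe, EquivLike.coe_coe, WithLp.addEquiv_apply, PiLp.add_apply, WithLp.ofLp_sum, WithLp.ofLp_smul, Finset.sum_apply, Pi.smul_apply, smul_eq_mul, O]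
  refine ⟨O, hO1, hO2, fun v => ?_⟩
  rw [hOv, ← hK'K]
  constructor
  · intro hx j
    obtain ⟨c, hc⟩ : ∃ c : Fin k → ℝ, (∑ i, c i • (b1 i : K')) = ⟨_, hx⟩ :=
      ⟨fun i => b1.repr ⟨_, hx⟩ i, b1.sum_repr ⟨_, hx⟩⟩
    have h1 : inner ℝ (b (Sum.inr j)) (∑ j, v j • b j) = v (Sum.inr j) := by
      rw [← b.repr_apply_apply]
      have := b.toBasis.repr_sum_self v
      have h2 : b.repr (∑ j, v j • b j) = WithLp.toLp 2 v := by
        apply b.repr.symm.injective
        rw [LinearIsometryEquiv.symm_apply_apply, ← b.sum_repr_symm]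
      rw [h2]
    rw [← h1]
    have h3 : (∑ j, v j • b j) = ∑ i, c i • (b1 i : EuclideanSpace ℝ ι) := by
      have := congrArg (fun x : K' => (x : EuclideanSpace ℝ ι)) hc
      simp only [Submodule.coe_sum, Submodule.coe_smul] at this
      exact this.symm
    rw [h3, inner_sum]
    refine Finset.sum_eq_zero fun i _ => ?_
    rw [inner_smul_right, ← hbl, b.inner_eq_zero (by simp)]
    simp
  · intro hv
    rw [Fintype.sum_sum_type]
    refine K'.add_mem (K'.sum_mem fun i _ => ?_) ?_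
    · rw [hbl]
      exact K'.smul_mem _ (b1 i).2
    · rw [Finset.sum_eq_zero fun j _ => by rw [hv j, zero_smul]]
      exact K'.zero_mem

end Frame

section Adapt

variable {ι : Type*} [Fintype ι] [DecidableEq ι] {D : ℝ} {A : ℝ → ℝ → Matrix ι ι ℝ}

open Module in
theorem JData.exists_adapted (h : JData (π / 2) A) {k : ℕ}
    (hk : finrank ℝ (LinearMap.ker (A 0 (π / 2)).mulVecLin) = k) :
    ∃ O : Matrix ι (Fin k ⊕ Fin (Fintype.card ι - k)) ℝ, Oᵀ * O = 1 ∧ O * Oᵀ = 1 ∧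
      JData (π / 2) (fun s t => Oᵀ * A s t * O) ∧
      Adapted (fun s t => Oᵀ * A s t * O) := by
  obtain ⟨O, h1, h2, h3⟩ := exists_frame (LinearMap.ker (A 0 (π / 2)).mulVecLin) hk
  refine ⟨O, h1, h2, h.conj h1 h2, fun v => ?_⟩
  rw [← h3 v, LinearMap.mem_ker, Matrix.mulVecLin_apply]
  show (Oᵀ * A 0 (π / 2) * O) *ᵥ v = 0 ↔ A 0 (π / 2) *ᵥ O *ᵥ v = 0
  constructor
  · intro hv
    have := congrArg (fun u => O *ᵥ u) hv
    simp only [Matrix.mulVec_zero] at this
    rw [Matrix.mulVec_mulVec] at this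
    rw [Matrix.mulVec_mulVec]
    have e : O * (Oᵀ * A 0 (π / 2) * O) = A 0 (π / 2) * O := by
      rw [Matrix.mul_assoc, ← Matrix.mul_assoc O, h2, Matrix.one_mul]
    rw [e] at this
    exact this
  · intro hv
    rw [Matrix.mul_assoc, ← Matrix.mulVec_mulVec, ← Matrix.mulVec_mulVec, hv, Matrix.mulVec_zero]

open Module in
omit [DecidableEq ι] in
theorem card_adapted (K : Submodule ℝ (ι → ℝ)) {k : ℕ} (hk : finrank ℝ K = k) :
    Fintype.card (Fin k ⊕ Fin (Fintype.card ι - k)) = Fintype.card ι := by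
  have := Submodule.finrank_le K
  rw [Module.finrank_fintype_fun_eq_card, hk] at this
  simp only [Fintype.card_sum, Fintype.card_fin]
  omega

theorem det_conj_orth {μ : Type*} [Fintype μ] [DecidableEq μ] {O : Matrix ι μ ℝ}
    (h1 : Oᵀ * O = 1) (h2 : O * Oᵀ = 1) (M : Matrix ι ι ℝ) : (Oᵀ * M * O).det = M.det :=
  Matrix.det_conj_of_mul_eq_one h1 h2

end Adapt

section Block

variable {κ ν : Type*} [Fintype κ] [DecidableEq κ] [Fintype ν] [DecidableEq ν]

/-- The projection appearing in `core_rigid_block` is an orthogonal projection. -/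
theorem block_projection {M : Matrix (κ ⊕ ν) (κ ⊕ ν) ℝ} (hM : (Mᵀ * M).PosDef) :
    let G := (Mᵀ * M)⁻¹
    let Q := M * G * Matrix.fromBlocks 0 0 0 (G.toBlocks₂₂)⁻¹ * G * Mᵀ
    Qᵀ = Q ∧ Q * Q = Q := by
  intro G Q
  have hG : G.PosDef := hM.inv
  have hGt : Gᵀ = G := by
    have := hG.isHermitian
    rw [Matrix.IsHermitian, Matrix.conjTranspose_eq_transpose_of_trivial] at this
    exact this
  have hGM : G * (Mᵀ * M) = 1 := by
    exact Matrix.nonsing_inv_mul _ ((Matrix.isUnit_iff_isUnit_det _).1 hM.isUnit)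
  have hG22 : (G.toBlocks₂₂).PosDef := by
    have := hG.submatrix (e := (Sum.inr : ν → κ ⊕ ν)) Sum.inr_injective
    exact this
  have hXt : ((G.toBlocks₂₂)⁻¹)ᵀ = (G.toBlocks₂₂)⁻¹ := by
    have := hG22.inv.isHermitian
    rw [Matrix.IsHermitian, Matrix.conjTranspose_eq_transpose_of_trivial] at this
    exact this
  set E : Matrix (κ ⊕ ν) (κ ⊕ ν) ℝ := Matrix.fromBlocks 0 0 0 (G.toBlocks₂₂)⁻¹ with hE
  have hEt : Eᵀ = E := by
    rw [hE, Matrix.fromBlocks_transpose, hXt]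
    simp
  have hEGE : E * G * E = E := by
    conv_lhs => rw [← Matrix.fromBlocks_toBlocks G]
    rw [hE, Matrix.fromBlocks_multiply, Matrix.fromBlocks_multiply]
    simp only [zero_mul, Matrix.zero_mul, add_zero, mul_zero, Matrix.mul_zero, zero_add, Matrix.nonsing_inv_mul _ ((Matrix.isUnit_iff_isUnit_det _).1 hG22.isUnit), one_mul]
  have hQE : Q = M * G * E * G * Mᵀ := rfl
  clear_value Q
  constructor
  · rw [hQE]
    simp only [Matrix.transpose_mul, Matrix.transpose_transpose, hGt, hEt, Matrix.mul_assoc]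
  · rw [hQE]
    calc M * G * E * G * Mᵀ * (M * G * E * G * Mᵀ)
          = M * G * E * (G * (Mᵀ * M)) * G * E * G * Mᵀ := by
          simp only [Matrix.mul_assoc]
      _ = M * G * (E * G * E) * G * Mᵀ := by
          rw [hGM]; simp only [Matrix.mul_assoc, Matrix.one_mul]
      _ = M * G * E * G * Mᵀ := by rw [hEGE]

end Block

theorem eq_zero_of_eventually_left {f : ℝ → ℝ} {x : ℝ} (hf : Continuous f)
    (h : ∀ᶠ t in 𝓝[<] x, f t = 0) : f x = 0 := by
  have h1 : Tendsto f (𝓝[<] x) (𝓝 (f x)) := (hf.tendsto x).mono_left nhdsWithin_le_nhds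
  have h2 : Tendsto f (𝓝[<] x) (𝓝 0) := by
    refine tendsto_const_nhds.congr' ?_
    filter_upwards [h] with t ht
    exact ht.symm
  exact tendsto_nhds_unique h1 h2


end

end Vale.Agent.P231
end
end

section

section

/-! P231 core: the inequality between trace and log det. -/

open Matrix Real Set Filter Topology MeasureTheory
open scoped ContDiff

namespace Vale.Agent.P231

noncomputable section

namespace TLD

variable {n : Type*} [Fintype n] [DecidableEq n]

theorem spec {A : Matrix n n ℝ} (hA : A.IsHermitian) :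
    ∃ U : Matrix n n ℝ, Uᵀ * U = 1 ∧ U * Uᵀ = 1 ∧ A = U * diagonal hA.eigenvalues * Uᵀ := by
  refine ⟨(hA.eigenvectorUnitary : Matrix n n ℝ), ?_, ?_, ?_⟩
  · have := Matrix.mem_unitaryGroup_iff'.mp hA.eigenvectorUnitary.2
    rwa [Matrix.star_eq_conjTranspose, Matrix.conjTranspose_eq_transpose_of_trivial] at this
  · have := Matrix.mem_unitaryGroup_iff.mp hA.eigenvectorUnitary.2
    rwa [Matrix.star_eq_conjTranspose, Matrix.conjTranspose_eq_transpose_of_trivial] at this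
  · have h := hA.spectral_theorem
    rw [Unitary.conjStarAlgAut_apply, Matrix.star_eq_conjTranspose,
      Matrix.conjTranspose_eq_transpose_of_trivial] at h
    exact h

theorem exists_root {P : Matrix n n ℝ} (hP : P.PosDef) :
    ∃ S : Matrix n n ℝ, IsUnit S ∧ P = Sᵀ * S := by
  obtain ⟨U, h1, h2, h3⟩ := spec hP.isHermitian
  set l := hP.isHermitian.eigenvalues
  have hl : ∀ i, 0 < l i := fun i => hP.eigenvalues_pos i
  have hS : P = (diagonal (fun i => √(l i)) * Uᵀ)ᵀ * (diagonal (fun i => √(l i)) * Uᵀ) := by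
    rw [Matrix.transpose_mul, Matrix.transpose_transpose, Matrix.diagonal_transpose]
    conv_lhs => rw [h3]
    calc U * diagonal l * Uᵀ = U * (diagonal (fun i => √(l i)) * diagonal (fun i => √(l i))) * Uᵀ := by
          rw [Matrix.diagonal_mul_diagonal]
          congr 3
          funext i
          rw [Real.mul_self_sqrt (hl i).le]
      _ = _ := by simp only [Matrix.mul_assoc]
  refine ⟨_, ?_, hS⟩
  rw [Matrix.isUnit_iff_isUnit_det]
  have hd := congrArg Matrix.det hS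
  rw [Matrix.det_mul, Matrix.det_transpose] at hd
  rw [isUnit_iff_ne_zero]
  intro h0
  rw [h0, mul_zero] at hd
  exact hP.det_pos.ne' hd

theorem conj_posDef {Q S : Matrix n n ℝ} (hQ : Q.PosDef) (hS : IsUnit S) :
    (S * Q * Sᵀ).PosDef := by
  have := (Matrix.IsUnit.posDef_star_right_conjugate_iff (x := Q) hS).mpr hQ
  rwa [Matrix.star_eq_conjTranspose, Matrix.conjTranspose_eq_transpose_of_trivial] at this

theorem tangent {x β : ℝ} (hx : 0 < x) (hβ : 0 < β) :
    β * (1 - log β) + β * log x ≤ x := by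
  have h := Real.log_le_sub_one_of_pos (div_pos hx hβ)
  rw [Real.log_div hx.ne' hβ.ne'] at h
  have h2 := mul_le_mul_of_nonneg_left h hβ.le
  have h3 : β * (x / β - 1) = x - β := by (clear * - hβ; field_simp)
  rw [h3] at h2
  linarith

theorem tangent_eq {x β : ℝ} (hx : 0 < x) (hβ : 0 < β)
    (h : x ≤ β * (1 - log β) + β * log x) : x = β := by
  by_contra hne
  have h1 : x / β ≠ 1 := by
    intro h1
    exact hne ((div_eq_one_iff_eq hβ.ne').mp h1)
  have h := Real.log_lt_sub_one_of_pos (div_pos hx hβ) h1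
  rw [Real.log_div hx.ne' hβ.ne'] at h
  have h2 := mul_lt_mul_of_pos_left h hβ
  have h3 : β * (x / β - 1) = x - β := by (clear * - hβ hne; field_simp)
  rw [h3] at h2
  (clear hx hβ hne h1 h h3; nlinarith)

theorem log_det {R : Matrix n n ℝ} (hR : R.PosDef) :
    log R.det = ∑ i, log (hR.isHermitian.eigenvalues i) := by
  rw [hR.isHermitian.det_eq_prod_eigenvalues]
  rw [← Real.log_prod]
  · rfl
  · intro i _
    exact (hR.eigenvalues_pos i).ne'

theorem trace_eq {R : Matrix n n ℝ} (hR : R.IsHermitian) :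
    R.trace = ∑ i, hR.eigenvalues i := by
  rw [hR.trace_eq_sum_eigenvalues]
  rfl

omit [DecidableEq n] in
theorem trace_root {Q S : Matrix n n ℝ} : (Sᵀ * S * Q).trace = (S * Q * Sᵀ).trace := by
  rw [Matrix.mul_assoc, Matrix.trace_mul_comm]

theorem log_det_root {Q S : Matrix n n ℝ} (hQ : Q.PosDef) (hS : IsUnit S) :
    log (S * Q * Sᵀ).det = log (Sᵀ * S).det + log Q.det := by
  have h0 : S.det ≠ 0 := by
    rw [Matrix.isUnit_iff_isUnit_det] at hS
    exact hS.ne_zero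
  rw [Matrix.det_mul, Matrix.det_mul, Matrix.det_mul, Matrix.det_transpose,
    ← Real.log_mul (mul_ne_zero h0 h0) hQ.det_pos.ne']
  congr 1
  ring

end TLD

open TLD

theorem trace_mul_ge {n : Type*} [Fintype n] [DecidableEq n] {P Q : Matrix n n ℝ}
    (hP : P.PosDef) (hQ : Q.PosDef) {β : ℝ} (hβ : 0 < β) :
    Fintype.card n * (β * (1 - log β)) + β * (log P.det + log Q.det) ≤ (P * Q).trace := by
  obtain ⟨S, hS, rfl⟩ := exists_root hP
  have hR := conj_posDef hQ hS
  rw [trace_root, ← log_det_root hQ hS, log_det hR, trace_eq hR.isHermitian, Finset.mul_sum]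
  have h1 : (Fintype.card n : ℝ) * (β * (1 - log β)) = ∑ _i : n, β * (1 - log β) := by
    rw [Finset.sum_const, Finset.card_univ, nsmul_eq_mul]
  rw [h1, ← Finset.sum_add_distrib]
  exact Finset.sum_le_sum fun i _ => tangent (hR.eigenvalues_pos i) hβ

theorem mul_eq_of_trace_eq {n : Type*} [Fintype n] [DecidableEq n] {P Q : Matrix n n ℝ}
    (hP : P.PosDef) (hQ : Q.PosDef) {β : ℝ} (hβ : 0 < β)
    (h : (P * Q).trace = Fintype.card n * (β * (1 - log β)) + β * (log P.det + log Q.det)) :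
    P * Q = β • (1 : Matrix n n ℝ) := by
  obtain ⟨S, hS, rfl⟩ := exists_root hP
  have hR := conj_posDef hQ hS
  rw [trace_root, ← log_det_root hQ hS, log_det hR, trace_eq hR.isHermitian, Finset.mul_sum] at h
  have h1 : (Fintype.card n : ℝ) * (β * (1 - log β)) = ∑ _i : n, β * (1 - log β) := by
    rw [Finset.sum_const, Finset.card_univ, nsmul_eq_mul]
  rw [h1, ← Finset.sum_add_distrib] at h
  have h2 : ∀ i ∈ Finset.univ, hR.isHermitian.eigenvalues i
      = β * (1 - log β) + β * log (hR.isHermitian.eigenvalues i) := by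
    intro i hi
    have := (Finset.sum_eq_sum_iff_of_le
      (fun i _ => tangent (hR.eigenvalues_pos i) hβ)).mp h.symm i hi
    exact this.symm
  have h3 : hR.isHermitian.eigenvalues = fun _ => β := by
    funext i
    exact tangent_eq (hR.eigenvalues_pos i) hβ (h2 i (Finset.mem_univ i)).le
  obtain ⟨U, hU1, hU2, hU3⟩ := spec hR.isHermitian
  rw [h3] at hU3
  have h4 : S * Q * Sᵀ = β • (1 : Matrix n n ℝ) := by
    rw [hU3]
    have : (diagonal (fun _ : n => β)) = β • (1 : Matrix n n ℝ) := by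
      rw [Matrix.smul_one_eq_diagonal]
    rw [this, Matrix.mul_smul, Matrix.mul_one, Matrix.smul_mul, hU2]
  have hSd : IsUnit (Sᵀ).det := by
    rw [Matrix.det_transpose]
    exact (Matrix.isUnit_iff_isUnit_det _).mp hS
  calc Sᵀ * S * Q = Sᵀ * (S * Q * Sᵀ) * (Sᵀ)⁻¹ := by
        rw [← Matrix.mul_assoc, ← Matrix.mul_assoc, Matrix.mul_nonsing_inv_cancel_right _ _ hSd]
    _ = β • (1 : Matrix n n ℝ) := by
        rw [h4, Matrix.mul_smul, Matrix.mul_one, Matrix.smul_mul, Matrix.mul_nonsing_inv _ hSd]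

theorem det_le_det {n : Type*} [Fintype n] [DecidableEq n] {P Q : Matrix n n ℝ}
    (hP : P.PosDef) (h : (Q - P).PosSemidef) : P.det ≤ Q.det := by
  obtain ⟨S, hS, rfl⟩ := exists_root hP
  have hSd : IsUnit S.det := (Matrix.isUnit_iff_isUnit_det _).mp hS
  have hSd' : IsUnit (Sᵀ).det := by
    rw [Matrix.det_transpose]; exact hSd
  set E : Matrix n n ℝ := (S⁻¹)ᵀ * (Q - Sᵀ * S) * S⁻¹ with hE
  have hEp : E.PosSemidef := by
    have := h.conjTranspose_mul_mul_same S⁻¹
    rwa [Matrix.conjTranspose_eq_transpose_of_trivial] at this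
  have hQ : Q = Sᵀ * (1 + E) * S := by
    have h1 : Sᵀ * E * S = Q - Sᵀ * S := by
      rw [hE, Matrix.transpose_nonsing_inv]
      calc Sᵀ * ((Sᵀ)⁻¹ * (Q - Sᵀ * S) * S⁻¹) * S
          = (Sᵀ * (Sᵀ)⁻¹) * (Q - Sᵀ * S) * (S⁻¹ * S) := by simp only [Matrix.mul_assoc]
        _ = Q - Sᵀ * S := by
            rw [Matrix.mul_nonsing_inv _ hSd', Matrix.nonsing_inv_mul _ hSd, Matrix.one_mul,
              Matrix.mul_one]
    rw [Matrix.mul_add, Matrix.mul_one, Matrix.add_mul, h1]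
    abel
  obtain ⟨U, hU1, hU2, hU3⟩ := spec hEp.isHermitian
  have hdet : 1 ≤ (1 + E).det := by
    have h1 : 1 + E = U * diagonal (fun i => 1 + hEp.isHermitian.eigenvalues i) * Uᵀ := by
      conv_lhs => rw [hU3]
      have : (diagonal (fun i => 1 + hEp.isHermitian.eigenvalues i))
          = 1 + diagonal hEp.isHermitian.eigenvalues := by
        rw [← Matrix.diagonal_one, Matrix.diagonal_add]
      rw [this, Matrix.mul_add, Matrix.mul_one, Matrix.add_mul, hU2]
    have h2 : (U.det) * (U.det) = 1 := by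
      have := congrArg Matrix.det hU2
      rwa [Matrix.det_mul, Matrix.det_transpose, Matrix.det_one] at this
    rw [h1, Matrix.det_mul, Matrix.det_mul, Matrix.det_transpose, Matrix.det_diagonal]
    have h3 : 1 ≤ ∏ i, (1 + hEp.isHermitian.eigenvalues i) := by
      calc (1 : ℝ) = ∏ _i : n, (1 : ℝ) := by rw [Finset.prod_const_one]
        _ ≤ _ := Finset.prod_le_prod (fun _ _ => zero_le_one) fun i _ => by
            have := hEp.eigenvalues_nonneg i
            linarith only [this]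
    calc (1 : ℝ) ≤ ∏ i, (1 + hEp.isHermitian.eigenvalues i) := h3
      _ = (U.det * U.det) * ∏ i, (1 + hEp.isHermitian.eigenvalues i) := by rw [h2, one_mul]
      _ = _ := by ring
  rw [hQ, Matrix.det_mul, Matrix.det_mul, Matrix.det_mul, Matrix.det_transpose]
  have h5 : 0 ≤ S.det * S.det := mul_self_nonneg _
  nlinarith only [hdet]

end

end Vale.Agent.P231
end
end

section

section

/-! P231 core: the block matrix inequality. -/

open Matrix Real Set Filter Topology MeasureTheory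
open scoped ContDiff

namespace Vale.Agent.P231

noncomputable section

namespace Blk

open TLD

variable {κ ν : Type*} [Fintype κ] [DecidableEq κ] [Fintype ν] [DecidableEq ν]

/-- upper unipotent block matrix -/
def up (B : Matrix κ ν ℝ) : Matrix (κ ⊕ ν) (κ ⊕ ν) ℝ := fromBlocks 1 B 0 1

theorem up_mul_neg (B : Matrix κ ν ℝ) : up B * up (-B) = 1 := by
  rw [up, up, Matrix.fromBlocks_multiply]
  simp only [mul_one, Matrix.mul_zero, add_zero, Matrix.mul_neg, Matrix.one_mul, Matrix.mul_one, neg_add_cancel, Matrix.zero_mul, neg_zero, zero_add, fromBlocks_one]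

theorem up_neg_mul (B : Matrix κ ν ℝ) : up (-B) * up B = 1 := by
  rw [up, up, Matrix.fromBlocks_multiply]
  simp only [mul_one, Matrix.mul_zero, add_zero, Matrix.one_mul, Matrix.mul_one, add_neg_cancel, Matrix.zero_mul, zero_add, fromBlocks_one]

omit [Fintype κ] [Fintype ν] in
theorem up_t (B : Matrix κ ν ℝ) : (up B)ᵀ = fromBlocks 1 0 Bᵀ 1 := by
  rw [up, Matrix.fromBlocks_transpose]
  simp

theorem up_t_mul_neg (B : Matrix κ ν ℝ) : (up B)ᵀ * (up (-B))ᵀ = 1 := by
  rw [← Matrix.transpose_mul, up_neg_mul, Matrix.transpose_one]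

theorem up_t_neg_mul (B : Matrix κ ν ℝ) : (up (-B))ᵀ * (up B)ᵀ = 1 := by
  rw [← Matrix.transpose_mul, up_mul_neg, Matrix.transpose_one]

theorem det_up (B : Matrix κ ν ℝ) : (up B).det = 1 := by
  rw [up, Matrix.det_fromBlocks_zero₂₁]
  simp

theorem isUnit_up (B : Matrix κ ν ℝ) : IsUnit (up B) := by
  rw [Matrix.isUnit_iff_isUnit_det, det_up]
  exact isUnit_one

/-- conjugation formula -/
theorem up_conj (B : Matrix κ ν ℝ) (P : Matrix κ κ ℝ) (Q : Matrix ν ν ℝ) :
    up B * fromBlocks P 0 0 Q * (up B)ᵀ = fromBlocks (P + B * Q * Bᵀ) (B * Q) (Q * Bᵀ) Q := by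
  rw [up_t, up, Matrix.fromBlocks_multiply, Matrix.fromBlocks_multiply]
  simp

/-- the other conjugation formula -/
theorem up_conj' (B : Matrix κ ν ℝ) (P : Matrix κ κ ℝ) (Q : Matrix ν ν ℝ) :
    (up B)ᵀ * fromBlocks P 0 0 Q * up B = fromBlocks P (P * B) (Bᵀ * P) (Bᵀ * P * B + Q) := by
  rw [up_t, up, Matrix.fromBlocks_multiply, Matrix.fromBlocks_multiply]
  simp only [one_mul, Matrix.mul_zero, add_zero, mul_one, Matrix.zero_mul, Matrix.mul_one, zero_add]

omit [Fintype κ] [DecidableEq κ] [Fintype ν] [DecidableEq ν] in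
theorem posDef_22 {G : Matrix (κ ⊕ ν) (κ ⊕ ν) ℝ} (hG : G.PosDef) : G.toBlocks₂₂.PosDef :=
  hG.submatrix Sum.inr_injective

theorem symm_of_posDef {n : Type*} [Fintype n] {G : Matrix n n ℝ} (hG : G.PosDef) : Gᵀ = G := by
  have := hG.isHermitian.eq
  rwa [Matrix.conjTranspose_eq_transpose_of_trivial] at this

theorem isUnit_det_posDef {n : Type*} [Fintype n] [DecidableEq n] {G : Matrix n n ℝ}
    (hG : G.PosDef) : IsUnit G.det := hG.det_pos.ne'.isUnit

/-- block LDL decomposition -/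
theorem ldl {G : Matrix (κ ⊕ ν) (κ ⊕ ν) ℝ} (hG : G.PosDef) :
    ∃ (B : Matrix κ ν ℝ) (G1 : Matrix κ κ ℝ), G1.PosDef ∧
      G = up B * fromBlocks G1 0 0 G.toBlocks₂₂ * (up B)ᵀ := by
  have hD := posDef_22 hG
  have hDu := isUnit_det_posDef hD
  have hDt := symm_of_posDef hD
  have hGt := symm_of_posDef hG
  have h21 : G.toBlocks₂₁ = (G.toBlocks₁₂)ᵀ := by
    conv_lhs => rw [← hGt]
    rfl
  set B : Matrix κ ν ℝ := G.toBlocks₁₂ * (G.toBlocks₂₂)⁻¹ with hB
  have e1 : B * G.toBlocks₂₂ = G.toBlocks₁₂ := by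
    rw [hB, Matrix.nonsing_inv_mul_cancel_right _ _ hDu]
  have e2 : G.toBlocks₂₂ * Bᵀ = (G.toBlocks₁₂)ᵀ := by
    calc G.toBlocks₂₂ * Bᵀ = (B * G.toBlocks₂₂)ᵀ := by
          rw [Matrix.transpose_mul B G.toBlocks₂₂, hDt]
      _ = _ := by rw [e1]
  have hdec : G = up B * fromBlocks (G.toBlocks₁₁ - B * G.toBlocks₂₂ * Bᵀ) 0 0 G.toBlocks₂₂
      * (up B)ᵀ := by
    rw [up_conj, sub_add_cancel, e1, e2]
    conv_lhs => rw [← Matrix.fromBlocks_toBlocks G, h21]
  refine ⟨B, _, ?_, hdec⟩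
  have h3 : fromBlocks (G.toBlocks₁₁ - B * G.toBlocks₂₂ * Bᵀ) 0 0 G.toBlocks₂₂
      = up (-B) * G * (up (-B))ᵀ := by
    conv_rhs => rw [hdec]
    calc _ = (up (-B) * up B) * fromBlocks (G.toBlocks₁₁ - B * G.toBlocks₂₂ * Bᵀ) 0 0 G.toBlocks₂₂
          * ((up B)ᵀ * (up (-B))ᵀ) := by
          rw [up_neg_mul, up_t_mul_neg, Matrix.one_mul, Matrix.mul_one]
      _ = _ := by simp only [Matrix.mul_assoc]
  have h4 : (fromBlocks (G.toBlocks₁₁ - B * G.toBlocks₂₂ * Bᵀ) 0 0 G.toBlocks₂₂).PosDef := by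
    rw [h3]
    exact conj_posDef hG (isUnit_up _)
  exact h4.submatrix Sum.inl_injective

/-- inverse of the decomposition -/
theorem inv_ldl {B : Matrix κ ν ℝ} {P : Matrix κ κ ℝ} {Q : Matrix ν ν ℝ} (hP : IsUnit P.det)
    (hQ : IsUnit Q.det) : (up B * fromBlocks P 0 0 Q * (up B)ᵀ)⁻¹
      = (up (-B))ᵀ * fromBlocks P⁻¹ 0 0 Q⁻¹ * up (-B) := by
  apply Matrix.inv_eq_right_inv
  calc up B * fromBlocks P 0 0 Q * (up B)ᵀ * ((up (-B))ᵀ * fromBlocks P⁻¹ 0 0 Q⁻¹ * up (-B))
      = up B * (fromBlocks P 0 0 Q * (((up B)ᵀ * (up (-B))ᵀ) * fromBlocks P⁻¹ 0 0 Q⁻¹))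
          * up (-B) := by simp only [Matrix.mul_assoc]
    _ = 1 := by
        rw [up_t_mul_neg, Matrix.one_mul, Matrix.fromBlocks_multiply]
        simp only [Matrix.mul_zero, Matrix.zero_mul, add_zero, zero_add,
          Matrix.mul_nonsing_inv _ hP, Matrix.mul_nonsing_inv _ hQ, Matrix.fromBlocks_one,
          Matrix.mul_one]
        exact up_mul_neg B

theorem det_ldl {B : Matrix κ ν ℝ} {P : Matrix κ κ ℝ} {Q : Matrix ν ν ℝ} :
    (up B * fromBlocks P 0 0 Q * (up B)ᵀ).det = P.det * Q.det := by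
  rw [Matrix.det_mul, Matrix.det_mul, Matrix.det_transpose, det_up, Matrix.det_fromBlocks_zero₂₁]
  ring

theorem posSemidef_conj {m n : Type*} [Fintype m] [Fintype n] {W : Matrix m m ℝ}
    (hW : W.PosSemidef) (R : Matrix m n ℝ) : (Rᵀ * W * R).PosSemidef := by
  have := hW.conjTranspose_mul_mul_same R
  rwa [Matrix.conjTranspose_eq_transpose_of_trivial] at this

/-- `tr (Z P) ≥ 0`, with equality only for `Z = 0` -/
theorem trace_mul_nonneg {n : Type*} [Fintype n] [DecidableEq n] {Z P : Matrix n n ℝ}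
    (hZ : Z.PosSemidef) (hP : P.PosDef) : 0 ≤ (Z * P).trace ∧ ((Z * P).trace = 0 → Z = 0) := by
  obtain ⟨S, hS, rfl⟩ := exists_root hP
  have h1 : (Z * (Sᵀ * S)).trace = (S * Z * Sᵀ).trace := by
    rw [← Matrix.mul_assoc, Matrix.trace_mul_comm, Matrix.mul_assoc]
  have h2 : (S * Z * Sᵀ).PosSemidef := by
    have := posSemidef_conj hZ Sᵀ
    rwa [Matrix.transpose_transpose] at this
  rw [h1]
  refine ⟨h2.trace_nonneg, fun h => ?_⟩
  have h3 := h2.trace_eq_zero_iff.mp h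
  have hSd : IsUnit S.det := (Matrix.isUnit_iff_isUnit_det _).mp hS
  have hSd' : IsUnit (Sᵀ).det := by rw [Matrix.det_transpose]; exact hSd
  calc Z = S⁻¹ * (S * Z * Sᵀ) * (Sᵀ)⁻¹ := by
        rw [Matrix.mul_assoc S⁻¹, Matrix.mul_nonsing_inv_cancel_right _ _ hSd',
          Matrix.nonsing_inv_mul_cancel_left _ _ hSd]
    _ = 0 := by rw [h3, Matrix.mul_zero, Matrix.zero_mul]

omit [Fintype ν] [DecidableEq ν] in
theorem congr_zero {C : Matrix κ ν ℝ} {P : Matrix κ κ ℝ} (hP : P.PosDef)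
    (h : Cᵀ * P * C = 0) : C = 0 := by
  obtain ⟨S, hS, rfl⟩ := exists_root hP
  have h1 : (S * C)ᵀ * (S * C) = 0 := by
    rw [Matrix.transpose_mul, ← h]
    simp only [Matrix.mul_assoc]
  have h2 : S * C = 0 := by
    rw [← Matrix.conjTranspose_eq_transpose_of_trivial] at h1
    exact Matrix.conjTranspose_mul_self_eq_zero.mp h1
  have hSd : IsUnit S.det := (Matrix.isUnit_iff_isUnit_det _).mp hS
  calc C = S⁻¹ * (S * C) := by rw [Matrix.nonsing_inv_mul_cancel_left _ _ hSd]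
    _ = 0 := by rw [h2, Matrix.mul_zero]

omit [DecidableEq κ] [DecidableEq ν] in
theorem trace_blocks (M : Matrix (κ ⊕ ν) (κ ⊕ ν) ℝ) (P : Matrix κ κ ℝ) (Q : Matrix ν ν ℝ) :
    (M * fromBlocks P 0 0 Q).trace = (M.toBlocks₁₁ * P).trace + (M.toBlocks₂₂ * Q).trace := by
  conv_lhs => rw [← Matrix.fromBlocks_toBlocks M]
  rw [Matrix.fromBlocks_multiply]
  simp only [trace, Matrix.mul_zero, add_zero, zero_add, diag_apply, Fintype.sum_sum_type, fromBlocks_apply₁₁, fromBlocks_apply₂₂]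

/-- the heart of the block inequality -/
theorem main {M N : Matrix (κ ⊕ ν) (κ ⊕ ν) ℝ} (hN : N.PosDef) (hM : M = N⁻¹)
    {G1 : Matrix κ κ ℝ} {G2 : Matrix ν ν ℝ} (h1 : G1.PosDef) (h2 : G2.PosDef) {α β : ℝ}
    (hα : 0 < α) (hβ : 0 < β) :
    ∃ s ≥ 0, (M * fromBlocks G1 0 0 G2).trace =
      Fintype.card κ * (α * (1 - log α)) + Fintype.card ν * (β * (1 - log β))
      + α * (log N.toBlocks₂₂.det - log N.det + log G1.det)
      + β * (log G2.det - log N.toBlocks₂₂.det) + s ∧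
      (s = 0 → N = fromBlocks (α⁻¹ • G1) 0 0 (β⁻¹ • G2)) := by
  have hN2 := posDef_22 hN
  obtain ⟨C, N1, hN1, hdec⟩ := ldl hN
  have hN1u := isUnit_det_posDef hN1
  have hN2u := isUnit_det_posDef hN2
  have hMe : M = fromBlocks N1⁻¹ (N1⁻¹ * (-C)) ((-C)ᵀ * N1⁻¹)
      ((-C)ᵀ * N1⁻¹ * (-C) + (N.toBlocks₂₂)⁻¹) := by
    rw [hM]
    conv_lhs => rw [hdec]
    rw [inv_ldl hN1u hN2u, up_conj']
  have hdet : N.det = N1.det * N.toBlocks₂₂.det := by
    conv_lhs => rw [hdec]
    rw [det_ldl]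
  have hM11 : M.toBlocks₁₁ = N1⁻¹ := by rw [hMe, Matrix.toBlocks_fromBlocks₁₁]
  have hM22 : M.toBlocks₂₂ = (-C)ᵀ * N1⁻¹ * (-C) + (N.toBlocks₂₂)⁻¹ := by
    conv_lhs => rw [hMe, Matrix.toBlocks_fromBlocks₂₂]
  have hN1i : (N1⁻¹).PosDef := hN1.inv
  have hN2i : ((N.toBlocks₂₂)⁻¹).PosDef := hN2.inv
  have a1 := trace_mul_ge hN1i h1 hα
  have a2 := trace_mul_ge hN2i h2 hβ
  obtain ⟨a3, a4⟩ := trace_mul_nonneg (posSemidef_conj hN1i.posSemidef (-C)) h2
  have l1 : log (N1⁻¹).det = log N.toBlocks₂₂.det - log N.det := by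
    rw [Matrix.det_nonsing_inv, Ring.inverse_eq_inv', Real.log_inv, hdet,
      Real.log_mul hN1.det_pos.ne' hN2.det_pos.ne']
    ring
  have l2 : log ((N.toBlocks₂₂)⁻¹).det = - log N.toBlocks₂₂.det := by
    rw [Matrix.det_nonsing_inv, Ring.inverse_eq_inv', Real.log_inv]
  rw [l1] at a1
  rw [l2] at a2
  refine ⟨(((N1⁻¹ * G1).trace - (Fintype.card κ * (α * (1 - log α))
      + α * ((log N.toBlocks₂₂.det - log N.det) + log G1.det)))
      + (((N.toBlocks₂₂)⁻¹ * G2).trace - (Fintype.card ν * (β * (1 - log β))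
      + β * (- log N.toBlocks₂₂.det + log G2.det))))
      + ((-C)ᵀ * N1⁻¹ * (-C) * G2).trace, by linarith only [a1, a2, a3], ?_, ?_⟩
  · rw [trace_blocks, hM11, hM22, Matrix.add_mul, Matrix.trace_add]
    ring
  · intro hs
    have z3 : ((-C)ᵀ * N1⁻¹ * (-C) * G2).trace = 0 := by linarith only [a3, a1, a2, hs]
    have z1 : (N1⁻¹ * G1).trace = Fintype.card κ * (α * (1 - log α))
      + α * (log (N1⁻¹).det + log G1.det) := by rw [l1]; linarith only [a1, a2, a3, hs]
    have z2 : ((N.toBlocks₂₂)⁻¹ * G2).trace = Fintype.card ν * (β * (1 - log β))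
      + β * (log ((N.toBlocks₂₂)⁻¹).det + log G2.det) := by rw [l2]; linarith only [a2, a1, a3, hs]
    have c1 := mul_eq_of_trace_eq hN1i h1 hα z1
    have c2 := mul_eq_of_trace_eq hN2i h2 hβ z2
    have c3 : C = 0 := by
      have := congr_zero hN1i (a4 z3)
      rwa [neg_eq_zero] at this
    have e1 : N1 = α⁻¹ • G1 := by
      have : G1 = α • N1 := by
        calc G1 = N1 * (N1⁻¹ * G1) := by rw [Matrix.mul_nonsing_inv_cancel_left _ _ hN1u]
          _ = α • N1 := by rw [c1, Matrix.mul_smul, Matrix.mul_one]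
      rw [this, smul_smul, inv_mul_cancel₀ hα.ne', one_smul]
    have e2 : N.toBlocks₂₂ = β⁻¹ • G2 := by
      have : G2 = β • N.toBlocks₂₂ := by
        calc G2 = N.toBlocks₂₂ * ((N.toBlocks₂₂)⁻¹ * G2) := by
              rw [Matrix.mul_nonsing_inv_cancel_left _ _ hN2u]
          _ = β • N.toBlocks₂₂ := by rw [c2, Matrix.mul_smul, Matrix.mul_one]
      conv_rhs => rw [this]
      rw [smul_smul, inv_mul_cancel₀ hβ.ne', one_smul]
    rw [hdec, c3, e2, e1]
    have : up (0 : Matrix κ ν ℝ) = 1 := by rw [up, Matrix.fromBlocks_one]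
    rw [this, Matrix.one_mul, Matrix.transpose_one, Matrix.mul_one]

/-- lower bound of the lower right block -/
theorem lower {X G' : Matrix (κ ⊕ ν) (κ ⊕ ν) ℝ} (hX : Xᵀ = X)
    (hX2 : IsUnit X.toBlocks₂₂) (hG' : G'.PosDef) :
    2 * log |X.toBlocks₂₂.det| - log G'.toBlocks₂₂.det
      ≤ log ((X * G'⁻¹ * X).toBlocks₂₂).det := by
  have hG2 := posDef_22 hG'
  obtain ⟨B, P, hP, hdec⟩ := ldl hG'
  have hPu := isUnit_det_posDef hP
  have hG2u := isUnit_det_posDef hG2
  have hinv : G'⁻¹ = fromBlocks 0 0 0 (G'.toBlocks₂₂)⁻¹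
      + (up (-B))ᵀ * fromBlocks P⁻¹ 0 0 0 * up (-B) := by
    conv_lhs => rw [hdec]
    rw [inv_ldl hPu hG2u, up_conj', up_conj', Matrix.fromBlocks_add]
    simp only [Matrix.mul_neg, transpose_neg, Matrix.neg_mul, neg_neg, add_comm, add_zero]
  have hW : ((up (-B))ᵀ * fromBlocks P⁻¹ 0 0 0 * up (-B)).PosSemidef := by
    refine posSemidef_conj ?_ _
    have h0 : (fromBlocks P⁻¹ (0 : Matrix κ ν ℝ) 0 (0 : Matrix ν ν ℝ))
        = (fromBlocks 1 0 0 0 : Matrix (κ ⊕ ν) (κ ⊕ ν) ℝ)ᵀ * fromBlocks P⁻¹ 0 0 1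
          * fromBlocks 1 0 0 0 := by
      rw [Matrix.fromBlocks_transpose, Matrix.fromBlocks_multiply, Matrix.fromBlocks_multiply]
      simp only [transpose_one, one_mul, transpose_zero, Matrix.mul_zero, add_zero, mul_one, Matrix.mul_one, Matrix.zero_mul, mul_zero]
    rw [h0]
    refine posSemidef_conj ?_ _
    have h1 : (fromBlocks P⁻¹ (0 : Matrix κ ν ℝ) 0 (1 : Matrix ν ν ℝ)).PosSemidef := by
      obtain ⟨S, hS, hSe⟩ := exists_root hP.inv
      have : (fromBlocks P⁻¹ (0 : Matrix κ ν ℝ) 0 (1 : Matrix ν ν ℝ))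
          = (fromBlocks S 0 0 1)ᵀ * fromBlocks S 0 0 1 := by
        rw [Matrix.fromBlocks_transpose, Matrix.fromBlocks_multiply, hSe]
        simp only [transpose_zero, Matrix.mul_zero, add_zero, Matrix.mul_one, Matrix.zero_mul, transpose_one, mul_one, zero_add]
      rw [this, ← Matrix.conjTranspose_eq_transpose_of_trivial]
      exact Matrix.posSemidef_conjTranspose_mul_self _
    exact h1
  set W := (up (-B))ᵀ * fromBlocks P⁻¹ 0 0 0 * up (-B) with hWdef
  have h2 : (X * G'⁻¹ * X).toBlocks₂₂ - X.toBlocks₂₂ * (G'.toBlocks₂₂)⁻¹ * X.toBlocks₂₂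
      = (Xᵀ * W * X).toBlocks₂₂ := by
    rw [hX, hinv, Matrix.mul_add, Matrix.add_mul]
    have h3 : (X * fromBlocks 0 0 0 (G'.toBlocks₂₂)⁻¹ * X).toBlocks₂₂
        = X.toBlocks₂₂ * (G'.toBlocks₂₂)⁻¹ * X.toBlocks₂₂ := by
      conv_lhs => rw [← Matrix.fromBlocks_toBlocks X]
      rw [Matrix.fromBlocks_multiply, Matrix.fromBlocks_multiply,
        Matrix.toBlocks_fromBlocks₂₂]
      simp only [Matrix.mul_zero, add_zero, Matrix.zero_mul, zero_add]
    rw [← h3]
    ext i j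
    simp [Matrix.toBlocks₂₂]
  have h4 : ((X * G'⁻¹ * X).toBlocks₂₂
      - X.toBlocks₂₂ * (G'.toBlocks₂₂)⁻¹ * X.toBlocks₂₂).PosSemidef := by
    rw [h2]
    exact (posSemidef_conj hW X).submatrix _
  have hX2t : (X.toBlocks₂₂)ᵀ = X.toBlocks₂₂ := by
    conv_rhs => rw [← hX]
    rfl
  have h5 : (X.toBlocks₂₂ * (G'.toBlocks₂₂)⁻¹ * X.toBlocks₂₂).PosDef := by
    have := conj_posDef hG2.inv hX2
    rwa [hX2t] at this
  have h6 := det_le_det h5 h4
  have h7 := Real.log_le_log h5.det_pos h6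
  refine le_trans (le_of_eq ?_) h7
  have h8 : X.toBlocks₂₂.det ≠ 0 := ((Matrix.isUnit_iff_isUnit_det _).mp hX2).ne_zero
  rw [Matrix.det_mul, Matrix.det_mul, Matrix.det_nonsing_inv, Ring.inverse_eq_inv',
    Real.log_mul (mul_ne_zero h8 (inv_ne_zero hG2.det_pos.ne')) h8,
    Real.log_mul h8 (inv_ne_zero hG2.det_pos.ne'), Real.log_inv, Real.log_abs]
  ring

theorem all {X G G' : Matrix (κ ⊕ ν) (κ ⊕ ν) ℝ} (hX : Xᵀ = X) (hXu : IsUnit X)
    (hX2 : IsUnit X.toBlocks₂₂) (hG : G.PosDef) (hG' : G'.PosDef) {α β : ℝ} (hβ : 0 < β)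
    (hαβ : β ≤ α) :
    ∃ s ≥ 0, Fintype.card κ * (α * (1 - log α)) + Fintype.card ν * (β * (1 - log β))
      - 2 * α * (log |X.det| - log G.det / 2 - log G'.det / 2)
      + 2 * (α - β) * (log |X.toBlocks₂₂.det| - log G.toBlocks₂₂.det / 2
        - log G'.toBlocks₂₂.det / 2) + s
      ≤ (X⁻¹ * G' * X⁻¹ * G).trace ∧ (s = 0 → X * G'⁻¹ * X = α⁻¹ • G + (β⁻¹ - α⁻¹) •
      (G * Matrix.fromBlocks 0 0 0 (G.toBlocks₂₂)⁻¹ * G)) := by
  have hα : 0 < α := lt_of_lt_of_le hβ hαβ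
  have hXd : IsUnit X.det := (Matrix.isUnit_iff_isUnit_det _).mp hXu
  have hXn : X.det ≠ 0 := hXd.ne_zero
  have hG'u := isUnit_det_posDef hG'
  have hG2 := posDef_22 hG
  have hG2u := isUnit_det_posDef hG2
  obtain ⟨B, G1, hG1, hdec⟩ := ldl hG
  set Y := X * G'⁻¹ * X with hY
  have hYp : Y.PosDef := by
    have := conj_posDef hG'.inv hXu
    rwa [hX] at this
  have hYM : Y * (X⁻¹ * G' * X⁻¹) = 1 := by
    rw [hY]
    calc X * G'⁻¹ * X * (X⁻¹ * G' * X⁻¹) = X * G'⁻¹ * (X * X⁻¹) * G' * X⁻¹ := by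
          simp only [Matrix.mul_assoc]
      _ = X * (G'⁻¹ * G') * X⁻¹ := by
          rw [Matrix.mul_nonsing_inv _ hXd, Matrix.mul_one]
          simp only [Matrix.mul_assoc]
      _ = 1 := by
          rw [Matrix.nonsing_inv_mul _ hG'u, Matrix.mul_one, Matrix.mul_nonsing_inv _ hXd]
  set N := up (-B) * Y * (up (-B))ᵀ with hN
  have hNp : N.PosDef := conj_posDef hYp (isUnit_up _)
  have hNM : N * ((up B)ᵀ * (X⁻¹ * G' * X⁻¹) * up B) = 1 := by
    rw [hN]
    calc up (-B) * Y * (up (-B))ᵀ * ((up B)ᵀ * (X⁻¹ * G' * X⁻¹) * up B)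
        = up (-B) * Y * ((up (-B))ᵀ * (up B)ᵀ) * (X⁻¹ * G' * X⁻¹) * up B := by
          simp only [Matrix.mul_assoc]
      _ = up (-B) * (Y * (X⁻¹ * G' * X⁻¹)) * up B := by
          rw [up_t_neg_mul, Matrix.mul_one]
          simp only [Matrix.mul_assoc]
      _ = 1 := by rw [hYM, Matrix.mul_one, up_neg_mul]
  have hM : (up B)ᵀ * (X⁻¹ * G' * X⁻¹) * up B = N⁻¹ := (Matrix.inv_eq_right_inv hNM).symm
  obtain ⟨s, hs, htr, heq⟩ := main hNp hM hG1 hG2 hα hβ
  have hN22 : N.toBlocks₂₂ = Y.toBlocks₂₂ := by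
    rw [hN, up_t, up]
    conv_lhs => rw [← Matrix.fromBlocks_toBlocks Y]
    rw [Matrix.fromBlocks_multiply, Matrix.fromBlocks_multiply, Matrix.toBlocks_fromBlocks₂₂]
    simp
  have hNdet : log N.det = 2 * log |X.det| - log G'.det := by
    rw [hN, Matrix.det_mul, Matrix.det_mul, Matrix.det_transpose, det_up, one_mul, mul_one, hY,
      Matrix.det_mul, Matrix.det_mul, Matrix.det_nonsing_inv, Ring.inverse_eq_inv',
      Real.log_mul (mul_ne_zero hXn (inv_ne_zero hG'.det_pos.ne')) hXn,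
      Real.log_mul hXn (inv_ne_zero hG'.det_pos.ne'), Real.log_inv, Real.log_abs]
    ring
  have hGdet : log G1.det = log G.det - log G.toBlocks₂₂.det := by
    have : G.det = G1.det * G.toBlocks₂₂.det := by
      conv_lhs => rw [hdec]
      rw [det_ldl]
    rw [this, Real.log_mul hG1.det_pos.ne' hG2.det_pos.ne']
    ring
  have htr2 : (X⁻¹ * G' * X⁻¹ * G).trace
      = ((up B)ᵀ * (X⁻¹ * G' * X⁻¹) * up B * fromBlocks G1 0 0 G.toBlocks₂₂).trace := by
    conv_lhs => rw [hdec]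
    rw [← Matrix.mul_assoc, Matrix.trace_mul_comm]
    congr 1
    simp only [Matrix.mul_assoc]
  have hlow := lower hX hX2 hG'
  rw [← hY] at hlow
  refine ⟨s, hs, ?_, ?_⟩
  · rw [htr2, htr, hN22, hNdet, hGdet]
    have h5 : 0 ≤ (α - β) * (log Y.toBlocks₂₂.det
        - (2 * log |X.toBlocks₂₂.det| - log G'.toBlocks₂₂.det)) :=
      mul_nonneg (by linarith only [hαβ]) (by linarith only [hlow])
    linarith
  · intro h0
    have hNe := heq h0
    have hYe : Y = up B * N * (up B)ᵀ := by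
      rw [hN]
      calc Y = (up B * up (-B)) * Y * ((up (-B))ᵀ * (up B)ᵀ) := by
            rw [up_mul_neg, up_t_neg_mul, Matrix.one_mul, Matrix.mul_one]
        _ = _ := by simp only [Matrix.mul_assoc]
    have hGG : G * fromBlocks 0 0 0 (G.toBlocks₂₂)⁻¹ * G
        = up B * fromBlocks 0 0 0 G.toBlocks₂₂ * (up B)ᵀ := by
      have e1 : (up B)ᵀ * fromBlocks 0 0 0 (G.toBlocks₂₂)⁻¹ * up B
          = fromBlocks 0 0 0 (G.toBlocks₂₂)⁻¹ := by
        rw [up_conj']
        simp only [Matrix.zero_mul, Matrix.mul_zero, zero_add]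
      calc G * fromBlocks 0 0 0 (G.toBlocks₂₂)⁻¹ * G
          = (up B * fromBlocks G1 0 0 G.toBlocks₂₂ * (up B)ᵀ) * fromBlocks 0 0 0 (G.toBlocks₂₂)⁻¹
            * (up B * fromBlocks G1 0 0 G.toBlocks₂₂ * (up B)ᵀ) := by
              rw [← hdec]
        _ = up B * (fromBlocks G1 0 0 G.toBlocks₂₂ * ((up B)ᵀ * fromBlocks 0 0 0 (G.toBlocks₂₂)⁻¹
            * up B) * fromBlocks G1 0 0 G.toBlocks₂₂) * (up B)ᵀ := by
              simp only [Matrix.mul_assoc]
        _ = up B * fromBlocks 0 0 0 G.toBlocks₂₂ * (up B)ᵀ := by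
              rw [e1, Matrix.fromBlocks_multiply, Matrix.fromBlocks_multiply]
              simp [Matrix.mul_nonsing_inv _ hG2u]
    rw [hYe, hNe, hGG]
    conv_rhs => rw [hdec]
    have e2 : fromBlocks (α⁻¹ • G1) 0 0 (β⁻¹ • G.toBlocks₂₂)
        = α⁻¹ • fromBlocks G1 0 0 G.toBlocks₂₂
          + (β⁻¹ - α⁻¹) • (fromBlocks 0 0 0 G.toBlocks₂₂ : Matrix (κ ⊕ ν) (κ ⊕ ν) ℝ) := by
      rw [Matrix.fromBlocks_smul, Matrix.fromBlocks_smul, Matrix.fromBlocks_add]
      congr 1
      · simp only [smul_zero, add_zero]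
      · simp
      · simp
      · rw [← add_smul]
        congr 1
        ring
    rw [e2, Matrix.mul_add, Matrix.add_mul, Matrix.mul_smul, Matrix.mul_smul, Matrix.smul_mul,
      Matrix.smul_mul]
    have e3 : (up B * fromBlocks G1 0 0 G.toBlocks₂₂ * (up B)ᵀ).toBlocks₂₂ = G.toBlocks₂₂ := by
      rw [← hdec]
    rw [e3]

end Blk

section Block

variable {κ ν : Type*} [Fintype κ] [DecidableEq κ] [Fintype ν] [DecidableEq ν]

theorem block_ineq {X G G' : Matrix (κ ⊕ ν) (κ ⊕ ν) ℝ} (hX : Xᵀ = X) (hXu : IsUnit X)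
    (hX2 : IsUnit X.toBlocks₂₂) (hG : G.PosDef) (hG' : G'.PosDef) {α β : ℝ} (hβ : 0 < β)
    (hαβ : β ≤ α) :
    Fintype.card κ * (α * (1 - log α)) + Fintype.card ν * (β * (1 - log β))
      - 2 * α * (log |X.det| - log G.det / 2 - log G'.det / 2)
      + 2 * (α - β) * (log |X.toBlocks₂₂.det| - log G.toBlocks₂₂.det / 2
        - log G'.toBlocks₂₂.det / 2)
      ≤ (X⁻¹ * G' * X⁻¹ * G).trace := by
  obtain ⟨s, hs, h, -⟩ := Blk.all hX hXu hX2 hG hG' hβ hαβ
  linarith only [hs, h]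

theorem block_eq {X G G' : Matrix (κ ⊕ ν) (κ ⊕ ν) ℝ} (hX : Xᵀ = X) (hXu : IsUnit X)
    (hX2 : IsUnit X.toBlocks₂₂) (hG : G.PosDef) (hG' : G'.PosDef) {α β : ℝ} (hβ : 0 < β)
    (hαβ : β < α)
    (h : (X⁻¹ * G' * X⁻¹ * G).trace ≤
      Fintype.card κ * (α * (1 - log α)) + Fintype.card ν * (β * (1 - log β))
      - 2 * α * (log |X.det| - log G.det / 2 - log G'.det / 2)
      + 2 * (α - β) * (log |X.toBlocks₂₂.det| - log G.toBlocks₂₂.det / 2
        - log G'.toBlocks₂₂.det / 2)) :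
    X * G'⁻¹ * X = α⁻¹ • G + (β⁻¹ - α⁻¹) •
      (G * Matrix.fromBlocks 0 0 0 (G.toBlocks₂₂)⁻¹ * G) := by
  obtain ⟨s, hs, h1, h2⟩ := Blk.all hX hXu hX2 hG hG' hβ hαβ.le
  exact h2 (by linarith)

end Block

end

end Vale.Agent.P231
end
end

section

section

/-! P231 core, C4a and C4b: the coordinate `Hc` of a system of Jacobi data. -/

open Matrix Real Set Filter Topology MeasureTheory
open scoped ContDiff

namespace Vale.Agent.P231

noncomputable section

section Coord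

variable {ι : Type*} [Fintype ι] [DecidableEq ι] {D : ℝ} {A : ℝ → ℝ → Matrix ι ι ℝ}

theorem JData.per' (h : JData D A) (s t : ℝ) : A (s + 2 * D) t = A s t := by
  rw [h.anti t (s + 2 * D), h.per t s, ← h.anti t s]

theorem JData.unit_symm (h : JData D A) {s t : ℝ} (hu : IsUnit (A s t)) : IsUnit (A t s) := by
  rw [h.anti s t]
  exact ((Matrix.isUnit_transpose _).2 hu).neg

theorem JData.unit' (h : JData D A) {s t : ℝ} (h1 : s < t) (h2 : t < s + 2 * D)
    (h3 : t ≠ s + D) : IsUnit (A s t) := by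
  rcases lt_or_gt_of_ne h3 with h4 | h4
  · exact h.unit s t h1 h4
  · have h5 : IsUnit (A (t - 2 * D) s) := h.unit (t - 2 * D) s (by linarith only [h2]) (by linarith)
    have h6 := h.unit_symm h5
    have h7 := h.per s (t - 2 * D)
    rw [sub_add_cancel] at h7
    rwa [h7]

/-- the cocycle `K_a(s,t)` -/
def Kc (A : ℝ → ℝ → Matrix ι ι ℝ) (a s t : ℝ) : Matrix ι ι ℝ :=
  (A a t)⁻¹ * A s t * ((A a s)⁻¹)ᵀ

theorem Hc_eq_Kc (A : ℝ → ℝ → Matrix ι ι ℝ) (a b t : ℝ) : Hc A a b t = Kc A a b t := rfl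

theorem JData.inv_anti (h : JData D A) (s t : ℝ) : (A t s)⁻¹ = -((A s t)⁻¹)ᵀ := by
  rw [h.anti s t, Matrix.transpose_nonsing_inv]
  by_cases hu : IsUnit ((A s t)ᵀ)
  · apply Matrix.inv_eq_left_inv
    rw [neg_mul_neg, Matrix.nonsing_inv_mul _ ((Matrix.isUnit_iff_isUnit_det _).1 hu)]
  · have h1 : ¬ IsUnit ((A s t)ᵀ).det := fun h' => hu ((Matrix.isUnit_iff_isUnit_det _).2 h')
    have h2 : ¬ IsUnit (-(A s t)ᵀ).det := by
      intro h'
      have h3 : IsUnit (-(A s t)ᵀ) := (Matrix.isUnit_iff_isUnit_det _).2 h'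
      have h4 := h3.neg
      rw [neg_neg] at h4
      exact hu h4
    rw [Matrix.nonsing_inv_apply_not_isUnit _ h1, Matrix.nonsing_inv_apply_not_isUnit _ h2,
      neg_zero]

theorem JData.Kc_add (h : JData D A) {a c s t : ℝ} (hc : IsUnit (A a c))
    (hs : IsUnit (A a s)) (ht : IsUnit (A a t)) :
    Kc A a s t = Kc A a s c + Kc A a c t := by
  have hs' := (Matrix.isUnit_iff_isUnit_det _).1 hs
  have ht' := (Matrix.isUnit_iff_isUnit_det _).1 ht
  have e1 : (A a s)ᵀ * ((A a s)⁻¹)ᵀ = 1 := by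
    rw [← Matrix.transpose_mul, Matrix.nonsing_inv_mul _ hs', Matrix.transpose_one]
  have e2 : (A a t)⁻¹ * A a t = 1 := Matrix.nonsing_inv_mul _ ht'
  unfold Kc
  rw [h.rel s t a c hc, h.inv_anti a c, h.anti a s, Matrix.mul_add, Matrix.add_mul]
  congr 1
  · calc (A a t)⁻¹ * (A a t * (A a c)⁻¹ * A s c) * ((A a s)⁻¹)ᵀ
        = ((A a t)⁻¹ * A a t) * (A a c)⁻¹ * A s c * ((A a s)⁻¹)ᵀ := by
          simp only [Matrix.mul_assoc]
      _ = (A a c)⁻¹ * A s c * ((A a s)⁻¹)ᵀ := by rw [e2, Matrix.one_mul]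
  · calc (A a t)⁻¹ * (A c t * -((A a c)⁻¹)ᵀ * -(A a s)ᵀ) * ((A a s)⁻¹)ᵀ
        = (A a t)⁻¹ * A c t * ((A a c)⁻¹)ᵀ * ((A a s)ᵀ * ((A a s)⁻¹)ᵀ) := by
          simp only [Matrix.mul_assoc, Matrix.neg_mul, Matrix.mul_neg, neg_neg]
      _ = (A a t)⁻¹ * A c t * ((A a c)⁻¹)ᵀ := by rw [e1, Matrix.mul_one]

theorem JData.Kc_self (h : JData D A) (a s : ℝ) : Kc A a s s = 0 := by
  simp [Kc, h.diag s]

theorem JData.Kc_transpose (h : JData D A) (a s t : ℝ) :
    (Kc A a s t)ᵀ = -Kc A a t s := by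
  unfold Kc
  rw [h.anti s t]
  simp only [Matrix.transpose_mul, Matrix.transpose_transpose, Matrix.mul_neg, Matrix.neg_mul,
    neg_neg, Matrix.mul_assoc]

theorem JData.Kc_anti (h : JData D A) {a s t : ℝ} (hs : IsUnit (A a s)) (ht : IsUnit (A a t)) :
    Kc A a t s = -Kc A a s t := by
  have h1 := h.Kc_add ht hs hs
  rw [h.Kc_self] at h1
  exact eq_neg_of_add_eq_zero_right h1.symm

theorem JData.Kc_symm (h : JData D A) {a s t : ℝ} (hs : IsUnit (A a s)) (ht : IsUnit (A a t)) :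
    (Kc A a s t)ᵀ = Kc A a s t := by
  rw [h.Kc_transpose, h.Kc_anti hs ht, neg_neg]

/-- `K_a(s,t) = H(t) - H(s)`. -/
theorem JData.Kc_eq_sub (h : JData D A) {a b s t : ℝ} (hb : IsUnit (A a b))
    (hs : IsUnit (A a s)) (ht : IsUnit (A a t)) :
    Kc A a s t = Hc A a b t - Hc A a b s := by
  rw [Hc_eq_Kc, Hc_eq_Kc, h.Kc_add hb hs ht, h.Kc_anti hb hs]
  abel

theorem JData.Hc_symm (h : JData D A) {a b t : ℝ} (hb : IsUnit (A a b)) (ht : IsUnit (A a t)) :
    (Hc A a b t)ᵀ = Hc A a b t := h.Kc_symm hb ht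

theorem JData.factor (h : JData D A) {a b s t : ℝ} (hb : IsUnit (A a b))
    (hs : IsUnit (A a s)) (ht : IsUnit (A a t)) :
    A s t = A a t * (Hc A a b t - Hc A a b s) * (A a s)ᵀ := by
  have hs' := (Matrix.isUnit_iff_isUnit_det _).1 hs
  have ht' := (Matrix.isUnit_iff_isUnit_det _).1 ht
  have e1 : ((A a s)⁻¹)ᵀ * (A a s)ᵀ = 1 := by
    rw [← Matrix.transpose_mul, Matrix.mul_nonsing_inv _ hs', Matrix.transpose_one]
  have e2 : A a t * (A a t)⁻¹ = 1 := Matrix.mul_nonsing_inv _ ht'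
  rw [← h.Kc_eq_sub hb hs ht]
  unfold Kc
  calc A s t = (A a t * (A a t)⁻¹) * A s t * (((A a s)⁻¹)ᵀ * (A a s)ᵀ) := by
        rw [e1, e2, Matrix.one_mul, Matrix.mul_one]
    _ = A a t * ((A a t)⁻¹ * A s t * ((A a s)⁻¹)ᵀ) * (A a s)ᵀ := by
        simp only [Matrix.mul_assoc]

theorem det_Gm (A : ℝ → ℝ → Matrix ι ι ℝ) (a t : ℝ) : (Gm A a t).det = (A a t).det ^ 2 := by
  rw [Gm, Matrix.det_mul, Matrix.det_transpose, sq]

theorem log_abs_det_eq (A : ℝ → ℝ → Matrix ι ι ℝ) (a t : ℝ) :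
    log |(A a t).det| = log (Gm A a t).det / 2 := by
  rw [det_Gm, Real.log_pow, Real.log_abs]
  push_cast
  ring

theorem JData.abs_det (h : JData D A) {a b s t : ℝ} (hb : IsUnit (A a b))
    (hs : IsUnit (A a s)) (ht : IsUnit (A a t)) (hst : IsUnit (A s t)) :
    log |(A s t).det| = log |(Hc A a b t - Hc A a b s).det|
      + log (Gm A a t).det / 2 + log (Gm A a s).det / 2 := by
  have hs' := ((Matrix.isUnit_iff_isUnit_det _).1 hs).ne_zero
  have ht' := ((Matrix.isUnit_iff_isUnit_det _).1 ht).ne_zero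
  have hst' := ((Matrix.isUnit_iff_isUnit_det _).1 hst).ne_zero
  have e : (A s t).det = (A a t).det * (Hc A a b t - Hc A a b s).det * (A a s).det := by
    conv_lhs => rw [h.factor hb hs ht]
    rw [Matrix.det_mul, Matrix.det_mul, Matrix.det_transpose]
  have hX : (Hc A a b t - Hc A a b s).det ≠ 0 := by
    intro h0
    rw [h0] at e
    exact hst' (by rw [e]; ring)
  rw [← log_abs_det_eq, ← log_abs_det_eq, e, abs_mul, abs_mul,
    Real.log_mul (mul_ne_zero (abs_ne_zero.2 ht') (abs_ne_zero.2 hX)) (abs_ne_zero.2 hs'),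
    Real.log_mul (abs_ne_zero.2 ht') (abs_ne_zero.2 hX)]
  ring

theorem Gm_inv (A : ℝ → ℝ → Matrix ι ι ℝ) (a t : ℝ) :
    (Gm A a t)⁻¹ = (A a t)⁻¹ * ((A a t)⁻¹)ᵀ := by
  rw [Gm, Matrix.mul_inv_rev, Matrix.transpose_nonsing_inv]

theorem JData.trace_inv (h : JData D A) {a b s t : ℝ} (hb : IsUnit (A a b))
    (hs : IsUnit (A a s)) (ht : IsUnit (A a t)) (_hst : IsUnit (A s t)) :
    ((A s t)⁻¹ * ((A s t)⁻¹)ᵀ).trace =
      ((Hc A a b t - Hc A a b s)⁻¹ * (Gm A a s)⁻¹ * (Hc A a b t - Hc A a b s)⁻¹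
        * (Gm A a t)⁻¹).trace := by
  have hsym : ((Hc A a b t - Hc A a b s)⁻¹)ᵀ = (Hc A a b t - Hc A a b s)⁻¹ := by
    rw [Matrix.transpose_nonsing_inv, Matrix.transpose_sub, h.Hc_symm hb ht, h.Hc_symm hb hs]
  set X := Hc A a b t - Hc A a b s with hX
  have e : (A s t)⁻¹ = ((A a s)⁻¹)ᵀ * X⁻¹ * (A a t)⁻¹ := by
    conv_lhs => rw [h.factor hb hs ht, ← hX]
    rw [Matrix.mul_inv_rev, Matrix.mul_inv_rev, Matrix.transpose_nonsing_inv, Matrix.mul_assoc]
  rw [e, Gm_inv, Gm_inv]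
  rw [show ((((A a s)⁻¹)ᵀ * X⁻¹ * (A a t)⁻¹)ᵀ) = ((A a t)⁻¹)ᵀ * X⁻¹ * (A a s)⁻¹ by
    rw [Matrix.transpose_mul, Matrix.transpose_mul, hsym, Matrix.transpose_transpose,
      Matrix.mul_assoc]]
  calc (((A a s)⁻¹)ᵀ * X⁻¹ * (A a t)⁻¹ * (((A a t)⁻¹)ᵀ * X⁻¹ * (A a s)⁻¹)).trace
      = (((A a s)⁻¹)ᵀ * (X⁻¹ * (A a t)⁻¹ * (((A a t)⁻¹)ᵀ * X⁻¹ * (A a s)⁻¹))).trace := by
        simp only [Matrix.mul_assoc]
    _ = ((X⁻¹ * (A a t)⁻¹ * (((A a t)⁻¹)ᵀ * X⁻¹ * (A a s)⁻¹)) * ((A a s)⁻¹)ᵀ).trace :=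
        Matrix.trace_mul_comm _ _
    _ = ((X⁻¹ * ((A a t)⁻¹ * ((A a t)⁻¹)ᵀ)) * (X⁻¹ * ((A a s)⁻¹ * ((A a s)⁻¹)ᵀ))).trace := by
        simp only [Matrix.mul_assoc]
    _ = ((X⁻¹ * ((A a s)⁻¹ * ((A a s)⁻¹)ᵀ)) * (X⁻¹ * ((A a t)⁻¹ * ((A a t)⁻¹)ᵀ))).trace :=
        Matrix.trace_mul_comm _ _
    _ = _ := by simp only [Matrix.mul_assoc]

theorem JData.Gm_posDef (_h : JData D A) {a t : ℝ} (ht : IsUnit (A a t)) :
    (Gm A a t).PosDef := by
  have h1 := (Matrix.PosDef.conjTranspose_mul_self (A a t)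
    (Matrix.mulVec_injective_iff_isUnit.2 ht))
  rwa [Matrix.conjTranspose_eq_transpose_of_trivial] at h1

theorem JData.Gm_contDiff (h : JData D A) (a : ℝ) (i j : ι) :
    ContDiff ℝ ∞ (fun t => Gm A a t i j) := h.smooth a a i j

/-! ### smoothness of matrix expressions, entrywise -/

theorem contDiffAt_det_entry {n : WithTop ℕ∞} {f : ℝ → Matrix ι ι ℝ} {t : ℝ}
    (hf : ∀ i j, ContDiffAt ℝ n (fun t => f t i j) t) :
    ContDiffAt ℝ n (fun t => (f t).det) t := by
  have e : (fun t => (f t).det) = fun t => ∑ σ : Equiv.Perm ι,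
      ((Equiv.Perm.sign σ : ℤ) : ℝ) * ∏ i, f t (σ i) i := by
    funext t
    rw [Matrix.det_apply']
  rw [e]
  refine ContDiffAt.sum fun σ _ => ?_
  exact contDiffAt_const.mul (contDiffAt_prod fun i _ => hf _ _)

theorem contDiffAt_adjugate_entry {n : WithTop ℕ∞} {f : ℝ → Matrix ι ι ℝ} {t : ℝ}
    (hf : ∀ i j, ContDiffAt ℝ n (fun t => f t i j) t) (i j : ι) :
    ContDiffAt ℝ n (fun t => (f t).adjugate i j) t := by
  have e : (fun t => (f t).adjugate i j) =
      fun t => ((f t).updateRow j (Pi.single i 1)).det := by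
    funext t
    rw [Matrix.adjugate_apply]
  rw [e]
  refine contDiffAt_det_entry fun k l => ?_
  by_cases hk : k = j
  · subst hk
    simp only [Matrix.updateRow_self]
    exact contDiffAt_const
  · simp only [Matrix.updateRow_ne hk]
    exact hf k l

theorem contDiffAt_inv_entry {n : WithTop ℕ∞} {f : ℝ → Matrix ι ι ℝ} {t : ℝ}
    (hf : ∀ i j, ContDiffAt ℝ n (fun t => f t i j) t) (hu : IsUnit (f t)) (i j : ι) :
    ContDiffAt ℝ n (fun t => (f t)⁻¹ i j) t := by
  have e : (fun t => (f t)⁻¹ i j) = fun t => ((f t).det)⁻¹ * (f t).adjugate i j := by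
    funext t
    rw [Matrix.inv_def, Matrix.smul_apply, smul_eq_mul, Ring.inverse_eq_inv']
  rw [e]
  exact ((contDiffAt_det_entry hf).inv ((Matrix.isUnit_iff_isUnit_det _).1 hu).ne_zero).mul
    (contDiffAt_adjugate_entry hf i j)

omit [DecidableEq ι] in
theorem contDiffAt_mul_entry {n : WithTop ℕ∞} {f g : ℝ → Matrix ι ι ℝ} {t : ℝ}
    (hf : ∀ i j, ContDiffAt ℝ n (fun t => f t i j) t)
    (hg : ∀ i j, ContDiffAt ℝ n (fun t => g t i j) t) (i j : ι) :
    ContDiffAt ℝ n (fun t => (f t * g t) i j) t := by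
  simp only [Matrix.mul_apply]
  exact ContDiffAt.sum fun k _ => (hf i k).mul (hg k j)

theorem JData.isOpen_unit (h : JData D A) (a : ℝ) : IsOpen {t | IsUnit (A a t)} := by
  have e : {t | IsUnit (A a t)} = (fun t => (Gm A a t).det) ⁻¹' {0}ᶜ := by
    ext t
    simp only [Set.mem_ofPred_eq, mem_preimage, mem_compl_iff, mem_singleton_iff]
    rw [Matrix.isUnit_iff_isUnit_det, isUnit_iff_ne_zero, det_Gm]
    exact (pow_eq_zero_iff two_ne_zero).not.symm
  rw [e]
  refine isOpen_compl_singleton.preimage ?_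
  refine continuous_iff_continuousAt.2 fun t => ?_
  exact (contDiffAt_det_entry (n := ∞)
    (fun i j => (h.Gm_contDiff a i j).contDiffAt)).continuousAt

theorem Kc_eq_Gm (A : ℝ → ℝ → Matrix ι ι ℝ) {a s t : ℝ} (ht : IsUnit (A a t)) :
    Kc A a s t = (Gm A a t)⁻¹ * ((A a t)ᵀ * A s t) * ((A a s)⁻¹)ᵀ := by
  have ht' := (Matrix.isUnit_iff_isUnit_det _).1 ht
  have e1 : ((A a t)⁻¹)ᵀ * (A a t)ᵀ = 1 := by
    rw [← Matrix.transpose_mul, Matrix.mul_nonsing_inv _ ht', Matrix.transpose_one]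
  rw [Gm_inv, Kc]
  calc (A a t)⁻¹ * A s t * ((A a s)⁻¹)ᵀ
      = (A a t)⁻¹ * (((A a t)⁻¹)ᵀ * (A a t)ᵀ) * A s t * ((A a s)⁻¹)ᵀ := by
        rw [e1, Matrix.mul_one]
    _ = _ := by simp only [Matrix.mul_assoc]

theorem isUnit_Gm {A : ℝ → ℝ → Matrix ι ι ℝ} {a t : ℝ} (ht : IsUnit (A a t)) :
    IsUnit (Gm A a t) := ((Matrix.isUnit_transpose _).2 ht).mul ht

theorem JData.Gm_inv_contDiffAt (h : JData D A) {a t : ℝ} (ht : IsUnit (A a t)) (i j : ι) :
    ContDiffAt ℝ ∞ (fun t => (Gm A a t)⁻¹ i j) t :=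
  contDiffAt_inv_entry (f := fun t => Gm A a t)
    (fun p q => (h.Gm_contDiff a p q).contDiffAt) (isUnit_Gm ht) i j

theorem JData.Kc_contDiffAt (h : JData D A) {a b t : ℝ}
    (ht : IsUnit (A a t)) (i j : ι) : ContDiffAt ℝ ∞ (fun t => Kc A a b t i j) t := by
  have h0 : ∀ i j, ContDiffAt ℝ ∞
      (fun t => ((Gm A a t)⁻¹ * ((A a t)ᵀ * A b t)) i j) t := fun i j =>
    contDiffAt_mul_entry (f := fun t => (Gm A a t)⁻¹) (g := fun t => (A a t)ᵀ * A b t)
      (fun p q => h.Gm_inv_contDiffAt ht p q) (fun p q => (h.smooth a b p q).contDiffAt) i j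
  have h1 : ContDiffAt ℝ ∞
      (fun t => ((Gm A a t)⁻¹ * ((A a t)ᵀ * A b t) * ((A a b)⁻¹)ᵀ) i j) t :=
    contDiffAt_mul_entry (f := fun t => (Gm A a t)⁻¹ * ((A a t)ᵀ * A b t))
      (g := fun _ => ((A a b)⁻¹)ᵀ) h0 (fun k l => contDiffAt_const) i j
  refine h1.congr_of_eventuallyEq ?_
  filter_upwards [(h.isOpen_unit a).mem_nhds ht] with t' ht'
  rw [Kc_eq_Gm A ht']

theorem JData.Hc_contDiffAt (h : JData D A) {a b t : ℝ} (_hb : IsUnit (A a b))
    (ht : IsUnit (A a t)) (i j : ι) : ContDiffAt ℝ ∞ (fun t => Hc A a b t i j) t :=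
  h.Kc_contDiffAt ht i j

theorem JData.Kc_hasDerivAt_self (h : JData D A) {a t : ℝ} (ht : IsUnit (A a t)) (i j : ι) :
    HasDerivAt (fun t' => Kc A a t t' i j) ((Gm A a t)⁻¹ i j) t := by
  have ht' := (Matrix.isUnit_iff_isUnit_det _).1 ht
  -- derivative of `(Gm A a t')⁻¹ * ((A a t')ᵀ * A t t') * ((A a t)⁻¹)ᵀ`
  have hG : ∀ p q, DifferentiableAt ℝ (fun t' => (Gm A a t')⁻¹ p q) t := fun p q =>
    (h.Gm_inv_contDiffAt ht p q).differentiableAt (by simp)
  have hM : ∀ p q, HasDerivAt (fun t' => ((A a t')ᵀ * A t t') p q) ((A a t)ᵀ p q) t :=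
    fun p q => h.der a t p q
  have hM0 : (A a t)ᵀ * A t t = 0 := by rw [h.diag, Matrix.mul_zero]
  have h1 : HasDerivAt
      (fun t' => ((Gm A a t')⁻¹ * ((A a t')ᵀ * A t t') * ((A a t)⁻¹)ᵀ) i j)
      (((Gm A a t)⁻¹ * (A a t)ᵀ * ((A a t)⁻¹)ᵀ) i j) t := by
    show HasDerivAt (fun t' => ∑ l, (∑ k, (Gm A a t')⁻¹ i k * ((A a t')ᵀ * A t t') k l)
        * ((A a t)⁻¹)ᵀ l j)
      (∑ l, (∑ k, (Gm A a t)⁻¹ i k * (A a t)ᵀ k l) * ((A a t)⁻¹)ᵀ l j) t
    refine HasDerivAt.fun_sum fun l _ => ?_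
    refine HasDerivAt.mul_const ?_ _
    refine HasDerivAt.fun_sum fun k _ => ?_
    have h2 := (hG i k).hasDerivAt.mul (hM k l)
    have h3 : ((A a t)ᵀ * A t t) k l = 0 := by rw [hM0]; rfl
    rw [h3, mul_zero, zero_add] at h2
    exact h2
  have h4 : (Gm A a t)⁻¹ * (A a t)ᵀ * ((A a t)⁻¹)ᵀ = (Gm A a t)⁻¹ := by
    rw [Matrix.mul_assoc, ← Matrix.transpose_mul, Matrix.nonsing_inv_mul _ ht',
      Matrix.transpose_one, Matrix.mul_one]
  rw [h4] at h1
  refine h1.congr_of_eventuallyEq ?_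
  filter_upwards [(h.isOpen_unit a).mem_nhds ht] with t' ht'
  rw [Kc_eq_Gm A ht']

theorem JData.Hc_hasDerivAt (h : JData D A) {a b t : ℝ} (hb : IsUnit (A a b))
    (ht : IsUnit (A a t)) (i j : ι) :
    HasDerivAt (fun t => Hc A a b t i j) ((Gm A a t)⁻¹ i j) t := by
  have h1 := (h.Kc_hasDerivAt_self ht i j).const_add (Hc A a b t i j)
  refine h1.congr_of_eventuallyEq ?_
  filter_upwards [(h.isOpen_unit a).mem_nhds ht] with t' ht'
  rw [h.Kc_eq_sub hb ht ht', Matrix.sub_apply]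
  ring

/-- rescaling to `D = π / 2` -/
theorem JData.scale (h : JData D A) :
    JData (π / 2) (fun s t => (π / (2 * D)) • A (s * (2 * D / π)) (t * (2 * D / π))) := by
  have hD := h.pos
  have hπ := Real.pi_pos
  set c := π / (2 * D) with hc
  set k := 2 * D / π with hk
  have hc0 : c ≠ 0 := by (clear * - hD; positivity)
  have hk0 : 0 < k := by positivity
  have hck : c * k = 1 := by rw [hc, hk]; field_simp
  have hkπ : k * π = 2 * D := by rw [hk]; field_simp
  refine ⟨by positivity, ?_, ?_, ?_, ?_, ?_, ?_, ?_⟩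
  · intro s
    simp [h.diag]
  · intro s t
    rw [h.anti (s * k) (t * k)]
    simp only [smul_neg, transpose_smul]
  · intro s t a b hu
    have hu' : IsUnit (A (a * k) (b * k)) := by
      rw [Matrix.isUnit_iff_isUnit_det, isUnit_iff_ne_zero] at hu ⊢
      intro h0
      apply hu
      rw [Matrix.det_smul, h0, mul_zero]
    have hu2 : IsUnit (A (b * k) (a * k)) := h.unit_symm hu'
    have e1 : (c • A (a * k) (b * k))⁻¹ = c⁻¹ • (A (a * k) (b * k))⁻¹ := by
      have : Invertible c := invertibleOfNonzero hc0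
      rw [Matrix.inv_smul _ c ((Matrix.isUnit_iff_isUnit_det _).1 hu'), invOf_eq_inv]
    have e2 : (c • A (b * k) (a * k))⁻¹ = c⁻¹ • (A (b * k) (a * k))⁻¹ := by
      have : Invertible c := invertibleOfNonzero hc0
      rw [Matrix.inv_smul _ c ((Matrix.isUnit_iff_isUnit_det _).1 hu2), invOf_eq_inv]
    rw [e1, e2, h.rel (s * k) (t * k) (a * k) (b * k) hu']
    simp only [Matrix.smul_mul, Matrix.mul_smul, smul_smul, smul_add]
    rw [inv_mul_cancel₀ hc0, mul_one]
  · intro a b i j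
    have h1 : ContDiff ℝ ∞ (fun t => ((A (a * k) (t * k))ᵀ * A (b * k) (t * k)) i j) :=
      (h.smooth (a * k) (b * k) i j).comp (contDiff_id.mul contDiff_const)
    have h2 := (contDiff_const (c := c * c)).mul h1
    have e : (fun t => ((c • A (a * k) (t * k))ᵀ * (c • A (b * k) (t * k))) i j) =
        fun t => c * c * ((A (a * k) (t * k))ᵀ * A (b * k) (t * k)) i j := by
      funext t
      rw [Matrix.transpose_smul, Matrix.smul_mul, Matrix.mul_smul, smul_smul, Matrix.smul_apply,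
        smul_eq_mul]
    rw [e]
    exact h2
  · intro a b i j
    have h1 : HasDerivAt (fun t => ((A (a * k) (t * k))ᵀ * A (b * k) (t * k)) i j)
        (A (a * k) (b * k) j i * k) b := by
      have h3 : HasDerivAt (fun t : ℝ => t * k) k b := by
        simpa using (hasDerivAt_id b).mul_const k
      exact (h.der (a * k) (b * k) i j).comp b h3
    have h2 := h1.const_mul (c * c)
    have e : c * c * (A (a * k) (b * k) j i * k) = (c • A (a * k) (b * k)) j i := by
      rw [Matrix.smul_apply, smul_eq_mul]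
      calc c * c * (A (a * k) (b * k) j i * k) = c * (c * k) * A (a * k) (b * k) j i := by ring
        _ = _ := by rw [hck, mul_one]
    rw [e] at h2
    refine h2.congr_of_eventuallyEq (Eventually.of_forall fun t => ?_)
    show ((c • A (a * k) (t * k))ᵀ * (c • A (b * k) (t * k))) i j = _
    rw [Matrix.transpose_smul, Matrix.smul_mul, Matrix.mul_smul, smul_smul, Matrix.smul_apply,
      smul_eq_mul]
  · intro s t
    have e : (t + 2 * (π / 2)) * k = t * k + 2 * D := by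
      rw [← hkπ]; ring
    simp only [e, h.per]
  · intro s t h1 h2
    have h3 : IsUnit (A (s * k) (t * k)) := by
      refine h.unit _ _ (mul_lt_mul_of_pos_right h1 hk0) ?_
      have e : D = (π / 2) * k := by rw [hk]; (clear * - hD; field_simp)
      calc t * k < (s + π / 2) * k := mul_lt_mul_of_pos_right h2 hk0
        _ = s * k + D := by rw [add_mul, ← e]
    rw [Matrix.isUnit_iff_isUnit_det, isUnit_iff_ne_zero] at h3 ⊢
    rw [Matrix.det_smul]
    exact mul_ne_zero (pow_ne_zero _ hc0) h3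

end Coord

end

end Vale.Agent.P231
end
end

section

section

/-! P231 core, C5: the reduced system extends in a `C^1` way through the singular times. -/

open Matrix Real Set Filter Topology MeasureTheory
open scoped ContDiff

namespace Vale.Agent.P231

theorem red_contDiffAt_deriv {f : ℝ → ℝ} {x : ℝ} {m n : WithTop ℕ∞} (hf : ContDiffAt ℝ n f x)
    (hmn : m + 1 ≤ n) : ContDiffAt ℝ m (deriv f) x := by
  have h := (hf.fderiv_right hmn).clm_apply (contDiffAt_const (c := (1 : ℝ)))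
  refine h.congr_of_eventuallyEq ?_
  filter_upwards with t
  simp only [fderiv_eq_smul_deriv, smul_eq_mul, one_mul]

theorem red_hasDerivAt_of_punctured {f g : ℝ → ℝ} {x l : ℝ}
    (hd : ∀ᶠ y in 𝓝[≠] x, HasDerivAt f (g y) y) (hf : ContinuousAt f x)
    (hg : Tendsto g (𝓝[≠] x) (𝓝 l)) : HasDerivAt f l x := by
  obtain ⟨ε, hε, hball⟩ := Metric.mem_nhdsWithin_iff.mp hd
  have key : ∀ y, y ≠ x → |y - x| < ε → HasDerivAt f (g y) y := by
    intro y hy hyx
    apply hball
    exact ⟨by simpa [Real.dist_eq] using hyx, hy⟩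
  have A : HasDerivWithinAt f l (Ici x) x := by
    have diff : DifferentiableOn ℝ f (Ioo x (x + ε)) := fun y hy =>
      (key y (ne_of_gt hy.1) (by rw [abs_lt]; constructor <;> linarith only [hy.2, hε, hy.1])).differentiableAt.differentiableWithinAt
    apply hasDerivWithinAt_Ici_of_tendsto_deriv diff hf.continuousWithinAt
      (Ioo_mem_nhdsGT (by linarith))
    have h1 : Tendsto g (𝓝[>] x) (𝓝 l) := hg.mono_left (nhdsWithin_mono _ (fun y hy => ne_of_gt hy))
    apply h1.congr' _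
    filter_upwards [Ioo_mem_nhdsGT (show x < x + ε by linarith)] with y hy
    exact (key y (ne_of_gt hy.1) (by rw [abs_lt]; constructor <;> linarith only [hy.2, hε, hy.1])).deriv.symm
  have B : HasDerivWithinAt f l (Iic x) x := by
    have diff : DifferentiableOn ℝ f (Ioo (x - ε) x) := fun y hy =>
      (key y (ne_of_lt hy.2) (by rw [abs_lt]; constructor <;> linarith only [hy.1, hε, hy.2])).differentiableAt.differentiableWithinAt
    apply hasDerivWithinAt_Iic_of_tendsto_deriv diff hf.continuousWithinAt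
      (Ioo_mem_nhdsLT (by linarith only [hε]))
    have h1 : Tendsto g (𝓝[<] x) (𝓝 l) := hg.mono_left (nhdsWithin_mono _ (fun y hy => ne_of_lt hy))
    apply h1.congr' _
    filter_upwards [Ioo_mem_nhdsLT (show x - ε < x by linarith only [hε])] with y hy
    exact (key y (ne_of_lt hy.2) (by rw [abs_lt]; constructor <;> linarith only [hy.1, hε, hy.2])).deriv.symm
  simpa using B.union A

/-- `C^1` at a point from a derivative on a punctured neighbourhood with a limit. -/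
theorem red_contDiffAt_of_punctured {f g : ℝ → ℝ} {x l : ℝ}
    (hd : ∀ᶠ y in 𝓝[≠] x, HasDerivAt f (g y) y) (hgc : ∀ᶠ y in 𝓝[≠] x, ContinuousAt g y)
    (hf : ContinuousAt f x)
    (hg : Tendsto g (𝓝[≠] x) (𝓝 l)) : ContDiffAt ℝ 1 f x := by
  classical
  rw [contDiffAt_one_iff]
  set G : ℝ → ℝ := fun y => if y = x then l else g y with hG
  obtain ⟨ε, hε, hball⟩ := Metric.mem_nhdsWithin_iff.mp (hd.and hgc)
  have key : ∀ y, y ≠ x → |y - x| < ε → HasDerivAt f (g y) y ∧ ContinuousAt g y := by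
    intro y hy hyx
    apply hball
    exact ⟨by simpa [Real.dist_eq] using hyx, hy⟩
  refine ⟨fun y => ContinuousLinearMap.toSpanSingleton ℝ (G y), Metric.ball x ε,
    Metric.ball_mem_nhds x hε, ?_, ?_⟩
  · intro y hy
    have hy' : |y - x| < ε := by simpa [Real.dist_eq] using hy
    apply ContinuousAt.continuousWithinAt
    have hGc : ContinuousAt G y := by
      rcases eq_or_ne y x with rfl | hne
      · have : Tendsto G (𝓝[≠] y) (𝓝 l) := by
          apply hg.congr'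
          filter_upwards [self_mem_nhdsWithin] with z hz
          simp only [hG]
          rw [if_neg (by simpa using hz)]
        have h2 : G y = l := by simp [hG]
        rw [← h2] at this
        exact continuousAt_iff_punctured_nhds.mpr this
      · have : G =ᶠ[𝓝 y] g := by
          filter_upwards [isOpen_ne.mem_nhds hne] with z hz
          simp only [hG]
          rw [if_neg hz]
        exact (key y hne hy').2.congr this.symm
    have := (ContinuousLinearMap.toSpanSingletonCLE (𝕜 := ℝ) (E := ℝ)).continuous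
    exact this.continuousAt.comp hGc
  · intro y hy
    have hy' : |y - x| < ε := by simpa [Real.dist_eq] using hy
    have : HasDerivAt f (G y) y := by
      rcases eq_or_ne y x with rfl | hne
      · have h2 : G y = l := by simp [hG]
        rw [h2]
        exact red_hasDerivAt_of_punctured hd hf hg
      · have h2 : G y = g y := by simp [hG, hne]
        rw [h2]
        exact (key y hne hy').1
    exact this.hasFDerivAt

/-- Divided difference of a `C^2` function is `C^1`. -/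
theorem red_dd {f : ℝ → ℝ} {x : ℝ} (hf : ContDiffAt ℝ ∞ f x) (h0 : f x = 0) :
    ContDiffAt ℝ 1 (fun t => if t = x then deriv f x else f t / (t - x)) x := by
  classical
  have hf3 : ContDiffAt ℝ 3 f x := hf.of_le
    (show ((3 : ℕ∞) : WithTop ℕ∞) ≤ ((⊤ : ℕ∞) : WithTop ℕ∞) from WithTop.coe_le_coe.mpr le_top)
  have hf1 : ContDiffAt ℝ 2 (deriv f) x := red_contDiffAt_deriv hf3 (by norm_num)
  have hf2 : ContDiffAt ℝ 1 (deriv (deriv f)) x := red_contDiffAt_deriv hf1 (by norm_num)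
  have e0 : ∀ᶠ y in 𝓝 x, HasDerivAt f (deriv f y) y := by
    filter_upwards [hf3.eventually (by simp)] with y hy
    exact (hy.differentiableAt (by simp)).hasDerivAt
  have e1 : ∀ᶠ y in 𝓝 x, HasDerivAt (deriv f) (deriv (deriv f) y) y := by
    filter_upwards [hf1.eventually (by simp)] with y hy
    exact (hy.differentiableAt (by simp)).hasDerivAt
  have hd : ∀ᶠ y in 𝓝[≠] x, HasDerivAt (fun t => if t = x then deriv f x else f t / (t - x))
      ((deriv f y * (y - x) - f y) / (y - x) ^ 2) y := by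
    filter_upwards [nhdsWithin_le_nhds e0, self_mem_nhdsWithin] with y hy hne
    have h1 : HasDerivAt (fun t => f t / (t - x)) ((deriv f y * (y - x) - f y * 1) / (y - x) ^ 2) y :=
      hy.div ((hasDerivAt_id y).sub_const x) (sub_ne_zero.mpr hne)
    rw [mul_one] at h1
    refine h1.congr_of_eventuallyEq ?_
    filter_upwards [isOpen_ne.mem_nhds hne] with z hz
    rw [if_neg hz]
  have hcont : ContinuousAt (fun t => if t = x then deriv f x else f t / (t - x)) x := by
    rw [continuousAt_iff_punctured_nhds]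
    have h1 := (hasDerivAt_iff_tendsto_slope.mp e0.self_of_nhds)
    rw [if_pos rfl]
    refine h1.congr' ?_
    filter_upwards [self_mem_nhdsWithin] with y hy
    rw [if_neg (by simpa using hy), slope_def_field, h0, sub_zero]
  have hlim : Tendsto (fun y => (deriv f y * (y - x) - f y) / (y - x) ^ 2) (𝓝[≠] x)
      (𝓝 (deriv (deriv f) x / 2)) := by
    apply HasDerivAt.lhopital_zero_nhdsNE (f' := fun y => deriv (deriv f) y * (y - x))
      (g' := fun y => 2 * (y - x))
    · filter_upwards [nhdsWithin_le_nhds e0, nhdsWithin_le_nhds e1] with y h0 h1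
      have := (h1.mul ((hasDerivAt_id y).sub_const x)).sub h0
      refine this.congr_deriv ?_
      simp
    · filter_upwards with y
      have := ((hasDerivAt_id y).sub_const x).pow 2
      refine this.congr_deriv ?_
      simp only [Nat.cast_ofNat, id_eq, Nat.add_one_sub_one, pow_one, mul_one]
    · filter_upwards [self_mem_nhdsWithin] with y hy
      exact mul_ne_zero two_ne_zero (sub_ne_zero.mpr hy)
    · have : ContinuousAt (fun y => deriv f y * (y - x) - f y) x := by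
        have c1 := hf1.continuousAt
        have c0 := hf.continuousAt
        (clear * - c1 c0; fun_prop)
      have h := this.tendsto
      simp only [sub_self, mul_zero, h0] at h
      exact h.mono_left nhdsWithin_le_nhds
    · have : ContinuousAt (fun y : ℝ => (y - x) ^ 2) x := by fun_prop
      have h := this.tendsto
      simp only [sub_self, ne_eq, OfNat.ofNat_ne_zero, not_false_eq_true, zero_pow] at h
      exact h.mono_left nhdsWithin_le_nhds
    · have : ContinuousAt (fun y => deriv (deriv f) y / 2) x := by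
        have := hf2.continuousAt
        (clear * - this; fun_prop)
      have h := this.tendsto
      refine (h.mono_left nhdsWithin_le_nhds).congr' ?_
      filter_upwards [self_mem_nhdsWithin] with y hy
      have : y - x ≠ 0 := sub_ne_zero.mpr hy
      (clear * - this; field_simp)
  refine red_contDiffAt_of_punctured hd ?_ hcont hlim
  filter_upwards [nhdsWithin_le_nhds (hf3.eventually (by simp)),
    nhdsWithin_le_nhds (hf1.eventually (by simp)), self_mem_nhdsWithin] with y h3 h1 hy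
  have c1 := h1.continuousAt
  have c0 := h3.continuousAt
  have : (y - x) ^ 2 ≠ 0 := pow_ne_zero 2 (sub_ne_zero.mpr hy)
  fun_prop (disch := assumption)

/-! ### The function `Y(t) = -Hc A 0 (π/4) t ⁻¹`, smooth across `0` and `π / 2` -/

section Y

variable {ι : Type*} [Fintype ι] [DecidableEq ι] {D : ℝ} {A : ℝ → ℝ → Matrix ι ι ℝ}

/-- `Y(t) = A(a,0) A(a,t)⁻¹ A(0,t)`. -/
noncomputable def redY (A : ℝ → ℝ → Matrix ι ι ℝ) (a t : ℝ) : Matrix ι ι ℝ :=
  A a 0 * (A a t)⁻¹ * A 0 t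

theorem redY_eq (_h : JData D A) {a : ℝ} (ha : IsUnit (A a 0)) (t : ℝ) :
    redY A a t = A a 0 * Hc A a 0 t * (A a 0)ᵀ := by
  have ha' := (Matrix.isUnit_iff_isUnit_det _).1 ha
  have e : ((A a 0)⁻¹)ᵀ * (A a 0)ᵀ = 1 := by
    rw [← Matrix.transpose_mul, Matrix.mul_nonsing_inv _ ha', Matrix.transpose_one]
  rw [redY, Hc]
  calc A a 0 * (A a t)⁻¹ * A 0 t = A a 0 * (A a t)⁻¹ * A 0 t * (((A a 0)⁻¹)ᵀ * (A a 0)ᵀ) := by
        rw [e, Matrix.mul_one]
    _ = _ := by simp only [Matrix.mul_assoc]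

theorem redY_symm (h : JData D A) {a t : ℝ} (ha : IsUnit (A a 0)) (ht : IsUnit (A a t)) :
    (redY A a t)ᵀ = redY A a t := by
  rw [redY_eq h ha, Matrix.transpose_mul, Matrix.transpose_mul, h.Hc_symm ha ht,
    Matrix.transpose_transpose, Matrix.mul_assoc]

theorem redY_contDiffAt (h : JData D A) {a t : ℝ} (ha : IsUnit (A a 0)) (ht : IsUnit (A a t))
    (i j : ι) : ContDiffAt ℝ ∞ (fun t => redY A a t i j) t := by
  have h1 : ContDiffAt ℝ ∞ (fun t => (A a 0 * Hc A a 0 t * (A a 0)ᵀ) i j) t :=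
    contDiffAt_mul_entry (f := fun t => A a 0 * Hc A a 0 t) (g := fun _ => (A a 0)ᵀ)
      (fun p q => contDiffAt_mul_entry (f := fun _ => A a 0) (g := fun t => Hc A a 0 t)
        (fun _ _ => contDiffAt_const) (fun p q => h.Hc_contDiffAt ha ht p q) p q)
      (fun _ _ => contDiffAt_const) i j
  simpa only [redY_eq h ha] using h1

theorem redY_hasDerivAt (h : JData D A) {a t : ℝ} (ha : IsUnit (A a 0)) (ht : IsUnit (A a t))
    (i j : ι) : HasDerivAt (fun t => redY A a t i j)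
      ((A a 0 * (Gm A a t)⁻¹ * (A a 0)ᵀ) i j) t := by
  have e : (fun t => redY A a t i j) = fun t => ∑ l, (∑ k, A a 0 i k * Hc A a 0 t k l)
      * (A a 0)ᵀ l j := by
    funext t
    rw [redY_eq h ha]
    simp only [Matrix.mul_apply]
  rw [e]
  show HasDerivAt _ (∑ l, (∑ k, A a 0 i k * (Gm A a t)⁻¹ k l) * (A a 0)ᵀ l j) t
  refine HasDerivAt.fun_sum fun l _ => ?_
  refine HasDerivAt.mul_const ?_ _
  refine HasDerivAt.fun_sum fun k _ => ?_
  exact (h.Hc_hasDerivAt ha ht k l).const_mul _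

theorem redY_zero (h : JData D A) (a : ℝ) : redY A a 0 = 0 := by
  rw [redY, h.diag, Matrix.mul_zero]

theorem redY_deriv_zero (_h : JData D A) {a : ℝ} (ha : IsUnit (A a 0)) :
    A a 0 * (Gm A a 0)⁻¹ * (A a 0)ᵀ = 1 := by
  have ha' := (Matrix.isUnit_iff_isUnit_det _).1 ha
  rw [Gm_inv]
  have e : ((A a 0)⁻¹)ᵀ * (A a 0)ᵀ = 1 := by
    rw [← Matrix.transpose_mul, Matrix.mul_nonsing_inv _ ha', Matrix.transpose_one]
  calc A a 0 * ((A a 0)⁻¹ * ((A a 0)⁻¹)ᵀ) * (A a 0)ᵀ
      = (A a 0 * (A a 0)⁻¹) * (((A a 0)⁻¹)ᵀ * (A a 0)ᵀ) := by simp only [Matrix.mul_assoc]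
    _ = 1 := by rw [e, Matrix.mul_nonsing_inv _ ha', Matrix.mul_one]

theorem redY_deriv_posDef (h : JData D A) {a t : ℝ} (ha : IsUnit (A a 0))
    (ht : IsUnit (A a t)) : (A a 0 * (Gm A a t)⁻¹ * (A a 0)ᵀ).PosDef := by
  have h1 := (h.Gm_posDef ht).inv
  have h2 := h1.mul_mul_conjTranspose_same (B := A a 0)
    (Matrix.vecMul_injective_iff_isUnit.2 ha)
  rwa [Matrix.conjTranspose_eq_transpose_of_trivial] at h2

theorem Hc_eq_neg_inv (h : JData D A) {a t : ℝ} (ht : IsUnit (A a t)) :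
    Hc A 0 a t = -(redY A a t)⁻¹ := by
  have ht' := (Matrix.isUnit_iff_isUnit_det _).1 ht
  rw [Hc, redY, Matrix.mul_inv_rev, Matrix.mul_inv_rev, Matrix.nonsing_inv_nonsing_inv _ ht',
    h.inv_anti a 0, Matrix.transpose_neg, Matrix.transpose_transpose, Matrix.mul_neg,
    Matrix.mul_assoc]

end Y

/-! ### The reduced system -/

section Reduced

variable {κ ν : Type*} [Fintype κ] [DecidableEq κ] [Fintype ν] [DecidableEq ν]
  {A : ℝ → ℝ → Matrix (κ ⊕ ν) (κ ⊕ ν) ℝ}

theorem red_unit {ι : Type*} [Fintype ι] [DecidableEq ι] {A : ℝ → ℝ → Matrix ι ι ℝ}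
    (h : JData (π / 2) A) {t : ℝ} (ht : sin (2 * t) ≠ 0) : IsUnit (A 0 t) := by
  have hper : Function.Periodic (A 0) π := by
    intro x
    have := h.per 0 x
    rwa [mul_div_cancel₀ π two_ne_zero] at this
  set n : ℤ := ⌊t / π⌋ with hn
  set t0 : ℝ := t - n * π with ht0
  have hπ := Real.pi_pos
  have h1 : 0 ≤ t0 := by
    have := Int.floor_le (t / π)
    rw [le_div_iff₀ hπ] at this
    rw [ht0]; linarith only [this]
  have h2 : t0 < π := by
    have := Int.lt_floor_add_one (t / π)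
    rw [div_lt_iff₀ hπ] at this
    rw [ht0]; linarith only [this]
  have h3 : A 0 t0 = A 0 t := by
    have := hper.sub_zsmul_eq (x := t) n
    rwa [zsmul_eq_mul] at this
  have h4 : sin (2 * t0) ≠ 0 := by
    have : 2 * t0 = 2 * t - n * (2 * π) := by rw [ht0]; ring
    rw [this, Real.sin_sub_int_mul_two_pi]
    exact ht
  rw [← h3]
  refine h.unit' ?_ (by linarith only [h2]) ?_
  · rcases h1.eq_or_lt with h5 | h5
    · exfalso; apply h4; rw [← h5]; simp
    · exact h5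
  · intro h5
    apply h4
    rw [h5, zero_add, mul_div_cancel₀ π two_ne_zero, Real.sin_pi]

theorem red_unit_a {ι : Type*} [Fintype ι] [DecidableEq ι] {A : ℝ → ℝ → Matrix ι ι ℝ}
    (h : JData (π / 2) A) {t : ℝ} (h1 : -(π / 4) < t) (h2 : t < 3 * π / 4) (h3 : t ≠ π / 4) :
    IsUnit (A (π / 4) t) := by
  rcases lt_or_gt_of_ne h3 with h4 | h4
  · exact h.unit_symm (h.unit t (π / 4) h4 (by linarith only [h1]))
  · exact h.unit (π / 4) t h4 (by linarith only [h2])

theorem red_unit_a0 {ι : Type*} [Fintype ι] [DecidableEq ι] {A : ℝ → ℝ → Matrix ι ι ℝ}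
    (h : JData (π / 2) A) : IsUnit (A (π / 4) 0) := by
  have hπ := Real.pi_pos
  exact red_unit_a h (by linarith only [hπ]) (by linarith) (by linarith only [hπ])

theorem red_punctured (t0 : ℝ) : ∀ᶠ t in 𝓝[≠] t0, sin (2 * t) ≠ 0 := by
  by_cases h0 : sin (2 * t0) = 0
  · have h1 : HasDerivAt (fun t : ℝ => sin (2 * t)) (cos (2 * t0) * 2) t0 := by
      have h5 : HasDerivAt (fun t : ℝ => 2 * t) 2 t0 := by
        simpa using (hasDerivAt_id t0).const_mul (2 : ℝ)
      exact h5.sin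
    have h2 : cos (2 * t0) * 2 ≠ 0 := by
      intro h3
      have h4 : cos (2 * t0) = 0 := by linarith
      have := Real.sin_sq_add_cos_sq (2 * t0)
      rw [h0, h4] at this
      norm_num at this
    have h3 := h1.eventually_ne (c := 0) h2
    exact h3
  · have : ContinuousAt (fun t : ℝ => sin (2 * t)) t0 := by (clear * -; fun_prop)
    exact nhdsWithin_le_nhds (this.eventually_ne h0)

/-- the matrix `P(t) = Y(t) / sin t`, extended by `1` at `0`. -/
noncomputable def redP {ι : Type*} [Fintype ι] [DecidableEq ι] (A : ℝ → ℝ → Matrix ι ι ℝ)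
    (t : ℝ) : Matrix ι ι ℝ :=
  if t = 0 then 1 else (sin t)⁻¹ • redY A (π / 4) t

theorem redP_contDiffAt {ι : Type*} [Fintype ι] [DecidableEq ι] {A : ℝ → ℝ → Matrix ι ι ℝ}
    (h : JData (π / 2) A) (i j : ι) : ContDiffAt ℝ 1 (fun t => redP A t i j) 0 := by
  have ha := red_unit_a0 h
  have h1 := red_dd (redY_contDiffAt h ha ha i j)
    (by rw [redY_zero h]; rfl)
  have h2 := red_dd (f := sin) (x := 0) Real.contDiff_sin.contDiffAt Real.sin_zero
  have h3 : deriv (fun t => redY A (π / 4) t i j) 0 = (1 : Matrix ι ι ℝ) i j := by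
    rw [(redY_hasDerivAt h ha ha i j).deriv, redY_deriv_zero h ha]
  have h4 := h1.div h2 (by simp)
  refine h4.congr_of_eventuallyEq ?_
  filter_upwards with t
  by_cases ht : t = 0
  · subst ht
    simp only [redP, ↓reduceIte, h3, sub_zero, Real.deriv_sin, cos_zero, Pi.div_apply, div_one]
  · simp only [redP, if_neg ht, Matrix.smul_apply, smul_eq_mul, sub_zero, Pi.div_apply]
    rcases eq_or_ne (sin t) 0 with hs | hs
    · rw [hs]; simp
    · (clear * - ht hs; field_simp)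

theorem redY_unit {ι : Type*} [Fintype ι] [DecidableEq ι] {A : ℝ → ℝ → Matrix ι ι ℝ}
    {a t : ℝ} (ha : IsUnit (A a 0)) (ht : IsUnit (A a t)) (h0 : IsUnit (A 0 t)) :
    IsUnit (redY A a t) :=
  (ha.mul (Matrix.isUnit_nonsing_inv_iff.2 ht)).mul h0

theorem redP_zero {ι : Type*} [Fintype ι] [DecidableEq ι] (A : ℝ → ℝ → Matrix ι ι ℝ) :
    redP A 0 = 1 := by simp [redP]

theorem redP_inv_contDiffAt {ι : Type*} [Fintype ι] [DecidableEq ι] {A : ℝ → ℝ → Matrix ι ι ℝ}
    (h : JData (π / 2) A) (i j : ι) : ContDiffAt ℝ 1 (fun t => (redP A t)⁻¹ i j) 0 :=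
  contDiffAt_inv_entry (redP_contDiffAt h) (by rw [redP_zero]; exact isUnit_one) i j

theorem redP_inv_eq {ι : Type*} [Fintype ι] [DecidableEq ι] {A : ℝ → ℝ → Matrix ι ι ℝ}
    {t : ℝ} (ht : t ≠ 0) (hs : sin t ≠ 0) (hu : IsUnit (redY A (π / 4) t)) :
    (redP A t)⁻¹ = sin t • (redY A (π / 4) t)⁻¹ := by
  rw [redP, if_neg ht]
  apply Matrix.inv_eq_right_inv
  rw [Matrix.smul_mul, Matrix.mul_smul, smul_smul, inv_mul_cancel₀ hs, one_smul,
    Matrix.mul_nonsing_inv _ ((Matrix.isUnit_iff_isUnit_det _).1 hu)]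

/-- `Y(t)` with the first block rows divided by `t - π / 2`. -/
noncomputable def redU (A : ℝ → ℝ → Matrix (κ ⊕ ν) (κ ⊕ ν) ℝ) (t : ℝ) :
    Matrix (κ ⊕ ν) (κ ⊕ ν) ℝ :=
  Matrix.of fun x y => Sum.elim
    (fun i : κ => if t = π / 2 then deriv (fun s => redY A (π / 4) s (Sum.inl i) y) (π / 2)
      else redY A (π / 4) t (Sum.inl i) y / (t - π / 2))
    (fun j : ν => redY A (π / 4) t (Sum.inr j) y) x

theorem redU_inl (A : ℝ → ℝ → Matrix (κ ⊕ ν) (κ ⊕ ν) ℝ) (t : ℝ) (i : κ) (y : κ ⊕ ν) :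
    redU A t (Sum.inl i) y =
      if t = π / 2 then deriv (fun s => redY A (π / 4) s (Sum.inl i) y) (π / 2)
      else redY A (π / 4) t (Sum.inl i) y / (t - π / 2) := rfl

theorem redU_inr (A : ℝ → ℝ → Matrix (κ ⊕ ν) (κ ⊕ ν) ℝ) (t : ℝ) (j : ν) (y : κ ⊕ ν) :
    redU A t (Sum.inr j) y = redY A (π / 4) t (Sum.inr j) y := rfl

theorem red_unit_half {ι : Type*} [Fintype ι] [DecidableEq ι] {A : ℝ → ℝ → Matrix ι ι ℝ}
    (h : JData (π / 2) A) : IsUnit (A (π / 4) (π / 2)) := by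
  have hπ := Real.pi_pos
  exact red_unit_a h (by linarith) (by linarith only [hπ]) (by linarith)

theorem redY_half_mulVec (h : JData (π / 2) A) (ha : Adapted A) (v : κ ⊕ ν → ℝ) :
    redY A (π / 4) (π / 2) *ᵥ v = 0 ↔ ∀ j, v (Sum.inr j) = 0 := by
  rw [← ha v]
  have h1 : IsUnit (A (π / 4) 0 * (A (π / 4) (π / 2))⁻¹) :=
    (red_unit_a0 h).mul (Matrix.isUnit_nonsing_inv_iff.2 (red_unit_half h))
  rw [redY, ← Matrix.mulVec_mulVec]
  constructor
  · intro h2
    have h3 := Matrix.mulVec_injective_iff_isUnit.2 h1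
    apply h3
    rw [h2, Matrix.mulVec_zero]
  · intro h2
    rw [h2, Matrix.mulVec_zero]

theorem redY_half_inl (h : JData (π / 2) A) (ha : Adapted A) (x : κ ⊕ ν) (i : κ) :
    redY A (π / 4) (π / 2) x (Sum.inl i) = 0 := by
  have h1 := (redY_half_mulVec h ha (Pi.single (Sum.inl i) 1)).2 (fun j => by simp)
  have h2 := congrFun h1 x
  simpa using h2

theorem redY_half_inl' (h : JData (π / 2) A) (ha : Adapted A) (i : κ) (y : κ ⊕ ν) :
    redY A (π / 4) (π / 2) (Sum.inl i) y = 0 := by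
  have h1 := redY_symm h (red_unit_a0 h) (red_unit_half h)
  rw [← h1, Matrix.transpose_apply]
  exact redY_half_inl h ha y i

theorem redU_contDiffAt (h : JData (π / 2) A) (ha : Adapted A) (x y : κ ⊕ ν) :
    ContDiffAt ℝ 1 (fun t => redU A t x y) (π / 2) := by
  have h1 := redY_contDiffAt h (red_unit_a0 h) (red_unit_half h)
  rcases x with i | j
  · exact red_dd (h1 (Sum.inl i) y) (redY_half_inl' h ha i y)
  · exact (h1 (Sum.inr j) y).of_le
      (show ((1 : ℕ∞) : WithTop ℕ∞) ≤ ((⊤ : ℕ∞) : WithTop ℕ∞) from WithTop.coe_le_coe.mpr le_top)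

theorem redU_unit (h : JData (π / 2) A) (ha : Adapted A) : IsUnit (redU A (π / 2)) := by
  have h1 : (redU A (π / 2)).toBlocks₂₁ = 0 := by
    ext j i
    exact redY_half_inl h ha (Sum.inr j) i
  have hpd := redY_deriv_posDef h (red_unit_a0 h) (red_unit_half h)
  have h2 : (redU A (π / 2)).toBlocks₁₁ =
      (A (π / 4) 0 * (Gm A (π / 4) (π / 2))⁻¹ * (A (π / 4) 0)ᵀ).submatrix Sum.inl Sum.inl := by
    ext i j
    show redU A (π / 2) (Sum.inl i) (Sum.inl j) = _
    rw [redU_inl, if_pos rfl,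
      (redY_hasDerivAt h (red_unit_a0 h) (red_unit_half h) (Sum.inl i) (Sum.inl j)).deriv]
    rfl
  have h3 : IsUnit ((redU A (π / 2)).toBlocks₁₁).det := by
    rw [h2]
    exact isUnit_iff_ne_zero.2 (hpd.submatrix Sum.inl_injective).det_pos.ne'
  have h4 : IsUnit ((redU A (π / 2)).toBlocks₂₂).det := by
    rw [← Matrix.isUnit_iff_isUnit_det, ← Matrix.mulVec_injective_iff_isUnit]
    intro v w hvw
    have h5 : (redU A (π / 2)).toBlocks₂₂ *ᵥ (v - w) = 0 := by
      rw [Matrix.mulVec_sub, sub_eq_zero]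
      exact hvw
    have h6 : redY A (π / 4) (π / 2) *ᵥ (Sum.elim 0 (v - w)) = 0 := by
      ext x
      rcases x with i | j
      · simp only [mulVec, dotProduct, redY_half_inl' h ha, zero_mul, Finset.sum_const_zero, Pi.zero_apply]
      · have := congrFun h5 j
        simp only [Matrix.mulVec, dotProduct, Fintype.sum_sum_type, Sum.elim_inl, Sum.elim_inr,
          Pi.zero_apply, mul_zero, Finset.sum_const_zero, zero_add] at this ⊢
        exact this
    have h7 := (redY_half_mulVec h ha _).1 h6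
    ext j
    have := h7 j
    simp only [Sum.elim_inr, Pi.sub_apply] at this
    linarith only [this]
  rw [Matrix.isUnit_iff_isUnit_det, ← Matrix.fromBlocks_toBlocks (redU A (π / 2)), h1,
    Matrix.det_fromBlocks_zero₂₁]
  exact h3.mul h4

theorem redU_inv_contDiffAt (h : JData (π / 2) A) (ha : Adapted A) (x y : κ ⊕ ν) :
    ContDiffAt ℝ 1 (fun t => (redU A t)⁻¹ x y) (π / 2) :=
  contDiffAt_inv_entry (redU_contDiffAt h ha) (redU_unit h ha) x y

theorem redU_inv_eq (A : ℝ → ℝ → Matrix (κ ⊕ ν) (κ ⊕ ν) ℝ) {t : ℝ} (ht : t ≠ π / 2)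
    (x : κ ⊕ ν) (j : ν) :
    (redU A t)⁻¹ x (Sum.inr j) = (redY A (π / 4) t)⁻¹ x (Sum.inr j) := by
  set E : Matrix (κ ⊕ ν) (κ ⊕ ν) ℝ :=
    Matrix.diagonal (Sum.elim (fun _ => t - π / 2) (fun _ => 1)) with hE
  have ht' : t - π / 2 ≠ 0 := sub_ne_zero.2 ht
  have h1 : redY A (π / 4) t = E * redU A t := by
    ext x y
    rw [hE, Matrix.diagonal_mul]
    rcases x with i | j
    · rw [Sum.elim_inl, redU_inl, if_neg ht]
      exact (mul_div_cancel₀ _ ht').symm
    · rw [Sum.elim_inr, redU_inr, one_mul]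
  have h2 : E⁻¹ = Matrix.diagonal (Sum.elim (fun _ => (t - π / 2)⁻¹) (fun _ => 1)) := by
    apply Matrix.inv_eq_right_inv
    rw [hE, Matrix.diagonal_mul_diagonal, ← Matrix.diagonal_one]
    congr 1
    ext x
    rcases x with i | j
    · simp [ht']
    · simp
  rw [h1, Matrix.mul_inv_rev, h2, Matrix.mul_diagonal, Sum.elim_inr, mul_one]

/-- the reduced `cos`-like matrix -/
noncomputable def redC (A : ℝ → ℝ → Matrix (κ ⊕ ν) (κ ⊕ ν) ℝ) (t : ℝ) : Matrix ν ν ℝ :=
  if sin t = 0 then cos t • 1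
  else if cos t = 0 then sin t • ((redU A (π / 2))⁻¹).toBlocks₂₂
  else -(sin t) • (Hc A 0 (π / 4) t).toBlocks₂₂

theorem red_sin_two_ne {t : ℝ} : sin (2 * t) ≠ 0 ↔ sin t ≠ 0 ∧ cos t ≠ 0 := by
  rw [Real.sin_two_mul]
  constructor
  · intro h
    exact ⟨fun h1 => h (by rw [h1]; ring), fun h1 => h (by rw [h1]; ring)⟩
  · rintro ⟨h1, h2⟩
    exact mul_ne_zero (mul_ne_zero two_ne_zero h1) h2

theorem redC_regular (A : ℝ → ℝ → Matrix (κ ⊕ ν) (κ ⊕ ν) ℝ) {t : ℝ} (ht : sin (2 * t) ≠ 0) :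
    redC A t = -(sin t) • (Hc A 0 (π / 4) t).toBlocks₂₂ := by
  obtain ⟨h1, h2⟩ := red_sin_two_ne.1 ht
  rw [redC, if_neg h1, if_neg h2]

theorem redC_of_sin (A : ℝ → ℝ → Matrix (κ ⊕ ν) (κ ⊕ ν) ℝ) {t : ℝ} (ht : sin t = 0) :
    redC A t = cos t • 1 := by
  rw [redC, if_pos ht]

theorem redC_anti (h : JData (π / 2) A) (t : ℝ) : redC A (t + π) = -redC A t := by
  have hper : Hc A 0 (π / 4) (t + π) = Hc A 0 (π / 4) t := by
    have e : ∀ s, A s (t + π) = A s t := by
      intro s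
      have := h.per s t
      rwa [mul_div_cancel₀ π two_ne_zero] at this
    rw [Hc, Hc, e, e]
  rw [redC, redC, Real.sin_add_pi, Real.cos_add_pi, hper]
  simp only [neg_eq_zero]
  split_ifs
  · rw [neg_smul]
  · rw [neg_smul]
  · rw [neg_smul (-sin t)]

theorem redC_contDiffAt_regular (h : JData (π / 2) A) {t : ℝ} (ht : sin (2 * t) ≠ 0) (i j : ν) :
    ContDiffAt ℝ 1 (fun t => redC A t i j) t := by
  have hπ := Real.pi_pos
  have hb : IsUnit (A 0 (π / 4)) := h.unit 0 (π / 4) (by linarith) (by linarith only [hπ])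
  have h1 := (h.Hc_contDiffAt hb (red_unit h ht) (Sum.inr i) (Sum.inr j)).of_le
    (show ((1 : ℕ∞) : WithTop ℕ∞) ≤ ((⊤ : ℕ∞) : WithTop ℕ∞) from WithTop.coe_le_coe.mpr le_top)
  have h2 : ContDiffAt ℝ 1 (fun t => -(sin t)) t := Real.contDiff_sin.contDiffAt.neg
  refine (h2.mul h1).congr_of_eventuallyEq ?_
  have h3 : ContinuousAt (fun t : ℝ => sin (2 * t)) t := by (clear * -; fun_prop)
  filter_upwards [h3.eventually_ne ht] with s hs
  rw [redC_regular A hs]
  rfl

theorem redC_contDiffAt_zero (h : JData (π / 2) A) (i j : ν) :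
    ContDiffAt ℝ 1 (fun t => redC A t i j) 0 := by
  have hπ := Real.pi_pos
  refine (redP_inv_contDiffAt h (Sum.inr i) (Sum.inr j)).congr_of_eventuallyEq ?_
  filter_upwards [Ioo_mem_nhds (show -(π / 4) < 0 by linarith only [hπ]) (show (0 : ℝ) < π / 4 by linarith)]
    with t ht
  rcases eq_or_ne t 0 with rfl | h0
  · rw [redC_of_sin A Real.sin_zero, Real.cos_zero, one_smul, redP_zero, inv_one,
      Matrix.one_apply, Matrix.one_apply]
    simp
  · have hs : sin t ≠ 0 := by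
      rcases lt_or_gt_of_ne h0 with h1 | h1
      · exact (Real.sin_neg_of_neg_of_neg_pi_lt h1 (by linarith only [h1, ht.1])).ne
      · exact (Real.sin_pos_of_pos_of_lt_pi h1 (by linarith [ht.2])).ne'
    have hc : cos t ≠ 0 :=
      (Real.cos_pos_of_mem_Ioo ⟨by linarith [ht.1], by linarith [ht.2]⟩).ne'
    have h2 := red_sin_two_ne.2 ⟨hs, hc⟩
    have hu := red_unit_a h ht.1 (by linarith [ht.2]) ht.2.ne
    rw [redC_regular A h2, Hc_eq_neg_inv h hu,
      redP_inv_eq h0 hs (redY_unit (red_unit_a0 h) hu (red_unit h h2))]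
    simp only [toBlocks₂₂, Matrix.neg_apply, Matrix.smul_apply, of_apply, smul_eq_mul, mul_neg, neg_mul, neg_neg]

theorem redC_contDiffAt_half (h : JData (π / 2) A) (ha : Adapted A) (i j : ν) :
    ContDiffAt ℝ 1 (fun t => redC A t i j) (π / 2) := by
  have hπ := Real.pi_pos
  have h2 : ContDiffAt ℝ 1 (fun t => sin t) (π / 2) := Real.contDiff_sin.contDiffAt
  refine (h2.mul (redU_inv_contDiffAt h ha (Sum.inr i) (Sum.inr j))).congr_of_eventuallyEq ?_
  filter_upwards [Ioo_mem_nhds (show π / 4 < π / 2 by linarith)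
    (show (π / 2 : ℝ) < 3 * π / 4 by linarith)] with t ht
  have hs : sin t ≠ 0 :=
    (Real.sin_pos_of_pos_of_lt_pi (by linarith [ht.1]) (by linarith only [hπ, ht.2])).ne'
  rcases eq_or_ne t (π / 2) with rfl | h0
  · rw [redC, if_neg hs, if_pos Real.cos_pi_div_two]
    rfl
  · have hc : cos t ≠ 0 := by
      rcases lt_or_gt_of_ne h0 with h1 | h1
      · exact (Real.cos_pos_of_mem_Ioo ⟨by linarith only [hπ, ht.1], by linarith only [h1]⟩).ne'
      · exact (Real.cos_neg_of_pi_div_two_lt_of_lt h1 (by linarith only [hπ, ht.2])).ne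
    have h2 := red_sin_two_ne.2 ⟨hs, hc⟩
    have hu := red_unit_a h (by linarith only [hπ, ht.1]) ht.2 ht.1.ne'
    rw [redC_regular A h2, Hc_eq_neg_inv h hu, redU_inv_eq A h0]
    simp only [toBlocks₂₂, Matrix.neg_apply, Matrix.smul_apply, of_apply, smul_eq_mul, mul_neg, neg_mul, neg_neg]

theorem redC_contDiffAt (h : JData (π / 2) A) (ha : Adapted A) (i j : ν) (t0 : ℝ) :
    ContDiffAt ℝ 1 (fun t => redC A t i j) t0 := by
  by_cases ht : sin (2 * t0) = 0
  · -- reduce to `t0 = 0` or `t0 = π / 2` by antiperiodicity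
    have key : ∀ (n : ℤ) (x : ℝ), ContDiffAt ℝ 1 (fun t => redC A t i j) x →
        ContDiffAt ℝ 1 (fun t => redC A t i j) (x + n * π) := by
      intro n x hx
      have hanti : Function.Antiperiodic (fun t => redC A t i j) π := by
        intro t
        show redC A (t + π) i j = -redC A t i j
        rw [redC_anti h]
        rfl
      have h1 : ∀ t, redC A t i j = ((n.negOnePow : ℤ) : ℝ) * redC A (t - n * π) i j := by
        intro t
        have := hanti.add_int_mul_eq (x := t - n * π) n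
        simp only [sub_add_cancel] at this
        exact this
      have h2 : ContDiffAt ℝ 1 (fun t => redC A (t - n * π) i j) (x + n * π) := by
        have h3 : ContDiffAt ℝ 1 (fun t : ℝ => t - n * π) (x + n * π) :=
          contDiffAt_id.sub contDiffAt_const
        exact ContDiffAt.comp (x + n * π) (g := fun t => redC A t i j)
          (by rw [add_sub_cancel_right]; exact hx) h3
      have h5 := contDiffAt_const (c := ((n.negOnePow : ℤ) : ℝ)).mul h2
      refine h5.congr_of_eventuallyEq ?_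
      filter_upwards with t
      exact h1 t
    rw [Real.sin_two_mul] at ht
    rcases mul_eq_zero.1 ht with h1 | h1
    · have h2 : sin t0 = 0 := by
        rcases mul_eq_zero.1 h1 with h3 | h3
        · norm_num at h3
        · exact h3
      obtain ⟨n, hn⟩ := Real.sin_eq_zero_iff.1 h2
      have := key n 0 (redC_contDiffAt_zero h i j)
      rwa [zero_add, hn] at this
    · obtain ⟨n, hn⟩ := Real.cos_eq_zero_iff.1 h1
      have := key n (π / 2) (redC_contDiffAt_half h ha i j)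
      rwa [show π / 2 + n * π = t0 by rw [hn]; ring] at this
  · exact redC_contDiffAt_regular h ht i j

theorem red_eq_of_regular {f g : ℝ → ℝ} {t0 : ℝ} (hf : ContinuousAt f t0)
    (hg : ContinuousAt g t0) (hfg : ∀ t, sin (2 * t) ≠ 0 → f t = g t) : f t0 = g t0 := by
  refine tendsto_nhds_unique_of_eventuallyEq (hf.tendsto.mono_left nhdsWithin_le_nhds)
    (hg.tendsto.mono_left nhdsWithin_le_nhds) (l := 𝓝[≠] t0) ?_
  filter_upwards [red_punctured t0] with t ht
  exact hfg t ht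

theorem red_le_of_regular {f g : ℝ → ℝ} {t0 : ℝ} (hf : ContinuousAt f t0)
    (hg : ContinuousAt g t0) (hfg : ∀ t, sin (2 * t) ≠ 0 → f t ≤ g t) : f t0 ≤ g t0 := by
  refine le_of_tendsto_of_tendsto (hf.tendsto.mono_left nhdsWithin_le_nhds)
    (hg.tendsto.mono_left nhdsWithin_le_nhds) (b := 𝓝[≠] t0) ?_
  filter_upwards [red_punctured t0] with t ht
  exact hfg t ht

/-- derivative of `redC` -/
noncomputable def redC' (A : ℝ → ℝ → Matrix (κ ⊕ ν) (κ ⊕ ν) ℝ) (t : ℝ) : Matrix ν ν ℝ :=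
  Matrix.of fun i j => deriv (fun s => redC A s i j) t

theorem redC_contDiff (h : JData (π / 2) A) (ha : Adapted A) (i j : ν) :
    ContDiff ℝ 1 (fun t => redC A t i j) :=
  contDiff_iff_contDiffAt.2 fun t => redC_contDiffAt h ha i j t

theorem redC_hasDerivAt (h : JData (π / 2) A) (ha : Adapted A) (t : ℝ) (i j : ν) :
    HasDerivAt (fun t => redC A t i j) (redC' A t i j) t :=
  (((redC_contDiff h ha i j).differentiable one_ne_zero) t).hasDerivAt

theorem redC'_continuous (h : JData (π / 2) A) (ha : Adapted A) (i j : ν) :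
    Continuous (fun t => redC' A t i j) :=
  (contDiff_one_iff_deriv.1 (redC_contDiff h ha i j)).2

theorem redC_continuous (h : JData (π / 2) A) (ha : Adapted A) (i j : ν) :
    Continuous (fun t => redC A t i j) := (redC_contDiff h ha i j).continuous

theorem redC_symm (h : JData (π / 2) A) (ha : Adapted A) (t : ℝ) (i j : ν) :
    redC A t i j = redC A t j i := by
  have hπ := Real.pi_pos
  have hb : IsUnit (A 0 (π / 4)) := h.unit 0 (π / 4) (by linarith) (by linarith only [hπ])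
  refine red_eq_of_regular (f := fun t => redC A t i j) (g := fun t => redC A t j i)
    (redC_continuous h ha i j).continuousAt (redC_continuous h ha j i).continuousAt ?_
  intro t ht
  have h1 := h.Hc_symm hb (red_unit h ht)
  have h2 := congrFun (congrFun h1 (Sum.inr i)) (Sum.inr j)
  rw [Matrix.transpose_apply] at h2
  show redC A t i j = redC A t j i
  rw [redC_regular A ht]
  show -(sin t) * Hc A 0 (π / 4) t (Sum.inr i) (Sum.inr j)
    = -(sin t) * Hc A 0 (π / 4) t (Sum.inr j) (Sum.inr i)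
  rw [h2]

theorem redC'_symm (h : JData (π / 2) A) (ha : Adapted A) (t : ℝ) (i j : ν) :
    redC' A t i j = redC' A t j i := by
  show deriv (fun s => redC A s i j) t = deriv (fun s => redC A s j i) t
  congr 1
  funext s
  exact redC_symm h ha s i j

theorem redC_rel (h : JData (π / 2) A) (ha : Adapted A) {t : ℝ} (ht : sin (2 * t) ≠ 0) :
    cos t • redC A t - sin t • redC' A t = (sin t) ^ 2 • ((Gm A 0 t)⁻¹).toBlocks₂₂ := by
  have hπ := Real.pi_pos
  have hb : IsUnit (A 0 (π / 4)) := h.unit 0 (π / 4) (by linarith) (by linarith)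
  ext i j
  have h1 := h.Hc_hasDerivAt hb (red_unit h ht) (Sum.inr i) (Sum.inr j)
  have h2 := (Real.hasDerivAt_sin t).neg.mul h1
  have h3 : HasDerivAt (fun t => redC A t i j)
      (-cos t * Hc A 0 (π / 4) t (Sum.inr i) (Sum.inr j)
        + -sin t * (Gm A 0 t)⁻¹ (Sum.inr i) (Sum.inr j)) t := by
    refine h2.congr_of_eventuallyEq ?_
    have h3 : ContinuousAt (fun t : ℝ => sin (2 * t)) t := by (clear * -; fun_prop)
    filter_upwards [h3.eventually_ne ht] with s hs
    rw [redC_regular A hs]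
    rfl
  have h4 := (redC_hasDerivAt h ha t i j).unique h3
  rw [Matrix.sub_apply, Matrix.smul_apply, Matrix.smul_apply, Matrix.smul_apply, h4,
    redC_regular A ht]
  simp only [Matrix.smul_apply, smul_eq_mul, Matrix.toBlocks₂₂, Matrix.of_apply]
  ring

/-- `|Aᵀ z|² ≤ tr (Aᵀ A) |z|²`, applied to `v = Aᵀ z`. -/
theorem red_inv_bound {ι : Type*} [Fintype ι] [DecidableEq ι] {M : Matrix ι ι ℝ}
    (hM : IsUnit M) (v : ι → ℝ) :
    v ⬝ᵥ v ≤ (Mᵀ * M).trace * (v ⬝ᵥ ((Mᵀ * M)⁻¹ *ᵥ v)) := by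
  have hM' := (Matrix.isUnit_iff_isUnit_det _).1 hM
  set z : ι → ℝ := (M⁻¹)ᵀ *ᵥ v with hz
  have h1 : v = Mᵀ *ᵥ z := by
    rw [hz, Matrix.mulVec_mulVec, ← Matrix.transpose_mul, Matrix.nonsing_inv_mul _ hM',
      Matrix.transpose_one, Matrix.one_mulVec]
  have h2 : v ⬝ᵥ ((Mᵀ * M)⁻¹ *ᵥ v) = z ⬝ᵥ z := by
    rw [Matrix.mul_inv_rev, ← Matrix.mulVec_mulVec, Matrix.dotProduct_mulVec,
      ← Matrix.mulVec_transpose, ← Matrix.transpose_nonsing_inv]
  rw [h2, Matrix.trace, dotProduct, Finset.sum_mul]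
  refine Finset.sum_le_sum fun i _ => ?_
  rw [Matrix.diag_apply, Matrix.mul_apply]
  have h3 : v i = ∑ j, M j i * z j := by
    conv_lhs => rw [h1]
    rfl
  rw [h3, ← sq]
  simp only [Matrix.transpose_apply, dotProduct, ← sq]
  exact Finset.sum_mul_sq_le_sq_mul_sq _ _ _

theorem red_bound (h : JData (π / 2) A) (ha : Adapted A) (v : ν → ℝ) (t : ℝ) :
    (sin t) ^ 2 * (v ⬝ᵥ v) ≤
      (Gm A 0 t).trace * (v ⬝ᵥ ((cos t • redC A t - sin t • redC' A t) *ᵥ v)) := by
  have c1 : ∀ i j, Continuous fun t => (cos t • redC A t - sin t • redC' A t) i j := by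
    intro i j
    have h1 := redC_continuous h ha i j
    have h2 := redC'_continuous h ha i j
    simp only [Matrix.sub_apply, Matrix.smul_apply, smul_eq_mul]
    fun_prop
  refine red_le_of_regular (f := fun t => (sin t) ^ 2 * (v ⬝ᵥ v)) (g := fun t =>
    (Gm A 0 t).trace * (v ⬝ᵥ ((cos t • redC A t - sin t • redC' A t) *ᵥ v))) ?_ ?_ ?_
  · (clear * -; fun_prop)
  · apply Continuous.continuousAt
    apply Continuous.mul
    · simp only [Matrix.trace, Matrix.diag_apply]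
      exact continuous_finsetSum _ fun i _ => (h.Gm_contDiff 0 i i).continuous
    · simp only [dotProduct, Matrix.mulVec]
      refine continuous_finsetSum _ fun i _ => continuous_const.mul ?_
      exact continuous_finsetSum _ fun j _ => (c1 i j).mul continuous_const
  · intro t ht
    show (sin t) ^ 2 * (v ⬝ᵥ v) ≤
      (Gm A 0 t).trace * (v ⬝ᵥ ((cos t • redC A t - sin t • redC' A t) *ᵥ v))
    rw [redC_rel h ha ht, Matrix.smul_mulVec, dotProduct_smul, smul_eq_mul, ← mul_assoc,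
      mul_comm _ ((sin t) ^ 2), mul_assoc]
    refine mul_le_mul_of_nonneg_left ?_ (sq_nonneg _)
    have h1 := red_inv_bound (red_unit h ht) (Sum.elim (0 : κ → ℝ) v)
    have h2 : (Sum.elim (0 : κ → ℝ) v) ⬝ᵥ (Sum.elim (0 : κ → ℝ) v) = v ⬝ᵥ v := by
      simp only [dotProduct, Fintype.sum_sum_type, Sum.elim_inl, Pi.zero_apply, mul_zero, Finset.sum_const_zero, Sum.elim_inr, zero_add]
    have h3 : (Sum.elim (0 : κ → ℝ) v) ⬝ᵥ (((A 0 t)ᵀ * A 0 t)⁻¹ *ᵥ (Sum.elim (0 : κ → ℝ) v))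
        = v ⬝ᵥ (((Gm A 0 t)⁻¹).toBlocks₂₂ *ᵥ v) := by
      simp only [dotProduct, mulVec, Fintype.sum_sum_type, Sum.elim_inl, Pi.zero_apply, mul_zero, Finset.sum_const_zero, Sum.elim_inr, zero_add, zero_mul, toBlocks₂₂, Gm, of_apply]
    rw [h2, h3] at h1
    exact h1

theorem redC_pos (h : JData (π / 2) A) (ha : Adapted A) (t : ℝ) :
    (cos t • redC A t - sin t • redC' A t).PosDef := by
  by_cases hs : sin t = 0
  · have h1 : cos t * cos t = 1 := by
      have := Real.sin_sq_add_cos_sq t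
      rw [hs] at this
      linarith
    rw [redC_of_sin A hs, hs, zero_smul, sub_zero, smul_smul, h1, one_smul]
    exact Matrix.PosDef.one
  · refine Matrix.PosDef.of_dotProduct_mulVec_pos ?_ ?_
    · ext i j
      simp only [Matrix.conjTranspose_apply, Matrix.sub_apply, Matrix.smul_apply, smul_eq_mul,
        star_trivial]
      rw [redC_symm h ha t j i, redC'_symm h ha t j i]
    · intro v hv
      rw [star_trivial]
      have h1 := red_bound h ha v t
      have h2 : 0 < v ⬝ᵥ v := by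
        have := Matrix.dotProduct_star_self_pos_iff.2 hv
        rwa [star_trivial] at this
      have h3 : 0 < (sin t) ^ 2 * (v ⬝ᵥ v) := mul_pos (by (clear * - hs; positivity)) h2
      have h4 : 0 ≤ (Gm A 0 t).trace := by
        have : (Gm A 0 t).PosSemidef := by
          have := Matrix.posSemidef_conjTranspose_mul_self (A 0 t)
          rwa [Matrix.conjTranspose_eq_transpose_of_trivial] at this
        exact this.trace_nonneg
      by_contra h5
      push Not at h5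
      have := mul_nonpos_of_nonneg_of_nonpos h4 h5
      linarith only [h1, h3, this]

theorem JData.exists_CData (h : JData (π / 2) A) (ha : Adapted A) :
    ∃ C C' : ℝ → Matrix ν ν ℝ, CData C C' ∧ ∀ t, sin (2 * t) ≠ 0 →
      C t = -(sin t) • (Hc A 0 (π / 4) t).toBlocks₂₂ ∧
      cos t • C t - sin t • C' t = (sin t) ^ 2 • ((Gm A 0 t)⁻¹).toBlocks₂₂ := by
  refine ⟨redC A, redC' A, ⟨redC_hasDerivAt h ha, redC'_continuous h ha, ?_, redC_anti h, ?_,
    redC_pos h ha⟩, fun t ht => ⟨redC_regular A ht, redC_rel h ha ht⟩⟩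
  · intro t
    ext i j
    rw [Matrix.transpose_apply]
    exact redC_symm h ha t j i
  · rw [redC_of_sin A Real.sin_zero, Real.cos_zero, one_smul]

end Reduced

end Vale.Agent.P231
end
end

section

section

/-! P231 core C2: a maximum principle. -/

open Real Set Filter Topology

namespace Vale.Agent.P231

noncomputable section

/-- A function with vanishing first and negative second derivative has no local minimum. -/
theorem cmp_no_min {v v' : ℝ → ℝ} {a b r0 c : ℝ} (hr0 : r0 ∈ Ioo a b)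
    (h1 : ∀ r ∈ Ioo a b, HasDerivAt v (v' r) r) (h2 : HasDerivAt v' c r0)
    (hmin : IsLocalMin v r0) : 0 ≤ c := by
  by_contra hc
  push Not at hc
  have hv0 : v' r0 = 0 := hmin.hasDerivAt_eq_zero (h1 r0 hr0)
  have hs := (hasDerivAt_iff_tendsto_slope.1 h2).eventually (gt_mem_nhds hc)
  have hs2 : ∀ᶠ r in 𝓝[>] r0, v' r < 0 := by
    have h3 : ∀ᶠ r in 𝓝[>] r0, slope v' r0 r < 0 :=
      nhdsWithin_mono r0 (fun x (hx : r0 < x) => ne_of_gt hx) hs
    filter_upwards [h3, self_mem_nhdsWithin] with r hr hr'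
    have hpos : 0 < r - r0 := sub_pos.2 hr'
    rw [slope_def_field, hv0, sub_zero] at hr
    rcases div_neg_iff.1 hr with h | h
    · linarith only [hpos, h]
    · exact h.1
  have hs3 : ∀ᶠ r in 𝓝[>] r0, v r0 ≤ v r := nhdsWithin_le_nhds hmin
  have hs4 : ∀ᶠ r in 𝓝[>] r0, r < b := nhdsWithin_le_nhds (gt_mem_nhds hr0.2)
  have hall := (hs2.and (hs3.and hs4))
  obtain ⟨d, hd, hsub⟩ := mem_nhdsGT_iff_exists_Ioo_subset.1 hall
  obtain ⟨x, hx⟩ := exists_between (show r0 < d from hd)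
  have hxm : x ∈ Ioo r0 d := hx
  obtain ⟨-, hx3, hx4⟩ := hsub hxm
  have hcont : ContinuousOn v (Icc r0 x) := by
    intro y hy
    refine (h1 y ⟨?_, ?_⟩).continuousAt.continuousWithinAt
    · exact lt_of_lt_of_le hr0.1 hy.1
    · exact lt_of_le_of_lt hy.2 hx4
  have hanti : StrictAntiOn v (Icc r0 x) := by
    refine strictAntiOn_of_deriv_neg (convex_Icc r0 x) hcont ?_
    intro y hy
    rw [interior_Icc] at hy
    have hyab : y ∈ Ioo a b := ⟨lt_trans hr0.1 hy.1, lt_trans hy.2 hx4⟩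
    rw [(h1 y hyab).deriv]
    exact (hsub ⟨hy.1, lt_trans hy.2 hx.2⟩).1
  have := hanti (left_mem_Icc.2 hx.1.le) (right_mem_Icc.2 hx.1.le) hx.1
  linarith only [hx3, this]

theorem comparison {k T : ℝ} (hk : 0 < k) (hT : k * T = π) {u u' u'' : ℝ → ℝ}
    (h1 : ∀ r ∈ Ioo 0 T, HasDerivAt u (u' r) r)
    (h2 : ∀ r ∈ Ioo 0 T, HasDerivAt u' (u'' r) r)
    (h3 : ∀ r ∈ Ioo 0 T, u'' r ≤ 2 * k ^ 2 / (sin (k * r)) ^ 2 * u r)
    (h0 : ∀ ε > 0, ∀ᶠ r in 𝓝[>] (0 : ℝ), -ε ≤ sin (k * r) * u r)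
    (h4 : ∀ ε > 0, ∀ᶠ r in 𝓝[<] T, -ε ≤ sin (k * r) * u r) :
    ∀ r ∈ Ioo 0 T, 0 ≤ u r := by
  have hTpos : 0 < T := by
    have := Real.pi_pos
    rw [← hT] at this
    exact (pos_iff_pos_of_mul_pos this).1 hk
  have hsin : ∀ r ∈ Ioo 0 T, 0 < sin (k * r) := by
    intro r hr
    refine sin_pos_of_pos_of_lt_pi (mul_pos hk hr.1) ?_
    rw [← hT]
    exact mul_lt_mul_of_pos_left hr.2 hk
  -- key claim
  have key : ∀ ε > 0, ∀ r ∈ Ioo 0 T, 0 ≤ sin (k * r) * u r + ε := by
    intro ε hε r1 hr1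
    by_contra hneg
    push Not at hneg
    set v : ℝ → ℝ := fun r => u r + ε * (sin (k * r))⁻¹ with hv
    set v' : ℝ → ℝ := fun r => u' r + ε * (-(k * cos (k * r)) / (sin (k * r)) ^ 2) with hv'
    have hdk : ∀ r : ℝ, HasDerivAt (fun r => k * r) k r := fun r => by
      simpa using (hasDerivAt_id r).const_mul k
    have hds : ∀ r : ℝ, HasDerivAt (fun r => sin (k * r)) (k * cos (k * r)) r := fun r => by
      have := (hasDerivAt_sin (k * r)).comp r (hdk r)
      rw [mul_comm] at this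
      exact this
    have hdc : ∀ r : ℝ, HasDerivAt (fun r => cos (k * r)) (-(k * sin (k * r))) r := fun r => by
      have := (hasDerivAt_cos (k * r)).comp r (hdk r)
      have e : -sin (k * r) * k = -(k * sin (k * r)) := by ring
      rw [e] at this
      exact this
    have hv1 : ∀ r ∈ Ioo 0 T, HasDerivAt v (v' r) r := by
      intro r hr
      have hne := (hsin r hr).ne'
      exact (h1 r hr).add (((hds r).inv hne).const_mul ε)
    have hv2 : ∀ r ∈ Ioo 0 T, HasDerivAt v'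
        (u'' r + ε * (2 * k ^ 2 / (sin (k * r)) ^ 3 - k ^ 2 / sin (k * r))) r := by
      intro r hr
      have hne := (hsin r hr).ne'
      have hd1 : HasDerivAt (fun r => -(k * cos (k * r))) (-(k * -(k * sin (k * r)))) r :=
        ((hdc r).const_mul k).neg
      have hd2 : HasDerivAt (fun r => (sin (k * r)) ^ 2)
          (((2 : ℕ) : ℝ) * sin (k * r) ^ (2 - 1) * (k * cos (k * r))) r := (hds r).pow 2
      have hd3 := (h2 r hr).add ((hd1.div hd2 (pow_ne_zero 2 hne)).const_mul ε)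
      refine hd3.congr_deriv ?_
      have hc2 : cos (k * r) ^ 2 = 1 - sin (k * r) ^ 2 := by
        have := sin_sq_add_cos_sq (k * r)
        linarith only [this]
      have e : ((2 : ℕ) : ℝ) * sin (k * r) ^ (2 - 1) * (k * cos (k * r)) =
        2 * sin (k * r) * (k * cos (k * r)) := by norm_num
      rw [e]
      have e2 : (-(k * -(k * sin (k * r))) * sin (k * r) ^ 2 -
          -(k * cos (k * r)) * (2 * sin (k * r) * (k * cos (k * r)))) / (sin (k * r) ^ 2) ^ 2 =
          2 * k ^ 2 / (sin (k * r)) ^ 3 - k ^ 2 / sin (k * r) := by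
        have e3 : -(k * -(k * sin (k * r))) * sin (k * r) ^ 2 -
          -(k * cos (k * r)) * (2 * sin (k * r) * (k * cos (k * r))) =
          k ^ 2 * sin (k * r) * (sin (k * r) ^ 2 + 2 * cos (k * r) ^ 2) := by ring
        rw [e3, hc2]
        field_simp
        ring
      rw [e2]
    -- the function v is positive near the ends
    have e0 : ∀ᶠ r in 𝓝[>] (0 : ℝ), 0 < sin (k * r) * u r + ε := by
      filter_upwards [h0 (ε / 2) (by linarith only [hε])] with r hr
      linarith only [hε, hr]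
    have e4 : ∀ᶠ r in 𝓝[<] T, 0 < sin (k * r) * u r + ε := by
      filter_upwards [h4 (ε / 2) (by linarith only [hε])] with r hr
      linarith only [hε, hr]
    obtain ⟨a, ha1, ha2, ha3⟩ : ∃ a, 0 < a ∧ a < r1 ∧ 0 < sin (k * a) * u a + ε := by
      have h5 : ∀ᶠ r in 𝓝[>] (0 : ℝ), r < r1 := nhdsWithin_le_nhds (gt_mem_nhds hr1.1)
      have h6 : ∀ᶠ r in 𝓝[>] (0 : ℝ), 0 < r := self_mem_nhdsWithin
      obtain ⟨a, h⟩ := (h6.and (h5.and e0)).exists
      exact ⟨a, h.1, h.2.1, h.2.2⟩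
    obtain ⟨b, hb1, hb2, hb3⟩ : ∃ b, r1 < b ∧ b < T ∧ 0 < sin (k * b) * u b + ε := by
      have h5 : ∀ᶠ r in 𝓝[<] T, r1 < r := nhdsWithin_le_nhds (lt_mem_nhds hr1.2)
      have h6 : ∀ᶠ r in 𝓝[<] T, r < T := self_mem_nhdsWithin
      obtain ⟨b, h⟩ := (h6.and (h5.and e4)).exists
      exact ⟨b, h.2.1, h.1, h.2.2⟩
    have hsub : ∀ y ∈ Icc a b, y ∈ Ioo 0 T := fun y hy =>
      ⟨lt_of_lt_of_le ha1 hy.1, lt_of_le_of_lt hy.2 hb2⟩
    have hvcont : ContinuousOn v (Icc a b) := fun y hy =>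
      (hv1 y (hsub y hy)).continuousAt.continuousWithinAt
    have hmul : ∀ r ∈ Ioo 0 T, sin (k * r) * v r = sin (k * r) * u r + ε := by
      intro r hr
      have hne := (hsin r hr).ne'
      simp only [hv]
      (clear * - hne; field_simp)
    obtain ⟨r0, hr0, hr0min⟩ := isCompact_Icc.exists_isMinOn
      (nonempty_Icc.2 (le_of_lt (lt_trans ha2 hb1))) hvcont
    have hv1neg : v r1 < 0 := by
      have := hmul r1 hr1
      have hs := hsin r1 hr1
      by_contra hcon
      push Not at hcon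
      nlinarith only [hneg, this, hs, hcon]
    have hv0neg : v r0 < 0 := lt_of_le_of_lt (hr0min ⟨ha2.le, hb1.le⟩) hv1neg
    have hposend : ∀ y ∈ Ioo 0 T, 0 < sin (k * y) * u y + ε → 0 < v y := by
      intro y hy h
      rw [← hmul y hy] at h
      exact (pos_iff_pos_of_mul_pos h).1 (hsin y hy)
    have hne_a : r0 ≠ a := by
      rintro rfl
      exact absurd (hposend r0 (hsub r0 hr0) ha3) (not_lt.2 hv0neg.le)
    have hne_b : r0 ≠ b := by
      rintro rfl
      exact absurd (hposend r0 (hsub r0 hr0) hb3) (not_lt.2 hv0neg.le)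
    have hr0' : r0 ∈ Ioo a b := ⟨lt_of_le_of_ne hr0.1 hne_a.symm, lt_of_le_of_ne hr0.2 hne_b⟩
    have hloc : IsLocalMin v r0 := hr0min.isLocalMin (Icc_mem_nhds hr0'.1 hr0'.2)
    have hfin := cmp_no_min hr0' (fun r hr => hv1 r (hsub r ⟨hr.1.le, hr.2.le⟩))
      (hv2 r0 (hsub r0 hr0)) hloc
    have hs := hsin r0 (hsub r0 hr0)
    have hu := h3 r0 (hsub r0 hr0)
    have hlt : 2 * k ^ 2 / (sin (k * r0)) ^ 2 * v r0 < 0 :=
      mul_neg_of_pos_of_neg (by positivity) hv0neg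
    have hexp : 2 * k ^ 2 / (sin (k * r0)) ^ 2 * v r0 =
        2 * k ^ 2 / (sin (k * r0)) ^ 2 * u r0 + ε * (2 * k ^ 2 / (sin (k * r0)) ^ 3) := by
      simp only [hv]
      (clear * - hs hk; field_simp)
    have hpos : 0 < ε * (k ^ 2 / sin (k * r0)) := by (clear * - hε hk hs; positivity)
    have : u'' r0 + ε * (2 * k ^ 2 / (sin (k * r0)) ^ 3 - k ^ 2 / sin (k * r0)) < 0 := by
      have e2 : ε * (2 * k ^ 2 / (sin (k * r0)) ^ 3 - k ^ 2 / sin (k * r0)) =
        ε * (2 * k ^ 2 / (sin (k * r0)) ^ 3) - ε * (k ^ 2 / sin (k * r0)) := by ring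
      rw [e2]
      linarith only [hu, hlt, hexp, hpos]
    linarith only [hfin, hu, hlt, hexp, hpos]
  intro r hr
  have hs := hsin r hr
  have : 0 ≤ sin (k * r) * u r := by
    refine le_of_forall_pos_le_add ?_
    intro ε hε
    exact key ε hε r hr
  exact nonneg_of_mul_nonneg_right this hs

end

end Vale.Agent.P231
end
end

section

section

/-! P231 core C3: differentiation of averages over the strip. -/

open Real Set Filter Topology MeasureTheory

namespace Vale.Agent.P231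

noncomputable section

/-- Differentiation under the integral sign over `[0, π]`. -/
theorem avg_deriv {G G' : ℝ → ℝ → ℝ} {T : ℝ}
    (cG : ContinuousOn (fun p : ℝ × ℝ => G p.1 p.2) (univ ×ˢ Ioo 0 T))
    (cG' : ContinuousOn (fun p : ℝ × ℝ => G' p.1 p.2) (univ ×ˢ Ioo 0 T))
    (dG : ∀ s, ∀ r ∈ Ioo 0 T, HasDerivAt (fun r => G s r) (G' s r) r)
    {r : ℝ} (hr : r ∈ Ioo 0 T) :
    HasDerivAt (fun r => ∫ s in (0 : ℝ)..π, G s r) (∫ s in (0 : ℝ)..π, G' s r) r := by
  obtain ⟨ε, hε, hball⟩ := Metric.isOpen_iff.1 isOpen_Ioo r hr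
  have hsub : Metric.closedBall r (ε / 2) ⊆ Ioo 0 T :=
    (Metric.closedBall_subset_ball (by linarith)).trans hball
  have hcontG : ∀ x ∈ Ioo 0 T, Continuous (fun s => G s x) := by
    intro x hx
    rw [continuous_iff_continuousAt]
    intro s
    have hmem : (s, x) ∈ (univ ×ˢ Ioo 0 T : Set (ℝ × ℝ)) := ⟨mem_univ _, hx⟩
    have hca : ContinuousAt (fun p : ℝ × ℝ => G p.1 p.2) (s, x) :=
      cG.continuousAt ((isOpen_univ.prod isOpen_Ioo).mem_nhds hmem)
    exact ContinuousAt.comp (f := fun s : ℝ => (s, x)) hca (by fun_prop)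
  have hcontG' : ∀ x ∈ Ioo 0 T, Continuous (fun s => G' s x) := by
    intro x hx
    rw [continuous_iff_continuousAt]
    intro s
    have hmem : (s, x) ∈ (univ ×ˢ Ioo 0 T : Set (ℝ × ℝ)) := ⟨mem_univ _, hx⟩
    have hca : ContinuousAt (fun p : ℝ × ℝ => G' p.1 p.2) (s, x) :=
      cG'.continuousAt ((isOpen_univ.prod isOpen_Ioo).mem_nhds hmem)
    exact ContinuousAt.comp (f := fun s : ℝ => (s, x)) hca (by fun_prop)
  obtain ⟨B, hB⟩ : ∃ B, ∀ p ∈ (Icc (0 : ℝ) π) ×ˢ (Metric.closedBall r (ε / 2)),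
      ‖G' p.1 p.2‖ ≤ B := by
    have hK : IsCompact ((Icc (0 : ℝ) π) ×ˢ (Metric.closedBall r (ε / 2))) :=
      isCompact_Icc.prod (isCompact_closedBall r (ε / 2))
    exact hK.exists_bound_of_continuousOn
      (cG'.mono (prod_mono (subset_univ _) hsub))
  have hpi : (0 : ℝ) ≤ π := Real.pi_pos.le
  refine (intervalIntegral.hasDerivAt_integral_of_dominated_loc_of_deriv_le
    (𝕜 := ℝ) (E := ℝ) (μ := volume) (a := 0) (b := π)
    (F := fun x s => G s x) (F' := fun x s => G' s x)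
    (s := Metric.ball r (ε / 2)) (bound := fun _ => B)
    (Metric.ball_mem_nhds r (by linarith only [hε])) ?_ ?_ ?_ ?_ ?_ ?_).2
  · filter_upwards [Metric.ball_mem_nhds r (show (0 : ℝ) < ε / 2 by linarith only [hε])] with x hx
    exact (hcontG x (hsub (Metric.ball_subset_closedBall hx))).aestronglyMeasurable
  · exact (hcontG r hr).intervalIntegrable _ _
  · exact (hcontG' r hr).aestronglyMeasurable
  · refine Eventually.of_forall ?_
    intro s hs x hx
    rw [uIoc_of_le hpi] at hs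
    exact hB (s, x) ⟨⟨hs.1.le, hs.2⟩, Metric.ball_subset_closedBall hx⟩
  · exact intervalIntegrable_const
  · refine Eventually.of_forall ?_
    intro s _ x hx
    exact dG s x (hsub (Metric.ball_subset_closedBall hx))

/-- Integrals over a period do not see a shift. -/
theorem avg_shift {f : ℝ → ℝ} (hf : Function.Periodic f π) (r : ℝ) :
    ∫ s in (0 : ℝ)..π, f (s + r) = ∫ t in (0 : ℝ)..π, f t := by
  rw [intervalIntegral.integral_comp_add_right (fun t => f t) r]
  have := hf.intervalIntegral_add_eq (0 + r) 0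
  rw [zero_add] at this ⊢
  rw [zero_add] at this
  rw [add_comm π r]
  exact this

theorem average {F Ft Fts : ℝ → ℝ → ℝ} {T : ℝ}
    (hF : ∀ s t, F (s + π) (t + π) = F s t)
    (cF : ContinuousOn (fun p : ℝ × ℝ => F p.1 p.2) (strip T))
    (cFt : ContinuousOn (fun p : ℝ × ℝ => Ft p.1 p.2) (strip T))
    (cFts : ContinuousOn (fun p : ℝ × ℝ => Fts p.1 p.2) (strip T))
    (dF : ∀ s t, (s, t) ∈ strip T → HasDerivAt (fun t' => F s t') (Ft s t) t)
    (dFt : ∀ s t, (s, t) ∈ strip T → HasDerivAt (fun s' => Ft s' t) (Fts s t) s) :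
    ∀ r ∈ Ioo 0 T,
      HasDerivAt (fun r => ∫ s in (0 : ℝ)..π, F s (s + r)) (∫ s in (0 : ℝ)..π, Ft s (s + r)) r ∧
      HasDerivAt (fun r => ∫ s in (0 : ℝ)..π, Ft s (s + r))
        (-∫ s in (0 : ℝ)..π, Fts s (s + r)) r := by
  have hm1 : ∀ s : ℝ, ∀ r ∈ Ioo 0 T, (s, s + r) ∈ strip T := by
    intro s r hr
    exact ⟨by simpa only [lt_add_iff_pos_right] using hr.1, by simpa using hr.2⟩
  have hm2 : ∀ t : ℝ, ∀ r ∈ Ioo 0 T, (t - r, t) ∈ strip T := by
    intro t r hr
    refine ⟨?_, ?_⟩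
    · have := hr.1
      show t - r < t
      linarith
    · have := hr.2
      show t < t - r + T
      linarith only [this]
  have hstrip : ∀ {s t : ℝ}, (s, t) ∈ strip T → (s + π, t + π) ∈ strip T := by
    intro s t h
    refine ⟨?_, ?_⟩
    · have := h.1
      show s + π < t + π
      simpa using this
    · have h2 : t < s + T := h.2
      show t + π < s + π + T
      linarith only [h2]
  have hFt : ∀ s t, (s, t) ∈ strip T → Ft (s + π) (t + π) = Ft s t := by
    intro s t h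
    have h1 : HasDerivAt (fun t' => F (s + π) t') (Ft (s + π) (t + π)) (t + π) :=
      dF _ _ (hstrip h)
    have h2 : HasDerivAt (fun t' => F (s + π) (t' + π)) (Ft (s + π) (t + π)) t :=
      h1.comp_add_const t π
    have h3 : (fun t' => F (s + π) (t' + π)) = fun t' => F s t' := by
      funext t'
      exact hF s t'
    rw [h3] at h2
    exact h2.unique (dF s t h)
  have hFts : ∀ s t, (s, t) ∈ strip T → Fts (s + π) (t + π) = Fts s t := by
    intro s t h
    have h1 : HasDerivAt (fun s' => Ft s' (t + π)) (Fts (s + π) (t + π)) (s + π) :=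
      dFt _ _ (hstrip h)
    have h2 : HasDerivAt (fun s' => Ft (s' + π) (t + π)) (Fts (s + π) (t + π)) s :=
      h1.comp_add_const s π
    have h3 : (fun s' => Ft (s' + π) (t + π)) =ᶠ[𝓝 s] fun s' => Ft s' t := by
      have hopen : ∀ᶠ s' in 𝓝 s, (s', t) ∈ strip T := by
        have ha : ∀ᶠ s' in 𝓝 s, s' < t := gt_mem_nhds h.1
        have hb : ∀ᶠ s' in 𝓝 s, t - T < s' := by
          refine lt_mem_nhds ?_
          have : t < s + T := h.2
          linarith
        filter_upwards [ha, hb] with s' h1 h2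
        exact ⟨h1, by show t < s' + T; linarith⟩
      filter_upwards [hopen] with s' hs'
      exact hFt s' t hs'
    exact (h2.congr_of_eventuallyEq h3.symm).unique (dFt s t h)
  have hcs : ContinuousOn (fun p : ℝ × ℝ => (p.1, p.1 + p.2)) (univ ×ˢ Ioo 0 T) := by fun_prop
  have hct : ContinuousOn (fun p : ℝ × ℝ => (p.1 - p.2, p.1)) (univ ×ˢ Ioo 0 T) := by (clear * -; fun_prop)
  have hms : MapsTo (fun p : ℝ × ℝ => (p.1, p.1 + p.2)) (univ ×ˢ Ioo 0 T) (strip T) :=
    fun p hp => hm1 p.1 p.2 hp.2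
  have hmt : MapsTo (fun p : ℝ × ℝ => (p.1 - p.2, p.1)) (univ ×ˢ Ioo 0 T) (strip T) :=
    fun p hp => hm2 p.1 p.2 hp.2
  intro r hr
  refine ⟨?_, ?_⟩
  · refine avg_deriv (G := fun s r => F s (s + r)) (G' := fun s r => Ft s (s + r)) (T := T)
      ?_ ?_ ?_ hr
    · exact cF.comp hcs hms
    · exact cFt.comp hcs hms
    · intro s x hx
      have h1 := dF s (s + x) (hm1 s x hx)
      exact h1.comp_const_add s x
  · -- rewrite both integrals
    have hper1 : ∀ x ∈ Ioo 0 T, Function.Periodic (fun t => Ft (t - x) t) π := by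
      intro x hx t
      have e : t + π - x = (t - x) + π := by ring
      show Ft (t + π - x) (t + π) = Ft (t - x) t
      rw [e]
      exact hFt _ _ (hm2 t x hx)
    have hper2 : ∀ x ∈ Ioo 0 T, Function.Periodic (fun t => Fts (t - x) t) π := by
      intro x hx t
      have e : t + π - x = (t - x) + π := by ring
      show Fts (t + π - x) (t + π) = Fts (t - x) t
      rw [e]
      exact hFts _ _ (hm2 t x hx)
    have hi1 : ∀ x ∈ Ioo 0 T,
        ∫ s in (0 : ℝ)..π, Ft s (s + x) = ∫ t in (0 : ℝ)..π, Ft (t - x) t := by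
      intro x hx
      have := avg_shift (hper1 x hx) x
      simpa only [add_sub_cancel_right] using this
    have hi2 : ∀ x ∈ Ioo 0 T,
        ∫ s in (0 : ℝ)..π, Fts s (s + x) = ∫ t in (0 : ℝ)..π, Fts (t - x) t := by
      intro x hx
      have := avg_shift (hper2 x hx) x
      simpa only [add_sub_cancel_right] using this
    have hmain : HasDerivAt (fun r => ∫ t in (0 : ℝ)..π, Ft (t - r) t)
        (∫ t in (0 : ℝ)..π, -Fts (t - r) t) r := by
      refine avg_deriv (G := fun t r => Ft (t - r) t) (G' := fun t r => -Fts (t - r) t) (T := T)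
        ?_ ?_ ?_ hr
      · exact cFt.comp hct hmt
      · exact (cFts.comp hct hmt).neg
      · intro t x hx
        have h1 := dFt (t - x) t (hm2 t x hx)
        exact h1.comp_const_sub t x
    rw [intervalIntegral.integral_neg, ← hi2 r hr] at hmain
    refine hmain.congr_of_eventuallyEq ?_
    filter_upwards [isOpen_Ioo.mem_nhds hr] with x hx
    exact hi1 x hx

end

end Vale.Agent.P231
end
end

section

section

/-! Derivatives of determinants, inverses and products of matrix valued functions, stated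
entrywise. -/

set_option linter.unusedSectionVars false

open Matrix Real Set Filter Topology

namespace Vale.Agent.P231

noncomputable section

variable {ν : Type*} [Fintype ν] [DecidableEq ν]

/-- Entrywise derivative of a matrix valued function. -/
def HasMatDeriv (M : ℝ → Matrix ν ν ℝ) (M' : Matrix ν ν ℝ) (t : ℝ) : Prop :=
  ∀ i j, HasDerivAt (fun t => M t i j) (M' i j) t

theorem HasMatDeriv.continuousAt {M : ℝ → Matrix ν ν ℝ} {M' : Matrix ν ν ℝ} {t : ℝ}
    (h : HasMatDeriv M M' t) : ContinuousAt M t := by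
  refine continuousAt_pi.2 (fun i => continuousAt_pi.2 (fun j => (h i j).continuousAt))

theorem HasMatDeriv.mul {M N : ℝ → Matrix ν ν ℝ} {M' N' : Matrix ν ν ℝ} {t : ℝ}
    (hM : HasMatDeriv M M' t) (hN : HasMatDeriv N N' t) :
    HasMatDeriv (fun t => M t * N t) (M' * N t + M t * N') t := by
  intro i j
  have h1 : HasDerivAt (fun t => ∑ k, M t i k * N t k j)
      (∑ k, (M' i k * N t k j + M t i k * N' k j)) t :=
    HasDerivAt.fun_sum (fun k _ => (hM i k).mul (hN k j))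
  have h2 : (M' * N t + M t * N') i j = ∑ k, (M' i k * N t k j + M t i k * N' k j) := by
    rw [Matrix.add_apply, Matrix.mul_apply, Matrix.mul_apply, Finset.sum_add_distrib]
  rw [h2]
  exact h1

theorem HasMatDeriv.trace {M : ℝ → Matrix ν ν ℝ} {M' : Matrix ν ν ℝ} {t : ℝ}
    (hM : HasMatDeriv M M' t) : HasDerivAt (fun t => (M t).trace) M'.trace t :=
  HasDerivAt.fun_sum (fun k _ => hM k k)

theorem HasMatDeriv.const (M : Matrix ν ν ℝ) (t : ℝ) : HasMatDeriv (fun _ => M) 0 t :=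
  fun i j => hasDerivAt_const t (M i j)

theorem HasMatDeriv.sub {M N : ℝ → Matrix ν ν ℝ} {M' N' : Matrix ν ν ℝ} {t : ℝ}
    (hM : HasMatDeriv M M' t) (hN : HasMatDeriv N N' t) :
    HasMatDeriv (fun t => M t - N t) (M' - N') t :=
  fun i j => (hM i j).sub (hN i j)

theorem HasMatDeriv.smul {f : ℝ → ℝ} {f' : ℝ} {M : ℝ → Matrix ν ν ℝ} {M' : Matrix ν ν ℝ} {t : ℝ}
    (hf : HasDerivAt f f' t) (hM : HasMatDeriv M M' t) :
    HasMatDeriv (fun t => f t • M t) (f' • M t + f t • M') t := by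
  intro i j
  exact hf.mul (hM i j)

theorem sum_updateCol_eq (X Y : Matrix ν ν ℝ) :
    ∑ σ : Equiv.Perm ν, (Equiv.Perm.sign σ : ℤ) •
      ∑ i, (∏ j ∈ Finset.univ.erase i, X (σ j) j) * Y (σ i) i =
      (X.adjugate * Y).trace := by
  simp only [Finset.smul_sum]
  rw [Finset.sum_comm]
  rw [Matrix.trace]
  refine Finset.sum_congr rfl fun i _ => ?_
  have h1 : (X.adjugate * Y).diag i = (X.updateCol i (fun j => Y j i)).det := by
    rw [← Matrix.cramer_apply, Matrix.cramer_eq_adjugate_mulVec]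
    simp only [diag, Matrix.mul_apply, mulVec, dotProduct]
  rw [h1, Matrix.det_apply]
  refine Finset.sum_congr rfl fun σ _ => ?_
  have : ∏ k, (X.updateCol i (fun j => Y j i)) (σ k) k =
      (∏ j ∈ Finset.univ.erase i, X (σ j) j) * Y (σ i) i := by
    rw [← Finset.prod_erase_mul Finset.univ _ (Finset.mem_univ i)]
    congr 1
    · refine Finset.prod_congr rfl fun j hj => ?_
      rw [Matrix.updateCol_ne (Finset.ne_of_mem_erase hj)]
    · simp
  rw [this]
  rfl

/-- Jacobi's formula. -/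
theorem HasMatDeriv.det {M : ℝ → Matrix ν ν ℝ} {M' : Matrix ν ν ℝ} {t : ℝ}
    (hM : HasMatDeriv M M' t) : HasDerivAt (fun t => (M t).det) ((M t).adjugate * M').trace t := by
  rw [← sum_updateCol_eq]
  have h1 : ∀ t, (M t).det = ∑ σ : Equiv.Perm ν, (Equiv.Perm.sign σ : ℤ) • ∏ i, M t (σ i) i := by
    intro t
    rw [Matrix.det_apply]
    rfl
  simp only [h1]
  refine HasDerivAt.fun_sum (fun σ _ => ?_)
  have h2 := HasDerivAt.fun_finsetProd (u := Finset.univ) (x := t)
    (f := fun i t => M t (σ i) i) (f' := fun i => M' (σ i) i) (fun i _ => hM (σ i) i)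
  simp only [smul_eq_mul] at h2
  exact h2.const_smul ((Equiv.Perm.sign σ : ℤ))

theorem HasMatDeriv.log_det {M : ℝ → Matrix ν ν ℝ} {M' : Matrix ν ν ℝ} {t : ℝ}
    (hM : HasMatDeriv M M' t) (hd : (M t).det ≠ 0) :
    HasDerivAt (fun t => log (M t).det) ((M t)⁻¹ * M').trace t := by
  have h1 := hM.det.log hd
  refine h1.congr_deriv ?_
  rw [Matrix.inv_def, Ring.inverse_eq_inv', Matrix.smul_mul, Matrix.trace_smul, smul_eq_mul]
  field_simp

theorem continuousAt_matInv {M : ℝ → Matrix ν ν ℝ} {t : ℝ} (hM : ContinuousAt M t)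
    (hd : (M t).det ≠ 0) : ContinuousAt (fun t => (M t)⁻¹) t := by
  have h1 : ContinuousAt (fun t => (M t).det⁻¹ • (M t).adjugate) t := by
    have h2 : ContinuousAt (fun t => (M t).det) t :=
      (continuous_id.matrix_det (R := ℝ) (n := ν)).continuousAt.comp hM
    have h3 : ContinuousAt (fun t => (M t).adjugate) t :=
      (continuous_id.matrix_adjugate (R := ℝ) (n := ν)).continuousAt.comp hM
    exact (h2.inv₀ hd).smul h3
  have h4 : (fun t => (M t)⁻¹) = (fun t => (M t).det⁻¹ • (M t).adjugate) := by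
    funext t
    rw [Matrix.inv_def, Ring.inverse_eq_inv']
  rw [h4]
  exact h1

theorem HasMatDeriv.inv {M : ℝ → Matrix ν ν ℝ} {M' : Matrix ν ν ℝ} {t : ℝ}
    (hM : HasMatDeriv M M' t) (hd : (M t).det ≠ 0) :
    HasMatDeriv (fun t => (M t)⁻¹) (-((M t)⁻¹ * M' * (M t)⁻¹)) t := by
  have hc := hM.continuousAt
  have hci := continuousAt_matInv hc hd
  have hslope : Tendsto (fun y => (y - t)⁻¹ • (M y - M t)) (𝓝[≠] t) (𝓝 M') := by
    refine tendsto_pi_nhds.2 (fun i => tendsto_pi_nhds.2 (fun j => ?_))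
    exact hasDerivAt_iff_tendsto_slope.1 (hM i j)
  have hdet : ∀ᶠ y in 𝓝[≠] t, (M y).det ≠ 0 := by
    have h2 : ContinuousAt (fun t => (M t).det) t :=
      (continuous_id.matrix_det (R := ℝ) (n := ν)).continuousAt.comp hc
    exact (h2.eventually_ne hd).filter_mono nhdsWithin_le_nhds
  have hlim : Tendsto (fun y => -((M y)⁻¹ * ((y - t)⁻¹ • (M y - M t)) * (M t)⁻¹)) (𝓝[≠] t)
      (𝓝 (-((M t)⁻¹ * M' * (M t)⁻¹))) := by
    have h3 : Tendsto (fun y => (M y)⁻¹) (𝓝[≠] t) (𝓝 ((M t)⁻¹)) :=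
      hci.tendsto.mono_left nhdsWithin_le_nhds
    exact ((h3.mul hslope).mul tendsto_const_nhds).neg
  have hlim2 : Tendsto (fun y => (y - t)⁻¹ • ((M y)⁻¹ - (M t)⁻¹)) (𝓝[≠] t)
      (𝓝 (-((M t)⁻¹ * M' * (M t)⁻¹))) := by
    refine hlim.congr' ?_
    filter_upwards [hdet] with y hy
    have hu : IsUnit (M y).det := isUnit_iff_ne_zero.2 hy
    have hu' : IsUnit (M t).det := isUnit_iff_ne_zero.2 hd
    rw [Matrix.mul_smul, Matrix.smul_mul, ← smul_neg]
    congr 1
    rw [Matrix.mul_sub, Matrix.sub_mul, Matrix.nonsing_inv_mul _ hu, Matrix.one_mul,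
      Matrix.mul_assoc, Matrix.mul_nonsing_inv _ hu', Matrix.mul_one, neg_sub]
  intro i j
  rw [hasDerivAt_iff_tendsto_slope]
  have h4 := (tendsto_pi_nhds.1 (tendsto_pi_nhds.1 hlim2 i)) j
  exact h4

end

end Vale.Agent.P231
end
end

section

section

/-! P231 core: the matrix Kazdan inequality for `cos`-like matrix functions. -/

set_option linter.unusedSectionVars false

open Matrix Real Set Filter Topology MeasureTheory
open scoped ContDiff

namespace Vale.Agent.P231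

noncomputable section

variable {ν : Type*} [Fintype ν] [DecidableEq ν]

theorem Xc_symm {C C' : ℝ → Matrix ν ν ℝ} (h : CData C C') (s t : ℝ) :
    (Xc C s t)ᵀ = Xc C s t := by
  simp [Xc, h.symm]

theorem Xc_shift {C C' : ℝ → Matrix ν ν ℝ} (h : CData C C') (s t : ℝ) :
    Xc C (s + π) (t + π) = Xc C s t := by
  simp only [Xc, sin_add_pi, h.anti, smul_neg, neg_smul, neg_neg]

theorem Xc_shift_int {C C' : ℝ → Matrix ν ν ℝ} (h : CData C C') (s t : ℝ) (k : ℤ) :
    Xc C (s + k * π) (t + k * π) = Xc C s t := by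
  have hper : Function.Periodic (fun u : ℝ => Xc C (s + u) (t + u)) π := by
    intro u
    change Xc C (s + (u + π)) (t + (u + π)) = Xc C (s + u) (t + u)
    rw [← add_assoc, ← add_assoc]
    exact Xc_shift h _ _
  have h1 := hper.int_mul k 0
  simpa using h1

theorem Xc_flip {C C' : ℝ → Matrix ν ν ℝ} (h : CData C C') (s t : ℝ) :
    Xc C s t = Xc C (t - π) s := by
  have h1 : C t = - C (t - π) := by
    have := h.anti (t - π)
    rwa [sub_add_cancel] at this
  have h2 : sin t = - sin (t - π) := by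
    rw [sin_sub_pi, neg_neg]
  rw [Xc, Xc, h1, h2]
  simp only [neg_smul, smul_neg]
  abel

theorem CData.C_pi {C C' : ℝ → Matrix ν ν ℝ} (h : CData C C') : C π = -1 := by
  have := h.anti 0
  rwa [zero_add, h.zero] at this

/-- The regular case. -/
theorem CData.X_posDef_reg {C C' : ℝ → Matrix ν ν ℝ} (h : CData C C') {s t : ℝ} (h0 : 0 < s)
    (h1 : s < t) (h2 : t < π) : (Xc C s t).PosDef := by
  refine Matrix.PosDef.of_dotProduct_mulVec_pos (Xc_symm h s t) (fun v hv => ?_)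
  rw [star_trivial]
  -- the scalar function
  set c : ℝ → ℝ := fun u => v ⬝ᵥ (C u *ᵥ v) with hc
  set c' : ℝ → ℝ := fun u => v ⬝ᵥ (C' u *ᵥ v) with hc'
  have hder : ∀ u, HasDerivAt c (c' u) u := by
    intro u
    have h3 : HasDerivAt (fun u => ∑ i, v i * ∑ j, C u i j * v j)
        (∑ i, v i * ∑ j, C' u i j * v j) u := by
      refine HasDerivAt.fun_sum (fun i _ => ?_)
      refine HasDerivAt.const_mul _ ?_
      refine HasDerivAt.fun_sum (fun j _ => ?_)
      exact (h.der u i j).mul_const _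
    exact h3
  have hg : ∀ u, 0 < cos u * c u - sin u * c' u := by
    intro u
    have h3 := (h.pos u).dotProduct_mulVec_pos hv
    rw [star_trivial, Matrix.sub_mulVec, Matrix.smul_mulVec, Matrix.smul_mulVec, dotProduct_sub,
      dotProduct_smul, dotProduct_smul, smul_eq_mul, smul_eq_mul] at h3
    exact h3
  have hx : v ⬝ᵥ (Xc C s t *ᵥ v) = sin t * c s - sin s * c t := by
    rw [Xc, Matrix.sub_mulVec, Matrix.smul_mulVec, Matrix.smul_mulVec, dotProduct_sub,
      dotProduct_smul, dotProduct_smul, smul_eq_mul, smul_eq_mul]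
  rw [hx]
  have hmono : StrictMonoOn (fun u => - c u / sin u) (Ioo 0 π) := by
    refine strictMonoOn_of_deriv_pos (convex_Ioo 0 π) ?_ ?_
    · intro u hu
      have hs := sin_pos_of_mem_Ioo hu
      exact ((hder u).neg.div (hasDerivAt_sin u) hs.ne').continuousAt.continuousWithinAt
    · intro u hu
      rw [interior_Ioo] at hu
      have hs := sin_pos_of_mem_Ioo hu
      have h3 := ((hder u).neg.div (hasDerivAt_sin u) hs.ne').deriv
      have h4 : (fun u => - c u / sin u) = ((-c) / sin) := rfl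
      rw [h4, h3]
      have h5 := hg u
      have h6 : -c' u * sin u - (-c) u * cos u = cos u * c u - sin u * c' u := by
        simp only [Pi.neg_apply]
        ring
      rw [h6]
      (clear * - h5 hs; positivity)
  have hst := hmono ⟨h0, h1.trans h2⟩ ⟨h0.trans h1, h2⟩ h1
  have hs := sin_pos_of_pos_of_lt_pi h0 (h1.trans h2)
  have ht := sin_pos_of_pos_of_lt_pi (h0.trans h1) h2
  change -c s / sin s < -c t / sin t at hst
  rw [div_lt_div_iff₀ hs ht] at hst
  linarith only [hst]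

theorem CData.X_posDef {C C' : ℝ → Matrix ν ν ℝ} (h : CData C C') {s t : ℝ} (h1 : s < t)
    (h2 : t < s + π) : (Xc C s t).PosDef := by
  -- reduction to `0 ≤ s < π`
  have key : ∀ s t : ℝ, 0 ≤ s → s < π → s < t → t < s + π → (Xc C s t).PosDef := by
    intro s t hs0 hsπ h1 h2
    rcases hs0.eq_or_lt with h0 | h0
    · subst h0
      have ht := sin_pos_of_pos_of_lt_pi h1 (by linarith only [h2])
      have h3 : Xc C 0 t = sin t • (1 : Matrix ν ν ℝ) := by simp only [Xc, h.zero, sin_zero, zero_smul, sub_zero]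
      rw [h3]
      exact Matrix.PosDef.one.smul ht
    · have hs := sin_pos_of_pos_of_lt_pi h0 hsπ
      rcases lt_trichotomy t π with h3 | h3 | h3
      · exact h.X_posDef_reg h0 h1 h3
      · subst h3
        have h3 : Xc C s π = sin s • (1 : Matrix ν ν ℝ) := by simp only [Xc, sin_pi, zero_smul, h.C_pi, smul_neg, sub_neg_eq_add, zero_add]
        rw [h3]
        exact Matrix.PosDef.one.smul hs
      · rw [Xc_flip h]
        exact h.X_posDef_reg (by linarith only [h3]) (by linarith only [h2]) hsπ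
  set k : ℤ := ⌊s / π⌋ with hk
  have hkl := Int.floor_le (s / π)
  have hku := Int.lt_floor_add_one (s / π)
  rw [← hk] at hkl hku
  rw [le_div_iff₀ pi_pos] at hkl
  rw [div_lt_iff₀ pi_pos] at hku
  have h3 := Xc_shift_int h (s - k * π) (t - k * π) k
  rw [sub_add_cancel, sub_add_cancel] at h3
  rw [h3]
  refine key _ _ (by linarith only [hkl]) (by linarith only [hku]) (by linarith only [h1]) (by linarith only [h2])

theorem CData.contC {C C' : ℝ → Matrix ν ν ℝ} (h : CData C C') : Continuous C :=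
  continuous_pi (fun i => continuous_pi (fun j =>
    continuous_iff_continuousAt.2 (fun t => (h.der t i j).continuousAt)))

theorem CData.contC' {C C' : ℝ → Matrix ν ν ℝ} (h : CData C C') : Continuous C' :=
  continuous_pi (fun i => continuous_pi (fun j => h.cont i j))

theorem CData.contX {C C' : ℝ → Matrix ν ν ℝ} (h : CData C C') :
    Continuous (fun p : ℝ × ℝ => Xc C p.1 p.2) := by
  have h1 := h.contC
  unfold Xc
  (clear * - h1; fun_prop)

theorem CData.contG {C C' : ℝ → Matrix ν ν ℝ} (h : CData C C') : Continuous (Gc C C') := by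
  have h1 := h.contC
  have h2 := h.contC'
  unfold Gc
  fun_prop

theorem CData.anti' {C C' : ℝ → Matrix ν ν ℝ} (h : CData C C') (t : ℝ) : C' (t + π) = -C' t := by
  ext i j
  have h1 : HasDerivAt (fun u => C (u + π) i j) (C' (t + π) i j) t :=
    HasDerivAt.comp_add_const t π (h.der (t + π) i j)
  have h2 : HasDerivAt (fun u => C (u + π) i j) (-C' t i j) t := by
    have h3 : (fun u => C (u + π) i j) = fun u => - C u i j := by
      funext u
      rw [h.anti]
      rfl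
    rw [h3]
    exact (h.der t i j).neg
  exact h1.unique h2

theorem CData.G_shift {C C' : ℝ → Matrix ν ν ℝ} (h : CData C C') (t : ℝ) :
    Gc C C' (t + π) = Gc C C' t := by
  simp [Gc, h.anti, h.anti']

theorem CData.G_det_pos {C C' : ℝ → Matrix ν ν ℝ} (h : CData C C') (t : ℝ) :
    0 < (Gc C C' t).det := (h.pos t).det_pos

theorem CData.contF {C C' : ℝ → Matrix ν ν ℝ} (h : CData C C') :
    ContinuousOn (fun p : ℝ × ℝ => log (Xc C p.1 p.2).det) (strip π) := by
  refine ContinuousOn.log (h.contX.matrix_det.continuousOn) (fun p hp => ?_)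
  exact (h.X_posDef hp.1 hp.2).det_pos.ne'

theorem CData.continuousOn {C C' : ℝ → Matrix ν ν ℝ} (h : CData C C') :
    ContinuousOn (fun p : ℝ × ℝ => log (Xc C p.1 p.2).det - log (Gc C C' p.1).det / 2
      - log (Gc C C' p.2).det / 2) (strip π) := by
  have hG : Continuous (fun t => log (Gc C C' t).det) :=
    h.contG.matrix_det.log (fun t => (h.G_det_pos t).ne')
  exact (h.contF.sub ((hG.comp continuous_fst).div_const 2).continuousOn).sub
    ((hG.comp continuous_snd).div_const 2).continuousOn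

/-- partial derivatives of `Xc` -/
def KXt (C C' : ℝ → Matrix ν ν ℝ) (s t : ℝ) : Matrix ν ν ℝ := cos t • C s - sin s • C' t

/-- partial derivatives of `Xc` -/
def KXs (C C' : ℝ → Matrix ν ν ℝ) (s t : ℝ) : Matrix ν ν ℝ := sin t • C' s - cos s • C t

/-- partial derivatives of `Xc` -/
def KXst (C' : ℝ → Matrix ν ν ℝ) (s t : ℝ) : Matrix ν ν ℝ := cos t • C' s - cos s • C' t

theorem CData.hX_t {C C' : ℝ → Matrix ν ν ℝ} (h : CData C C') (s t : ℝ) :
    HasMatDeriv (fun t => Xc C s t) (KXt C C' s t) t := by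
  have h1 := HasMatDeriv.sub (HasMatDeriv.smul (hasDerivAt_sin t) (HasMatDeriv.const (C s) t))
    (HasMatDeriv.smul (hasDerivAt_const t (sin s)) (show HasMatDeriv C (C' t) t from h.der t))
  intro i j
  have h2 := h1 i j
  simp only [smul_zero, add_zero, zero_smul, zero_add] at h2
  exact h2

theorem CData.hX_s {C C' : ℝ → Matrix ν ν ℝ} (h : CData C C') (s t : ℝ) :
    HasMatDeriv (fun s => Xc C s t) (KXs C C' s t) s := by
  have h1 := HasMatDeriv.sub (HasMatDeriv.smul (hasDerivAt_const s (sin t))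
    (show HasMatDeriv C (C' s) s from h.der s))
    (HasMatDeriv.smul (hasDerivAt_sin s) (HasMatDeriv.const (C t) s))
  intro i j
  have h2 := h1 i j
  simp only [smul_zero, add_zero, zero_smul, zero_add] at h2
  exact h2

theorem CData.hXt_s {C C' : ℝ → Matrix ν ν ℝ} (h : CData C C') (s t : ℝ) :
    HasMatDeriv (fun s => KXt C C' s t) (KXst C' s t) s := by
  have h1 := HasMatDeriv.sub (HasMatDeriv.smul (hasDerivAt_const s (cos t))
    (show HasMatDeriv C (C' s) s from h.der s))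
    (HasMatDeriv.smul (hasDerivAt_sin s) (HasMatDeriv.const (C' t) s))
  intro i j
  have h2 := h1 i j
  simp only [zero_smul, zero_add, smul_zero, add_zero] at h2
  exact h2

/-- first derivative of `log det X` -/
def KFt (C C' : ℝ → Matrix ν ν ℝ) (s t : ℝ) : ℝ := ((Xc C s t)⁻¹ * KXt C C' s t).trace

/-- mixed derivative of `log det X` -/
def KFts (C C' : ℝ → Matrix ν ν ℝ) (s t : ℝ) : ℝ :=
  ((Xc C s t)⁻¹ * Gc C C' s * (Xc C s t)⁻¹ * Gc C C' t).trace

/-- mixed derivative of `log det X`, second form -/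
def KFts' (C C' : ℝ → Matrix ν ν ℝ) (s t : ℝ) : ℝ :=
  ((Xc C s t)⁻¹ * KXst C' s t).trace -
    ((Xc C s t)⁻¹ * KXs C C' s t * (Xc C s t)⁻¹ * KXt C C' s t).trace

theorem CData.dF {C C' : ℝ → Matrix ν ν ℝ} (h : CData C C') {s t : ℝ} (hst : (s, t) ∈ strip π) :
    HasDerivAt (fun t' => log (Xc C s t').det) (KFt C C' s t) t :=
  (h.hX_t s t).log_det (h.X_posDef hst.1 hst.2).det_pos.ne'

theorem CData.dFt' {C C' : ℝ → Matrix ν ν ℝ} (h : CData C C') {s t : ℝ}
    (hst : (s, t) ∈ strip π) :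
    HasDerivAt (fun s' => KFt C C' s' t) (KFts' C C' s t) s := by
  have hd := (h.X_posDef hst.1 hst.2).det_pos.ne'
  have h1 := (((h.hX_s s t).inv hd).mul (h.hXt_s s t)).trace
  refine h1.congr_deriv ?_
  rw [KFts', Matrix.trace_add, Matrix.neg_mul, Matrix.trace_neg, add_comm, sub_eq_add_neg]

/-- The algebraic identity. -/
theorem CData.identity {C C' : ℝ → Matrix ν ν ℝ} (h : CData C C') {s t : ℝ}
    (hst : (s, t) ∈ strip π) :
    (sin s * sin t) * KFts' C C' s t = (sin s * sin t) * KFts C C' s t := by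
  have hd : IsUnit (Xc C s t).det :=
    isUnit_iff_ne_zero.2 (h.X_posDef hst.1 hst.2).det_pos.ne'
  set X := Xc C s t with hX
  set Gs := Gc C C' s with hGs
  set Gt := Gc C C' t with hGt
  have e1 : sin s • KXs C C' s t = cos s • X - sin t • Gs := by
    rw [hX, hGs, KXs, Xc, Gc]
    module
  have e2 : sin t • KXt C C' s t = cos t • X + sin s • Gt := by
    rw [hX, hGt, KXt, Xc, Gc]
    module
  have e3 : (sin s * sin t) • KXst C' s t =
      (cos s * cos t) • X - (sin t * cos t) • Gs + (sin s * cos s) • Gt := by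
    rw [hX, hGs, hGt, KXst, Xc, Gc, Gc]
    module
  have f1 : (sin s * sin t) * (X⁻¹ * KXst C' s t).trace = (cos s * cos t) * (1 : Matrix ν ν ℝ).trace
      - (sin t * cos t) * (X⁻¹ * Gs).trace + (sin s * cos s) * (X⁻¹ * Gt).trace := by
    rw [← smul_eq_mul, ← Matrix.trace_smul, ← Matrix.mul_smul, e3, Matrix.mul_add, Matrix.mul_sub,
      Matrix.mul_smul, Matrix.mul_smul, Matrix.mul_smul, Matrix.nonsing_inv_mul _ hd,
      Matrix.trace_add, Matrix.trace_sub, Matrix.trace_smul, Matrix.trace_smul, Matrix.trace_smul]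
    rfl
  have f2 : (sin s * sin t) * (X⁻¹ * KXs C C' s t * X⁻¹ * KXt C C' s t).trace =
      ((X⁻¹ * (sin s • KXs C C' s t)) * (X⁻¹ * (sin t • KXt C C' s t))).trace := by
    rw [Matrix.mul_smul, Matrix.mul_smul, Matrix.smul_mul, Matrix.mul_smul, Matrix.trace_smul,
      Matrix.trace_smul, smul_eq_mul, smul_eq_mul, Matrix.mul_assoc (X⁻¹ * KXs C C' s t)]
    ring
  have f3 : X⁻¹ * (sin s • KXs C C' s t) = cos s • (1 : Matrix ν ν ℝ) - sin t • (X⁻¹ * Gs) := by
    rw [e1, Matrix.mul_sub, Matrix.mul_smul, Matrix.mul_smul, Matrix.nonsing_inv_mul _ hd]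
  have f4 : X⁻¹ * (sin t • KXt C C' s t) = cos t • (1 : Matrix ν ν ℝ) + sin s • (X⁻¹ * Gt) := by
    rw [e2, Matrix.mul_add, Matrix.mul_smul, Matrix.mul_smul, Matrix.nonsing_inv_mul _ hd]
  rw [f3, f4] at f2
  rw [KFts', KFts, mul_sub, f1, f2]
  simp only [Matrix.sub_mul, Matrix.mul_add, Matrix.smul_mul, Matrix.mul_smul, Matrix.one_mul,
    Matrix.mul_one, Matrix.trace_add, Matrix.trace_sub, Matrix.trace_smul, smul_eq_mul,
    Matrix.mul_assoc]
  ring

theorem CData.contXinv {C C' : ℝ → Matrix ν ν ℝ} (h : CData C C') :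
    ContinuousOn (fun p : ℝ × ℝ => (Xc C p.1 p.2)⁻¹) (strip π) := by
  have h4 : (fun p : ℝ × ℝ => (Xc C p.1 p.2)⁻¹) =
      (fun p : ℝ × ℝ => (Xc C p.1 p.2).det⁻¹ • (Xc C p.1 p.2).adjugate) := by
    funext p
    rw [Matrix.inv_def, Ring.inverse_eq_inv']
  rw [h4]
  refine ContinuousOn.smul (ContinuousOn.inv₀ h.contX.matrix_det.continuousOn (fun p hp => ?_))
    h.contX.matrix_adjugate.continuousOn
  exact (h.X_posDef hp.1 hp.2).det_pos.ne'

theorem CData.contKXt {C C' : ℝ → Matrix ν ν ℝ} (h : CData C C') :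
    Continuous (fun p : ℝ × ℝ => KXt C C' p.1 p.2) := by
  have h1 := h.contC
  have h2 := h.contC'
  unfold KXt
  fun_prop

theorem CData.contKXs {C C' : ℝ → Matrix ν ν ℝ} (h : CData C C') :
    Continuous (fun p : ℝ × ℝ => KXs C C' p.1 p.2) := by
  have h1 := h.contC
  have h2 := h.contC'
  unfold KXs
  fun_prop

theorem CData.contKXst {C C' : ℝ → Matrix ν ν ℝ} (h : CData C C') :
    Continuous (fun p : ℝ × ℝ => KXst C' p.1 p.2) := by
  have h2 := h.contC'
  unfold KXst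
  fun_prop

theorem CData.contFt {C C' : ℝ → Matrix ν ν ℝ} (h : CData C C') :
    ContinuousOn (fun p : ℝ × ℝ => KFt C C' p.1 p.2) (strip π) :=
  (Continuous.matrix_trace continuous_id).comp_continuousOn
    (h.contXinv.mul h.contKXt.continuousOn)

theorem CData.contFts {C C' : ℝ → Matrix ν ν ℝ} (h : CData C C') :
    ContinuousOn (fun p : ℝ × ℝ => KFts C C' p.1 p.2) (strip π) :=
  (Continuous.matrix_trace continuous_id).comp_continuousOn
    (((h.contXinv.mul (h.contG.comp continuous_fst).continuousOn).mul h.contXinv).mul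
      (h.contG.comp continuous_snd).continuousOn)

theorem CData.contFts' {C C' : ℝ → Matrix ν ν ℝ} (h : CData C C') :
    ContinuousOn (fun p : ℝ × ℝ => KFts' C C' p.1 p.2) (strip π) :=
  ((Continuous.matrix_trace continuous_id).comp_continuousOn
    (h.contXinv.mul h.contKXst.continuousOn)).sub
  ((Continuous.matrix_trace continuous_id).comp_continuousOn
    (((h.contXinv.mul h.contKXs.continuousOn).mul h.contXinv).mul h.contKXt.continuousOn))

theorem sin_shift_ne (s : ℝ) : ∀ᶠ u in 𝓝[≠] (0 : ℝ), sin (s + u) ≠ 0 := by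
  by_cases hs : sin s = 0
  · have hc : cos s ≠ 0 := by
      intro h
      have := sin_sq_add_cos_sq s
      rw [hs, h] at this
      norm_num at this
    have h1 : HasDerivAt (fun u => sin (s + u)) (cos s) 0 := by
      have h2 := (hasDerivAt_sin (s + 0)).comp_const_add s 0
      rwa [add_zero] at h2
    exact h1.eventually_ne hc
  · have h1 : ContinuousAt (fun u => sin (s + u)) 0 := by (clear * -; fun_prop)
    exact (h1.eventually_ne (by simpa using hs)).filter_mono nhdsWithin_le_nhds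

/-- Two continuous functions on the strip that agree off the lines `sin s sin t = 0` agree. -/
theorem eq_on_strip {f g : ℝ → ℝ → ℝ} (hf : ContinuousOn (fun p : ℝ × ℝ => f p.1 p.2) (strip π))
    (hg : ContinuousOn (fun p : ℝ × ℝ => g p.1 p.2) (strip π))
    (hfg : ∀ s t, (s, t) ∈ strip π → (sin s * sin t) * f s t = (sin s * sin t) * g s t)
    {s t : ℝ} (hst : (s, t) ∈ strip π) : f s t = g s t := by
  have hmem : ∀ u : ℝ, (s + u, t + u) ∈ strip π := by
    intro u
    have h1 : s < t := hst.1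
    have h2 : t < s + π := hst.2
    exact ⟨by change s + u < t + u; linarith only [h1], by change t + u < s + u + π; linarith only [h2]⟩
  have hc : Continuous (fun u : ℝ => (s + u, t + u)) := by fun_prop
  have h1 : Continuous (fun u : ℝ => f (s + u) (t + u)) := hf.comp_continuous hc hmem
  have h2 : Continuous (fun u : ℝ => g (s + u) (t + u)) := hg.comp_continuous hc hmem
  have h3 : (fun u : ℝ => f (s + u) (t + u)) =ᶠ[𝓝[≠] 0] (fun u : ℝ => g (s + u) (t + u)) := by
    filter_upwards [sin_shift_ne s, sin_shift_ne t] with u hu1 hu2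
    exact mul_left_cancel₀ (mul_ne_zero hu1 hu2) (hfg _ _ (hmem u))
  have h4 : Tendsto (fun u : ℝ => f (s + u) (t + u)) (𝓝[≠] 0) (𝓝 (f (s + 0) (t + 0))) :=
    (h1.tendsto 0).mono_left nhdsWithin_le_nhds
  have h5 : Tendsto (fun u : ℝ => g (s + u) (t + u)) (𝓝[≠] 0) (𝓝 (g (s + 0) (t + 0))) :=
    (h2.tendsto 0).mono_left nhdsWithin_le_nhds
  have h6 := tendsto_nhds_unique_of_eventuallyEq h4 h5 h3
  rwa [add_zero, add_zero] at h6

theorem CData.Fts_eq {C C' : ℝ → Matrix ν ν ℝ} (h : CData C C') {s t : ℝ}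
    (hst : (s, t) ∈ strip π) : KFts' C C' s t = KFts C C' s t :=
  eq_on_strip (f := KFts' C C') (g := KFts C C') h.contFts' h.contFts
    (fun _ _ hst => h.identity hst) hst

/-- The pointwise inequality. -/
theorem CData.Fts_ge {C C' : ℝ → Matrix ν ν ℝ} (h : CData C C') {s t b : ℝ}
    (hst : (s, t) ∈ strip π) (hb : 0 < b) :
    Fintype.card ν * (b * (1 - log b)) + b * (log (Gc C C' s).det
      - 2 * log (Xc C s t).det + log (Gc C C' t).det) ≤ KFts C C' s t := by
  have hX := h.X_posDef hst.1 hst.2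
  have hXd := hX.det_pos
  have hinv : (Xc C s t)⁻¹.PosDef := hX.inv
  have hP : ((Xc C s t)⁻¹ * Gc C C' s * (Xc C s t)⁻¹).PosDef := by
    have h1 := (h.pos s).conjTranspose_mul_mul_same (B := (Xc C s t)⁻¹)
      (Matrix.mulVec_injective_of_isUnit hinv.isUnit)
    rwa [hinv.1] at h1
  have h2 := trace_mul_ge hP (h.pos t) hb
  have h3 : log ((Xc C s t)⁻¹ * Gc C C' s * (Xc C s t)⁻¹).det =
      log (Gc C C' s).det - 2 * log (Xc C s t).det := by
    rw [Matrix.det_mul, Matrix.det_mul, Matrix.det_nonsing_inv, Ring.inverse_eq_inv',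
      log_mul (by have := h.G_det_pos s; (clear * - hXd this; positivity)) (by positivity),
      log_mul (by positivity) (h.G_det_pos s).ne', log_inv]
    ring
  rw [h3] at h2
  exact h2

/-- the matrices given by the mean value theorem -/
def Dmat (C C' : ℝ → Matrix ν ν ℝ) (p : ℝ × (ν → ν → ℝ)) : Matrix ν ν ℝ :=
  Matrix.of fun i j => KXt C C' p.1 (p.1 + p.2 i j) i j

theorem CData.contD {C C' : ℝ → Matrix ν ν ℝ} (h : CData C C') : Continuous (Dmat C C') := by
  refine continuous_matrix (fun i j => ?_)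
  have h1 : Continuous (fun p : ℝ × (ν → ν → ℝ) => (p.1, p.1 + p.2 i j)) := by fun_prop
  have h2 : Continuous (fun p : ℝ × ℝ => KXt C C' p.1 p.2 i j) := by
    exact h.contKXt.matrix_elem i j
  have h3 := h2.comp h1
  exact h3

theorem Dmat_zero (C C' : ℝ → Matrix ν ν ℝ) (s : ℝ) : Dmat C C' (s, 0) = Gc C C' s := by
  ext i j
  change KXt C C' s (s + 0) i j = Gc C C' s i j
  rw [add_zero]
  rfl

theorem CData.exists_Dmat {C C' : ℝ → Matrix ν ν ℝ} (h : CData C C') (s : ℝ) {r : ℝ}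
    (hr0 : 0 < r) : ∃ θ : ν → ν → ℝ, ‖θ‖ ≤ r ∧ Xc C s (s + r) = r • Dmat C C' (s, θ) := by
  have hex : ∀ i j, ∃ θ ∈ Ioo (0 : ℝ) r, Xc C s (s + r) i j = r * KXt C C' s (s + θ) i j := by
    intro i j
    have hder : ∀ x : ℝ, HasDerivAt (fun x => Xc C s (s + x) i j) (KXt C C' s (s + x) i j) x :=
      fun x => (h.hX_t s (s + x) i j).comp_const_add s x
    obtain ⟨θ, hθ, h1⟩ := exists_hasDerivAt_eq_slope (fun x => Xc C s (s + x) i j)
      (fun x => KXt C C' s (s + x) i j) hr0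
      (fun x _ => (hder x).continuousAt.continuousWithinAt) (fun x _ => hder x)
    refine ⟨θ, hθ, ?_⟩
    have h2 : Xc C s (s + 0) i j = 0 := by
      rw [add_zero, Xc, sub_self]
      rfl
    rw [h2, sub_zero, sub_zero, eq_div_iff hr0.ne'] at h1
    rw [← h1]
    ring
  choose θ hθ hθX using hex
  refine ⟨θ, ?_, ?_⟩
  · rw [pi_norm_le_iff_of_nonneg hr0.le]
    intro i
    rw [pi_norm_le_iff_of_nonneg hr0.le]
    intro j
    rw [Real.norm_eq_abs, abs_of_pos (hθ i j).1]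
    exact (hθ i j).2.le
  · ext i j
    exact hθX i j

/-- Lower bound of the determinant near the diagonal. -/
theorem CData.det_lower {C C' : ℝ → Matrix ν ν ℝ} (h : CData C C') :
    ∃ c δ : ℝ, 0 < c ∧ 0 < δ ∧ ∀ s ∈ Icc 0 π, ∀ r, 0 < r → r < δ →
      c * r ^ Fintype.card ν ≤ (Xc C s (s + r)).det := by
  -- minimum of `det G`
  have hGc : Continuous (fun s => (Gc C C' s).det) := h.contG.matrix_det
  obtain ⟨s₀, _, hs₀⟩ := (isCompact_Icc (a := (0 : ℝ)) (b := π)).exists_isMinOn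
    ⟨0, ⟨le_rfl, pi_pos.le⟩⟩ hGc.continuousOn
  obtain ⟨m, hm⟩ : ∃ m, m = (Gc C C' s₀).det := ⟨_, rfl⟩
  have hmpos : 0 < m := hm ▸ h.G_det_pos s₀
  have hopen : IsOpen {p : ℝ × (ν → ν → ℝ) | m / 2 < (Dmat C C' p).det} :=
    isOpen_lt continuous_const h.contD.matrix_det
  have hsub : Icc (0 : ℝ) π ×ˢ ({0} : Set (ν → ν → ℝ)) ⊆
      {p : ℝ × (ν → ν → ℝ) | m / 2 < (Dmat C C' p).det} := by
    rintro ⟨s, Θ⟩ ⟨hs, hΘ⟩
    have hΘ' : Θ = 0 := hΘ
    subst hΘ'
    change m / 2 < (Dmat C C' (s, 0)).det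
    rw [Dmat_zero]
    have h2 : m ≤ (Gc C C' s).det := hm ▸ hs₀ hs
    linarith only [hmpos, h2]
  obtain ⟨U, V, _, hV, hU1, hV1, hUV⟩ := generalized_tube_lemma isCompact_Icc
    (isCompact_singleton (x := (0 : ν → ν → ℝ))) hopen hsub
  obtain ⟨δ, hδ, hball⟩ := Metric.isOpen_iff.1 hV 0 (hV1 rfl)
  refine ⟨m / 2, δ, by positivity, hδ, fun s hs r hr0 hrδ => ?_⟩
  obtain ⟨θ, hθ, hXD⟩ := h.exists_Dmat s hr0
  have hθmem : θ ∈ V := by
    apply hball
    rw [mem_ball_zero_iff]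
    exact lt_of_le_of_lt hθ hrδ
  have h5 : m / 2 < (Dmat C C' (s, θ)).det := hUV (Set.mk_mem_prod (hU1 hs) hθmem)
  rw [hXD, Matrix.det_smul, mul_comm]
  exact mul_le_mul_of_nonneg_left h5.le (by (clear * - hr0; positivity))

theorem int_lin {A B D : ℝ → ℝ} (hA : Continuous A) (hB : Continuous B) (hD : Continuous D)
    (K b : ℝ) : ∫ s in (0 : ℝ)..π, (K + b * (A s - 2 * B s + D s)) =
      π * K + b * ((∫ s in (0 : ℝ)..π, A s) - 2 * (∫ s in (0 : ℝ)..π, B s) +
        ∫ s in (0 : ℝ)..π, D s) := by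
  have i1 : IntervalIntegrable (fun _ : ℝ => K) volume 0 π := continuous_const.intervalIntegrable _ _
  have i2 : IntervalIntegrable (fun s : ℝ => b * (A s - 2 * B s + D s)) volume 0 π :=
    Continuous.intervalIntegrable (by fun_prop) _ _
  have i3 : IntervalIntegrable (fun s : ℝ => A s - 2 * B s) volume 0 π :=
    Continuous.intervalIntegrable (by fun_prop) _ _
  have i4 : IntervalIntegrable (fun s : ℝ => 2 * B s) volume 0 π :=
    Continuous.intervalIntegrable (by fun_prop) _ _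
  have i5 : IntervalIntegrable (fun s : ℝ => D s) volume 0 π := hD.intervalIntegrable _ _
  have i6 : IntervalIntegrable (fun s : ℝ => A s) volume 0 π := hA.intervalIntegrable _ _
  rw [intervalIntegral.integral_add i1 i2, intervalIntegral.integral_const,
    intervalIntegral.integral_const_mul, intervalIntegral.integral_add i3 i5,
    intervalIntegral.integral_sub i6 i4, intervalIntegral.integral_const_mul, sub_zero,
    smul_eq_mul]

theorem int_sub {A B D : ℝ → ℝ} (hA : Continuous A) (hB : Continuous B) (hD : Continuous D) :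
    ∫ s in (0 : ℝ)..π, (A s - B s / 2 - D s / 2) =
      (∫ s in (0 : ℝ)..π, A s) - (∫ s in (0 : ℝ)..π, B s) / 2 - (∫ s in (0 : ℝ)..π, D s) / 2 := by
  have i1 : IntervalIntegrable (fun s : ℝ => A s - B s / 2) volume 0 π :=
    Continuous.intervalIntegrable (by fun_prop) _ _
  have i2 : IntervalIntegrable (fun s : ℝ => D s / 2) volume 0 π :=
    Continuous.intervalIntegrable (by (clear * - hD; fun_prop)) _ _
  have i3 : IntervalIntegrable (fun s : ℝ => A s) volume 0 π := hA.intervalIntegrable _ _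
  have i4 : IntervalIntegrable (fun s : ℝ => B s / 2) volume 0 π :=
    Continuous.intervalIntegrable (by fun_prop) _ _
  rw [intervalIntegral.integral_sub i1 i2, intervalIntegral.integral_sub i3 i4,
    intervalIntegral.integral_div, intervalIntegral.integral_div]

theorem int_shift {f : ℝ → ℝ} (hf : Function.Periodic f π) (d : ℝ) :
    ∫ s in (0 : ℝ)..π, f (s + d) = ∫ s in (0 : ℝ)..π, f s := by
  rw [intervalIntegral.integral_comp_add_right, zero_add, add_comm π d,
    hf.intervalIntegral_add_eq d 0, zero_add]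

/-- the mean of `log det X` -/
def Kl (C : ℝ → Matrix ν ν ℝ) (r : ℝ) : ℝ := ∫ s in (0 : ℝ)..π, log (Xc C s (s + r)).det

theorem Kl_symm {C C' : ℝ → Matrix ν ν ℝ} (h : CData C C') (r : ℝ) :
    Kl C (π - r) = Kl C r := by
  have h1 : ∀ s : ℝ, (fun s => log (Xc C s (s + (π - r))).det) (s + r) =
      log (Xc C s (s + r)).det := by
    intro s
    change log (Xc C (s + r) (s + r + (π - r))).det = _
    rw [Xc_flip h]
    congr 3
    ring
  have h2 : Function.Periodic (fun s => log (Xc C s (s + (π - r))).det) π := by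
    intro s
    change log (Xc C (s + π) (s + π + (π - r))).det = log (Xc C s (s + (π - r))).det
    rw [← Xc_shift h s (s + (π - r))]
    congr 3
    ring
  have h3 := int_shift h2 r
  rw [Kl, Kl, ← h3]
  exact intervalIntegral.integral_congr (fun s _ => h1 s)

theorem CData.mem_strip_add {s r : ℝ} (hr : r ∈ Ioo 0 π) : (s, s + r) ∈ strip π :=
  ⟨by change s < s + r; (clear * - hr; linarith [hr.1]), by change s + r < s + π; linarith only [hr.2]⟩

theorem cont_of_strip {f : ℝ → ℝ → ℝ} (hf : ContinuousOn (fun p : ℝ × ℝ => f p.1 p.2) (strip π))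
    {r : ℝ} (hr : r ∈ Ioo 0 π) : Continuous (fun s => f s (s + r)) := by
  have h1 : Continuous (fun s : ℝ => (s, s + r)) := by fun_prop
  have h2 := hf.comp_continuous h1 (fun _ => CData.mem_strip_add hr)
  exact h2

theorem CData.cont_logX {C C' : ℝ → Matrix ν ν ℝ} (h : CData C C') {r : ℝ} (hr : r ∈ Ioo 0 π) :
    Continuous (fun s => log (Xc C s (s + r)).det) :=
  cont_of_strip (f := fun s t => log (Xc C s t).det) h.contF hr

theorem CData.cont_KFts {C C' : ℝ → Matrix ν ν ℝ} (h : CData C C') {r : ℝ} (hr : r ∈ Ioo 0 π) :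
    Continuous (fun s => KFts C C' s (s + r)) :=
  cont_of_strip (f := KFts C C') h.contFts hr

theorem CData.cont_logG {C C' : ℝ → Matrix ν ν ℝ} (h : CData C C') :
    Continuous (fun s => log (Gc C C' s).det) :=
  h.contG.matrix_det.log (fun t => (h.G_det_pos t).ne')

theorem CData.cont_logG' {C C' : ℝ → Matrix ν ν ℝ} (h : CData C C') (r : ℝ) :
    Continuous (fun s => log (Gc C C' (s + r)).det) := by
  have h1 : Continuous (fun s : ℝ => s + r) := by fun_prop
  have h2 := h.cont_logG.comp h1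
  exact h2

theorem CData.int_logG {C C' : ℝ → Matrix ν ν ℝ} (h : CData C C') (r : ℝ) :
    ∫ s in (0 : ℝ)..π, log (Gc C C' (s + r)).det = ∫ s in (0 : ℝ)..π, log (Gc C C' s).det :=
  int_shift (f := fun s => log (Gc C C' s).det) (fun s => by
    change log (Gc C C' (s + π)).det = log (Gc C C' s).det
    rw [h.G_shift]) r

theorem CData.kl_lower {C C' : ℝ → Matrix ν ν ℝ} (h : CData C C') :
    ∃ K δ : ℝ, 0 ≤ K ∧ 0 < δ ∧ δ ≤ π ∧ ∀ r, 0 < r → r < δ →
      -K ≤ Kl C r - (∫ s in (0 : ℝ)..π, log (Gc C C' s).det)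
        - π * (Fintype.card ν * log (sin r)) := by
  obtain ⟨c, δ, hc, hδ, hcδ⟩ := h.det_lower
  refine ⟨|π * log c - ∫ s in (0 : ℝ)..π, log (Gc C C' s).det|, min δ π, abs_nonneg _,
    lt_min hδ pi_pos, min_le_right _ _, fun r hr0 hr => ?_⟩
  have hrδ : r < δ := hr.trans_le (min_le_left _ _)
  have hrπ : r < π := hr.trans_le (min_le_right _ _)
  have hsin : 0 < sin r := sin_pos_of_pos_of_lt_pi hr0 hrπ
  have h1 : π * (log c + Fintype.card ν * log r) ≤ Kl C r := by
    have h2 : ∫ _s in (0 : ℝ)..π, (log c + Fintype.card ν * log r) ≤ Kl C r := by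
      refine intervalIntegral.integral_mono_on pi_pos.le
        (continuous_const.intervalIntegrable _ _)
        ((h.cont_logX ⟨hr0, hrπ⟩).intervalIntegrable _ _) (fun s hs => ?_)
      have h3 := hcδ s hs r hr0 hrδ
      have h4 : log c + Fintype.card ν * log r = log (c * r ^ Fintype.card ν) := by
        rw [log_mul hc.ne' (by (clear * - hr0; positivity)), log_pow]
      rw [h4]
      exact log_le_log (by (clear * - hc hr0; positivity)) h3
    rwa [intervalIntegral.integral_const, sub_zero, smul_eq_mul] at h2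
  have h5 : log (sin r) ≤ log r := log_le_log hsin (sin_lt hr0).le
  have h6 : π * (Fintype.card ν * log (sin r)) ≤ π * (Fintype.card ν * log r) := by
    have := pi_pos
    gcongr
  have h7 := neg_abs_le (π * log c - ∫ s in (0 : ℝ)..π, log (Gc C C' s).det)
  linarith

theorem CData.kazdan {C C' : ℝ → Matrix ν ν ℝ} (h : CData C C') {r : ℝ} (hr : r ∈ Ioo 0 π) :
    π * (Fintype.card ν * log (sin r)) ≤ ∫ s in (0 : ℝ)..π,
      (log (Xc C s (s + r)).det - log (Gc C C' s).det / 2 - log (Gc C C' (s + r)).det / 2) := by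
  obtain ⟨g0, hg0⟩ : ∃ g0, g0 = ∫ s in (0 : ℝ)..π, log (Gc C C' s).det := ⟨_, rfl⟩
  obtain ⟨n, hn⟩ : ∃ n : ℝ, n = Fintype.card ν := ⟨_, rfl⟩
  have hn0 : 0 ≤ n := hn ▸ Nat.cast_nonneg _
  have hπ := pi_pos
  -- the integral
  have hint : ∫ s in (0 : ℝ)..π, (log (Xc C s (s + r)).det - log (Gc C C' s).det / 2
      - log (Gc C C' (s + r)).det / 2) = Kl C r - g0 := by
    have h1 := int_sub (h.cont_logX hr) h.cont_logG (h.cont_logG' r)
    rw [h.int_logG, ← hg0] at h1
    rw [h1, Kl]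
    ring
  rw [hint]
  -- derivatives
  have hav := average (F := fun s t => log (Xc C s t).det) (Ft := KFt C C') (Fts := KFts C C')
    (T := π) (fun s t => by rw [Xc_shift h]) h.contF h.contFt h.contFts
    (fun s t hst => h.dF hst) (fun s t hst => by
      have h1 := h.dFt' hst
      rwa [h.Fts_eq hst] at h1)
  obtain ⟨K, δ, hK, hδ, hδπ, hlow⟩ := h.kl_lower
  rw [← hg0, ← hn] at hlow
  have key := comparison (k := 1) (T := π) one_pos (one_mul π)
    (u := fun r => Kl C r - g0 - π * (n * log (sin r)))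
    (u' := fun r => (∫ s in (0 : ℝ)..π, KFt C C' s (s + r)) - π * (n * (cos r / sin r)))
    (u'' := fun r => (-∫ s in (0 : ℝ)..π, KFts C C' s (s + r)) + π * (n * (1 / sin r ^ 2)))
    ?_ ?_ ?_ ?_ ?_ r hr
  · rw [← hn]
    change 0 ≤ Kl C r - g0 - π * (n * log (sin r)) at key
    linarith only [key]
  · intro x hx
    have hs := sin_pos_of_mem_Ioo hx
    have h1 := (hav x hx).1
    have h2 : HasDerivAt (fun r => log (sin r)) (cos x / sin x) x :=
      (hasDerivAt_sin x).log hs.ne'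
    exact (h1.sub_const g0).sub ((h2.const_mul n).const_mul π)
  · intro x hx
    have hs := sin_pos_of_mem_Ioo hx
    have h1 := (hav x hx).2
    have h2 : HasDerivAt (fun r => cos r / sin r) (-(1 / sin x ^ 2)) x := by
      have h3 := (hasDerivAt_cos x).div (hasDerivAt_sin x) hs.ne'
      refine h3.congr_deriv ?_
      have h4 := sin_sq_add_cos_sq x
      rw [neg_mul, ← sq, ← sq, ← neg_div]
      congr 1
      linarith only [h4]
    have h5 := h1.sub ((h2.const_mul n).const_mul π)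
    refine h5.congr_deriv ?_
    ring
  · intro x hx
    have hs := sin_pos_of_mem_Ioo hx
    obtain ⟨b, hb⟩ : ∃ b, b = 1 / sin x ^ 2 := ⟨_, rfl⟩
    have hb0 : 0 < b := by rw [hb]; (clear * - hs; positivity)
    have hlogb : log b = -(2 * log (sin x)) := by
      rw [hb, one_div, log_inv, log_pow]
      push_cast
      ring
    have h1 : ∫ s in (0 : ℝ)..π, (n * (b * (1 - log b)) + b * (log (Gc C C' s).det
        - 2 * log (Xc C s (s + x)).det + log (Gc C C' (s + x)).det)) ≤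
        ∫ s in (0 : ℝ)..π, KFts C C' s (s + x) := by
      have c1 := h.cont_logG
      have c2 := h.cont_logX hx
      have c3 := h.cont_logG' x
      have c4 : Continuous (fun s => n * (b * (1 - log b)) + b * (log (Gc C C' s).det
        - 2 * log (Xc C s (s + x)).det + log (Gc C C' (s + x)).det)) :=
        continuous_const.add (continuous_const.mul ((c1.sub (continuous_const.mul c2)).add c3))
      refine intervalIntegral.integral_mono_on pi_pos.le (c4.intervalIntegrable _ _)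
        ((h.cont_KFts hx).intervalIntegrable _ _) (fun s _ => ?_)
      have h2 := h.Fts_ge (CData.mem_strip_add (s := s) hx) hb0
      rwa [← hn] at h2
    have h1' := int_lin h.cont_logG (h.cont_logX hx) (h.cont_logG' x) (n * (b * (1 - log b))) b
    rw [h1', h.int_logG, ← hg0] at h1
    change π * (n * (b * (1 - log b))) + b * (g0 - 2 * Kl C x + g0) ≤ _ at h1
    have h3 : 2 * (1 : ℝ) ^ 2 / sin (1 * x) ^ 2 = 2 * b := by
      rw [one_mul, hb]
      ring
    change (-∫ s in (0 : ℝ)..π, KFts C C' s (s + x)) + π * (n * (1 / sin x ^ 2)) ≤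
      2 * (1 : ℝ) ^ 2 / sin (1 * x) ^ 2 * (Kl C x - g0 - π * (n * log (sin x)))
    rw [h3, ← hb]
    rw [hlogb] at h1
    nlinarith only [h1]
  · intro ε hε
    have h1 : ∀ᶠ x in 𝓝[>] (0 : ℝ), x ∈ Ioo 0 (min δ (ε / (K + 1))) :=
      Ioo_mem_nhdsGT (lt_min hδ (by (clear * - hε hK; positivity)))
    filter_upwards [h1] with x hx
    have hx1 : x < δ := hx.2.trans_le (min_le_left _ _)
    have hx2 : x < ε / (K + 1) := hx.2.trans_le (min_le_right _ _)
    have hs : 0 < sin x := sin_pos_of_pos_of_lt_pi hx.1 (hx1.trans_le hδπ)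
    have hs2 : sin x < x := sin_lt hx.1
    have h2 := hlow x hx.1 hx1
    rw [lt_div_iff₀ (by positivity)] at hx2
    rw [one_mul]
    change -ε ≤ sin x * (Kl C x - g0 - π * (n * log (sin x)))
    nlinarith only [hx2, hs, hs2, hK, h2]
  · intro ε hε
    have h1 : ∀ᶠ x in 𝓝[<] π, x ∈ Ioo (π - min δ (ε / (K + 1))) π :=
      Ioo_mem_nhdsLT (by
        have : 0 < min δ (ε / (K + 1)) := lt_min hδ (by (clear * - hε hK; positivity))
        linarith only [this])
    filter_upwards [h1] with x hx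
    have hx0 : 0 < π - x := by linarith only [hx.2]
    have hxm : π - x < min δ (ε / (K + 1)) := by linarith only [hx.1]
    have hx1 : π - x < δ := hxm.trans_le (min_le_left _ _)
    have hx2 : π - x < ε / (K + 1) := hxm.trans_le (min_le_right _ _)
    have hs : 0 < sin (π - x) := sin_pos_of_pos_of_lt_pi hx0 (hx1.trans_le hδπ)
    have hs2 : sin (π - x) < π - x := sin_lt hx0
    have h2 := hlow (π - x) hx0 hx1
    rw [lt_div_iff₀ (by (clear * - hK; positivity))] at hx2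
    rw [Kl_symm h, sin_pi_sub] at h2
    rw [sin_pi_sub] at hs hs2
    rw [one_mul]
    change -ε ≤ sin x * (Kl C x - g0 - π * (n * log (sin x)))
    nlinarith only [hx2, hs, hs2, hK, h2]

end

end Vale.Agent.P231
end
end

section

section

/-! P231 core: pointwise inequality for adapted Jacobi data. -/

open Matrix Real Set Filter Topology MeasureTheory
open scoped ContDiff

namespace Vale.Agent.P231

noncomputable section

section General

variable {ι : Type*} [Fintype ι] [DecidableEq ι] {A : ℝ → ℝ → Matrix ι ι ℝ}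

theorem JData.per_pi (h : JData (π / 2) A) (s t : ℝ) : A s (t + π) = A s t := by
  have h1 := h.per s t
  rwa [show 2 * (π / 2) = π by ring] at h1

theorem JData.per_pi' (h : JData (π / 2) A) (s t : ℝ) : A (s + π) t = A s t := by
  have h1 := h.per' s t
  rwa [show 2 * (π / 2) = π by ring] at h1

theorem JData.per_diag (h : JData (π / 2) A) (s t : ℝ) : A (s + π) (t + π) = A s t := by
  rw [h.per_pi, h.per_pi']

theorem JData.unit0 (h : JData (π / 2) A) {t : ℝ} (ht : sin (2 * t) ≠ 0) :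
    IsUnit (A 0 t) := by
  have hp : Function.Periodic (fun t : ℝ => (A 0 t, sin (2 * t))) π := by
    intro t
    show (A 0 (t + π), sin (2 * (t + π))) = (A 0 t, sin (2 * t))
    rw [h.per_pi, show 2 * (t + π) = 2 * t + 2 * π by ring, Real.sin_add_two_pi]
  obtain ⟨y, hy, hy2⟩ := hp.exists_mem_Ico₀ Real.pi_pos t
  have h1 : A 0 t = A 0 y := (Prod.ext_iff.1 hy2).1
  have h2 : sin (2 * t) = sin (2 * y) := (Prod.ext_iff.1 hy2).2
  rw [h2] at ht
  have h3 : y ≠ 0 := by
    rintro rfl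
    simp at ht
  have h4 : y ≠ π / 2 := by
    rintro rfl
    rw [show 2 * (π / 2) = π by ring, Real.sin_pi] at ht
    exact ht rfl
  rw [h1]
  refine h.unit' (lt_of_le_of_ne hy.1 (Ne.symm h3)) ?_ ?_
  · linarith only [hy.2]
  · simpa using h4

theorem JData.unit_quarter (h : JData (π / 2) A) : IsUnit (A 0 (π / 4)) :=
  h.unit 0 (π / 4) (by positivity) (by linarith only [Real.pi_pos])

end General

/-- The regular base points are dense. -/
theorem dense_regular (r : ℝ) : Dense {s : ℝ | sin (2 * s) ≠ 0 ∧ sin (2 * (s + r)) ≠ 0} := by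
  have h1 : ({s : ℝ | sin (2 * s) = 0 ∨ sin (2 * (s + r)) = 0}).Countable := by
    refine ((Set.countable_range (fun n : ℤ => (n : ℝ) * π / 2)).union
      (Set.countable_range (fun n : ℤ => (n : ℝ) * π / 2 - r))).mono ?_
    rintro s (hs | hs)
    · left
      obtain ⟨n, hn⟩ := Real.sin_eq_zero_iff.1 hs
      exact ⟨n, by simp only; linarith⟩
    · right
      obtain ⟨n, hn⟩ := Real.sin_eq_zero_iff.1 hs
      exact ⟨n, by simp only; linarith⟩
  have h2 := h1.dense_compl ℝ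
  refine h2.mono ?_
  intro s hs
  exact not_or.1 hs

section Reduced

variable {κ ν : Type*} [Fintype κ] [DecidableEq κ] [Fintype ν] [DecidableEq ν]
  {A : ℝ → ℝ → Matrix (κ ⊕ ν) (κ ⊕ ν) ℝ} {C C' : ℝ → Matrix ν ν ℝ}

/-- The relation between the reduced system and the full one. -/
def Link (A : ℝ → ℝ → Matrix (κ ⊕ ν) (κ ⊕ ν) ℝ) (C C' : ℝ → Matrix ν ν ℝ) : Prop :=
  ∀ t, sin (2 * t) ≠ 0 →
      C t = -(sin t) • (Hc A 0 (π / 4) t).toBlocks₂₂ ∧
      cos t • C t - sin t • C' t = (sin t) ^ 2 • ((Gm A 0 t)⁻¹).toBlocks₂₂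

/-- The weighted logarithm of the reduced system. -/
def gc (C C' : ℝ → Matrix ν ν ℝ) (s t : ℝ) : ℝ :=
  log (Xc C s t).det - log (Gc C C' s).det / 2 - log (Gc C C' t).det / 2

theorem sin_ne_of_two {t : ℝ} (ht : sin (2 * t) ≠ 0) : sin t ≠ 0 := by
  intro h0
  rw [Real.sin_two_mul, h0] at ht
  simp at ht

theorem Link.Xc_eq (hL : Link A C C') {s t : ℝ} (hs : sin (2 * s) ≠ 0) (ht : sin (2 * t) ≠ 0) :
    Xc C s t = (sin s * sin t) •
      (Hc A 0 (π / 4) t - Hc A 0 (π / 4) s).toBlocks₂₂ := by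
  unfold Xc
  rw [(hL s hs).1, (hL t ht).1]
  have : (Hc A 0 (π / 4) t - Hc A 0 (π / 4) s).toBlocks₂₂ =
    (Hc A 0 (π / 4) t).toBlocks₂₂ - (Hc A 0 (π / 4) s).toBlocks₂₂ := rfl
  rw [this]
  module

theorem Link.log_Xc (hL : Link A C C') {s t : ℝ} (hs : sin (2 * s) ≠ 0) (ht : sin (2 * t) ≠ 0)
    (h0 : (Hc A 0 (π / 4) t - Hc A 0 (π / 4) s).toBlocks₂₂.det ≠ 0) :
    log (Xc C s t).det = Fintype.card ν * (log (sin s) + log (sin t)) +
      log |(Hc A 0 (π / 4) t - Hc A 0 (π / 4) s).toBlocks₂₂.det| := by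
  rw [hL.Xc_eq hs ht, Matrix.det_smul, Real.log_abs,
    Real.log_mul (pow_ne_zero _ (mul_ne_zero (sin_ne_of_two hs) (sin_ne_of_two ht))) h0,
    Real.log_pow, Real.log_mul (sin_ne_of_two hs) (sin_ne_of_two ht)]

theorem Link.log_Gc (hL : Link A C C') {t : ℝ} (ht : sin (2 * t) ≠ 0)
    (h0 : ((Gm A 0 t)⁻¹).toBlocks₂₂.det ≠ 0) :
    log (Gc C C' t).det = Fintype.card ν * (2 * log (sin t)) +
      log ((Gm A 0 t)⁻¹).toBlocks₂₂.det := by
  unfold Gc
  rw [(hL t ht).2, Matrix.det_smul,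
    Real.log_mul (pow_ne_zero _ (pow_ne_zero _ (sin_ne_of_two ht))) h0,
    Real.log_pow, Real.log_pow]
  (clear * -; norm_num)

theorem toBlocks₂₂_posDef {M : Matrix (κ ⊕ ν) (κ ⊕ ν) ℝ} (hM : M.PosDef) :
    M.toBlocks₂₂.PosDef :=
  hM.submatrix (e := Sum.inr) Sum.inr_injective

theorem isUnit_factor {ι : Type*} [Fintype ι] [DecidableEq ι] {P X Q R : Matrix ι ι ℝ}
    (h : R = P * X * Q) (hR : IsUnit R) : IsUnit X := by
  rw [Matrix.isUnit_iff_isUnit_det, isUnit_iff_ne_zero] at hR ⊢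
  intro h0
  apply hR
  rw [h, Matrix.det_mul, Matrix.det_mul, h0]
  ring

theorem log_det_inv {ι : Type*} [Fintype ι] [DecidableEq ι] (M : Matrix ι ι ℝ) :
    log (M⁻¹).det = -log M.det := by
  rw [Matrix.det_nonsing_inv, Ring.inverse_eq_inv', Real.log_inv]

/-- All the facts about a regular pair. -/
theorem regular_facts (h : JData (π / 2) A) (hC : CData C C') (hL : Link A C C') {s t : ℝ}
    (h1 : s < t) (h2 : t < s + π / 2) (h3 : sin (2 * s) ≠ 0) (h4 : sin (2 * t) ≠ 0) :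
    let X := Hc A 0 (π / 4) t - Hc A 0 (π / 4) s
    let G := (Gm A 0 t)⁻¹
    let G' := (Gm A 0 s)⁻¹
    Xᵀ = X ∧ IsUnit X ∧ IsUnit X.toBlocks₂₂ ∧ G.PosDef ∧ G'.PosDef ∧
      log |(A s t).det| = log |X.det| - log G.det / 2 - log G'.det / 2 ∧
      gc C C' s t = log |X.toBlocks₂₂.det| - log G.toBlocks₂₂.det / 2
        - log G'.toBlocks₂₂.det / 2 ∧
      ((A s t)⁻¹ * ((A s t)⁻¹)ᵀ).trace = (X⁻¹ * G' * X⁻¹ * G).trace := by
  intro X G G'
  have u0 := h.unit_quarter
  have us := h.unit0 h3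
  have ut := h.unit0 h4
  have ust := h.unit s t h1 h2
  have hX : Xᵀ = X := by
    show (Hc A 0 (π / 4) t - Hc A 0 (π / 4) s)ᵀ = _
    rw [Matrix.transpose_sub, h.Hc_symm u0 ut, h.Hc_symm u0 us]
  have hXu : IsUnit X := isUnit_factor (h.factor u0 us ut) ust
  have hXc : (Xc C s t).PosDef := hC.X_posDef h1 (by linarith [Real.pi_pos])
  have hX2 : IsUnit X.toBlocks₂₂ := by
    have h5 := hXc.isUnit
    rw [hL.Xc_eq h3 h4, Matrix.isUnit_iff_isUnit_det, Matrix.det_smul, isUnit_iff_ne_zero] at h5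
    rw [Matrix.isUnit_iff_isUnit_det, isUnit_iff_ne_zero]
    exact right_ne_zero_of_mul h5
  have hG : G.PosDef := (h.Gm_posDef ut).inv
  have hG' : G'.PosDef := (h.Gm_posDef us).inv
  refine ⟨hX, hXu, hX2, hG, hG', ?_, ?_, ?_⟩
  · rw [h.abs_det u0 us ut ust]
    show _ = log |(Hc A 0 (π / 4) t - Hc A 0 (π / 4) s).det| - log ((Gm A 0 t)⁻¹).det / 2
      - log ((Gm A 0 s)⁻¹).det / 2
    rw [log_det_inv, log_det_inv]
    ring
  · have h6 : X.toBlocks₂₂.det ≠ 0 := by
      rwa [Matrix.isUnit_iff_isUnit_det, isUnit_iff_ne_zero] at hX2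
    unfold gc
    rw [hL.log_Xc h3 h4 h6, hL.log_Gc h3 (toBlocks₂₂_posDef hG').det_pos.ne',
      hL.log_Gc h4 (toBlocks₂₂_posDef hG).det_pos.ne']
    ring
  · exact h.trace_inv u0 us ut ust

theorem pointwise_ineq (h : JData (π / 2) A) (hC : CData C C') (hL : Link A C C') {s t : ℝ}
    (h1 : s < t) (h2 : t < s + π / 2) (h3 : sin (2 * s) ≠ 0) (h4 : sin (2 * t) ≠ 0)
    {α β : ℝ} (hβ : 0 < β) (hαβ : β ≤ α) :
    Fintype.card κ * (α * (1 - log α)) + Fintype.card ν * (β * (1 - log β))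
      - 2 * α * log |(A s t).det| + 2 * (α - β) * gc C C' s t
      ≤ ((A s t)⁻¹ * ((A s t)⁻¹)ᵀ).trace := by
  obtain ⟨hX, hXu, hX2, hG, hG', e1, e2, e3⟩ := regular_facts h hC hL h1 h2 h3 h4
  rw [e1, e2, e3]
  exact block_ineq hX hXu hX2 hG hG' hβ hαβ

theorem pointwise_eq (h : JData (π / 2) A) (hC : CData C C') (hL : Link A C C') {s t : ℝ}
    (h1 : s < t) (h2 : t < s + π / 2) (h3 : sin (2 * s) ≠ 0) (h4 : sin (2 * t) ≠ 0)
    {α β : ℝ} (hβ : 0 < β) (hαβ : β < α)
    (heq : ((A s t)⁻¹ * ((A s t)⁻¹)ᵀ).trace ≤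
      Fintype.card κ * (α * (1 - log α)) + Fintype.card ν * (β * (1 - log β))
      - 2 * α * log |(A s t).det| + 2 * (α - β) * gc C C' s t) :
    A s t * (A s t)ᵀ = α⁻¹ • (1 : Matrix (κ ⊕ ν) (κ ⊕ ν) ℝ) + (β⁻¹ - α⁻¹) •
      ((A 0 t) * (Gm A 0 t)⁻¹ *
        Matrix.fromBlocks 0 0 0 (((Gm A 0 t)⁻¹).toBlocks₂₂)⁻¹ * (Gm A 0 t)⁻¹ * (A 0 t)ᵀ) := by
  obtain ⟨hX, hXu, hX2, hG, hG', e1, e2, e3⟩ := regular_facts h hC hL h1 h2 h3 h4
  rw [e1, e2, e3] at heq
  have key := block_eq hX hXu hX2 hG hG' hβ hαβ heq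
  have u0 := h.unit_quarter
  have us := h.unit0 h3
  have ut := h.unit0 h4
  have hf := h.factor (a := 0) (b := π / 4) (s := s) (t := t) u0 us ut
  have hinv : ((Gm A 0 s)⁻¹)⁻¹ = Gm A 0 s :=
    Matrix.nonsing_inv_nonsing_inv _ ((Matrix.isUnit_iff_isUnit_det _).1 (h.Gm_posDef us).isUnit)
  rw [hinv] at key
  set X := Hc A 0 (π / 4) t - Hc A 0 (π / 4) s with hXdef
  have h5 : A s t * (A s t)ᵀ = A 0 t * (X * Gm A 0 s * X) * (A 0 t)ᵀ := by
    rw [hf, Matrix.transpose_mul, Matrix.transpose_mul, Matrix.transpose_transpose, hX]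
    unfold Gm
    simp only [Matrix.mul_assoc]
  have h6 : A 0 t * (Gm A 0 t)⁻¹ * (A 0 t)ᵀ = 1 := by
    have h7 : IsUnit (A 0 t).det := (Matrix.isUnit_iff_isUnit_det _).1 ut
    have h8 : IsUnit ((A 0 t)ᵀ).det := by rwa [Matrix.det_transpose]
    unfold Gm
    rw [Matrix.mul_inv_rev, ← Matrix.mul_assoc, Matrix.mul_nonsing_inv _ h7, Matrix.one_mul,
      Matrix.nonsing_inv_mul _ h8]
  rw [h5, key, Matrix.mul_add, Matrix.add_mul, Matrix.mul_smul, Matrix.smul_mul, h6,
    Matrix.mul_smul, Matrix.smul_mul]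
  simp only [Matrix.mul_assoc]

end Reduced

end

end Vale.Agent.P231
end
end

section

section

/-! Calculus of matrix valued functions of a real variable, entrywise. -/

open Matrix Real Set Filter Topology
open scoped ContDiff

namespace Vale.Agent.P231

namespace MatCalc

variable {ι : Type*} [Fintype ι] [DecidableEq ι]

theorem contDiff_det {n : WithTop ℕ∞} :
    ContDiff ℝ n (fun g : ι → ι → ℝ => (Matrix.of g).det) := by
  simp_rw [Matrix.det_apply']
  apply ContDiff.sum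
  intro σ _
  apply ContDiff.mul contDiff_const
  apply contDiff_prod
  intro i _
  simp only [Matrix.of_apply]
  exact (contDiff_apply_apply (𝕜 := ℝ) (E := ℝ) (σ i) i)

theorem fderiv_det (g h : ι → ι → ℝ) (hg : (Matrix.of g).det ≠ 0) :
    fderiv ℝ (fun g : ι → ι → ℝ => (Matrix.of g).det) g h
      = (Matrix.of g).det * ((Matrix.of g)⁻¹ * Matrix.of h).trace := by
  have hd : HasFDerivAt (fun g : ι → ι → ℝ => (Matrix.of g).det)
      (fderiv ℝ (fun g : ι → ι → ℝ => (Matrix.of g).det) g) g :=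
    ((contDiff_det (n := 1)).differentiable (by norm_num) g).hasFDerivAt
  have h1 : HasDerivAt (fun t : ℝ => (Matrix.of (g + t • h)).det)
      (fderiv ℝ (fun g : ι → ι → ℝ => (Matrix.of g).det) g h) 0 := by
    have hl : HasDerivAt (fun t : ℝ => g + t • h) h 0 := by
      simpa using ((hasDerivAt_id (0 : ℝ)).smul_const h).const_add g
    have hd' : HasFDerivAt (fun g : ι → ι → ℝ => (Matrix.of g).det)
      (fderiv ℝ (fun g : ι → ι → ℝ => (Matrix.of g).det) g) (g + (0 : ℝ) • h) := by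
      simpa only [zero_smul, add_zero] using hd
    exact hd'.comp_hasDerivAt (0 : ℝ) hl
  set A : Matrix ι ι ℝ := (Matrix.of g)⁻¹ * Matrix.of h with hA
  obtain ⟨q, hq⟩ : ∃ q : Polynomial ℝ, ∀ t : ℝ,
      (1 + t • A).det = 1 + A.trace * t + q.eval t * t ^ 2 := by
    exact ⟨_, fun t => Matrix.det_one_add_smul t A⟩
  have h2 : HasDerivAt (fun t : ℝ => (Matrix.of (g + t • h)).det)
      ((Matrix.of g).det * A.trace) 0 := by
    have heq : (fun t : ℝ => (Matrix.of (g + t • h)).det)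
        = fun t => (Matrix.of g).det * (1 + A.trace * t + q.eval t * t ^ 2) := by
      funext t
      rw [← hq, ← Matrix.det_mul]
      congr 1
      rw [Matrix.mul_add, Matrix.mul_one, Matrix.mul_smul, hA, ← Matrix.mul_assoc,
        Matrix.mul_nonsing_inv _ (isUnit_iff_ne_zero.mpr hg), Matrix.one_mul]
      rfl
    rw [heq]
    have : HasDerivAt (fun t : ℝ => 1 + A.trace * t + q.eval t * t ^ 2) A.trace 0 := by
      have e1 : HasDerivAt (fun t : ℝ => A.trace * t) A.trace 0 := by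
        simpa only [id_eq, mul_one] using (hasDerivAt_id (0 : ℝ)).const_mul A.trace
      have e2 : HasDerivAt (fun t : ℝ => q.eval t * t ^ 2) 0 0 := by
        have e3 : HasDerivAt (fun t : ℝ => t ^ 2) 0 0 := by
          simpa only [Nat.cast_ofNat, Nat.add_one_sub_one, pow_one, mul_zero] using hasDerivAt_pow 2 (0 : ℝ)
        have := (q.hasDerivAt (0 : ℝ)).fun_mul e3
        simpa using this
      simpa only [add_zero] using (e1.const_add 1).fun_add e2
    exact this.const_mul _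
  exact h1.unique h2

theorem isUnit_iff {A : Matrix ι ι ℝ} : IsUnit A ↔ A.det ≠ 0 := by
  rw [Matrix.isUnit_iff_isUnit_det, isUnit_iff_ne_zero]

/-- smoothness of the determinant -/
theorem contDiffAt_det {E : Type*} [NormedAddCommGroup E] [NormedSpace ℝ E] {n : WithTop ℕ∞}
    {X : E → Matrix ι ι ℝ} {x : E} (hX : ∀ i j, ContDiffAt ℝ n (fun x => X x i j) x) :
    ContDiffAt ℝ n (fun x => (X x).det) x := by
  have h1 : ContDiffAt ℝ n (fun x => (fun i j => X x i j : ι → ι → ℝ)) x :=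
    contDiffAt_pi.2 fun i => contDiffAt_pi.2 fun j => hX i j
  exact (contDiff_det (n := n)).contDiffAt.comp x h1

/-- Jacobi's formula -/
theorem hasDerivAt_det {X : ℝ → Matrix ι ι ℝ} {X' : Matrix ι ι ℝ} {t : ℝ}
    (hX : ∀ i j, HasDerivAt (fun t => X t i j) (X' i j) t) (hu : IsUnit (X t)) :
    HasDerivAt (fun t => (X t).det) ((X t).det * ((X t)⁻¹ * X').trace) t := by
  have h1 : HasDerivAt (fun t => (fun i j => X t i j : ι → ι → ℝ)) (fun i j => X' i j) t :=
    hasDerivAt_pi.2 fun i => hasDerivAt_pi.2 fun j => hX i j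
  have h2 : HasFDerivAt (fun g : ι → ι → ℝ => (Matrix.of g).det)
      (fderiv ℝ (fun g : ι → ι → ℝ => (Matrix.of g).det) (fun i j => X t i j))
      (fun i j => X t i j) :=
    ((contDiff_det (n := 1)).differentiable (by norm_num) _).hasFDerivAt
  have h3 := h2.comp_hasDerivAt t h1
  have h4 := fderiv_det (fun i j => X t i j) (fun i j => X' i j) (isUnit_iff.1 hu)
  rw [h4] at h3
  exact h3

theorem hasDerivAt_log_det {X : ℝ → Matrix ι ι ℝ} {X' : Matrix ι ι ℝ} {t : ℝ}
    (hX : ∀ i j, HasDerivAt (fun t => X t i j) (X' i j) t) (hu : IsUnit (X t)) :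
    HasDerivAt (fun t => log |(X t).det|) (((X t)⁻¹ * X').trace) t := by
  have h1 := (hasDerivAt_det hX hu).log (isUnit_iff.1 hu)
  have h2 : (X t).det * ((X t)⁻¹ * X').trace / (X t).det = ((X t)⁻¹ * X').trace := by
    field_simp [isUnit_iff.1 hu]
  rw [h2] at h1
  simp only [Real.log_abs]
  exact h1

omit [DecidableEq ι] in
/-- entries of a product -/
theorem hasDerivAt_mul {X Y : ℝ → Matrix ι ι ℝ} {X' Y' : Matrix ι ι ℝ} {t : ℝ}
    (hX : ∀ i j, HasDerivAt (fun t => X t i j) (X' i j) t)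
    (hY : ∀ i j, HasDerivAt (fun t => Y t i j) (Y' i j) t) (i j : ι) :
    HasDerivAt (fun t => (X t * Y t) i j) ((X' * Y t + X t * Y') i j) t := by
  simp only [Matrix.mul_apply, Matrix.add_apply]
  rw [← Finset.sum_add_distrib]
  exact HasDerivAt.fun_sum fun k _ => (hX i k).mul (hY k j)

theorem differentiableAt_det {X : ℝ → Matrix ι ι ℝ} {t : ℝ}
    (hX : ∀ i j, DifferentiableAt ℝ (fun t => X t i j) t) :
    DifferentiableAt ℝ (fun t => (X t).det) t := by
  have h2 : DifferentiableAt ℝ (fun g : ι → ι → ℝ => (Matrix.of g).det) (fun k l => X t k l) :=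
    (contDiff_det (n := 1)).differentiable (by norm_num) _
  have h3 : DifferentiableAt ℝ (fun t => (fun k l => X t k l : ι → ι → ℝ)) t :=
    differentiableAt_pi.2 fun k => differentiableAt_pi.2 fun l => hX k l
  have h4 := h2.comp t h3
  exact h4

/-- derivative of the inverse -/
theorem hasDerivAt_inv {X : ℝ → Matrix ι ι ℝ} {X' : Matrix ι ι ℝ} {t : ℝ}
    (hX : ∀ i j, HasDerivAt (fun t => X t i j) (X' i j) t) (hu : IsUnit (X t)) (i j : ι) :
    HasDerivAt (fun t => (X t)⁻¹ i j) ((-((X t)⁻¹ * X' * (X t)⁻¹)) i j) t := by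
  have hdet : HasDerivAt (fun t => (X t).det) ((X t).det * ((X t)⁻¹ * X').trace) t :=
    hasDerivAt_det hX hu
  have hne : ∀ᶠ s in 𝓝 t, (X s).det ≠ 0 :=
    hdet.continuousAt.eventually_ne (isUnit_iff.1 hu)
  -- differentiability
  have hd : ∀ i j, DifferentiableAt ℝ (fun t => (X t)⁻¹ i j) t := by
    intro i j
    have h1 : (fun x => (X x)⁻¹ i j) = fun x => ((X x).det)⁻¹ * (X x).adjugate i j := by
      funext x
      rw [Matrix.inv_def, Ring.inverse_eq_inv', Matrix.smul_apply, smul_eq_mul]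
    rw [h1]
    refine (hdet.differentiableAt.inv (isUnit_iff.1 hu)).mul ?_
    simp only [Matrix.adjugate_apply]
    refine differentiableAt_det fun k l => ?_
    by_cases hk : k = j
    · subst hk
      simp only [Matrix.updateRow_self]
      exact differentiableAt_const _
    · simp only [Matrix.updateRow_ne hk]
      exact (hX k l).differentiableAt
  set W : Matrix ι ι ℝ := fun i j => deriv (fun t => (X t)⁻¹ i j) t with hW
  have hW' : ∀ i j, HasDerivAt (fun t => (X t)⁻¹ i j) (W i j) t := fun i j =>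
    (hd i j).hasDerivAt
  have h5 : X' * (X t)⁻¹ + X t * W = 0 := by
    ext k l
    have h6 := hasDerivAt_mul hX hW' k l
    have h7 : HasDerivAt (fun t => (X t * (X t)⁻¹) k l) 0 t := by
      refine (hasDerivAt_const t ((1 : Matrix ι ι ℝ) k l)).congr_of_eventuallyEq ?_
      filter_upwards [hne] with s hs
      rw [Matrix.mul_nonsing_inv _ (isUnit_iff_ne_zero.2 hs)]
    exact h6.unique h7
  have h8 : W = -((X t)⁻¹ * X' * (X t)⁻¹) := by
    have hu' : IsUnit (X t).det := isUnit_iff_ne_zero.2 (isUnit_iff.1 hu)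
    have h9 : X t * W = -(X' * (X t)⁻¹) := by
      rw [eq_neg_iff_add_eq_zero, add_comm]; exact h5
    calc W = (X t)⁻¹ * (X t * W) := by
          rw [← Matrix.mul_assoc, Matrix.nonsing_inv_mul _ hu', Matrix.one_mul]
      _ = _ := by rw [h9, Matrix.mul_neg, Matrix.mul_assoc]
  rw [← h8]
  exact hW' i j

omit [DecidableEq ι] in
/-- derivative of the trace of a product -/
theorem hasDerivAt_trace {X : ℝ → Matrix ι ι ℝ} {X' : Matrix ι ι ℝ} {t : ℝ}
    (hX : ∀ i j, HasDerivAt (fun t => X t i j) (X' i j) t) (Y : Matrix ι ι ℝ) :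
    HasDerivAt (fun t => (X t * Y).trace) ((X' * Y).trace) t := by
  have h1 := fun i j => hasDerivAt_mul (Y := fun _ => Y) (Y' := 0) hX
    (fun i j => hasDerivAt_const t (Y i j)) i j
  simp only [Matrix.trace, Matrix.diag]
  refine HasDerivAt.fun_sum fun k _ => ?_
  have h2 := h1 k k
  rw [Matrix.mul_zero, add_zero] at h2
  exact h2

theorem continuousAt_inv {E : Type*} [TopologicalSpace E] {X : E → Matrix ι ι ℝ} {x : E}
    (hX : ContinuousAt X x) (hu : IsUnit (X x)) : ContinuousAt (fun x => (X x)⁻¹) x := by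
  have h1 : (fun x => (X x)⁻¹) = fun x => ((X x).det)⁻¹ • (X x).adjugate := by
    funext x
    rw [Matrix.inv_def, Ring.inverse_eq_inv']
  rw [h1]
  have h2 : ContinuousAt (fun x => (X x).det) x :=
    (continuous_id.matrix_det).continuousAt.comp hX
  have h3 : ContinuousAt (fun x => (X x).adjugate) x :=
    (continuous_id.matrix_adjugate).continuousAt.comp hX
  exact (h2.inv₀ (isUnit_iff.1 hu)).smul h3

omit [Fintype ι] [DecidableEq ι] in
theorem continuousAt_of_entries {E : Type*} [TopologicalSpace E] {X : E → Matrix ι ι ℝ} {x : E}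
    (hX : ∀ i j, ContinuousAt (fun x => X x i j) x) : ContinuousAt X x :=
  continuousAt_pi.2 fun i => continuousAt_pi.2 fun j => hX i j

end MatCalc

end Vale.Agent.P231
end
end

section

section

/-! P231 core, C4c: regularity of `log |det A|` on the strip. -/

open Matrix Real Set Filter Topology MeasureTheory
open scoped ContDiff

namespace Vale.Agent.P231

noncomputable section

variable {ι : Type*} [Fintype ι] [DecidableEq ι] {D : ℝ} {A : ℝ → ℝ → Matrix ι ι ℝ}

theorem JData.exists_base (h : JData D A) {s t : ℝ} (hst : (s, t) ∈ strip D) :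
    ∃ a, IsUnit (A a s) ∧ a < s ∧ s < t ∧ t < a + D := by
  have h1 : s < t := hst.1
  have h2 : t < s + D := hst.2
  refine ⟨(s + t - D) / 2, h.unit _ _ (by linarith) (by linarith only [h1, h2]), by linarith, h1, by linarith⟩

theorem JData.H_unit (h : JData D A) {a b s t : ℝ} (hb : IsUnit (A a b)) (h1 : a < s)
    (h2 : s < t) (h3 : t < a + D) : IsUnit (Hc A a b t - Hc A a b s) := by
  have hs : IsUnit (A a s) := h.unit a s h1 (by linarith only [h2, h3])
  have ht : IsUnit (A a t) := h.unit a t (by linarith only [h1, h2]) h3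
  have hst : IsUnit (A s t) := h.unit s t h2 (by linarith)
  rw [MatCalc.isUnit_iff]
  intro h0
  have h4 := h.factor hb hs ht
  have h5 : (A s t).det = 0 := by rw [h4, det_mul, det_mul, h0]; ring
  exact (MatCalc.isUnit_iff.1 hst) h5

/-- half of the logarithm of the Gram determinant -/
def mG (A : ℝ → ℝ → Matrix ι ι ℝ) (a t : ℝ) : ℝ := log (Gm A a t).det / 2

theorem JData.mG_contDiffAt (h : JData D A) {a t : ℝ} (ht : IsUnit (A a t)) :
    ContDiffAt ℝ ∞ (mG A a) t := by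
  have h1 : 0 < (Gm A a t).det := (h.Gm_posDef ht).det_pos
  have h2 : ContDiffAt ℝ ∞ (fun t => (Gm A a t).det) t :=
    MatCalc.contDiffAt_det fun i j => (h.Gm_contDiff a i j).contDiffAt
  exact (h2.log h1.ne').div_const 2

theorem JData.log_formula (h : JData D A) {a b s t : ℝ} (hb : IsUnit (A a b)) (h1 : a < s)
    (h2 : s < t) (h3 : t < a + D) :
    log |(A s t).det| = log |(Hc A a b t - Hc A a b s).det| + mG A a t + mG A a s :=
  h.abs_det hb (h.unit a s h1 (by (clear * - h2 h3; linarith))) (h.unit a t (by linarith only [h1, h2]) h3)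
    (h.unit s t h2 (by linarith))

theorem JData.log_hasDerivAt (h : JData D A) {a b s t : ℝ} (hb : IsUnit (A a b)) (h1 : a < s)
    (h2 : s < t) (h3 : t < a + D) :
    HasDerivAt (fun t' => log |(A s t').det|)
      (((Hc A a b t - Hc A a b s)⁻¹ * (Gm A a t)⁻¹).trace + deriv (mG A a) t) t := by
  have ht : IsUnit (A a t) := h.unit a t (by linarith) h3
  have e1 : HasDerivAt (fun t' => log |(Hc A a b t' - Hc A a b s).det|)
      (((Hc A a b t - Hc A a b s)⁻¹ * (Gm A a t)⁻¹).trace) t := by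
    refine MatCalc.hasDerivAt_log_det (X := fun t' => Hc A a b t' - Hc A a b s) (fun i j => ?_)
      (h.H_unit hb h1 h2 h3)
    have := (h.Hc_hasDerivAt hb ht i j).sub_const (Hc A a b s i j)
    exact this
  have e2 : HasDerivAt (mG A a) (deriv (mG A a) t) t :=
    ((h.mG_contDiffAt ht).differentiableAt (by simp)).hasDerivAt
  have e3 := (e1.add e2).add_const (mG A a s)
  refine e3.congr_of_eventuallyEq ?_
  filter_upwards [Ioo_mem_nhds h2 h3] with t' ht'
  exact h.log_formula hb h1 ht'.1 ht'.2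

theorem JData.deriv_formula (h : JData D A) {a b s t : ℝ} (hb : IsUnit (A a b)) (h1 : a < s)
    (h2 : s < t) (h3 : t < a + D) :
    deriv (fun t' => log |(A s t').det|) t =
      ((Hc A a b t - Hc A a b s)⁻¹ * (Gm A a t)⁻¹).trace + deriv (mG A a) t :=
  (h.log_hasDerivAt hb h1 h2 h3).deriv

theorem base_mem_nhds {a s t c : ℝ} (h1 : a < s) (h2 : s < t) (h3 : t < c) :
    ∀ᶠ p : ℝ × ℝ in 𝓝 (s, t), a < p.1 ∧ p.1 < p.2 ∧ p.2 < c := by
  have e1 : ∀ᶠ p : ℝ × ℝ in 𝓝 (s, t), a < p.1 :=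
    continuousAt_fst.eventually (lt_mem_nhds h1)
  have e2 : ∀ᶠ p : ℝ × ℝ in 𝓝 (s, t), p.1 < p.2 :=
    (continuousAt_fst (p := ((s, t) : ℝ × ℝ))).eventually_lt continuousAt_snd h2
  have e3 : ∀ᶠ p : ℝ × ℝ in 𝓝 (s, t), p.2 < c :=
    continuousAt_snd.eventually (gt_mem_nhds h3)
  filter_upwards [e1, e2, e3] with p h1 h2 h3
  exact ⟨h1, h2, h3⟩

theorem JData.H_continuousAt (h : JData D A) {a b t : ℝ} (hb : IsUnit (A a b))
    (ht : IsUnit (A a t)) : ContinuousAt (fun t => Hc A a b t) t :=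
  MatCalc.continuousAt_of_entries fun i j => (h.Hc_contDiffAt hb ht i j).continuousAt

theorem JData.G_continuousAt (h : JData D A) (a t : ℝ) :
    ContinuousAt (fun t => Gm A a t) t :=
  MatCalc.continuousAt_of_entries fun i j => (h.Gm_contDiff a i j).continuous.continuousAt

theorem JData.Ginv_continuousAt (h : JData D A) {a t : ℝ} (ht : IsUnit (A a t)) :
    ContinuousAt (fun t => (Gm A a t)⁻¹) t :=
  MatCalc.continuousAt_inv (h.G_continuousAt a t) (h.Gm_posDef ht).isUnit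

theorem JData.HH_continuousAt (h : JData D A) {a b s t : ℝ} (hb : IsUnit (A a b)) (h1 : a < s)
    (h2 : s < t) (h3 : t < a + D) :
    ContinuousAt (fun p : ℝ × ℝ => Hc A a b p.2 - Hc A a b p.1) (s, t) := by
  have hs : IsUnit (A a s) := h.unit a s h1 (by linarith)
  have ht : IsUnit (A a t) := h.unit a t (by linarith only [h1, h2]) h3
  exact ((h.H_continuousAt hb ht).comp (f := Prod.snd) (x := ((s, t) : ℝ × ℝ))
    continuousAt_snd).sub ((h.H_continuousAt hb hs).comp (f := Prod.fst) (x := ((s, t) : ℝ × ℝ))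
      continuousAt_fst)

theorem JData.strip_log (h : JData D A) : ∃ Ft : ℝ → ℝ → ℝ,
    ContinuousOn (fun p : ℝ × ℝ => log |(A p.1 p.2).det|) (strip D) ∧
    ContinuousOn (fun p : ℝ × ℝ => Ft p.1 p.2) (strip D) ∧
    ContinuousOn (fun p : ℝ × ℝ => ((A p.1 p.2)⁻¹ * ((A p.1 p.2)⁻¹)ᵀ).trace) (strip D) ∧
    (∀ s t, (s, t) ∈ strip D → HasDerivAt (fun t' => log |(A s t').det|) (Ft s t) t) ∧
    (∀ s t, (s, t) ∈ strip D →
      HasDerivAt (fun s' => Ft s' t) (((A s t)⁻¹ * ((A s t)⁻¹)ᵀ).trace) s) := by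
  refine ⟨fun s t => deriv (fun t' => log |(A s t').det|) t, ?_, ?_, ?_, ?_, ?_⟩
  · rintro ⟨s, t⟩ hst
    obtain ⟨a, hb, h1, h2, h3⟩ := h.exists_base hst
    have hs : IsUnit (A a s) := h.unit a s h1 (by linarith)
    have ht : IsUnit (A a t) := h.unit a t (by linarith only [h1, h2]) h3
    have e1 : ContinuousAt (fun p : ℝ × ℝ => log |(Hc A a s p.2 - Hc A a s p.1).det|
        + mG A a p.2 + mG A a p.1) (s, t) := by
      refine ContinuousAt.add (ContinuousAt.add ?_ ?_) ?_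
      · have c1 := (continuous_id.matrix_det).continuousAt.comp (h.HH_continuousAt hb h1 h2 h3)
        have c2 : |(Hc A a s t - Hc A a s s).det| ≠ 0 :=
          abs_ne_zero.2 (MatCalc.isUnit_iff.1 (h.H_unit hb h1 h2 h3))
        exact ContinuousAt.log c1.abs c2
      · exact ((h.mG_contDiffAt ht).continuousAt).comp (f := Prod.snd) (x := ((s, t) : ℝ × ℝ))
          continuousAt_snd
      · exact ((h.mG_contDiffAt hs).continuousAt).comp (f := Prod.fst) (x := ((s, t) : ℝ × ℝ))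
          continuousAt_fst
    refine (e1.congr ?_).continuousWithinAt
    filter_upwards [base_mem_nhds h1 h2 h3] with p hp
    exact (h.log_formula hb hp.1 hp.2.1 hp.2.2).symm
  · rintro ⟨s, t⟩ hst
    obtain ⟨a, hb, h1, h2, h3⟩ := h.exists_base hst
    have hs : IsUnit (A a s) := h.unit a s h1 (by linarith)
    have ht : IsUnit (A a t) := h.unit a t (by linarith) h3
    have e1 : ContinuousAt (fun p : ℝ × ℝ =>
        ((Hc A a s p.2 - Hc A a s p.1)⁻¹ * (Gm A a p.2)⁻¹).trace + deriv (mG A a) p.2) (s, t) := by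
      refine ContinuousAt.add ?_ ?_
      · have c1 := MatCalc.continuousAt_inv (h.HH_continuousAt hb h1 h2 h3) (h.H_unit hb h1 h2 h3)
        have c2 := (h.Ginv_continuousAt ht).comp (f := Prod.snd) (x := ((s, t) : ℝ × ℝ))
          continuousAt_snd
        have c3 := c1.mul c2
        exact (continuous_id.matrix_trace).continuousAt.comp c3
      · have c1 : ContinuousAt (deriv (mG A a)) t := by
          have c2 : ContDiffAt ℝ 0 (fun x => fderiv ℝ (mG A a) x) t :=
            (h.mG_contDiffAt ht).fderiv_right (m := 0) (by simp only [zero_add, WithTop.one_le_coe, le_top])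
          have c3 : ContinuousAt (fun x => fderiv ℝ (mG A a) x 1) t :=
            c2.continuousAt.clm_apply continuousAt_const
          exact c3
        exact c1.comp (f := Prod.snd) (x := ((s, t) : ℝ × ℝ)) continuousAt_snd
    refine (e1.congr ?_).continuousWithinAt
    filter_upwards [base_mem_nhds h1 h2 h3] with p hp
    exact (h.deriv_formula hb hp.1 hp.2.1 hp.2.2).symm
  · rintro ⟨s, t⟩ hst
    obtain ⟨a, hb, h1, h2, h3⟩ := h.exists_base hst
    have hs : IsUnit (A a s) := h.unit a s h1 (by linarith only [h2, h3])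
    have ht : IsUnit (A a t) := h.unit a t (by linarith) h3
    have e1 : ContinuousAt (fun p : ℝ × ℝ =>
        ((Hc A a s p.2 - Hc A a s p.1)⁻¹ * (Gm A a p.1)⁻¹ * (Hc A a s p.2 - Hc A a s p.1)⁻¹
          * (Gm A a p.2)⁻¹).trace) (s, t) := by
      have c1 := MatCalc.continuousAt_inv (h.HH_continuousAt hb h1 h2 h3) (h.H_unit hb h1 h2 h3)
      have c2 := (h.Ginv_continuousAt ht).comp (f := Prod.snd) (x := ((s, t) : ℝ × ℝ))
        continuousAt_snd
      have c3 := (h.Ginv_continuousAt hs).comp (f := Prod.fst) (x := ((s, t) : ℝ × ℝ))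
        continuousAt_fst
      have c4 := ((c1.mul c3).mul c1).mul c2
      exact (continuous_id.matrix_trace).continuousAt.comp c4
    refine (e1.congr ?_).continuousWithinAt
    filter_upwards [base_mem_nhds h1 h2 h3] with p hp
    exact (h.trace_inv hb (h.unit a p.1 hp.1 (by linarith only [hp]))
      (h.unit a p.2 (by linarith [hp.1, hp.2.1]) hp.2.2)
      (h.unit p.1 p.2 hp.2.1 (by linarith only [hp]))).symm
  · intro s t hst
    obtain ⟨a, hb, h1, h2, h3⟩ := h.exists_base hst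
    have := h.log_hasDerivAt hb h1 h2 h3
    rw [← this.deriv] at this
    exact this
  · intro s t hst
    obtain ⟨a, hb, h1, h2, h3⟩ := h.exists_base hst
    have hs : IsUnit (A a s) := h.unit a s h1 (by linarith)
    have ht : IsUnit (A a t) := h.unit a t (by linarith only [h1, h2]) h3
    have hu := h.H_unit hb h1 h2 h3
    have e0 : ∀ i j, HasDerivAt (fun s' => (Hc A a s t - Hc A a s s') i j)
        ((-(Gm A a s)⁻¹) i j) s := by
      intro i j
      have := (h.Hc_hasDerivAt hb hs i j).const_sub (Hc A a s t i j)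
      exact this
    have e1 := fun i j => MatCalc.hasDerivAt_inv e0 hu i j
    have e2 := (MatCalc.hasDerivAt_trace e1 ((Gm A a t)⁻¹)).add_const (deriv (mG A a) t)
    rw [h.trace_inv hb hs ht (h.unit s t h2 (by linarith))]
    have e3 : -((Hc A a s t - Hc A a s s)⁻¹ * -(Gm A a s)⁻¹ * (Hc A a s t - Hc A a s s)⁻¹) =
        (Hc A a s t - Hc A a s s)⁻¹ * (Gm A a s)⁻¹ * (Hc A a s t - Hc A a s s)⁻¹ := by
      rw [Matrix.mul_neg, Matrix.neg_mul, neg_neg]
    rw [e3] at e2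
    refine e2.congr_of_eventuallyEq ?_
    filter_upwards [Ioo_mem_nhds h1 h2] with s' hs'
    exact h.deriv_formula hb hs'.1 hs'.2 h3

end

end Vale.Agent.P231
end
end

section

section

/-! P231 core, C4d: behaviour of `log |det A|` at the ends of the strip. -/

open Matrix Real Set Filter Topology MeasureTheory
open scoped ContDiff

namespace Vale.Agent.P231

noncomputable section

variable {ι : Type*} [Fintype ι] [DecidableEq ι] {D : ℝ} {A : ℝ → ℝ → Matrix ι ι ℝ}

namespace Bounds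

/-- slopes of a `C^1` function -/
theorem tendsto_slope {f f' : ℝ → ℝ} {s : ℝ} (h1 : ∀ᶠ x in 𝓝 s, HasDerivAt f (f' x) x)
    (h2 : ContinuousAt f' s) :
    Tendsto (fun p : ℝ × ℝ => p.1⁻¹ * (f (p.2 + p.1) - f p.2)) (𝓝[{p | 0 < p.1}] ((0 : ℝ), s))
      (𝓝 (f' s)) := by
  rw [Metric.tendsto_nhds]
  intro ε hε
  have h3 : ∀ᶠ x in 𝓝 s, HasDerivAt f (f' x) x ∧ dist (f' x) (f' s) < ε :=
    h1.and (Metric.tendsto_nhds.1 h2 ε hε)
  obtain ⟨δ, hδ, hball⟩ := Metric.eventually_nhds_iff.1 h3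
  rw [eventually_nhdsWithin_iff]
  have h4 : ∀ᶠ p : ℝ × ℝ in 𝓝 ((0 : ℝ), s), |p.1| < δ / 2 ∧ |p.2 - s| < δ / 2 := by
    have e1 : ∀ᶠ p : ℝ × ℝ in 𝓝 ((0 : ℝ), s), |p.1| < δ / 2 := by
      have : ContinuousAt (fun p : ℝ × ℝ => |p.1|) ((0 : ℝ), s) := continuousAt_fst.abs
      refine this.eventually (gt_mem_nhds ?_)
      simpa only [abs_zero, Nat.ofNat_pos, div_pos_iff_of_pos_right, gt_iff_lt] using hδ
    have e2 : ∀ᶠ p : ℝ × ℝ in 𝓝 ((0 : ℝ), s), |p.2 - s| < δ / 2 := by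
      have : ContinuousAt (fun p : ℝ × ℝ => |p.2 - s|) ((0 : ℝ), s) :=
        (continuousAt_snd.sub continuousAt_const).abs
      refine this.eventually (gt_mem_nhds ?_)
      simpa using hδ
    exact e1.and e2
  filter_upwards [h4] with p hp hp0
  have hp0' : 0 < p.1 := hp0
  have hp1 := abs_lt.1 hp.1
  have hp2 := abs_lt.1 hp.2
  have hin : ∀ x ∈ Icc p.2 (p.2 + p.1), dist x s < δ := by
    intro x hx
    rw [Real.dist_eq, abs_lt]
    constructor <;> linarith only [hp1, hp2, hx.2, hx.1]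
  obtain ⟨c, hc, hc'⟩ := exists_hasDerivAt_eq_slope f f' (a := p.2) (b := p.2 + p.1)
    (by linarith only [hp0]) (fun x hx => ((hball (hin x hx)).1.continuousAt).continuousWithinAt)
    (fun x hx => (hball (hin x (Ioo_subset_Icc_self hx))).1)
  have e : p.1⁻¹ * (f (p.2 + p.1) - f p.2) = f' c := by
    rw [hc']
    have : p.2 + p.1 - p.2 = p.1 := by ring
    rw [this, div_eq_inv_mul]
  rw [e]
  exact (hball (hin c (Ioo_subset_Icc_self hc))).2

omit [DecidableEq ι] in
theorem quad_hasDerivAt {X : ℝ → Matrix ι ι ℝ} {X' : Matrix ι ι ℝ} {t : ℝ}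
    (hX : ∀ i j, HasDerivAt (fun t => X t i j) (X' i j) t) (x : ι → ℝ) :
    HasDerivAt (fun t => x ⬝ᵥ (X t *ᵥ x)) (x ⬝ᵥ (X' *ᵥ x)) t := by
  simp only [dotProduct, mulVec]
  refine HasDerivAt.fun_sum fun i _ => ?_
  refine HasDerivAt.const_mul _ (HasDerivAt.fun_sum fun j _ => ?_)
  exact (hX i j).mul_const _

omit [DecidableEq ι] in
/-- uniform positivity of a continuous family of positive definite matrices -/
theorem exists_lower {Q : ℝ → Matrix ι ι ℝ} {K : Set ℝ} (hK : IsCompact K)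
    (hQ : ContinuousOn Q K) (hpos : ∀ τ ∈ K, (Q τ).PosDef) :
    ∃ c : ℝ, 0 < c ∧ ∀ τ ∈ K, ∀ x : ι → ℝ, c * (x ⬝ᵥ x) ≤ x ⬝ᵥ (Q τ *ᵥ x) := by
  have hS : IsCompact (Metric.sphere (0 : ι → ℝ) 1) := isCompact_sphere _ _
  have hKS := hK.prod hS
  set F : ℝ × (ι → ℝ) → ℝ := fun p => p.2 ⬝ᵥ (Q p.1 *ᵥ p.2) with hF
  have hFc : ContinuousOn F (K ×ˢ Metric.sphere (0 : ι → ℝ) 1) := by
    have e1 : ContinuousOn (fun p : ℝ × (ι → ℝ) => Q p.1)
        (K ×ˢ Metric.sphere (0 : ι → ℝ) 1) :=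
      hQ.comp continuousOn_fst (fun p hp => hp.1)
    have e2 : ContinuousOn (fun p : ℝ × (ι → ℝ) => p.2)
        (K ×ˢ Metric.sphere (0 : ι → ℝ) 1) := continuousOn_snd
    simp only [hF, dotProduct, mulVec]
    refine continuousOn_finsetSum _ fun i _ => ?_
    have e3 : ∀ i, ContinuousOn (fun p : ℝ × (ι → ℝ) => p.2 i)
        (K ×ˢ Metric.sphere (0 : ι → ℝ) 1) := fun i => (continuousOn_pi.1 e2) i
    refine (e3 i).mul (continuousOn_finsetSum _ fun j _ => ?_)
    exact ((continuousOn_pi.1 ((continuousOn_pi.1 e1) i)) j).mul (e3 j)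
  have hFpos : ∀ p ∈ K ×ˢ Metric.sphere (0 : ι → ℝ) 1, 0 < F p := by
    rintro ⟨τ, x⟩ ⟨hτ, hx⟩
    have hx0 : x ≠ 0 := by
      rintro rfl
      simp only [mem_sphere_iff_norm, sub_self, norm_zero, zero_ne_one] at hx
    have := (hpos τ hτ).dotProduct_mulVec_pos hx0
    simpa only [gt_iff_lt, star_trivial] using this
  obtain ⟨δ, hδ, hδF⟩ : ∃ δ : ℝ, 0 < δ ∧ ∀ p ∈ K ×ˢ Metric.sphere (0 : ι → ℝ) 1, δ ≤ F p := by
    rcases (K ×ˢ Metric.sphere (0 : ι → ℝ) 1).eq_empty_or_nonempty with he | hne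
    · exact ⟨1, one_pos, fun p hp => by rw [he] at hp; exact absurd hp (notMem_empty p)⟩
    · obtain ⟨p₀, hp₀, hmin⟩ := hKS.exists_isMinOn hne hFc
      exact ⟨F p₀, hFpos p₀ hp₀, fun p hp => hmin hp⟩
  refine ⟨δ / (Fintype.card ι + 1), by positivity, fun τ hτ x => ?_⟩
  rcases eq_or_ne x 0 with rfl | hx
  · simp only [dotProduct_zero, mul_zero, mulVec_zero, Std.le_refl]
  have hn : 0 < ‖x‖ := norm_pos_iff.2 hx
  have h1 := hδF (τ, ‖x‖⁻¹ • x) ⟨hτ, by
    rw [mem_sphere_zero_iff_norm, norm_smul, norm_inv, norm_norm, inv_mul_cancel₀ hn.ne']⟩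
  have h2 : F (τ, ‖x‖⁻¹ • x) = (‖x‖⁻¹) ^ 2 * (x ⬝ᵥ (Q τ *ᵥ x)) := by
    simp only [hF]
    rw [mulVec_smul, smul_dotProduct, dotProduct_smul, smul_eq_mul, smul_eq_mul]; ring
  rw [h2] at h1
  have h3 : δ * ‖x‖ ^ 2 ≤ x ⬝ᵥ (Q τ *ᵥ x) := by
    have := mul_le_mul_of_nonneg_right h1 (sq_nonneg ‖x‖)
    have e : (‖x‖⁻¹) ^ 2 * (x ⬝ᵥ (Q τ *ᵥ x)) * ‖x‖ ^ 2 = x ⬝ᵥ (Q τ *ᵥ x) := by
      (clear * - hx; field_simp)
    rwa [e] at this
  have h4 : x ⬝ᵥ x ≤ (Fintype.card ι + 1) * ‖x‖ ^ 2 := by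
    have h5 : x ⬝ᵥ x ≤ ∑ _i : ι, ‖x‖ ^ 2 := by
      refine Finset.sum_le_sum fun i _ => ?_
      have := norm_le_pi_norm x i
      rw [Real.norm_eq_abs] at this
      rw [← sq, ← sq_abs]
      exact pow_le_pow_left₀ (abs_nonneg _) this 2
    rw [Finset.sum_const, Finset.card_univ, nsmul_eq_mul] at h5
    nlinarith only [h5]
  calc δ / (Fintype.card ι + 1) * (x ⬝ᵥ x)
      ≤ δ / (Fintype.card ι + 1) * ((Fintype.card ι + 1) * ‖x‖ ^ 2) :=
        mul_le_mul_of_nonneg_left h4 (by (clear * - hδ; positivity))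
    _ = δ * ‖x‖ ^ 2 := by field_simp
    _ ≤ _ := h3

end Bounds

theorem JData.periodic (h : JData D A) (r : ℝ) :
    Function.Periodic (fun s => A s (s + r)) (2 * D) := by
  intro s
  show A (s + 2 * D) (s + 2 * D + r) = A s (s + r)
  rw [h.per', show s + 2 * D + r = s + r + 2 * D by ring, h.per]

theorem JData.near_zero_local (h : JData D A) (s₀ : ℝ) {ε : ℝ} (hε : 0 < ε) :
    ∀ᶠ p : ℝ × ℝ in 𝓝 ((0 : ℝ), s₀), 0 < p.1 →
      |log |(A p.2 (p.2 + p.1)).det| - Fintype.card ι * log p.1| ≤ ε := by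
  have hD := h.pos
  set a := s₀ - D / 2 with ha
  have hb : IsUnit (A a s₀) := h.unit _ _ (by (clear * - hD ha; linarith)) (by linarith)
  have hGd : 0 < (Gm A a s₀).det := (h.Gm_posDef hb).det_pos
  -- slopes
  have hS : ∀ i j, Tendsto (fun p : ℝ × ℝ => p.1⁻¹ * (Hc A a s₀ (p.2 + p.1) i j
      - Hc A a s₀ p.2 i j)) (𝓝[{p | 0 < p.1}] ((0 : ℝ), s₀)) (𝓝 ((Gm A a s₀)⁻¹ i j)) := by
    intro i j
    refine Bounds.tendsto_slope (f := fun t => Hc A a s₀ t i j)
      (f' := fun t => (Gm A a t)⁻¹ i j) ?_ ?_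
    · filter_upwards [(h.isOpen_unit a).mem_nhds hb] with t ht
      exact h.Hc_hasDerivAt hb ht i j
    · have := h.Ginv_continuousAt hb
      exact (continuousAt_pi.1 ((continuousAt_pi.1 this) i)) j
  set S : ℝ × ℝ → Matrix ι ι ℝ := fun p =>
    p.1⁻¹ • (Hc A a s₀ (p.2 + p.1) - Hc A a s₀ p.2) with hSdef
  have hS' : Tendsto S (𝓝[{p | 0 < p.1}] ((0 : ℝ), s₀)) (𝓝 ((Gm A a s₀)⁻¹)) := by
    refine tendsto_pi_nhds.2 fun i => tendsto_pi_nhds.2 fun j => ?_
    exact hS i j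
  have hSdet : Tendsto (fun p => log |(S p).det|) (𝓝[{p | 0 < p.1}] ((0 : ℝ), s₀))
      (𝓝 (-log (Gm A a s₀).det)) := by
    have h1 : Tendsto (fun p => |(S p).det|) (𝓝[{p | 0 < p.1}] ((0 : ℝ), s₀))
        (𝓝 |((Gm A a s₀)⁻¹).det|) :=
      (((continuous_id.matrix_det).continuousAt.tendsto).comp hS').abs
    have h2 : |((Gm A a s₀)⁻¹).det| ≠ 0 := by
      rw [Matrix.det_nonsing_inv, Ring.inverse_eq_inv']
      (clear * - hGd; positivity)
    have h3 := h1.log h2
    have h4 : log |((Gm A a s₀)⁻¹).det| = -log (Gm A a s₀).det := by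
      rw [Matrix.det_nonsing_inv, Ring.inverse_eq_inv', Real.log_abs, Real.log_inv]
    rw [h4] at h3
    exact h3
  have hm1 : Tendsto (fun p : ℝ × ℝ => mG A a (p.2 + p.1)) (𝓝[{p | 0 < p.1}] ((0 : ℝ), s₀))
      (𝓝 (mG A a s₀)) := by
    have h1 : Tendsto (fun p : ℝ × ℝ => p.2 + p.1) (𝓝 ((0 : ℝ), s₀)) (𝓝 s₀) := by
      have h0 : ContinuousAt (fun p : ℝ × ℝ => p.2 + p.1) ((0 : ℝ), s₀) :=
        continuousAt_snd.add continuousAt_fst
      simpa only [ContinuousAt, add_zero] using h0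
    exact ((h.mG_contDiffAt hb).continuousAt.tendsto.comp h1).mono_left nhdsWithin_le_nhds
  have hm2 : Tendsto (fun p : ℝ × ℝ => mG A a p.2) (𝓝[{p | 0 < p.1}] ((0 : ℝ), s₀))
      (𝓝 (mG A a s₀)) := by
    have h1 : Tendsto (fun p : ℝ × ℝ => p.2) (𝓝 ((0 : ℝ), s₀)) (𝓝 s₀) :=
      (continuousAt_snd (p := (((0 : ℝ), s₀) : ℝ × ℝ))).tendsto
    exact ((h.mG_contDiffAt hb).continuousAt.tendsto.comp h1).mono_left nhdsWithin_le_nhds
  have hsum : Tendsto (fun p : ℝ × ℝ => log |(S p).det| + mG A a (p.2 + p.1) + mG A a p.2)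
      (𝓝[{p | 0 < p.1}] ((0 : ℝ), s₀)) (𝓝 0) := by
    have := (hSdet.add hm1).add hm2
    have e : -log (Gm A a s₀).det + mG A a s₀ + mG A a s₀ = 0 := by
      simp only [mG]; ring
    rw [e] at this
    exact this
  have hev := Metric.tendsto_nhds.1 hsum ε hε
  rw [eventually_nhdsWithin_iff] at hev
  have hloc : ∀ᶠ p : ℝ × ℝ in 𝓝 ((0 : ℝ), s₀), a < p.2 ∧ p.2 + p.1 < a + D := by
    have e1 : ∀ᶠ p : ℝ × ℝ in 𝓝 ((0 : ℝ), s₀), a < p.2 :=
      continuousAt_snd.eventually (lt_mem_nhds (by linarith only [hD, ha]))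
    have e2 : ∀ᶠ p : ℝ × ℝ in 𝓝 ((0 : ℝ), s₀), p.2 + p.1 < a + D := by
      have h1 : ContinuousAt (fun p : ℝ × ℝ => p.2 + p.1) ((0 : ℝ), s₀) :=
        continuousAt_snd.add continuousAt_fst
      refine h1.eventually (gt_mem_nhds ?_)
      simp only [add_zero]
      linarith only [hD, ha]
    exact e1.and e2
  filter_upwards [hev, hloc] with p hp1 hp2 hp0
  have h5 := hp1 hp0
  rw [Real.dist_eq, sub_zero] at h5
  have h6 := h.log_formula hb hp2.1 (by linarith only [hp0] : p.2 < p.2 + p.1) hp2.2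
  have hu := h.H_unit hb hp2.1 (by linarith only [hp0] : p.2 < p.2 + p.1) hp2.2
  have h7 : log |(S p).det| = log |(Hc A a s₀ (p.2 + p.1) - Hc A a s₀ p.2).det|
      - Fintype.card ι * log p.1 := by
    simp only [hSdef]
    rw [Matrix.det_smul, abs_mul, Real.log_mul, abs_of_pos (by (clear * - hp0; positivity) : 0 < p.1⁻¹ ^ _),
      Real.log_pow, Real.log_inv]
    · ring
    · positivity
    · exact abs_ne_zero.2 (MatCalc.isUnit_iff.1 hu)
  rw [h7] at h5
  rw [h6]
  refine le_of_lt (lt_of_eq_of_lt ?_ h5)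
  congr 1
  ring

theorem JData.near_zero (h : JData D A) : ∀ ε > 0, ∀ᶠ r in 𝓝[>] (0 : ℝ), ∀ s,
    |log |(A s (s + r)).det| - Fintype.card ι * log r| ≤ ε := by
  intro ε hε
  have h1 := (isCompact_Icc (a := (0 : ℝ)) (b := 2 * D)).eventually_forall_of_forall_eventually
    (x₀ := (0 : ℝ)) (P := fun r s => 0 < r →
      |log |(A s (s + r)).det| - Fintype.card ι * log r| ≤ ε)
    (fun s _ => h.near_zero_local s hε)
  rw [eventually_nhdsWithin_iff]
  filter_upwards [h1] with r hr hr0 s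
  obtain ⟨s', hs', he⟩ := (h.periodic r).exists_mem_Ico₀ (by linarith only [h.pos] : 0 < 2 * D) s
  have he' : A s (s + r) = A s' (s' + r) := he
  rw [he']
  exact hr s' (Ico_subset_Icc_self hs') hr0

/-- the coordinate with base `s` is positive definite -/
theorem JData.Hc_posDef (h : JData D A) {s a t : ℝ} (h1 : s < a) (h2 : a < t)
    (h3 : t < s + D) : (Hc A s a t).PosDef := by
  have ha : IsUnit (A s a) := h.unit s a h1 (by linarith)
  have hu : ∀ τ ∈ Icc a t, IsUnit (A s τ) := fun τ hτ =>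
    h.unit s τ (by linarith only [h1, hτ.1]) (by linarith only [h3, hτ.2])
  rw [Matrix.posDef_iff_dotProduct_mulVec]
  refine ⟨?_, fun x hx => ?_⟩
  · have := h.Hc_symm ha (hu t ⟨h2.le, le_rfl⟩)
    rw [Matrix.IsHermitian, Matrix.conjTranspose_eq_transpose_of_trivial]
    exact this
  · have hd : ∀ τ ∈ Icc a t, HasDerivAt (fun τ => x ⬝ᵥ (Hc A s a τ *ᵥ x))
        (x ⬝ᵥ ((Gm A s τ)⁻¹ *ᵥ x)) τ := fun τ hτ =>
      Bounds.quad_hasDerivAt (fun i j => h.Hc_hasDerivAt ha (hu τ hτ) i j) x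
    obtain ⟨ξ, hξ, hξ'⟩ := exists_hasDerivAt_eq_slope (fun τ => x ⬝ᵥ (Hc A s a τ *ᵥ x))
      (fun τ => x ⬝ᵥ ((Gm A s τ)⁻¹ *ᵥ x)) h2
      (fun τ hτ => (hd τ hτ).continuousAt.continuousWithinAt)
      (fun τ hτ => hd τ (Ioo_subset_Icc_self hτ))
    have h4 : 0 < x ⬝ᵥ ((Gm A s ξ)⁻¹ *ᵥ x) := by
      have := (h.Gm_posDef (hu ξ (Ioo_subset_Icc_self hξ))).inv.dotProduct_mulVec_pos hx
      simpa only [gt_iff_lt, star_trivial] using this
    have h5 : x ⬝ᵥ (Hc A s a a *ᵥ x) = 0 := by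
      have : Hc A s a a = 0 := by rw [Hc, h.diag]; simp only [mul_zero, zero_mul]
      rw [this]; simp only [zero_mulVec, dotProduct_zero]
    rw [h5, sub_zero] at hξ'
    rw [hξ', div_pos_iff] at h4
    simp only [star_trivial]
    rcases h4 with h4 | h4
    · exact h4.1
    · exact absurd h4.2 (by linarith only [h2])

/-- the coordinate with base `a > s` is negative definite -/
theorem JData.neg_Hc_posDef (h : JData D A) {s a t : ℝ} (h1 : s < a) (h2 : a < t)
    (h3 : t < s + D) : (-(Hc A a s t)).PosDef := by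
  have hsa : IsUnit (A s a) := h.unit s a h1 (by linarith)
  have has : IsUnit (A a s) := h.unit_symm hsa
  have hst : IsUnit (A s t) := h.unit s t (by linarith only [h1, h2]) h3
  have hat : IsUnit (A a t) := h.unit a t h2 (by linarith)
  have hK := (h.Hc_posDef h1 h2 h3).inv
  have e1 : (Hc A s a t)⁻¹ = -(A a s * (A a t)⁻¹ * A s t) := by
    have d1 := MatCalc.isUnit_iff.1 hst
    have d2 := MatCalc.isUnit_iff.1 hat
    have d3 := MatCalc.isUnit_iff.1 hsa
    refine Matrix.inv_eq_left_inv ?_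
    rw [Hc, h.anti s a]
    have u1 : A s t * (A s t)⁻¹ = 1 := Matrix.mul_nonsing_inv _ (isUnit_iff_ne_zero.2 d1)
    have u2 : (A a t)⁻¹ * A a t = 1 := Matrix.nonsing_inv_mul _ (isUnit_iff_ne_zero.2 d2)
    have u3 : (A s a)ᵀ * ((A s a)⁻¹)ᵀ = 1 := by
      rw [← Matrix.transpose_mul, Matrix.nonsing_inv_mul _ (isUnit_iff_ne_zero.2 d3),
        Matrix.transpose_one]
    calc -(-(A s a)ᵀ * (A a t)⁻¹ * A s t) * ((A s t)⁻¹ * A a t * ((A s a)⁻¹)ᵀ)
        = (A s a)ᵀ * ((A a t)⁻¹ * (A s t * (A s t)⁻¹) * A a t) * ((A s a)⁻¹)ᵀ := by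
          noncomm_ring
      _ = 1 := by rw [u1, Matrix.mul_one, u2, Matrix.mul_one, u3]
  have e2 : -(Hc A a s t) = (A a s)⁻¹ * (Hc A s a t)⁻¹ * ((A a s)⁻¹)ᴴ := by
    have d3 := MatCalc.isUnit_iff.1 has
    have u3 : (A a s)⁻¹ * A a s = 1 := Matrix.nonsing_inv_mul _ (isUnit_iff_ne_zero.2 d3)
    rw [e1, Matrix.conjTranspose_eq_transpose_of_trivial, Hc]
    calc -((A a t)⁻¹ * A s t * ((A a s)⁻¹)ᵀ)
        = -(((A a s)⁻¹ * A a s) * (A a t)⁻¹ * A s t * ((A a s)⁻¹)ᵀ) := by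
          rw [u3, Matrix.one_mul]
      _ = _ := by noncomm_ring
  rw [e2]
  refine hK.mul_mul_conjTranspose_same ?_
  rw [Matrix.vecMul_injective_iff_isUnit]
  exact (Matrix.isUnit_nonsing_inv_iff).2 has

/-- quantitative version -/
theorem JData.neg_Hc_lower (h : JData D A) {s a t c : ℝ} (h1 : s < a) (h2 : a < t)
    (h3 : t < s + D) (hc : ∀ τ ∈ Ioo t (s + D), ∀ x : ι → ℝ,
      c * (x ⬝ᵥ x) ≤ x ⬝ᵥ ((Gm A a τ)⁻¹ *ᵥ x)) (x : ι → ℝ) :
    c * (s + D - t) * (x ⬝ᵥ x) ≤ x ⬝ᵥ ((-(Hc A a s t)) *ᵥ x) := by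
  have hsa : IsUnit (A s a) := h.unit s a h1 (by linarith only [h2, h3])
  have has : IsUnit (A a s) := h.unit_symm hsa
  have hbound : ∀ t' ∈ Ioo t (s + D), c * (t' - t) * (x ⬝ᵥ x) ≤
      x ⬝ᵥ ((-(Hc A a s t)) *ᵥ x) := by
    intro t' ht'
    have hu : ∀ τ ∈ Icc t t', IsUnit (A a τ) := fun τ hτ =>
      h.unit a τ (by linarith only [h2, hτ.1]) (by linarith [hτ.2, ht'.2])
    have hd : ∀ τ ∈ Icc t t', HasDerivAt (fun τ => x ⬝ᵥ (Hc A a s τ *ᵥ x))
        (x ⬝ᵥ ((Gm A a τ)⁻¹ *ᵥ x)) τ := fun τ hτ =>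
      Bounds.quad_hasDerivAt (fun i j => h.Hc_hasDerivAt has (hu τ hτ) i j) x
    obtain ⟨ξ, hξ, hξ'⟩ := exists_hasDerivAt_eq_slope (fun τ => x ⬝ᵥ (Hc A a s τ *ᵥ x))
      (fun τ => x ⬝ᵥ ((Gm A a τ)⁻¹ *ᵥ x)) ht'.1
      (fun τ hτ => (hd τ hτ).continuousAt.continuousWithinAt)
      (fun τ hτ => hd τ (Ioo_subset_Icc_self hτ))
    have h4 := hc ξ ⟨hξ.1, by linarith only [hξ.2, ht'.2]⟩ x
    have hpos : 0 < t' - t := by linarith only [ht'.1]
    rw [hξ', le_div_iff₀ hpos] at h4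
    have h5 : 0 ≤ x ⬝ᵥ ((-(Hc A a s t')) *ᵥ x) := by
      have := (h.neg_Hc_posDef h1 (by linarith only [h2, hpos] : a < t') ht'.2).posSemidef
      have := this.dotProduct_mulVec_nonneg x
      simpa only [ge_iff_le, star_trivial] using this
    rw [Matrix.neg_mulVec, dotProduct_neg] at h5 ⊢
    linarith
  have hlim : Tendsto (fun t' => c * (t' - t) * (x ⬝ᵥ x)) (𝓝[<] (s + D))
      (𝓝 (c * (s + D - t) * (x ⬝ᵥ x))) := by
    have : Continuous (fun t' => c * (t' - t) * (x ⬝ᵥ x)) := by fun_prop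
    exact this.continuousAt.tendsto.mono_left nhdsWithin_le_nhds
  refine le_of_tendsto hlim ?_
  filter_upwards [Ioo_mem_nhdsLT h3] with t' ht'
  exact hbound t' ht'

theorem JData.near_D_local (h : JData D A) (s₀ : ℝ) :
    ∃ C : ℝ, ∀ᶠ p : ℝ × ℝ in 𝓝 (D, s₀), p.1 < D →
      Fintype.card ι * log (D - p.1) - C ≤ log |(A p.2 (p.2 + p.1)).det| := by
  have hD := h.pos
  set a := s₀ + D / 4 with ha
  have hsa₀ : IsUnit (A s₀ a) := h.unit _ _ (by linarith only [hD, ha]) (by linarith only [hD, ha])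
  have has₀ : IsUnit (A a s₀) := h.unit_symm hsa₀
  set K : Set ℝ := Icc (s₀ + D / 2) (s₀ + 9 * D / 8) with hK
  have hKc : IsCompact K := isCompact_Icc
  have hKu : ∀ τ ∈ K, IsUnit (A a τ) := fun τ hτ =>
    h.unit a τ (by linarith only [hD, ha, hτ.1]) (by linarith [hτ.2])
  obtain ⟨c, hc0, hc⟩ := Bounds.exists_lower (Q := fun τ => (Gm A a τ)⁻¹) hKc
    (fun τ hτ => (h.Ginv_continuousAt (hKu τ hτ)).continuousWithinAt)
    (fun τ hτ => (h.Gm_posDef (hKu τ hτ)).inv)
  have hmc : ContinuousOn (mG A a) K := fun τ hτ =>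
    ((h.mG_contDiffAt (hKu τ hτ)).continuousAt).continuousWithinAt
  obtain ⟨τ₀, hτ₀, hmin⟩ := hKc.exists_isMinOn
    ⟨s₀ + D / 2, le_rfl, by linarith only [hD]⟩ hmc
  refine ⟨-(Fintype.card ι * log c) - mG A a τ₀ - (mG A a s₀ - 1), ?_⟩
  have e1 : ∀ᶠ p : ℝ × ℝ in 𝓝 (D, s₀), |p.1 - D| < D / 16 := by
    have : ContinuousAt (fun p : ℝ × ℝ => |p.1 - D|) (D, s₀) :=
      (continuousAt_fst.sub continuousAt_const).abs
    refine this.eventually (gt_mem_nhds ?_)
    simp only [sub_self, abs_zero]; linarith only [hD]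
  have e2 : ∀ᶠ p : ℝ × ℝ in 𝓝 (D, s₀), |p.2 - s₀| < D / 16 := by
    have : ContinuousAt (fun p : ℝ × ℝ => |p.2 - s₀|) (D, s₀) :=
      (continuousAt_snd.sub continuousAt_const).abs
    refine this.eventually (gt_mem_nhds ?_)
    simp only [sub_self, abs_zero]; linarith only [hD]
  have e3 : ∀ᶠ p : ℝ × ℝ in 𝓝 (D, s₀), mG A a s₀ - 1 < mG A a p.2 := by
    have h1 : Tendsto (fun p : ℝ × ℝ => p.2) (𝓝 (D, s₀)) (𝓝 s₀) :=
      (continuousAt_snd (p := ((D, s₀) : ℝ × ℝ))).tendsto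
    have h2 := (h.mG_contDiffAt has₀).continuousAt.tendsto.comp h1
    exact h2.eventually (lt_mem_nhds (by linarith only []))
  filter_upwards [e1, e2, e3] with p hp1 hp2 hp3 hp0
  have hp1 := abs_lt.1 hp1
  have hp2 := abs_lt.1 hp2
  set s := p.2 with hs
  set t := p.2 + p.1 with ht
  have hsa : s < a := by linarith only [ha, hp2]
  have hat : a < t := by linarith
  have hts : t < s + D := by linarith only [hp0]
  have htK : t ∈ K := ⟨by linarith only [hp1, hp2], by linarith only [hp1, hp2]⟩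
  have has : IsUnit (A a s) := h.unit_symm (h.unit s a hsa (by linarith only [ha, hp2]))
  have hform := h.abs_det (b := s) has has (hKu t htK) (h.unit s t (by linarith only [hp1]) hts)
  have hzero : Hc A a s s = 0 := by rw [Hc, h.diag]; simp only [mul_zero, zero_mul]
  rw [hzero, sub_zero] at hform
  have hlow := fun x => h.neg_Hc_lower (c := c) hsa hat hts
    (fun τ hτ x => hc τ ⟨by linarith only [hp1, hp2, hτ.1], by linarith only [hp2, hτ.2]⟩ x) x
  have hpos : 0 < c * (s + D - t) := by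
    have : 0 < s + D - t := by linarith only [hp0]
    (clear * - hc0 hts; positivity)
  set P : Matrix ι ι ℝ := (c * (s + D - t)) • 1 with hP
  have hPpos : P.PosDef := Matrix.PosDef.one.smul hpos
  have hdiff : (-(Hc A a s t) - P).PosSemidef := by
    refine Matrix.PosSemidef.of_dotProduct_mulVec_nonneg ?_ fun x => ?_
    · exact (h.neg_Hc_posDef hsa hat hts).isHermitian.sub hPpos.isHermitian
    · rw [star_trivial, Matrix.sub_mulVec, dotProduct_sub, hP, Matrix.smul_mulVec,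
        Matrix.one_mulVec, dotProduct_smul, smul_eq_mul]
      linarith only [hlow x]
  have hdet := det_le_det hPpos hdiff
  have hPdet : P.det = (c * (s + D - t)) ^ Fintype.card ι := by
    rw [hP, Matrix.det_smul, Matrix.det_one, mul_one]
  rw [hPdet] at hdet
  have habs : |(Hc A a s t).det| = (-(Hc A a s t)).det := by
    have h1 : 0 < (-(Hc A a s t)).det := (h.neg_Hc_posDef hsa hat hts).det_pos
    rw [← abs_of_pos h1, Matrix.det_neg, abs_mul, abs_pow, abs_neg, abs_one, one_pow, one_mul]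
  have hlog : Fintype.card ι * log c + Fintype.card ι * log (D - p.1) ≤
      log |(Hc A a s t).det| := by
    rw [habs]
    have h1 : s + D - t = D - p.1 := by rw [ht, hs]; ring
    rw [h1] at hdet
    have h2 : 0 < D - p.1 := by linarith only [hp0]
    have h3 := Real.log_le_log (by (clear * - hc0 hp0; positivity)) hdet
    rw [Real.log_pow, Real.log_mul hc0.ne' h2.ne'] at h3
    linarith only [h3]
  have hm1 : mG A a τ₀ ≤ mG A a t := hmin htK
  have hform' : log |(A s t).det| = log |(Hc A a s t).det| + mG A a t + mG A a s := hform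
  rw [hform']
  linarith only [hp3, hlog, hm1]

theorem JData.near_D (h : JData D A) : ∃ C : ℝ, ∀ᶠ r in 𝓝[<] D, ∀ s,
    Fintype.card ι * log (D - r) - C ≤ log |(A s (s + r)).det| := by
  have key : ∃ C : ℝ, ∀ᶠ r in 𝓝 D, ∀ s ∈ Icc (0 : ℝ) (2 * D), r < D →
      Fintype.card ι * log (D - r) - C ≤ log |(A s (s + r)).det| := by
    refine (isCompact_Icc (a := (0 : ℝ)) (b := 2 * D)).induction_on
      (p := fun S => ∃ C : ℝ, ∀ᶠ r in 𝓝 D, ∀ s ∈ S, r < D →
        Fintype.card ι * log (D - r) - C ≤ log |(A s (s + r)).det|) ?_ ?_ ?_ ?_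
    · exact ⟨0, Eventually.of_forall fun r s hs => absurd hs (notMem_empty s)⟩
    · rintro S T hST ⟨C, hC⟩
      exact ⟨C, hC.mono fun r hr s hs => hr s (hST hs)⟩
    · rintro S T ⟨C, hC⟩ ⟨C', hC'⟩
      refine ⟨max C C', ?_⟩
      filter_upwards [hC, hC'] with r hr hr' s hs hrD
      rcases hs with hs | hs
      · linarith only [hr s hs hrD, le_max_left C C']
      · linarith only [hr' s hs hrD, le_max_right C C']
    · intro s₀ _
      obtain ⟨C, hC⟩ := h.near_D_local s₀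
      rw [nhds_prod_eq, Filter.eventually_prod_iff] at hC
      obtain ⟨pa, hpa, pb, hpb, hC⟩ := hC
      refine ⟨{s | pb s}, mem_nhdsWithin_of_mem_nhds hpb, C, ?_⟩
      filter_upwards [hpa] with r hr s hs hrD
      exact hC hr hs hrD
  obtain ⟨C, hC⟩ := key
  refine ⟨C, ?_⟩
  rw [eventually_nhdsWithin_iff]
  filter_upwards [hC] with r hr hr0 s
  obtain ⟨s', hs', he⟩ := (h.periodic r).exists_mem_Ico₀ (by linarith only [h.pos] : 0 < 2 * D) s
  have he' : A s (s + r) = A s' (s' + r) := he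
  rw [he']
  exact hr s' (Ico_subset_Icc_self hs') hr0

end

end Vale.Agent.P231
end
end

section

section

/-! P231 core: the averaged determinant inequality for adapted Jacobi data, and its equality
case. -/

open Matrix Real Set Filter Topology MeasureTheory
open scoped ContDiff

namespace Vale.Agent.P231

noncomputable section

theorem slice_cont {f : ℝ × ℝ → ℝ} {T r : ℝ} (hf : ContinuousOn f (strip T))
    (hr : r ∈ Ioo 0 T) : Continuous (fun s : ℝ => f (s, s + r)) :=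
  hf.comp_continuous (by fun_prop) fun s =>
    ⟨by simpa only [lt_add_iff_pos_right] using hr.1, by simpa using hr.2⟩

section Reduced

variable {κ ν : Type*} [Fintype κ] [DecidableEq κ] [Fintype ν] [DecidableEq ν]
  {A : ℝ → ℝ → Matrix (κ ⊕ ν) (κ ⊕ ν) ℝ} {C C' : ℝ → Matrix ν ν ℝ}

theorem gc_cont (hC : CData C C') {r : ℝ} (hr : r ∈ Ioo 0 (π / 2)) :
    Continuous (fun s : ℝ => gc C C' s (s + r)) :=
  slice_cont hC.continuousOn ⟨hr.1, by linarith [hr.2, Real.pi_pos]⟩

theorem log_det_cont (h : JData (π / 2) A) {r : ℝ} (hr : r ∈ Ioo 0 (π / 2)) :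
    Continuous (fun s : ℝ => log |(A s (s + r)).det|) := by
  obtain ⟨Ft, h1, -⟩ := h.strip_log
  exact slice_cont h1 hr

theorem trace_cont (h : JData (π / 2) A) {r : ℝ} (hr : r ∈ Ioo 0 (π / 2)) :
    Continuous (fun s : ℝ => ((A s (s + r))⁻¹ * ((A s (s + r))⁻¹)ᵀ).trace) := by
  obtain ⟨Ft, -, -, h1, -⟩ := h.strip_log
  exact slice_cont h1 hr

/-- The defect in the pointwise inequality. -/
def defect (A : ℝ → ℝ → Matrix (κ ⊕ ν) (κ ⊕ ν) ℝ) (C C' : ℝ → Matrix ν ν ℝ) (α β r s : ℝ) : ℝ :=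
  ((A s (s + r))⁻¹ * ((A s (s + r))⁻¹)ᵀ).trace -
    (Fintype.card κ * (α * (1 - log α)) + Fintype.card ν * (β * (1 - log β))
      - 2 * α * log |(A s (s + r)).det| + 2 * (α - β) * gc C C' s (s + r))

theorem defect_cont (h : JData (π / 2) A) (hC : CData C C') {α β r : ℝ}
    (hr : r ∈ Ioo 0 (π / 2)) : Continuous (defect A C C' α β r) := by
  have h1 := gc_cont hC hr
  have h2 := log_det_cont h hr
  have h3 := trace_cont h hr
  unfold defect
  exact h3.sub ((continuous_const.sub (continuous_const.mul h2)).add (continuous_const.mul h1))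

theorem defect_nonneg (h : JData (π / 2) A) (hC : CData C C') (hL : Link A C C') {α β r : ℝ}
    (hr : r ∈ Ioo 0 (π / 2)) (hβ : 0 < β) (hαβ : β ≤ α) (s : ℝ) :
    0 ≤ defect A C C' α β r s := by
  have hcl : IsClosed {s | 0 ≤ defect A C C' α β r s} :=
    isClosed_le continuous_const (defect_cont h hC hr)
  have hsub : {s : ℝ | sin (2 * s) ≠ 0 ∧ sin (2 * (s + r)) ≠ 0} ⊆
      {s | 0 ≤ defect A C C' α β r s} := by
    intro s hs
    have := pointwise_ineq h hC hL (s := s) (t := s + r) (by linarith only [hr.1])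
      (by linarith only [hr.2]) hs.1 hs.2 hβ hαβ
    exact sub_nonneg.2 this
  exact hcl.closure_subset_iff.2 hsub (dense_regular r s)

theorem integral_defect (h : JData (π / 2) A) (hC : CData C C') {α β r : ℝ}
    (hr : r ∈ Ioo 0 (π / 2)) :
    ∫ s in (0 : ℝ)..π, defect A C C' α β r s =
      (∫ s in (0 : ℝ)..π, ((A s (s + r))⁻¹ * ((A s (s + r))⁻¹)ᵀ).trace) -
      (π * (Fintype.card κ * (α * (1 - log α)) + Fintype.card ν * (β * (1 - log β)))
        - 2 * α * (∫ s in (0 : ℝ)..π, log |(A s (s + r)).det|)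
        + 2 * (α - β) * ∫ s in (0 : ℝ)..π, gc C C' s (s + r)) := by
  have h1 := gc_cont hC hr
  have h2 := log_det_cont h hr
  have h3 := trace_cont h hr
  set K : ℝ := Fintype.card κ * (α * (1 - log α)) + Fintype.card ν * (β * (1 - log β)) with hK
  have c1 : Continuous (fun s : ℝ => 2 * α * log |(A s (s + r)).det|) := continuous_const.mul h2
  have c2 : Continuous (fun s : ℝ => K - 2 * α * log |(A s (s + r)).det|) :=
    continuous_const.sub c1
  have c3 : Continuous (fun s : ℝ => 2 * (α - β) * gc C C' s (s + r)) :=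
    continuous_const.mul h1
  have c4 : Continuous (fun s : ℝ => K - 2 * α * log |(A s (s + r)).det| +
    2 * (α - β) * gc C C' s (s + r)) := c2.add c3
  unfold defect
  rw [← hK, intervalIntegral.integral_sub (h3.intervalIntegrable _ _)
      (c4.intervalIntegrable _ _),
    intervalIntegral.integral_add (c2.intervalIntegrable _ _) (c3.intervalIntegrable _ _),
    intervalIntegral.integral_sub (continuous_const.intervalIntegrable _ _)
      (c1.intervalIntegrable _ _),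
    intervalIntegral.integral_const, intervalIntegral.integral_const_mul,
    intervalIntegral.integral_const_mul, smul_eq_mul, sub_zero]

/-- The algebraic identity satisfied by the model. -/
theorem model_identity {r : ℝ} (hs : 0 < sin r) (hc : 0 < cos r) (k n : ℝ) :
    k * ((1 / (sin r * cos r) ^ 2) * (1 - log (1 / (sin r * cos r) ^ 2)))
      + n * ((1 / (sin r) ^ 2) * (1 - log (1 / (sin r) ^ 2)))
      - 2 * (1 / (sin r * cos r) ^ 2) * (k * log (cos r) + (k + n) * log (sin r))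
      + 2 * (1 / (sin r * cos r) ^ 2 - 1 / (sin r) ^ 2) * (n * log (sin r))
      = k / (cos r) ^ 2 + (k + n) / (sin r) ^ 2 := by
  have e1 : log (1 / (sin r * cos r) ^ 2) = -2 * (log (sin r) + log (cos r)) := by
    rw [one_div, Real.log_inv, Real.log_pow, Real.log_mul hs.ne' hc.ne']
    push_cast
    ring
  have e2 : log (1 / (sin r) ^ 2) = -2 * log (sin r) := by
    rw [one_div, Real.log_inv, Real.log_pow]
    push_cast
    ring
  have e3 : 1 / (sin r * cos r) ^ 2 = 1 / (cos r) ^ 2 + 1 / (sin r) ^ 2 := by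
    have h1 : (sin r) ^ 2 + (cos r) ^ 2 = 1 := Real.sin_sq_add_cos_sq r
    have h2 : (sin r) ≠ 0 := hs.ne'
    have h3 : (cos r) ≠ 0 := hc.ne'
    field_simp
    linarith only [h1]
  rw [e1, e2, e3]
  ring

theorem sin_cos_pos {r : ℝ} (hr : r ∈ Ioo 0 (π / 2)) : 0 < sin r ∧ 0 < cos r :=
  ⟨Real.sin_pos_of_pos_of_lt_pi hr.1 (by linarith [hr.2, Real.pi_pos]),
    Real.cos_pos_of_mem_Ioo ⟨by linarith only [hr.1, Real.pi_pos], hr.2⟩⟩

theorem alpha_beta {r : ℝ} (hr : r ∈ Ioo 0 (π / 2)) :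
    0 < 1 / (sin r) ^ 2 ∧ 1 / (sin r) ^ 2 < 1 / (sin r * cos r) ^ 2 := by
  obtain ⟨hs, hc⟩ := sin_cos_pos hr
  refine ⟨by positivity, ?_⟩
  have h1 : (sin r) ^ 2 + (cos r) ^ 2 = 1 := Real.sin_sq_add_cos_sq r
  have h2 : 0 < (sin r) ^ 2 := by positivity
  have h3 : 0 < (cos r) ^ 2 := by positivity
  apply one_div_lt_one_div_of_lt (by positivity)
  rw [mul_pow]
  nlinarith only [h1, h2]

/-- The integrated inequality. -/
theorem integrated_ineq (h : JData (π / 2) A) (hC : CData C C') {r : ℝ}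
    (hr : r ∈ Ioo 0 (π / 2)) :
    π * (Fintype.card κ / (cos r) ^ 2 + (Fintype.card κ + Fintype.card ν) / (sin r) ^ 2)
      + 2 * (1 / (sin r * cos r) ^ 2) *
        (π * (Fintype.card κ * log (cos r) + (Fintype.card κ + Fintype.card ν) * log (sin r))
          - ∫ s in (0 : ℝ)..π, log |(A s (s + r)).det|)
      + (∫ s in (0 : ℝ)..π, defect A C C' (1 / (sin r * cos r) ^ 2) (1 / (sin r) ^ 2) r s)
      ≤ ∫ s in (0 : ℝ)..π, ((A s (s + r))⁻¹ * ((A s (s + r))⁻¹)ᵀ).trace := by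
  obtain ⟨hs, hc⟩ := sin_cos_pos hr
  obtain ⟨h1, h2⟩ := alpha_beta hr
  have hid := model_identity hs hc (Fintype.card κ : ℝ) (Fintype.card ν : ℝ)
  have hk : π * (Fintype.card ν * log (sin r)) ≤ ∫ s in (0 : ℝ)..π, gc C C' s (s + r) :=
    hC.kazdan ⟨hr.1, by linarith only [hr.2, Real.pi_pos]⟩
  rw [integral_defect h hC hr, ← hid]
  set α := 1 / (sin r * cos r) ^ 2 with hα
  set β := 1 / (sin r) ^ 2 with hβ
  have h3 : 2 * (α - β) * (π * (Fintype.card ν * log (sin r))) ≤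
      2 * (α - β) * ∫ s in (0 : ℝ)..π, gc C C' s (s + r) :=
    mul_le_mul_of_nonneg_left hk (by linarith only [h2])
  linarith only [h3]

theorem hasDerivAt_log_cos {r : ℝ} (hc : cos r ≠ 0) :
    HasDerivAt (fun r => log (cos r)) (-sin r / cos r) r :=
  (Real.hasDerivAt_cos r).log hc

theorem hasDerivAt_log_sin {r : ℝ} (hs : sin r ≠ 0) :
    HasDerivAt (fun r => log (sin r)) (cos r / sin r) r :=
  (Real.hasDerivAt_sin r).log hs

theorem hasDerivAt_tan' {r : ℝ} (hc : cos r ≠ 0) :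
    HasDerivAt (fun r => -sin r / cos r) (-(1 / (cos r) ^ 2)) r := by
  have h2 : HasDerivAt (fun r : ℝ => -sin r) (-cos r) r := (Real.hasDerivAt_sin r).neg
  refine (h2.div (Real.hasDerivAt_cos r) hc).congr_deriv ?_
  have h1 : (sin r) ^ 2 + (cos r) ^ 2 = 1 := Real.sin_sq_add_cos_sq r
  field_simp
  linarith only [h1]

theorem hasDerivAt_cot' {r : ℝ} (hs : sin r ≠ 0) :
    HasDerivAt (fun r => cos r / sin r) (-(1 / (sin r) ^ 2)) r := by
  refine ((Real.hasDerivAt_cos r).div (Real.hasDerivAt_sin r) hs).congr_deriv ?_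
  have h1 : (sin r) ^ 2 + (cos r) ^ 2 = 1 := Real.sin_sq_add_cos_sq r
  field_simp
  linarith

/-- The averaged logarithm of the model. -/
def modelLog (k n r : ℝ) : ℝ := π * (k * log (cos r) + (k + n) * log (sin r))

/-- its derivative -/
def modelLog' (k n r : ℝ) : ℝ := π * (k * (-sin r / cos r) + (k + n) * (cos r / sin r))

theorem hasDerivAt_modelLog {k n r : ℝ} (hr : r ∈ Ioo 0 (π / 2)) :
    HasDerivAt (modelLog k n) (modelLog' k n r) r := by
  obtain ⟨hs, hc⟩ := sin_cos_pos hr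
  exact (((hasDerivAt_log_cos hc.ne').const_mul k).add
    ((hasDerivAt_log_sin hs.ne').const_mul (k + n))).const_mul π

theorem hasDerivAt_modelLog' {k n r : ℝ} (hr : r ∈ Ioo 0 (π / 2)) :
    HasDerivAt (modelLog' k n) (-(π * (k / (cos r) ^ 2 + (k + n) / (sin r) ^ 2))) r := by
  obtain ⟨hs, hc⟩ := sin_cos_pos hr
  refine ((((hasDerivAt_tan' hc.ne').const_mul k).add
    ((hasDerivAt_cot' hs.ne').const_mul (k + n))).const_mul π).congr_deriv ?_
  ring

theorem modelLog_nonpos {k n r : ℝ} (hk : 0 ≤ k) (hn : 0 ≤ n) (hr : r ∈ Ioo 0 (π / 2)) :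
    modelLog k n r ≤ 0 := by
  obtain ⟨hs, hc⟩ := sin_cos_pos hr
  unfold modelLog
  have h1 : log (cos r) ≤ 0 := Real.log_nonpos hc.le (Real.cos_le_one r)
  have h2 : log (sin r) ≤ 0 := Real.log_nonpos hs.le (Real.sin_le_one r)
  have h3 : k * log (cos r) + (k + n) * log (sin r) ≤ 0 := by
    have := mul_nonneg hk (neg_nonneg.2 h1)
    have := mul_nonneg (add_nonneg hk hn) (neg_nonneg.2 h2)
    linarith
  have := mul_nonneg Real.pi_pos.le (neg_nonneg.2 h3)
  linarith only [this]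

/-- integral bounds from uniform pointwise bounds -/
theorem integral_ge_of_forall {f : ℝ → ℝ} (hf : Continuous f) {c : ℝ} (h : ∀ s, c ≤ f s) :
    π * c ≤ ∫ s in (0 : ℝ)..π, f s := by
  have h1 : ∫ s in (0 : ℝ)..π, c ≤ ∫ s in (0 : ℝ)..π, f s :=
    intervalIntegral.integral_mono_on Real.pi_pos.le (continuous_const.intervalIntegrable _ _)
      (hf.intervalIntegrable _ _) (fun s _ => h s)
  rwa [intervalIntegral.integral_const, sub_zero, smul_eq_mul] at h1

theorem end_zero (h : JData (π / 2) A) : ∀ ε > 0, ∀ᶠ r in 𝓝[>] (0 : ℝ),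
    -ε ≤ sin (2 * r) * ((∫ s in (0 : ℝ)..π, log |(A s (s + r)).det|) -
      modelLog (Fintype.card κ) (Fintype.card ν) r) := by
  intro ε hε
  have hpi := Real.pi_pos
  have h1 := h.near_zero (ε / π) (by positivity)
  have h2 : ∀ᶠ r in 𝓝[>] (0 : ℝ), r ∈ Ioo 0 (π / 2) := by
    apply Ioo_mem_nhdsGT
    positivity
  filter_upwards [h1, h2] with r h3 hr
  obtain ⟨hs, hc⟩ := sin_cos_pos hr
  have h4 : π * (Fintype.card (κ ⊕ ν) * log r - ε / π) ≤
      ∫ s in (0 : ℝ)..π, log |(A s (s + r)).det| := by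
    apply integral_ge_of_forall (log_det_cont h hr)
    intro s
    have := abs_le.1 (h3 s)
    linarith only [this]
  have h5 : log (sin r) ≤ log r := Real.log_le_log hs (Real.sin_le hr.1.le)
  have h6 : log (cos r) ≤ 0 := Real.log_nonpos hc.le (Real.cos_le_one r)
  have h7 : (Fintype.card (κ ⊕ ν) : ℝ) = Fintype.card κ + Fintype.card ν := by
    rw [Fintype.card_sum]
    push_cast
    rfl
  have h8 : -ε ≤ (∫ s in (0 : ℝ)..π, log |(A s (s + r)).det|) -
      modelLog (Fintype.card κ) (Fintype.card ν) r := by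
    unfold modelLog
    rw [h7, mul_sub, mul_div_cancel₀ _ hpi.ne'] at h4
    have h9 : (0 : ℝ) ≤ (Fintype.card κ : ℝ) + Fintype.card ν := by positivity
    have h10 : 0 ≤ π * (((Fintype.card κ : ℝ) + Fintype.card ν) * (log r - log (sin r))) :=
      mul_nonneg hpi.le (mul_nonneg h9 (by linarith only [h5]))
    have h11 : 0 ≤ π * ((Fintype.card κ : ℝ) * (-log (cos r))) :=
      mul_nonneg hpi.le (mul_nonneg (by (clear * -; positivity)) (by linarith only [h6]))
    linarith only [h4, h10, h11]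
  have h12 : 0 ≤ sin (2 * r) :=
    Real.sin_nonneg_of_nonneg_of_le_pi (by linarith only [hr.1]) (by linarith only [hr.2])
  have h13 : sin (2 * r) ≤ 1 := Real.sin_le_one _
  nlinarith only [hε, h13, h8, h12]

theorem end_right (h : JData (π / 2) A) : ∀ ε > 0, ∀ᶠ r in 𝓝[<] (π / 2 : ℝ),
    -ε ≤ sin (2 * r) * ((∫ s in (0 : ℝ)..π, log |(A s (s + r)).det|) -
      modelLog (Fintype.card κ) (Fintype.card ν) r) := by
  intro ε hε
  have hpi := Real.pi_pos
  obtain ⟨K, hK⟩ := h.near_D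
  have h2 : ∀ᶠ r in 𝓝[<] (π / 2 : ℝ), r ∈ Ioo 0 (π / 2) := by
    apply Ioo_mem_nhdsLT
    positivity
  have hx : Tendsto (fun r : ℝ => π / 2 - r) (𝓝[<] (π / 2)) (𝓝[>] 0) := by
    refine tendsto_nhdsWithin_iff.2 ⟨?_, ?_⟩
    · have h1 : Tendsto (fun r : ℝ => π / 2 - r) (𝓝 (π / 2)) (𝓝 (π / 2 - π / 2)) :=
        Continuous.tendsto (by fun_prop) _
      rw [sub_self] at h1
      exact h1.mono_left nhdsWithin_le_nhds
    · filter_upwards [self_mem_nhdsWithin] with r hr
      exact sub_pos.2 (mem_Iio.1 hr)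
  have hw : Tendsto (fun x : ℝ => 2 * (π * (Fintype.card (κ ⊕ ν) * |log x * x| + |K| * x)))
      (𝓝[>] 0) (𝓝 0) := by
    have h0 : Tendsto (fun x : ℝ => log x * x) (𝓝[>] 0) (𝓝 0) := by
      simpa only [rpow_one] using tendsto_log_mul_rpow_nhdsGT_zero zero_lt_one
    have h1 := h0.abs
    have h3 : Tendsto (fun x : ℝ => x) (𝓝[>] (0 : ℝ)) (𝓝 0) :=
      tendsto_id.mono_left nhdsWithin_le_nhds
    have h4 := ((((h1.const_mul (Fintype.card (κ ⊕ ν) : ℝ)).add
      (h3.const_mul |K|)).const_mul π).const_mul 2)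
    simpa only [Fintype.card_sum, Nat.cast_add, abs_mul, abs_zero, mul_zero, add_zero] using h4
  have h5 := (hw.comp hx).eventually (ge_mem_nhds hε)
  filter_upwards [hK, h2, h5] with r h3 hr h6
  set x := π / 2 - r with hxr
  have hx0 : 0 < x := by rw [hxr]; linarith only [hr.2]
  have h4 : π * (Fintype.card (κ ⊕ ν) * log x - K) ≤
      ∫ s in (0 : ℝ)..π, log |(A s (s + r)).det| :=
    integral_ge_of_forall (log_det_cont h hr) h3
  have h7 := modelLog_nonpos (k := Fintype.card κ) (n := Fintype.card ν) (by (clear * -; positivity))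
    (by positivity) hr
  have h8 : sin (2 * r) ≤ 2 * x := by
    have h9 : sin (2 * r) = sin (2 * x) := by
      rw [hxr, ← Real.sin_pi_sub]
      congr 1
      ring
    rw [h9]
    exact Real.sin_le (by linarith only [hx0])
  have h12 : 0 ≤ sin (2 * r) :=
    Real.sin_nonneg_of_nonneg_of_le_pi (by linarith only [hr.1]) (by linarith only [hxr, hx0])
  have h13 : -(π * (Fintype.card (κ ⊕ ν) * |log x| + |K|)) ≤
      (∫ s in (0 : ℝ)..π, log |(A s (s + r)).det|) -
      modelLog (Fintype.card κ) (Fintype.card ν) r := by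
    have h14 : (Fintype.card (κ ⊕ ν) : ℝ) * (-|log x|) ≤ Fintype.card (κ ⊕ ν) * log x :=
      mul_le_mul_of_nonneg_left (neg_abs_le _) (by positivity)
    have h15 : -|K| ≤ -K := neg_le_neg (le_abs_self K)
    have h16 : π * (-(Fintype.card (κ ⊕ ν) * |log x| + |K|)) ≤
        π * (Fintype.card (κ ⊕ ν) * log x - K) :=
      mul_le_mul_of_nonneg_left (by linarith only [h14, h15]) hpi.le
    linarith only [h4, h7, h16]
  have h17 : 0 ≤ π * (Fintype.card (κ ⊕ ν) * |log x| + |K|) := by (clear * -; positivity)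
  have h18 : sin (2 * r) * (π * (Fintype.card (κ ⊕ ν) * |log x| + |K|)) ≤
      2 * x * (π * (Fintype.card (κ ⊕ ν) * |log x| + |K|)) :=
    mul_le_mul_of_nonneg_right h8 h17
  have h19 : sin (2 * r) * (-(π * (Fintype.card (κ ⊕ ν) * |log x| + |K|))) ≤
      sin (2 * r) * ((∫ s in (0 : ℝ)..π, log |(A s (s + r)).det|) -
      modelLog (Fintype.card κ) (Fintype.card ν) r) :=
    mul_le_mul_of_nonneg_left h13 h12
  have h20 : 2 * (π * (Fintype.card (κ ⊕ ν) * |log x * x| + |K| * x)) ≤ ε := h6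
  rw [abs_mul, abs_of_pos hx0] at h20
  linarith only [h18, h19, h20]

/-- the block form of the averaged inequality -/
theorem core_block (h : JData (π / 2) A) (ha : Adapted A) {r : ℝ} (hr : r ∈ Ioo 0 (π / 2)) :
    π * (Fintype.card κ * log (cos r) + Fintype.card (κ ⊕ ν) * log (sin r)) ≤
      ∫ s in (0 : ℝ)..π, log |(A s (s + r)).det| := by
  obtain ⟨C, C', hC, hL⟩ := h.exists_CData ha
  obtain ⟨Ft, c1, c2, c3, d1, d2⟩ := h.strip_log
  have hav := average (T := π / 2) (F := fun s t => log |(A s t).det|) (Ft := Ft)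
    (Fts := fun s t => ((A s t)⁻¹ * ((A s t)⁻¹)ᵀ).trace)
    (fun s t => by rw [h.per_diag]) c1 c2 c3 d1 d2
  have key := comparison (k := 2) (T := π / 2) (by norm_num) (by ring)
    (u := fun r => (∫ s in (0 : ℝ)..π, log |(A s (s + r)).det|) -
      modelLog (Fintype.card κ) (Fintype.card ν) r)
    (u' := fun r => (∫ s in (0 : ℝ)..π, Ft s (s + r)) -
      modelLog' (Fintype.card κ) (Fintype.card ν) r)
    (u'' := fun r => (-∫ s in (0 : ℝ)..π, ((A s (s + r))⁻¹ * ((A s (s + r))⁻¹)ᵀ).trace) -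
      -(π * (Fintype.card κ / (cos r) ^ 2 + (Fintype.card κ + Fintype.card ν) / (sin r) ^ 2)))
    (fun r hr => (hav r hr).1.sub (hasDerivAt_modelLog hr))
    (fun r hr => (hav r hr).2.sub (hasDerivAt_modelLog' hr)) ?_ (end_zero h) (end_right h) r hr
  · have h7 : (Fintype.card (κ ⊕ ν) : ℝ) = Fintype.card κ + Fintype.card ν := by
      rw [Fintype.card_sum]
      push_cast
      rfl
    have h8 : modelLog (Fintype.card κ) (Fintype.card ν) r =
      π * (Fintype.card κ * log (cos r) + Fintype.card (κ ⊕ ν) * log (sin r)) := by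
      rw [h7]
      rfl
    rw [← h8]
    exact sub_nonneg.1 key
  · intro r hr
    obtain ⟨hs, hc⟩ := sin_cos_pos hr
    obtain ⟨h1, h2⟩ := alpha_beta hr
    have h3 := integrated_ineq h hC hr
    have h4 : 0 ≤ ∫ s in (0 : ℝ)..π,
        defect A C C' (1 / (sin r * cos r) ^ 2) (1 / (sin r) ^ 2) r s :=
      intervalIntegral.integral_nonneg Real.pi_pos.le
        fun s _ => defect_nonneg h hC hL hr h1 h2.le s
    have h5 : 2 * (2 : ℝ) ^ 2 / (sin (2 * r)) ^ 2 = 2 * (1 / (sin r * cos r) ^ 2) := by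
      rw [Real.sin_two_mul]
      have := hs.ne'
      have := hc.ne'
      field_simp
    rw [h5]
    unfold modelLog
    linarith only [h3, h4]

/-- In the equality case the defect vanishes. -/
theorem defect_eq_zero (h : JData (π / 2) A) (hC : CData C C') (hL : Link A C C')
    (hdet : ∀ s t, s < t → t < s + π / 2 →
      |(A s t).det| = cos (t - s) ^ Fintype.card κ * sin (t - s) ^ Fintype.card (κ ⊕ ν))
    {r : ℝ} (hr : r ∈ Ioo 0 (π / 2)) {s : ℝ} (hs : s ∈ Icc 0 π) :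
    defect A C C' (1 / (sin r * cos r) ^ 2) (1 / (sin r) ^ 2) r s = 0 := by
  obtain ⟨Ft, c1, c2, c3, d1, d2⟩ := h.strip_log
  have hav := average (T := π / 2) (F := fun s t => log |(A s t).det|) (Ft := Ft)
    (Fts := fun s t => ((A s t)⁻¹ * ((A s t)⁻¹)ᵀ).trace)
    (fun s t => by rw [h.per_diag]) c1 c2 c3 d1 d2
  have h7 : (Fintype.card (κ ⊕ ν) : ℝ) = Fintype.card κ + Fintype.card ν := by
    rw [Fintype.card_sum]
    push_cast
    rfl
  have e0 : ∀ r ∈ Ioo 0 (π / 2), (∫ s in (0 : ℝ)..π, log |(A s (s + r)).det|) =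
      modelLog (Fintype.card κ) (Fintype.card ν) r := by
    intro r hr
    obtain ⟨hs, hc⟩ := sin_cos_pos hr
    have h8 : ∀ s : ℝ, log |(A s (s + r)).det| =
        Fintype.card κ * log (cos r) + (Fintype.card κ + Fintype.card ν) * log (sin r) := by
      intro s
      rw [hdet s (s + r) (by linarith only [hr.1]) (by linarith only [hr.2]),
        show s + r - s = r by ring,
        Real.log_mul (pow_ne_zero _ hc.ne') (pow_ne_zero _ hs.ne'), Real.log_pow, Real.log_pow, h7]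
    simp only [h8]
    rw [intervalIntegral.integral_const, sub_zero, smul_eq_mul]
    rfl
  have hnhds : ∀ r ∈ Ioo 0 (π / 2), Ioo 0 (π / 2) ∈ 𝓝 r := fun r hr =>
    isOpen_Ioo.mem_nhds hr
  have e1 : ∀ r ∈ Ioo 0 (π / 2), (∫ s in (0 : ℝ)..π, Ft s (s + r)) =
      modelLog' (Fintype.card κ) (Fintype.card ν) r := by
    intro r hr
    have h8 := (hav r hr).1
    have h9 : HasDerivAt (fun r => ∫ s in (0 : ℝ)..π, log |(A s (s + r)).det|)
        (modelLog' (Fintype.card κ) (Fintype.card ν) r) r := by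
      refine (hasDerivAt_modelLog hr).congr_of_eventuallyEq ?_
      filter_upwards [hnhds r hr] with y hy
      exact e0 y hy
    exact h8.unique h9
  have e2 : (∫ s in (0 : ℝ)..π, ((A s (s + r))⁻¹ * ((A s (s + r))⁻¹)ᵀ).trace) =
      π * (Fintype.card κ / (cos r) ^ 2 + (Fintype.card κ + Fintype.card ν) / (sin r) ^ 2) := by
    have h8 := (hav r hr).2
    have h9 : HasDerivAt (fun r => ∫ s in (0 : ℝ)..π, Ft s (s + r))
        (-(π * (Fintype.card κ / (cos r) ^ 2 + (Fintype.card κ + Fintype.card ν) / (sin r) ^ 2)))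
        r := by
      refine (hasDerivAt_modelLog' hr).congr_of_eventuallyEq ?_
      filter_upwards [hnhds r hr] with y hy
      exact e1 y hy
    exact neg_injective (h8.unique h9)
  obtain ⟨hb, hab⟩ := alpha_beta hr
  have h3 := integrated_ineq h hC hr
  rw [e2, e0 r hr] at h3
  unfold modelLog at h3
  have h4 : ∫ s in (0 : ℝ)..π,
      defect A C C' (1 / (sin r * cos r) ^ 2) (1 / (sin r) ^ 2) r s ≤ 0 := by linarith only [h3]
  by_contra hne
  have h5 : 0 < defect A C C' (1 / (sin r * cos r) ^ 2) (1 / (sin r) ^ 2) r s :=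
    lt_of_le_of_ne (defect_nonneg h hC hL hr hb hab.le s) (Ne.symm hne)
  have h6 := intervalIntegral.integral_pos Real.pi_pos (defect_cont h hC hr).continuousOn
    (fun x _ => defect_nonneg h hC hL hr hb hab.le x) ⟨s, hs, h5⟩
  (clear * - h3 h6; linarith)

/-- the block form of the equality case -/
theorem core_rigid_block (h : JData (π / 2) A) (ha : Adapted A)
    (hdet : ∀ s t, s < t → t < s + π / 2 →
      |(A s t).det| = cos (t - s) ^ Fintype.card κ * sin (t - s) ^ Fintype.card (κ ⊕ ν))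
    {s t : ℝ} (h1 : s < t) (h2 : t < s + π / 2) (h3 : sin (2 * s) ≠ 0) (h4 : sin (2 * t) ≠ 0) :
    A s t * (A s t)ᵀ = (sin (t - s)) ^ 2 • (1 : Matrix (κ ⊕ ν) (κ ⊕ ν) ℝ)
      - (sin (t - s)) ^ 4 • (1 - (A 0 t) * (Gm A 0 t)⁻¹ *
        Matrix.fromBlocks 0 0 0 (((Gm A 0 t)⁻¹).toBlocks₂₂)⁻¹ * (Gm A 0 t)⁻¹ * (A 0 t)ᵀ) := by
  obtain ⟨C, C', hC, hL⟩ := h.exists_CData ha
  obtain ⟨r, hr⟩ : ∃ r, r = t - s := ⟨_, rfl⟩
  have ht : t = s + r := by rw [hr]; ring
  have hr1 : r ∈ Ioo 0 (π / 2) := ⟨by rw [hr]; linarith only [h1], by rw [hr]; linarith only [h2]⟩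
  have hp : Function.Periodic (fun s : ℝ => (A s (s + r), A 0 (s + r),
      sin (2 * s), sin (2 * (s + r)))) π := by
    intro s
    have e1 : A (s + π) (s + π + r) = A s (s + r) := by
      rw [show s + π + r = (s + r) + π by ring, h.per_diag]
    have e2 : A 0 (s + π + r) = A 0 (s + r) := by
      rw [show s + π + r = (s + r) + π by ring, h.per_pi]
    have e3 : sin (2 * (s + π)) = sin (2 * s) := by
      rw [show 2 * (s + π) = 2 * s + 2 * π by ring, Real.sin_add_two_pi]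
    have e4 : sin (2 * (s + π + r)) = sin (2 * (s + r)) := by
      rw [show 2 * (s + π + r) = 2 * (s + r) + 2 * π by ring, Real.sin_add_two_pi]
    simp only [e1, e2, e3, e4]
  obtain ⟨y, hy, hy2⟩ := hp.exists_mem_Ico₀ Real.pi_pos s
  simp only [Prod.mk.injEq] at hy2
  obtain ⟨f1, f2, f3, f4⟩ := hy2
  rw [ht] at h4 ⊢
  rw [f3] at h3
  rw [f4] at h4
  have hg : Gm A 0 (s + r) = Gm A 0 (y + r) := by
    unfold Gm
    rw [f2]
  rw [f1, f2, hg, show s + r - s = r by ring]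
  obtain ⟨hb, hab⟩ := alpha_beta hr1
  obtain ⟨hs, hc⟩ := sin_cos_pos hr1
  have h5 := defect_eq_zero h hC hL hdet hr1 ⟨hy.1, hy.2.le⟩
  have h6 := pointwise_eq h hC hL (s := y) (t := y + r) (by linarith only [h1, hr])
    (by linarith only [h2, hr]) h3 h4 hb hab (by unfold defect at h5; (clear * - h5; linarith))
  rw [h6]
  have h8 : (sin r) ^ 2 + (cos r) ^ 2 = 1 := Real.sin_sq_add_cos_sq r
  have h9 : (1 / (sin r * cos r) ^ 2)⁻¹ = sin r ^ 2 - sin r ^ 4 := by
    rw [one_div, inv_inv, mul_pow]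
    have : cos r ^ 2 = 1 - sin r ^ 2 := by linarith only [h8]
    rw [this]
    ring
  have h10 : (1 / (sin r) ^ 2)⁻¹ = sin r ^ 2 := by rw [one_div, inv_inv]
  rw [h9, h10]
  module

end Reduced

end

end Vale.Agent.P231
end
end

section

section

open Matrix Real Set Filter Topology MeasureTheory
open scoped ContDiff

namespace Vale.Agent.P231

noncomputable section

variable {ι : Type*} [Fintype ι] [DecidableEq ι] {A : ℝ → ℝ → Matrix ι ι ℝ}

theorem core_ineq (h : JData (π / 2) A) {l : ℕ}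
    (hl : Module.finrank ℝ (LinearMap.ker (A 0 (π / 2)).mulVecLin) ≤ l) {r : ℝ}
    (hr : r ∈ Ioo 0 (π / 2)) :
    π * (l * log (cos r) + Fintype.card ι * log (sin r)) ≤
      ∫ s in (0 : ℝ)..π, log |(A s (s + r)).det| := by
  obtain ⟨O, h1, h2, h3, h4⟩ := h.exists_adapted rfl
  have h5 := core_block h3 h4 hr
  simp only [det_conj_orth h1 h2] at h5
  refine le_trans ?_ h5
  rw [card_adapted (LinearMap.ker (A 0 (π / 2)).mulVecLin) rfl, Fintype.card_fin]
  have hc0 : 0 < cos r := Real.cos_pos_of_mem_Ioo ⟨by linarith only [hr.1, Real.pi_pos], hr.2⟩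
  have hc1 : cos r ≤ 1 := Real.cos_le_one r
  have hlog : log (cos r) ≤ 0 := Real.log_nonpos hc0.le hc1
  have hl' : (Module.finrank ℝ (LinearMap.ker (A 0 (π / 2)).mulVecLin) : ℝ) ≤ l := by
    exact_mod_cast hl
  have := mul_le_mul_of_nonpos_right hl' hlog
  exact mul_le_mul_of_nonneg_left (by linarith only [this]) Real.pi_pos.le


end

end Vale.Agent.P231
end
end

section

section

open Matrix Real Set Filter Topology MeasureTheory
open scoped ContDiff

namespace Vale.Agent.P231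

noncomputable section

variable {ι : Type*} [Fintype ι] [DecidableEq ι] {D : ℝ} {A : ℝ → ℝ → Matrix ι ι ℝ}

theorem core_rigid (h : JData (π / 2) A) {l : ℕ}
    (hl : ∀ s, Module.finrank ℝ (LinearMap.ker (A s (s + π / 2)).mulVecLin) ≤ l)
    (hdet : ∀ s t, s < t → t < s + π / 2 →
      |(A s t).det| = cos (t - s) ^ l * sin (t - s) ^ Fintype.card ι) :
    ∃ P : Matrix ι ι ℝ, Pᵀ = P ∧ P * P = P ∧
      (∀ v, A 0 (π / 2) *ᵥ v = 0 ↔ P *ᵥ v = v) ∧
      ∀ t ∈ Ioo 0 (π / 2), Gm A 0 t = (sin t) ^ 2 • (1 - (sin t) ^ 2 • P) := by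
  have hpi := Real.pi_pos
  obtain ⟨c, hc⟩ : ∃ c : ℝ, c = -(π / 8) := ⟨_, rfl⟩
  -- the reversed and shifted data
  obtain ⟨A₁, hA₁⟩ : ∃ A₁ : ℝ → ℝ → Matrix ι ι ℝ,
      A₁ = fun s t => -A (-(c + s)) (-(c + t)) := ⟨_, rfl⟩
  have h₁ : JData (π / 2) A₁ := by
    rw [hA₁]
    exact h.reverse.shift c
  have hdet₁ : ∀ s t, s < t → t < s + π / 2 →
      |(A₁ s t).det| = cos (t - s) ^ l * sin (t - s) ^ Fintype.card ι := by
    intro s t h1 h2
    have e : A₁ s t = (A (-(c + t)) (-(c + s)))ᵀ := by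
      rw [hA₁]
      show -A (-(c + s)) (-(c + t)) = _
      rw [h.anti (-(c + t)) (-(c + s)), neg_neg]
    rw [e, Matrix.det_transpose, hdet _ _ (by linarith only [h1]) (by linarith only [h2])]
    congr 2 <;> ring_nf
  -- dimension of the kernel
  obtain ⟨k, hk⟩ : ∃ k, Module.finrank ℝ (LinearMap.ker (A₁ 0 (π / 2)).mulVecLin) = k := ⟨_, rfl⟩
  have hkl : k ≤ l := by
    rw [← hk]
    have e : A₁ 0 (π / 2) = -A (-c) (-c + π / 2) := by
      rw [hA₁]
      show -A (-(c + 0)) (-(c + π / 2)) = _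
      have := h.per (-c) (-(c + π / 2))
      rw [add_zero, ← this]
      congr 2
      ring
    refine le_trans (le_of_eq ?_) (hl (-c))
    have : LinearMap.ker (A₁ 0 (π / 2)).mulVecLin =
        LinearMap.ker (A (-c) (-c + π / 2)).mulVecLin := by
      ext v
      rw [LinearMap.mem_ker, LinearMap.mem_ker, Matrix.mulVecLin_apply, Matrix.mulVecLin_apply, e,
        Matrix.neg_mulVec, neg_eq_zero]
    rw [this]
  have hlk : l ≤ k := by
    have hr : π / 4 ∈ Ioo 0 (π / 2) := ⟨by linarith only [hpi], by linarith only [hpi]⟩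
    have h1 := core_ineq h₁ hk.le hr
    have hcos : 0 < cos (π / 4) := Real.cos_pos_of_mem_Ioo ⟨by linarith only [hpi], by linarith only [hpi]⟩
    have hsin : 0 < sin (π / 4) := Real.sin_pos_of_pos_of_lt_pi (by linarith only [hpi]) (by linarith only [hpi])
    have h2 : ∫ s in (0 : ℝ)..π, log |(A₁ s (s + π / 4)).det| =
        ∫ s in (0 : ℝ)..π, (l * log (cos (π / 4)) + Fintype.card ι * log (sin (π / 4))) := by
      refine intervalIntegral.integral_congr fun s _ => ?_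
      show log |(A₁ s (s + π / 4)).det| = _
      rw [hdet₁ s (s + π / 4) (by linarith only [hpi]) (by linarith only [hpi]), add_sub_cancel_left,
        Real.log_mul (by positivity) (by positivity), Real.log_pow, Real.log_pow]
    rw [h2, intervalIntegral.integral_const, sub_zero, smul_eq_mul] at h1
    have h3 : (k : ℝ) * log (cos (π / 4)) ≤ l * log (cos (π / 4)) := by
      have := le_of_mul_le_mul_left h1 hpi
      linarith only [this]
    have h4 : log (cos (π / 4)) < 0 := by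
      refine Real.log_neg hcos ?_
      rw [Real.cos_pi_div_four]
      have : sqrt 2 < 2 := by
        rw [Real.sqrt_lt' (by norm_num)]; norm_num
      linarith only [this]
    have h5 : (l : ℝ) ≤ k := by
      by_contra hcon
      push Not at hcon
      nlinarith only [h3, h4, hcon]
    exact_mod_cast h5
  have hkl' : k = l := le_antisymm hkl hlk
  subst hkl'
  obtain ⟨O, hO1, hO2, h₂, ha⟩ := h₁.exists_adapted hk
  have hcard := card_adapted (LinearMap.ker (A₁ 0 (π / 2)).mulVecLin) hk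
  have hdet₂ : ∀ s t, s < t → t < s + π / 2 →
      |(Oᵀ * A₁ s t * O).det| = cos (t - s) ^ Fintype.card (Fin k) *
        sin (t - s) ^ Fintype.card (Fin k ⊕ Fin (Fintype.card ι - k)) := by
    intro s t h1 h2
    rw [det_conj_orth hO1 hO2, hdet₁ s t h1 h2, hcard, Fintype.card_fin]
  -- the projection
  obtain ⟨M, hM⟩ : ∃ M, M = Oᵀ * A₁ 0 (-c) * O := ⟨_, rfl⟩
  have hMu : IsUnit M := by
    rw [hM]
    exact h₂.unit 0 (-c) (by rw [hc]; linarith only [hpi]) (by rw [hc]; linarith only [hpi])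
  have hMpos : (Mᵀ * M).PosDef := by
    rw [hM] at hMu ⊢
    exact h₂.Gm_posDef hMu
  have hQ := block_projection hMpos
  obtain ⟨Q, hQdef⟩ : ∃ Q, Q = M * (Mᵀ * M)⁻¹ *
      Matrix.fromBlocks 0 0 0 (((Mᵀ * M)⁻¹).toBlocks₂₂)⁻¹ * (Mᵀ * M)⁻¹ * Mᵀ := ⟨_, rfl⟩
  simp only at hQ
  rw [← hQdef] at hQ
  obtain ⟨hQ1, hQ2⟩ := hQ
  obtain ⟨P, hP⟩ : ∃ P, P = O * (1 - Q) * Oᵀ := ⟨_, rfl⟩
  have hP1 : Pᵀ = P := by
    rw [hP]
    simp only [Matrix.transpose_mul, Matrix.transpose_transpose, Matrix.transpose_sub,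
      Matrix.transpose_one, hQ1, Matrix.mul_assoc]
  have hP2 : P * P = P := by
    have e : (1 - Q) * (1 - Q) = 1 - Q := by
      rw [Matrix.mul_sub, Matrix.sub_mul, Matrix.sub_mul, hQ2]
      simp
    calc P * P = O * ((1 - Q) * (Oᵀ * O) * (1 - Q)) * Oᵀ := by
          rw [hP]; simp only [Matrix.mul_assoc]
      _ = P := by rw [hO1, Matrix.mul_one, e, hP]
  -- the formula at regular times
  have hreg : ∀ t ∈ Ioo 0 (π / 2), t ≠ π / 8 →
      Gm A 0 t = (sin t) ^ 2 • (1 - (sin t) ^ 2 • P) := by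
    intro t ht ht8
    have h3 : sin (2 * (-c - t)) ≠ 0 := by
      rw [hc]
      intro h0
      have h1 := (Real.sin_eq_zero_iff_of_lt_of_lt (by linarith only [hpi, ht.2]) (by linarith only [hpi, ht.1])).1 h0
      exact ht8 (by linarith only [h1])
    have h4 : sin (2 * (-c)) ≠ 0 := by
      rw [hc]
      have : 0 < sin (2 * -(-(π / 8))) := Real.sin_pos_of_pos_of_lt_pi (by linarith only [hpi]) (by linarith only [hpi])
      exact this.ne'
    have h5 := core_rigid_block h₂ ha hdet₂ (s := -c - t) (t := -c) (by linarith only [ht.1])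
      (by linarith only [ht.2]) h3 h4
    have h6 : -c - (-c - t) = t := by ring
    rw [h6] at h5
    have h7 : A₁ (-c - t) (-c) = (A 0 t)ᵀ := by
      rw [hA₁]
      show -A (-(c + (-c - t))) (-(c + -c)) = _
      have e1 : -(c + (-c - t)) = t := by ring
      have e2 : -(c + -c) = 0 := by ring
      rw [e1, e2, h.anti 0 t, neg_neg]
    simp only [Gm] at h5
    rw [← hM, ← hQdef, h7] at h5
    have h8 : Gm A 0 t = O * ((Oᵀ * (A 0 t)ᵀ * O) * (Oᵀ * (A 0 t)ᵀ * O)ᵀ) * Oᵀ := by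
      have e : O * ((Oᵀ * (A 0 t)ᵀ * O) * (Oᵀ * (A 0 t)ᵀ * O)ᵀ) * Oᵀ =
          (O * Oᵀ) * (A 0 t)ᵀ * (O * Oᵀ) * (A 0 t) * (O * Oᵀ) := by
        simp only [Matrix.transpose_mul, Matrix.transpose_transpose, Matrix.mul_assoc]
      rw [e, hO2, Gm]
      simp only [Matrix.one_mul, Matrix.mul_one]
    rw [h8, h5, hP, Matrix.mul_sub, Matrix.sub_mul, Matrix.mul_smul, Matrix.smul_mul,
      Matrix.mul_smul, Matrix.smul_mul, Matrix.mul_one, hO2, smul_sub, smul_smul]
    congr 2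
    ring
  -- continuity
  have hcont : ∀ i j, Continuous fun t => Gm A 0 t i j -
      ((sin t) ^ 2 • (1 - (sin t) ^ 2 • P) : Matrix ι ι ℝ) i j := by
    intro i j
    refine (h.Gm_contDiff 0 i j).continuous.sub ?_
    simp only [Matrix.smul_apply, Matrix.sub_apply, smul_eq_mul]
    fun_prop
  have hall : ∀ x, 0 < x → x ≤ π / 2 → Gm A 0 x = (sin x) ^ 2 • (1 - (sin x) ^ 2 • P) := by
    intro x hx0 hx1
    ext i j
    rw [← sub_eq_zero]
    refine eq_zero_of_eventually_left (f := fun t => Gm A 0 t i j -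
      ((sin t) ^ 2 • (1 - (sin t) ^ 2 • P) : Matrix ι ι ℝ) i j) (x := x) (hcont i j) ?_
    by_cases hx8 : x ≤ π / 8
    · filter_upwards [Ioo_mem_nhdsLT hx0] with t ht
      rw [hreg t ⟨ht.1, by linarith only [hx0, hx8, ht.2]⟩ (by have := ht.2; intro hh; linarith only [hx8, this, hh]), sub_self]
    · push Not at hx8
      filter_upwards [Ioo_mem_nhdsLT hx8] with t ht
      rw [hreg t ⟨by linarith only [hx0, hx1, ht.1], by linarith only [hx1, ht.2]⟩ (by have := ht.1; intro hh; linarith only [this, hh]),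
        sub_self]
  refine ⟨P, hP1, hP2, fun v => ?_, fun t ht => hall t ht.1 ht.2.le⟩
  have h9 := hall (π / 2) (by linarith only [hpi]) le_rfl
  rw [Real.sin_pi_div_two, one_pow, one_smul, one_smul, Gm] at h9
  have h10 := Matrix.conjTranspose_mul_self_mulVec_eq_zero (A 0 (π / 2)) v
  rw [Matrix.conjTranspose_eq_transpose_of_trivial, h9, Matrix.sub_mulVec, Matrix.one_mulVec,
    sub_eq_zero] at h10
  rw [← h10]
  exact eq_comm

end

end Vale.Agent.P231
end
end

section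

section

/-! P231 geometry: raw differential of the exponential map and Jacobi fields. -/

set_option maxSynthPendingDepth 3

open Bundle Manifold Set Filter
open scoped ContDiff Manifold Topology

namespace Vale.Agent.P231

noncomputable section

open Vale.Agent.P234

variable {E : Type*} [NormedAddCommGroup E] [NormedSpace ℝ E]
  {M : Type*} [MetricSpace M] [ChartedSpace E M]
  [RiemannianBundle (fun x : M => TangentSpace 𝓘(ℝ, E) x)]

/-- inner product of raw tangent vectors at `x` -/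
def ip (x : M) (a b : E) : ℝ :=
  @inner ℝ (TangentSpace 𝓘(ℝ, E) x) _ a b

/-- norm of a raw tangent vector at `x` -/
def nm (x : M) (a : E) : ℝ := @norm (TangentSpace 𝓘(ℝ, E) x) _ a

/-- raw differential of `e x` at `v` in direction `w` -/
def dE (e : ∀ x : M, TangentSpace 𝓘(ℝ, E) x → M) (x : M) (v w : E) : E :=
  mfderiv 𝓘(ℝ, TangentSpace 𝓘(ℝ, E) x) 𝓘(ℝ, E) (e x)
    (v : TangentSpace 𝓘(ℝ, E) x) (w : TangentSpace 𝓘(ℝ, E) x)

/-- the geodesic with initial point `x` and velocity `u` -/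
def gam (e : ∀ x : M, TangentSpace 𝓘(ℝ, E) x → M) (x : M) (u : E) (t : ℝ) : M :=
  e x (t • u : TangentSpace 𝓘(ℝ, E) x)

/-- its velocity at time `t` -/
def vel (e : ∀ x : M, TangentSpace 𝓘(ℝ, E) x → M) (x : M) (u : E) (t : ℝ) : E :=
  dE e x (t • u) u

/-- the Jacobi field along `gam e x u` vanishing at `s` with derivative `w`, at time `t` -/
def jf (e : ∀ x : M, TangentSpace 𝓘(ℝ, E) x → M) (x : M) (u : E) (s t : ℝ) (w : E) : E :=
  (t - s) • dE e (gam e x u s) ((t - s) • vel e x u s) w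

/-- raw pair as an element of the tangent bundle -/
def tb (x : M) (v : E) : TangentBundle 𝓘(ℝ, E) M := ⟨x, v⟩

end

end Vale.Agent.P231
end
end

section

section

/-! P231 measure part: definitions. -/

set_option maxSynthPendingDepth 3

open Bundle Manifold Set Filter MeasureTheory Module
open scoped ContDiff Manifold Topology ENNReal

namespace Vale.Agent.P231

noncomputable section

open Vale.Agent.P234

/-- Euclidean space of the dimension of `E` -/
abbrev Eu (E : Type*) [NormedAddCommGroup E] [NormedSpace ℝ E] : Type :=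
  EuclideanSpace ℝ (Fin (finrank ℝ E))

/-- The normalised Hausdorff measure of dimension `n` (it is Lebesgue measure on Euclidean
space and the Riemannian volume on a Riemannian manifold of dimension `n`). -/
def riemVol (n : ℕ) (M : Type*) [MetricSpace M] [MeasurableSpace M] [BorelSpace M] :
    Measure M :=
  (volume (Metric.ball (0 : EuclideanSpace ℝ (Fin n)) 1) /
    Measure.hausdorffMeasure (n : ℝ) (Metric.ball (0 : EuclideanSpace ℝ (Fin n)) 1)) •
    Measure.hausdorffMeasure (n : ℝ)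

variable {E : Type*} [NormedAddCommGroup E] [NormedSpace ℝ E]
  {M : Type*} [MetricSpace M] [ChartedSpace E M]
  [RiemannianBundle (fun x : M => TangentSpace 𝓘(ℝ, E) x)]

/-- the differential as a continuous linear map of tangent spaces -/
def dEc (e : ∀ x : M, TangentSpace 𝓘(ℝ, E) x → M) (x : M) (v : TangentSpace 𝓘(ℝ, E) x) :
    TangentSpace 𝓘(ℝ, E) x →L[ℝ] TangentSpace 𝓘(ℝ, E) (e x v) :=
  mfderiv 𝓘(ℝ, TangentSpace 𝓘(ℝ, E) x) 𝓘(ℝ, E) (e x) v

/-- the raw differential as a linear map -/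
def dEl (e : ∀ x : M, TangentSpace 𝓘(ℝ, E) x → M) (x : M) (v : E) : E →ₗ[ℝ] E where
  toFun := dE e x v
  map_add' a b := (dEc e x v).map_add a b
  map_smul' c a := (dEc e x v).map_smul c a

/-- the inverse of the exponential map (inside the injectivity radius) -/
def lg (e : ∀ x : M, TangentSpace 𝓘(ℝ, E) x → M) (x y : M) : E :=
  Classical.epsilon fun v : E => nm x v = dist x y ∧ gam e x v 1 = y

/-- a real function on the tangent bundle, given by raw vectors, is continuous -/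
def ContTB [IsManifold 𝓘(ℝ, E) ∞ M] (G : M → E → ℝ) : Prop :=
  Continuous fun p : TangentBundle 𝓘(ℝ, E) M => G p.proj p.snd

/-- model Jacobian -/
def mj (D : ℝ) (N l : ℕ) (r : ℝ) : ℝ :=
  (Real.sin (Real.pi * r / (2 * D)) / (Real.pi * r / (2 * D))) ^ N *
    Real.cos (Real.pi * r / (2 * D)) ^ l

/-- volume of the model of diameter `D`, dimension `N + 1`, multiplicity `l` -/
def mvol (D : ℝ) (N l : ℕ) : ℝ :=
  (N + 1) * (volume (Metric.ball (0 : EuclideanSpace ℝ (Fin (N + 1))) 1)).toReal *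
    ∫ r in (0 : ℝ)..D, (2 * D / Real.pi * Real.sin (Real.pi * r / (2 * D))) ^ N *
      Real.cos (Real.pi * r / (2 * D)) ^ l

variable [FiniteDimensional ℝ E]

theorem exists_fr (x : M) : ∃ f : Eu E ≃L[ℝ] E, ∀ a b, ip x (f a) (f b) = inner ℝ a b := by
  have hE : FiniteDimensional ℝ (TangentSpace 𝓘(ℝ, E) x) := inferInstanceAs (FiniteDimensional ℝ E)
  have h1 : finrank ℝ (TangentSpace 𝓘(ℝ, E) x) = finrank ℝ E := rfl
  let o := (stdOrthonormalBasis ℝ (TangentSpace 𝓘(ℝ, E) x)).reindex (finCongr h1)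
  let L : Eu E ≃ₗ[ℝ] E := (o.repr.symm.toLinearEquiv : Eu E ≃ₗ[ℝ] TangentSpace 𝓘(ℝ, E) x)
  refine ⟨L.toContinuousLinearEquiv, fun a b => ?_⟩
  exact o.repr.symm.inner_map_map a b

/-- a linear isometry from Euclidean space onto the tangent space at `x` -/
def fr (x : M) : Eu E ≃L[ℝ] E := (exists_fr x).choose

theorem ip_fr (x : M) (a b : Eu E) : ip x (fr x a) (fr x b) = inner ℝ a b :=
  (exists_fr x).choose_spec a b

omit [FiniteDimensional ℝ E] in
theorem ip_self (x : M) (a : E) : ip x a a = nm x a ^ 2 :=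
  real_inner_self_eq_norm_sq (F := TangentSpace 𝓘(ℝ, E) x) a

omit [FiniteDimensional ℝ E] in
theorem nm_nonneg (x : M) (a : E) : 0 ≤ nm x a :=
  norm_nonneg (E := TangentSpace 𝓘(ℝ, E) x) a

theorem nm_fr (x : M) (a : Eu E) : nm x (fr x a) = ‖a‖ := by
  have h := ip_fr x a a
  rw [ip_self, real_inner_self_eq_norm_sq] at h
  exact (sq_eq_sq₀ (nm_nonneg _ _) (norm_nonneg _)).1 h

/-- the exponential map in orthonormal coordinates of the tangent space -/
def ef (e : ∀ x : M, TangentSpace 𝓘(ℝ, E) x → M) (x : M) (ξ : Eu E) : M :=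
  e x (fr x ξ : E)

/-- the Jacobian of the exponential map at `x` in direction `v` -/
def jac (e : ∀ x : M, TangentSpace 𝓘(ℝ, E) x → M) (x : M) (v : E) : ℝ :=
  |(Matrix.of fun i j : Fin (finrank ℝ E) =>
    ip (gam e x v 1) (fr (gam e x v 1) (EuclideanSpace.single i 1))
      (dE e x v (fr x (EuclideanSpace.single j 1)))).det|

/-- integral over the tangent space at `x` -/
def fint (G : M → E → ℝ) (x : M) : ℝ := ∫ ξ : Eu E, G x (fr x ξ)

/-- integral over the tangent bundle (Liouville measure) -/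
def liou [MeasurableSpace M] [BorelSpace M] (G : M → E → ℝ) : ℝ :=
  ∫ x, fint G x ∂(riemVol (finrank ℝ E) M)

end

end Vale.Agent.P231
end
end

section

section

/-! Inside the injectivity radius the differential of the exponential map is injective. -/

set_option maxSynthPendingDepth 3
set_option linter.unusedSectionVars false

open Bundle Manifold Set Filter
open scoped ContDiff Manifold Topology

namespace Vale.Agent.P231

noncomputable section

open Vale.Agent.P234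

variable {E : Type*} [NormedAddCommGroup E] [NormedSpace ℝ E] [FiniteDimensional ℝ E]
  {M : Type*} [MetricSpace M] [ChartedSpace E M]
  [RiemannianBundle (fun x : M => TangentSpace 𝓘(ℝ, E) x)]
  [IsManifold 𝓘(ℝ, E) ∞ M]
  [IsContMDiffRiemannianBundle 𝓘(ℝ, E) ∞ E (fun x : M => TangentSpace 𝓘(ℝ, E) x)]
  {e : ∀ x : M, TangentSpace 𝓘(ℝ, E) x → M}

/-- `D` is at most the injectivity radius -/
def InjGE (e : ∀ x : M, TangentSpace 𝓘(ℝ, E) x → M) (D : ℝ) : Prop :=
  ∀ (x : M) (v : TangentSpace 𝓘(ℝ, E) x), ‖v‖ ≤ D → dist x (e x v) = ‖v‖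

theorem InjGE.mem_injDomain {D : ℝ} (hB : InjGE e D) {x : M} {v : TangentSpace 𝓘(ℝ, E) x}
    (hv : ‖v‖ < D) : v ∈ injDomain e x := by
  have hn : 0 ≤ ‖v‖ := norm_nonneg v
  have hd : 0 < D - ‖v‖ := by linarith only [hv]
  refine ⟨1 + (D - ‖v‖) / (‖v‖ + 1), ?_, ?_⟩
  · have : 0 < (D - ‖v‖) / (‖v‖ + 1) := div_pos hd (by linarith only [hn])
    linarith only [this]
  · set a : ℝ := 1 + (D - ‖v‖) / (‖v‖ + 1) with ha
    have ha0 : 0 ≤ a := by
      have : 0 < (D - ‖v‖) / (‖v‖ + 1) := div_pos hd (by linarith only [hn])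
      rw [ha]; linarith only [this]
    have h1 : ‖a • v‖ = a * ‖v‖ := by rw [norm_smul, Real.norm_of_nonneg ha0]
    have h2 : a * ‖v‖ ≤ D := by
      have h3 : (D - ‖v‖) / (‖v‖ + 1) * ‖v‖ ≤ D - ‖v‖ := by
        rw [div_mul_eq_mul_div, div_le_iff₀ (by linarith only [hn])]
        nlinarith only [hv]
      rw [ha]
      linarith only [h3]
    rw [hB x (a • v) (by rw [h1]; exact h2), h1]

theorem mfderiv_exp_injective (F : Facts e) {x : M} {v : TangentSpace 𝓘(ℝ, E) x}
    (hmem : v ∈ injDomain e x) (w : TangentSpace 𝓘(ℝ, TangentSpace 𝓘(ℝ, E) x) v)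
    (hw : mfderiv 𝓘(ℝ, TangentSpace 𝓘(ℝ, E) x) 𝓘(ℝ, E) (e x) v w = 0) : w = 0 := by
  obtain ⟨L, hL, -, -, hLe⟩ := F.smoothLog hmem
  have hLd : MDifferentiableAt 𝓘(ℝ, E) 𝓘(ℝ, TangentSpace 𝓘(ℝ, E) x) L (e x v) :=
    hL.mdifferentiableAt (by simp)
  have hEd : MDifferentiableAt 𝓘(ℝ, TangentSpace 𝓘(ℝ, E) x) 𝓘(ℝ, E) (e x) v :=
    (contMDiff_exp_fiber F.isExp x).mdifferentiableAt (by simp)
  have hcomp := mfderiv_comp_apply v hLd hEd w
  have hev : (L ∘ e x) =ᶠ[𝓝 v] id := hLe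
  have hid : mfderiv 𝓘(ℝ, TangentSpace 𝓘(ℝ, E) x) 𝓘(ℝ, TangentSpace 𝓘(ℝ, E) x) (L ∘ e x) v =
      mfderiv 𝓘(ℝ, TangentSpace 𝓘(ℝ, E) x) 𝓘(ℝ, TangentSpace 𝓘(ℝ, E) x) id v := hev.mfderiv_eq
  rw [hid, mfderiv_id, hw, map_zero] at hcomp
  exact hcomp

theorem dE_injective [CompactSpace M] [ConnectedSpace M] [IsRiemannianManifold 𝓘(ℝ, E) M]
    (F : Facts e) {D : ℝ} (hB : InjGE e D) {x : M} {v : E} (hv : nm x v < D) {w : E}
    (hw : dE e x v w = 0) : w = 0 :=
  mfderiv_exp_injective F (hB.mem_injDomain hv) w hw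

end

end Vale.Agent.P231
end
end

section

section

/-! P231 geometry G1: raw differential of the exponential map and the geodesic flow. -/

set_option maxSynthPendingDepth 3
set_option linter.unusedSectionVars false

open Bundle Manifold Set Filter
open scoped ContDiff Manifold Topology

namespace Vale.Agent.P231

noncomputable section

open Vale.Agent.P234

variable {E : Type*} [NormedAddCommGroup E] [NormedSpace ℝ E] [FiniteDimensional ℝ E]
  {M : Type*} [MetricSpace M] [ChartedSpace E M]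
  [RiemannianBundle (fun x : M => TangentSpace 𝓘(ℝ, E) x)]
  [IsManifold 𝓘(ℝ, E) ∞ M]
  [IsContMDiffRiemannianBundle 𝓘(ℝ, E) ∞ E (fun x : M => TangentSpace 𝓘(ℝ, E) x)]
  {e : ∀ x : M, TangentSpace 𝓘(ℝ, E) x → M}

theorem dE_add (e : ∀ x : M, TangentSpace 𝓘(ℝ, E) x → M) (x : M) (v w z : E) :
    dE e x v (w + z) = dE e x v w + dE e x v z :=
  map_add (mfderiv 𝓘(ℝ, TangentSpace 𝓘(ℝ, E) x) 𝓘(ℝ, E) (e x)
    (v : TangentSpace 𝓘(ℝ, E) x)) (w : TangentSpace 𝓘(ℝ, E) x) (z : TangentSpace 𝓘(ℝ, E) x)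

theorem dE_smul (e : ∀ x : M, TangentSpace 𝓘(ℝ, E) x → M) (x : M) (v w : E) (c : ℝ) :
    dE e x v (c • w) = c • dE e x v w :=
  map_smul (mfderiv 𝓘(ℝ, TangentSpace 𝓘(ℝ, E) x) 𝓘(ℝ, E) (e x)
    (v : TangentSpace 𝓘(ℝ, E) x)) c (w : TangentSpace 𝓘(ℝ, E) x)

lemma mfderiv_ray (he : IsExp e) (x : M) (u : TangentSpace 𝓘(ℝ, E) x) (t : ℝ) :
    mfderiv 𝓘(ℝ, ℝ) 𝓘(ℝ, E) (fun t : ℝ => e x (t • u)) t (1 : ℝ) =
      mfderiv 𝓘(ℝ, TangentSpace 𝓘(ℝ, E) x) 𝓘(ℝ, E) (e x) (t • u) u := by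
  have h1 : MDifferentiableAt 𝓘(ℝ, TangentSpace 𝓘(ℝ, E) x) 𝓘(ℝ, E) (e x) (t • u) :=
    ((contMDiff_exp_fiber he x).contMDiffAt).mdifferentiableAt (by simp)
  have h3 : MDifferentiableAt 𝓘(ℝ, ℝ) 𝓘(ℝ, TangentSpace 𝓘(ℝ, E) x)
      (fun t : ℝ => t • u) t := by
    have h6 : ContMDiff 𝓘(ℝ, ℝ) 𝓘(ℝ, TangentSpace 𝓘(ℝ, E) x) ∞
        (fun t : ℝ => t • u) :=
      (contDiff_id.smul contDiff_const).contMDiff
    exact h6.contMDiffAt.mdifferentiableAt (by simp)
  have h4 := mfderiv_comp_apply t (I'' := 𝓘(ℝ, E))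
    (g := e x) (f := fun t : ℝ => t • u) h1 h3 (1 : ℝ)
  have h5 : mfderiv 𝓘(ℝ, ℝ) 𝓘(ℝ, TangentSpace 𝓘(ℝ, E) x)
      (fun t : ℝ => t • u) t (1 : ℝ) = u := by
    rw [mfderiv_eq_fderiv]
    have h2 : HasFDerivAt (fun t : ℝ => t • u)
        ((ContinuousLinearMap.id ℝ ℝ).smulRight u) t :=
      (hasFDerivAt_id t).smul_const u
    rw [h2.fderiv]
    exact one_smul ℝ u
  rw [h5] at h4
  exact h4

/-- the curve `gam e x u` has velocity `vel` -/
theorem mfderiv_gam (he : IsExp e) (x : M) (u : E) (t : ℝ) :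
    mfderiv 𝓘(ℝ, ℝ) 𝓘(ℝ, E) (gam e x u) t (1 : ℝ) = vel e x u t :=
  mfderiv_ray he x u t

theorem dE_zero_base (he : IsExp e) (x : M) (w : E) : dE e x 0 w = w := by
  have h1 := mfderiv_gam he x w 0
  have h2 := he.velocity x (w : TangentSpace 𝓘(ℝ, E) x)
  have h3 : (mfderiv 𝓘(ℝ, ℝ) 𝓘(ℝ, E) (gam e x w) 0 (1 : ℝ) : E) = w := h2
  have h4 : vel e x w 0 = w := h1.symm.trans h3
  rw [vel, zero_smul] at h4
  exact h4

theorem gam_zero (he : IsExp e) (x : M) (u : E) : gam e x u 0 = x := by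
  have h : ((0 : ℝ) • (u : TangentSpace 𝓘(ℝ, E) x)) = 0 := zero_smul ℝ _
  unfold gam
  rw [h]
  exact he.map_zero x

theorem vel_zero (he : IsExp e) (x : M) (u : E) : vel e x u 0 = u := by
  rw [vel, zero_smul]
  exact dE_zero_base he x u

/-- velocities of equal curves -/
lemma mfderiv_congr_curve {f g : ℝ → M} (h : f = g) (t : ℝ) :
    (mfderiv 𝓘(ℝ, ℝ) 𝓘(ℝ, E) f t (1 : ℝ) : E) = mfderiv 𝓘(ℝ, ℝ) 𝓘(ℝ, E) g t (1 : ℝ) := by
  subst h
  rfl

lemma contMDiff_gam (he : IsExp e) (x : M) (u : E) :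
    ContMDiff 𝓘(ℝ, ℝ) 𝓘(ℝ, E) ∞ (gam e x u) :=
  contMDiff_ray he x u

/-- velocity of a shifted geodesic -/
lemma mfderiv_gam_shift (he : IsExp e) (x : M) (u : E) (s t : ℝ) :
    (mfderiv 𝓘(ℝ, ℝ) 𝓘(ℝ, E) (fun t => gam e x u (s + t)) t (1 : ℝ) : E) =
      vel e x u (s + t) := by
  have h1 : MDifferentiableAt 𝓘(ℝ, ℝ) 𝓘(ℝ, E) (gam e x u) (s + t) :=
    (contMDiff_gam he x u).contMDiffAt.mdifferentiableAt (by simp)
  have h6 : ContMDiff 𝓘(ℝ, ℝ) 𝓘(ℝ, ℝ) ∞ (fun t : ℝ => s + t) :=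
    (contDiff_const.add contDiff_id).contMDiff
  have h3 : MDifferentiableAt 𝓘(ℝ, ℝ) 𝓘(ℝ, ℝ) (fun t : ℝ => s + t) t :=
    h6.contMDiffAt.mdifferentiableAt (by simp)
  have h4 := mfderiv_comp_apply t (I'' := 𝓘(ℝ, E))
    (g := gam e x u) (f := fun t : ℝ => s + t) h1 h3 (1 : ℝ)
  have h5 : mfderiv 𝓘(ℝ, ℝ) 𝓘(ℝ, ℝ) (fun t : ℝ => s + t) t (1 : ℝ) = (1 : ℝ) := by
    rw [mfderiv_eq_fderiv]
    have h2 : HasFDerivAt (fun t : ℝ => s + t) (ContinuousLinearMap.id ℝ ℝ) t :=
      (hasFDerivAt_id t).const_add s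
    rw [h2.fderiv]
    rfl
  rw [h5] at h4
  exact h4.trans (mfderiv_gam he x u (s + t))

/-- the vector of the flow property is the velocity -/
lemma flow_vec (he : IsExp e) (x : M) (u : E) (s : ℝ)
    (w : TangentSpace 𝓘(ℝ, E) (gam e x u s))
    (hw : ∀ t : ℝ, e (gam e x u s) (t • w) = gam e x u (s + t)) :
    (w : E) = vel e x u s := by
  have h1 := he.velocity (gam e x u s) w
  have h2 := mfderiv_congr_curve (E := E) (funext hw) 0
  have h3 := mfderiv_gam_shift he x u s 0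
  rw [add_zero] at h3
  exact (h1.symm.trans h2).trans h3

theorem gam_flow (F : Facts e) (x : M) (u : E) (s t : ℝ) :
    gam e (gam e x u s) (vel e x u s) t = gam e x u (s + t) := by
  obtain ⟨w, -, hw⟩ := F.flow x (u : TangentSpace 𝓘(ℝ, E) x) s
  have h := flow_vec F.isExp x u s w hw
  rw [← h]
  exact hw t

theorem vel_flow (F : Facts e) (x : M) (u : E) (s t : ℝ) :
    vel e (gam e x u s) (vel e x u s) t = vel e x u (s + t) := by
  have h1 := mfderiv_gam F.isExp (gam e x u s) (vel e x u s) t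
  have h2 := mfderiv_congr_curve (E := E) (funext (gam_flow F x u s)) t
  have h3 := mfderiv_gam_shift F.isExp x u s t
  exact (h1.symm.trans h2).trans h3

theorem nm_vel (F : Facts e) (x : M) (u : E) (t : ℝ) :
    nm (gam e x u t) (vel e x u t) = nm x u := by
  obtain ⟨w, hn, hw⟩ := F.flow x (u : TangentSpace 𝓘(ℝ, E) x) t
  have h := flow_vec F.isExp x u t w hw
  rw [← h]
  exact hn

theorem gam_smul (x : M) (u : E) (c t : ℝ) : gam e x (c • u) t = gam e x u (c * t) := by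
  have h : (t • c • u : E) = (c * t) • u := by rw [smul_smul, mul_comm]
  exact congrArg (e x) h

theorem vel_smul (x : M) (u : E) (c t : ℝ) :
    vel e x (c • u) t = c • vel e x u (c * t) := by
  have h : (t • c • u : E) = (c * t) • u := by rw [smul_smul, mul_comm]
  rw [vel, h, dE_smul]
  rfl

/-- scalar multiplication in the tangent bundle is smooth -/
lemma contMDiff_tb_smul :
    ContMDiff (𝓘(ℝ, ℝ).prod 𝓘(ℝ, E).tangent) 𝓘(ℝ, E).tangent ∞
      (fun q : ℝ × TangentBundle 𝓘(ℝ, E) M =>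
        (⟨q.2.proj, q.1 • q.2.snd⟩ : TangentBundle 𝓘(ℝ, E) M)) := by
  intro q
  rw [Bundle.contMDiffAt_totalSpace]
  have hp : ContMDiffAt (𝓘(ℝ, ℝ).prod 𝓘(ℝ, E).tangent) 𝓘(ℝ, E).tangent ∞
      (fun q : ℝ × TangentBundle 𝓘(ℝ, E) M => q.2) q := contMDiffAt_snd
  obtain ⟨hp1, hp2⟩ := Bundle.contMDiffAt_totalSpace.1 hp
  refine ⟨hp1, ?_⟩
  have ht : ContMDiffAt (𝓘(ℝ, ℝ).prod 𝓘(ℝ, E).tangent) 𝓘(ℝ, ℝ) ∞
      (fun q : ℝ × TangentBundle 𝓘(ℝ, E) M => q.1) q := contMDiffAt_fst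
  have h := ht.smul hp2
  refine h.congr_of_eventuallyEq ?_
  have hmem : ∀ᶠ q' : ℝ × TangentBundle 𝓘(ℝ, E) M in 𝓝 q, q'.2.proj ∈
      (trivializationAt E (TangentSpace 𝓘(ℝ, E)) q.2.proj).baseSet := by
    have hc : ContinuousAt (fun q' : ℝ × TangentBundle 𝓘(ℝ, E) M => q'.2.proj) q :=
      hp1.continuousAt
    exact hc ((trivializationAt E (TangentSpace 𝓘(ℝ, E)) q.2.proj).open_baseSet.mem_nhds
      (FiberBundle.mem_baseSet_trivializationAt' q.2.proj))
  filter_upwards [hmem] with q' hq'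
  have e1 := Trivialization.coe_linearMapAt_of_mem (R := ℝ)
    (trivializationAt E (TangentSpace 𝓘(ℝ, E)) q.2.proj) hq'
  have e2 := congrFun e1 (q'.1 • q'.2.snd)
  have e3 := congrFun e1 q'.2.snd
  rw [map_smul, e3] at e2
  exact e2.symm

/-- the map `(t, p) ↦ e p.proj (t • p.snd)` is smooth -/
lemma contMDiff_gamMap (he : IsExp e) :
    ContMDiff (𝓘(ℝ, ℝ).prod 𝓘(ℝ, E).tangent) 𝓘(ℝ, E) ∞
      (fun q : ℝ × TangentBundle 𝓘(ℝ, E) M => gam e q.2.proj (q.2.snd : E) q.1) :=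
  he.smooth.comp contMDiff_tb_smul

/-- joint smoothness of the geodesic flow as a map of the tangent bundle -/
theorem contMDiff_flow (F : Facts e) :
    ContMDiff (𝓘(ℝ, ℝ).prod 𝓘(ℝ, E).tangent) 𝓘(ℝ, E).tangent ∞
      (fun q : ℝ × TangentBundle 𝓘(ℝ, E) M =>
        tb (gam e q.2.proj (q.2.snd : E) q.1) (vel e q.2.proj (q.2.snd : E) q.1)) := by
  have he := F.isExp
  have hΦ := contMDiff_gamMap he
  have hT := hΦ.contMDiff_tangentMap (m := ∞) (by simp)
  have h1 : ContMDiff 𝓘(ℝ, ℝ) 𝓘(ℝ, ℝ).tangent ∞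
      (fun t : ℝ => (⟨t, (1 : ℝ)⟩ : TangentBundle 𝓘(ℝ, ℝ) ℝ)) := by
    have h2 : ContDiff ℝ ∞ (fun _ : ℝ => (1 : ℝ)) := contDiff_const
    exact contMDiff_vectorSpace_iff_contDiff.2 h2
  have h2 : ContMDiff 𝓘(ℝ, E).tangent 𝓘(ℝ, E).tangent.tangent ∞
      (zeroSection (E × E) (TangentSpace 𝓘(ℝ, E).tangent : TangentBundle 𝓘(ℝ, E) M → Type _)) :=
    contMDiff_zeroSection ℝ (TangentSpace 𝓘(ℝ, E).tangent : TangentBundle 𝓘(ℝ, E) M → Type _)
  have h3 := (h1.comp (contMDiff_fst (I := 𝓘(ℝ, ℝ)) (M := ℝ) (J := 𝓘(ℝ, E).tangent)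
    (N := TangentBundle 𝓘(ℝ, E) M))).prodMk
    (h2.comp (contMDiff_snd (I := 𝓘(ℝ, ℝ)) (M := ℝ) (J := 𝓘(ℝ, E).tangent)
    (N := TangentBundle 𝓘(ℝ, E) M)))
  have h4 := (contMDiff_equivTangentBundleProd_symm (n := ∞) (I := 𝓘(ℝ, ℝ)) (M := ℝ)
    (I' := 𝓘(ℝ, E).tangent) (M' := TangentBundle 𝓘(ℝ, E) M)).comp h3
  have h5 := hT.comp h4
  refine h5.congr ?_
  rintro ⟨t, p⟩
  have hd : MDifferentiableAt (𝓘(ℝ, ℝ).prod 𝓘(ℝ, E).tangent) 𝓘(ℝ, E)
      (fun q : ℝ × TangentBundle 𝓘(ℝ, E) M => gam e q.2.proj (q.2.snd : E) q.1) (t, p) :=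
    hΦ.contMDiffAt.mdifferentiableAt (by simp)
  have h6 := mfderiv_prod_eq_add_apply (v := ((1 : ℝ), (0 : E × E))) hd
  have h7 : (mfderiv 𝓘(ℝ, ℝ) 𝓘(ℝ, E) (fun z : ℝ => gam e p.proj (p.snd : E) z) t (1 : ℝ) : E) =
      vel e p.proj (p.snd : E) t := mfderiv_gam he p.proj (p.snd : E) t
  have h8 : (mfderiv 𝓘(ℝ, E).tangent 𝓘(ℝ, E)
      (fun z : TangentBundle 𝓘(ℝ, E) M => gam e z.proj (z.snd : E) t) p (0 : E × E) : E) = 0 :=
    map_zero (mfderiv 𝓘(ℝ, E).tangent 𝓘(ℝ, E)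
      (fun z : TangentBundle 𝓘(ℝ, E) M => gam e z.proj (z.snd : E) t) p)
  have h9 : (mfderiv (𝓘(ℝ, ℝ).prod 𝓘(ℝ, E).tangent) 𝓘(ℝ, E)
      (fun q : ℝ × TangentBundle 𝓘(ℝ, E) M => gam e q.2.proj (q.2.snd : E) q.1) (t, p)
      ((1 : ℝ), (0 : E × E)) : E) = vel e p.proj (p.snd : E) t := by
    refine h6.trans ?_
    refine (congrArg₂ (fun a b : E => a + b) h7 h8).trans ?_
    exact add_zero _
  exact congrArg (fun w : E => tb (gam e p.proj (p.snd : E) t) w) h9.symm

end

end Vale.Agent.P231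
end
end

section

section

/-! P231 measure part MB: the Jacobian of the exponential map. -/

set_option maxSynthPendingDepth 3
set_option linter.unusedSectionVars false

open Bundle Manifold Set Filter MeasureTheory Module
open scoped ContDiff Manifold Topology ENNReal

namespace Vale.Agent.P231

noncomputable section

open Vale.Agent.P234

variable {E : Type*} [NormedAddCommGroup E] [NormedSpace ℝ E] [FiniteDimensional ℝ E]
  {M : Type*} [MetricSpace M] [ChartedSpace E M]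
  [RiemannianBundle (fun x : M => TangentSpace 𝓘(ℝ, E) x)]
  [IsManifold 𝓘(ℝ, E) ∞ M]
  [IsContMDiffRiemannianBundle 𝓘(ℝ, E) ∞ E (fun x : M => TangentSpace 𝓘(ℝ, E) x)]
  {e : ∀ x : M, TangentSpace 𝓘(ℝ, E) x → M}

lemma Jac.gam_one (x : M) (v : E) : gam e x v 1 = e x v := by
  have h : ((1 : ℝ) • (v : TangentSpace 𝓘(ℝ, E) x)) = v := one_smul ℝ _
  unfold gam
  rw [h]

/-- coordinates of a raw vector in the frame `fr x` -/
lemma Jac.ip_fr_left (x : M) (a : Eu E) (z : E) :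
    ip x (fr x a) z = ∑ k, a k * ((fr x).symm z) k := by
  have h := ip_fr x a ((fr x).symm z)
  rw [ContinuousLinearEquiv.apply_symm_apply] at h
  rw [h, PiLp.inner_apply]
  apply Finset.sum_congr rfl
  intro k _
  simp [mul_comm]

lemma Jac.abs_det_of_orthonormal {x : M} {p : Fin (finrank ℝ E) → E}
    (hp : ∀ i j, ip x (p i) (p j) = if i = j then 1 else 0) :
    |(Matrix.of fun k j : Fin (finrank ℝ E) => ((fr x).symm (p j)) k).det| = 1 := by
  set P : Matrix (Fin (finrank ℝ E)) (Fin (finrank ℝ E)) ℝ :=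
    Matrix.of fun k j => ((fr x).symm (p j)) k with hP
  have h1 : P.transpose * P = 1 := by
    ext i j
    rw [Matrix.mul_apply, Matrix.one_apply, ← hp i j]
    have h := Jac.ip_fr_left x ((fr x).symm (p i)) (p j)
    rw [ContinuousLinearEquiv.apply_symm_apply] at h
    rw [h]
    rfl
  have h2 := congrArg Matrix.det h1
  rw [Matrix.det_mul, Matrix.det_transpose, Matrix.det_one] at h2
  have h3 : |P.det| * |P.det| = 1 := by rw [← abs_mul, h2, abs_one]
  (clear * - h3; nlinarith [abs_nonneg P.det])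

lemma Jac.dE_sum (x : M) (v : E) {ι : Type*} (s : Finset ι) (c : ι → ℝ) (w : ι → E) :
    dE e x v (∑ i ∈ s, c i • w i) = ∑ i ∈ s, c i • dE e x v (w i) := by
  have h := map_sum (dEl e x v) (fun i => c i • w i) s
  have h2 : ∀ i, dEl e x v (c i • w i) = c i • dEl e x v (w i) := fun i => map_smul _ _ _
  simp only [h2] at h
  exact h

lemma Jac.eq_sum_fr (x : M) (z : E) :
    z = ∑ k, ((fr x).symm z) k • fr x (EuclideanSpace.single k 1) := by
  have h1 : (fr x).symm z = ∑ k, ((fr x).symm z) k • (EuclideanSpace.single k (1 : ℝ) : Eu E) := by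
    ext j
    simp only [WithLp.ofLp_sum, WithLp.ofLp_smul, PiLp.ofLp_single, Finset.sum_apply, Pi.smul_apply, Pi.single_apply, smul_eq_mul, mul_ite, mul_one, mul_zero, Finset.sum_ite_eq, Finset.mem_univ, ↓reduceIte]
  have h2 := congrArg (fr x) h1
  rw [ContinuousLinearEquiv.apply_symm_apply, map_sum] at h2
  simp only [map_smul] at h2
  exact h2

theorem jac_eq_fin (x : M) (v : E) {p q : Fin (finrank ℝ E) → E}
    (hp : ∀ i j, ip x (p i) (p j) = if i = j then 1 else 0)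
    (hq : ∀ i j, ip (e x v) (q i) (q j) = if i = j then 1 else 0) :
    jac e x v = |(Matrix.of fun i j => ip (e x v) (q i) (dE e x v (p j))).det| := by
  unfold jac
  rw [Jac.gam_one]
  set y : M := e x v with hy
  set P : Matrix (Fin (finrank ℝ E)) (Fin (finrank ℝ E)) ℝ :=
    Matrix.of fun k j => ((fr x).symm (p j)) k with hP
  set Q : Matrix (Fin (finrank ℝ E)) (Fin (finrank ℝ E)) ℝ :=
    Matrix.of fun k j => ((fr y).symm (q j)) k with hQ
  set T : Matrix (Fin (finrank ℝ E)) (Fin (finrank ℝ E)) ℝ :=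
    Matrix.of fun i j => ip y (fr y (EuclideanSpace.single i 1))
      (dE e x v (fr x (EuclideanSpace.single j 1))) with hT
  have h1 : (Matrix.of fun i j => ip y (q i) (dE e x v (p j))) = Q.transpose * T * P := by
    ext i j
    rw [Matrix.of_apply, Matrix.mul_apply]
    have h2 : dE e x v (p j) = ∑ l, P l j • dE e x v (fr x (EuclideanSpace.single l 1)) := by
      conv_lhs => rw [Jac.eq_sum_fr x (p j)]
      exact Jac.dE_sum x v _ _ _
    have h3 : ∀ z : E, ip y (q i) z = ∑ k, Q k i * ip y (fr y (EuclideanSpace.single k 1)) z := by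
      intro z
      have h4 := Jac.ip_fr_left y ((fr y).symm (q i)) z
      rw [ContinuousLinearEquiv.apply_symm_apply] at h4
      rw [h4]
      apply Finset.sum_congr rfl
      intro k _
      rw [Jac.ip_fr_left]
      simp only [hQ, Matrix.of_apply, PiLp.single_apply, ite_mul, one_mul, zero_mul, Finset.sum_ite_eq', Finset.mem_univ, ↓reduceIte]
    rw [h3, h2]
    have h5 : ∀ (z : E) (c : Fin (finrank ℝ E) → ℝ) (w : Fin (finrank ℝ E) → E),
        ip y z (∑ l, c l • w l) = ∑ l, c l * ip y z (w l) := by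
      intro z c w
      have h6 := inner_sum (𝕜 := ℝ) (E := TangentSpace 𝓘(ℝ, E) y) Finset.univ
        (fun l => c l • w l) z
      refine h6.trans ?_
      apply Finset.sum_congr rfl
      intro l _
      exact real_inner_smul_right (F := TangentSpace 𝓘(ℝ, E) y) _ _ _
    simp only [h5, Finset.mul_sum, Matrix.mul_apply, Matrix.transpose_apply, Finset.sum_mul]
    rw [Finset.sum_comm]
    apply Finset.sum_congr rfl
    intro l _
    apply Finset.sum_congr rfl
    intro k _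
    rw [hT, Matrix.of_apply]
    ring
  rw [h1, Matrix.det_mul, Matrix.det_mul, Matrix.det_transpose, abs_mul, abs_mul,
    Jac.abs_det_of_orthonormal hp, Jac.abs_det_of_orthonormal hq]
  simp only [one_mul, mul_one]

theorem jac_eq {ι : Type*} [Fintype ι] [DecidableEq ι] (hι : Fintype.card ι = finrank ℝ E)
    (x : M) (v : E) {p q : ι → E} (hp : ∀ i j, ip x (p i) (p j) = if i = j then 1 else 0)
    (hq : ∀ i j, ip (e x v) (q i) (q j) = if i = j then 1 else 0) :
    jac e x v = |(Matrix.of fun i j => ip (e x v) (q i) (dE e x v (p j))).det| := by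
  let σ : Fin (finrank ℝ E) ≃ ι := (Fintype.equivFinOfCardEq hι).symm
  have h1 := jac_eq_fin (e := e) x v (p := fun i => p (σ i)) (q := fun i => q (σ i))
    (fun i j => by rw [hp]; simp) (fun i j => by rw [hq]; simp)
  rw [h1]
  congr 1
  exact Matrix.det_submatrix_equiv_self σ
    (Matrix.of fun i j => ip (e x v) (q i) (dE e x v (p j)))

omit [FiniteDimensional ℝ E] [RiemannianBundle fun x : M => TangentSpace 𝓘(ℝ, E) x]
  [IsManifold 𝓘(ℝ, E) ∞ M]
  [IsContMDiffRiemannianBundle 𝓘(ℝ, E) ∞ E fun x : M => TangentSpace 𝓘(ℝ, E) x] in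
theorem Jac.tb_congr {x x' : M} {v v' : E} (h : x = x') (h' : v = v') : tb x v = tb x' v' := by
  rw [h, h']

/-- velocity of a straight line mapped by the exponential map -/
lemma Jac.mfderiv_line (he : IsExp e) (x : M) (a b : TangentSpace 𝓘(ℝ, E) x) :
    mfderiv 𝓘(ℝ, ℝ) 𝓘(ℝ, E) (fun t : ℝ => e x (a + t • b)) 0 (1 : ℝ) = dE e x a b := by
  have h0 : a + (0 : ℝ) • b = a := by rw [zero_smul, add_zero]
  have h1 : MDifferentiableAt 𝓘(ℝ, TangentSpace 𝓘(ℝ, E) x) 𝓘(ℝ, E) (e x) (a + (0 : ℝ) • b) :=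
    ((contMDiff_exp_fiber he x).contMDiffAt).mdifferentiableAt (by simp)
  have h3 : MDifferentiableAt 𝓘(ℝ, ℝ) 𝓘(ℝ, TangentSpace 𝓘(ℝ, E) x)
      (fun t : ℝ => a + t • b) 0 := by
    have h6 : ContMDiff 𝓘(ℝ, ℝ) 𝓘(ℝ, TangentSpace 𝓘(ℝ, E) x) ∞
        (fun t : ℝ => a + t • b) :=
      (contDiff_const.add (contDiff_id.smul contDiff_const)).contMDiff
    exact h6.contMDiffAt.mdifferentiableAt (by simp)
  have h4 := mfderiv_comp_apply (0 : ℝ) (I'' := 𝓘(ℝ, E))
    (g := e x) (f := fun t : ℝ => a + t • b) h1 h3 (1 : ℝ)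
  have h5 : mfderiv 𝓘(ℝ, ℝ) 𝓘(ℝ, TangentSpace 𝓘(ℝ, E) x)
      (fun t : ℝ => a + t • b) 0 (1 : ℝ) = b := by
    rw [mfderiv_eq_fderiv]
    have h2 : HasFDerivAt (fun t : ℝ => a + t • b)
        ((ContinuousLinearMap.id ℝ ℝ).smulRight b) 0 :=
      ((hasFDerivAt_id (0 : ℝ)).smul_const b).const_add a
    rw [h2.fderiv]
    exact one_smul ℝ b
  rw [h5] at h4
  have h6 : (mfderiv 𝓘(ℝ, TangentSpace 𝓘(ℝ, E) x) 𝓘(ℝ, E) (e x) (a + (0 : ℝ) • b) b : E) =
      dE e x a b := by
    rw [h0]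
    rfl
  exact (show (_ : E) = _ from h4).trans h6

/-- the exponential map along vertical lines, in a trivialization -/
def Jac.Fl (e : ∀ x : M, TangentSpace 𝓘(ℝ, E) x → M) (z₀ : M) (p : M × (E × E)) (s : ℝ) : M :=
  (fun r : TangentBundle 𝓘(ℝ, E) M => e r.proj r.snd)
    ((trivializationAt E (TangentSpace 𝓘(ℝ, E)) z₀).toOpenPartialHomeomorph.symm
      (p.1, p.2.1 + s • p.2.2))

lemma Jac.contMDiffAt_Fl (he : IsExp e) (z₀ : M) (ξ η : E) :
    ContMDiffAt ((𝓘(ℝ, E).prod 𝓘(ℝ, E × E)).prod 𝓘(ℝ, ℝ)) 𝓘(ℝ, E) ∞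
      (Function.uncurry (Jac.Fl e z₀)) ((z₀, (ξ, η)), (0 : ℝ)) := by
  have hz₀ : z₀ ∈ (trivializationAt E (TangentSpace 𝓘(ℝ, E)) z₀).baseSet :=
    FiberBundle.mem_baseSet_trivializationAt' z₀
  have h1 : ContMDiffOn (𝓘(ℝ, E).prod 𝓘(ℝ, E)) (𝓘(ℝ, E).prod 𝓘(ℝ, E)) ∞
      (trivializationAt E (TangentSpace 𝓘(ℝ, E)) z₀).toOpenPartialHomeomorph.symm
      (trivializationAt E (TangentSpace 𝓘(ℝ, E)) z₀).target :=
    Bundle.Trivialization.contMDiffOn_symm _
  have h2 : ContMDiffAt ((𝓘(ℝ, E).prod 𝓘(ℝ, E × E)).prod 𝓘(ℝ, ℝ)) (𝓘(ℝ, E).prod 𝓘(ℝ, E)) ∞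
      (fun q : (M × (E × E)) × ℝ => (q.1.1, q.1.2.1 + q.2 • q.1.2.2)) ((z₀, (ξ, η)), (0 : ℝ)) := by
    apply ContMDiffAt.prodMk
    · exact (contMDiff_fst.comp contMDiff_fst).contMDiffAt
    · have h3 : ContMDiff ((𝓘(ℝ, E).prod 𝓘(ℝ, E × E)).prod 𝓘(ℝ, ℝ)) 𝓘(ℝ, (E × E) × ℝ) ∞
          (fun q : (M × (E × E)) × ℝ => (q.1.2, q.2)) :=
        (contMDiff_snd.comp contMDiff_fst).prodMk_space contMDiff_snd
      have h4 : ContDiff ℝ ∞ (fun r : (E × E) × ℝ => r.1.1 + r.2 • r.1.2) := by (clear * -; fun_prop)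
      exact (h4.contMDiff.comp h3).contMDiffAt
  have h3 : ContMDiffAt (𝓘(ℝ, E).prod 𝓘(ℝ, E)) (𝓘(ℝ, E).prod 𝓘(ℝ, E)) ∞
      (trivializationAt E (TangentSpace 𝓘(ℝ, E)) z₀).toOpenPartialHomeomorph.symm
      (z₀, ξ + (0 : ℝ) • η) := by
    refine h1.contMDiffAt ?_
    apply (trivializationAt E (TangentSpace 𝓘(ℝ, E)) z₀).open_target.mem_nhds
    rw [(trivializationAt E (TangentSpace 𝓘(ℝ, E)) z₀).mem_target]
    exact hz₀
  have h4 := he.smooth
  exact (h4.contMDiffAt.comp _ h3).comp ((z₀, (ξ, η)), (0 : ℝ)) h2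

lemma Jac.Fl_eq (e : ∀ x : M, TangentSpace 𝓘(ℝ, E) x → M) (z₀ z : M)
    (hz : z ∈ (trivializationAt E (TangentSpace 𝓘(ℝ, E)) z₀).baseSet)
    (v w : TangentSpace 𝓘(ℝ, E) z) :
    Jac.Fl e z₀ (z, (bkCrd z₀ z v, bkCrd z₀ z w)) = fun s => e z (v + s • w) := by
  funext s
  unfold Jac.Fl
  have h1 := (trivializationAt E (TangentSpace 𝓘(ℝ, E)) z₀).mk_symm hz
    (bkCrd z₀ z v + s • bkCrd z₀ z w)
  rw [← h1]
  have h2 : (trivializationAt E (TangentSpace 𝓘(ℝ, E)) z₀).symm z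
      (bkCrd z₀ z v + s • bkCrd z₀ z w) = v + s • w := by
    have h3 := bkCrd_symm z₀ z hz (v + s • w)
    rw [map_add, map_smul] at h3
    exact ((Trivialization.symmL_apply (R := ℝ) (trivializationAt E (TangentSpace 𝓘(ℝ, E)) z₀) hz
      (bkCrd z₀ z v + s • bkCrd z₀ z w)).symm).trans h3
  show e z _ = _
  rw [h2]

/-- continuity of the vertical differential -/
lemma Jac.tendstoTB_dE (he : IsExp e) {z : ℕ → M} {v w : ∀ k, TangentSpace 𝓘(ℝ, E) (z k)}
    {z₀ : M} {v₀ w₀ : TangentSpace 𝓘(ℝ, E) z₀} (hv : TendstoTB v v₀) (hw : TendstoTB w w₀) :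
    Tendsto (fun k => tb (e (z k) (v k)) (dE e (z k) (v k) (w k))) atTop
      (𝓝 (tb (e z₀ v₀) (dE e z₀ v₀ w₀))) := by
  have hz₀ : z₀ ∈ (trivializationAt E (TangentSpace 𝓘(ℝ, E)) z₀).baseSet :=
    FiberBundle.mem_baseSet_trivializationAt' z₀
  obtain ⟨hz, hv'⟩ := tendstoTB_iff.1 hv
  obtain ⟨-, hw'⟩ := tendstoTB_iff.1 hw
  have hev : ∀ᶠ k in atTop, z k ∈ (trivializationAt E (TangentSpace 𝓘(ℝ, E)) z₀).baseSet :=
    hz ((trivializationAt E (TangentSpace 𝓘(ℝ, E)) z₀).open_baseSet.mem_nhds hz₀)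
  set P : ℕ → M × (E × E) := fun k => (z k, (bkCrd z₀ (z k) (v k), bkCrd z₀ (z k) (w k))) with hP
  set P₀ : M × (E × E) := (z₀, (bkCrd z₀ z₀ v₀, bkCrd z₀ z₀ w₀)) with hP₀
  have hPt : Tendsto P atTop (𝓝 P₀) := hz.prodMk_nhds (hv'.prodMk_nhds hw')
  have hF := Jac.contMDiffAt_Fl he z₀ (bkCrd z₀ z₀ v₀) (bkCrd z₀ z₀ w₀)
  have h1 := ContMDiffAt.mfderiv (m := 0) (Jac.Fl e z₀) (fun _ => (0 : ℝ)) (x₀ := P₀) hF
    contMDiffAt_const (by simp only [zero_add, WithTop.one_le_coe, le_top])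
  have h2 := (h1.continuousAt.tendsto).comp hPt
  have h3 : Tendsto (fun k => Jac.Fl e z₀ (P k) 0) atTop (𝓝 (Jac.Fl e z₀ P₀ 0)) := by
    have h4 := hF.continuousAt.tendsto
    have h5 : Tendsto (fun k => (P k, (0 : ℝ))) atTop (𝓝 (P₀, (0 : ℝ))) :=
      hPt.prodMk_nhds tendsto_const_nhds
    exact h4.comp h5
  have h4 : TendstoTB (z := fun k => Jac.Fl e z₀ (P k) 0)
      (fun k => mfderiv 𝓘(ℝ, ℝ) 𝓘(ℝ, E) (Jac.Fl e z₀ (P k)) 0 (1 : ℝ))
      (z₀ := Jac.Fl e z₀ P₀ 0) (mfderiv 𝓘(ℝ, ℝ) 𝓘(ℝ, E) (Jac.Fl e z₀ P₀) 0 (1 : ℝ)) := by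
    rw [tendstoTB_iff]
    refine ⟨h3, ?_⟩
    have h5 := ((ContinuousLinearMap.apply ℝ E (1 : ℝ)).continuous.tendsto _).comp h2
    have h6 : ∀ p : M × (E × E), (ContinuousLinearMap.apply ℝ E (1 : ℝ))
        (inTangentCoordinates 𝓘(ℝ, ℝ) 𝓘(ℝ, E) (fun _ => (0 : ℝ)) (fun x => Jac.Fl e z₀ x 0)
          (fun x => mfderiv 𝓘(ℝ, ℝ) 𝓘(ℝ, E) (Jac.Fl e z₀ x) 0) P₀ p) =
        bkCrd (Jac.Fl e z₀ P₀ 0) (Jac.Fl e z₀ p 0)
          (mfderiv 𝓘(ℝ, ℝ) 𝓘(ℝ, E) (Jac.Fl e z₀ p) 0 (1 : ℝ)) := by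
      intro p
      unfold inTangentCoordinates ContinuousLinearMap.inCoordinates bkCrd
      rw [TangentBundle.symmL_model_space]
      rfl
    have h7 := h6 P₀
    simp only [Function.comp_def] at h5
    rw [h7] at h5
    exact h5.congr fun k => h6 (P k)
  have key : ∀ (z : M) (v w : TangentSpace 𝓘(ℝ, E) z),
      z ∈ (trivializationAt E (TangentSpace 𝓘(ℝ, E)) z₀).baseSet →
      (⟨Jac.Fl e z₀ (z, (bkCrd z₀ z v, bkCrd z₀ z w)) 0,
        mfderiv 𝓘(ℝ, ℝ) 𝓘(ℝ, E) (Jac.Fl e z₀ (z, (bkCrd z₀ z v, bkCrd z₀ z w))) 0 (1 : ℝ)⟩ :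
          TangentBundle 𝓘(ℝ, E) M) = tb (e z v) (dE e z v w) := by
    intro z v w hz
    have h5 := congrArg (fun c : ℝ → M => (⟨c 0, mfderiv 𝓘(ℝ, ℝ) 𝓘(ℝ, E) c 0 (1 : ℝ)⟩ :
      TangentBundle 𝓘(ℝ, E) M)) (Jac.Fl_eq e z₀ z hz v w)
    refine h5.trans ?_
    have h6 : e z (v + (0 : ℝ) • w) = e z v := by rw [zero_smul, add_zero]
    have h7 := Jac.mfderiv_line he z v w
    exact Jac.tb_congr h6 h7
  unfold TendstoTB at h4
  rw [hP₀, key z₀ v₀ w₀ hz₀] at h4
  refine h4.congr' ?_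
  filter_upwards [hev] with k hk
  exact key (z k) (v k) (w k) hk

lemma Jac.ip_polar (x : M) (a b : E) :
    ip x a b = (nm x (a + b) ^ 2 - nm x a ^ 2 - nm x b ^ 2) / 2 := by
  have h := norm_add_sq_real (F := TangentSpace 𝓘(ℝ, E) x) a b
  have h' : nm x (a + b) ^ 2 = nm x a ^ 2 + 2 * ip x a b + nm x b ^ 2 := h
  rw [h']
  ring

/-- a raw vector seen as a tangent vector -/
def Jac.up (x : M) (v : E) : TangentSpace 𝓘(ℝ, E) x := v

lemma Jac.toTB {z : ℕ → M} {v : ℕ → E} {z₀ : M} {v₀ : E}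
    (h : Tendsto (fun k => tb (z k) (v k)) atTop (𝓝 (tb z₀ v₀))) :
    TendstoTB (z := z) (fun k => Jac.up (z k) (v k)) (Jac.up z₀ v₀) := h

lemma Jac.tendsto_nm {z : ℕ → M} {v : ℕ → E} {z₀ : M} {v₀ : E}
    (h : Tendsto (fun k => tb (z k) (v k)) atTop (𝓝 (tb z₀ v₀))) :
    Tendsto (fun k => nm (z k) (v k)) atTop (𝓝 (nm z₀ v₀)) := by
  have h1 := (Jac.toTB h).norm
  exact h1

lemma Jac.tendsto_add {z : ℕ → M} {v w : ℕ → E} {z₀ : M} {v₀ w₀ : E}
    (hv : Tendsto (fun k => tb (z k) (v k)) atTop (𝓝 (tb z₀ v₀)))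
    (hw : Tendsto (fun k => tb (z k) (w k)) atTop (𝓝 (tb z₀ w₀))) :
    Tendsto (fun k => tb (z k) (v k + w k)) atTop (𝓝 (tb z₀ (v₀ + w₀))) := by
  have hv' := tendstoTB_iff.1 (Jac.toTB hv)
  have hw' := tendstoTB_iff.1 (Jac.toTB hw)
  have h : TendstoTB (z := z) (fun k => Jac.up (z k) (v k) + Jac.up (z k) (w k))
    (Jac.up z₀ v₀ + Jac.up z₀ w₀) := by
    rw [tendstoTB_iff]
    refine ⟨hv'.1, ?_⟩
    simp only [map_add]
    exact hv'.2.add hw'.2
  exact h

lemma Jac.tendsto_ip {z : ℕ → M} {v w : ℕ → E} {z₀ : M} {v₀ w₀ : E}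
    (hv : Tendsto (fun k => tb (z k) (v k)) atTop (𝓝 (tb z₀ v₀)))
    (hw : Tendsto (fun k => tb (z k) (w k)) atTop (𝓝 (tb z₀ w₀))) :
    Tendsto (fun k => ip (z k) (v k) (w k)) atTop (𝓝 (ip z₀ v₀ w₀)) := by
  simp only [Jac.ip_polar]
  exact ((((Jac.tendsto_nm (Jac.tendsto_add hv hw)).pow 2).sub ((Jac.tendsto_nm hv).pow 2)).sub
    ((Jac.tendsto_nm hw).pow 2)).div_const 2

/-- the square of the Jacobian is a Gram determinant -/
lemma Jac.sq_eq (x : M) (v : E) {p : Fin (finrank ℝ E) → E}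
    (hp : ∀ i j, ip x (p i) (p j) = if i = j then 1 else 0) :
    jac e x v ^ 2 =
      (Matrix.of fun i j => ip (e x v) (dE e x v (p i)) (dE e x v (p j))).det := by
  have hq : ∀ i j : Fin (finrank ℝ E), ip (E := E) (e x v)
      (fr (E := E) (e x v) (EuclideanSpace.single i 1))
      (fr (E := E) (e x v) (EuclideanSpace.single j (1 : ℝ))) = if i = j then 1 else 0 := by
    intro i j
    rw [ip_fr, EuclideanSpace.inner_single_left]
    simp only [Real.ringHom_apply, PiLp.single_apply, mul_ite, mul_one, mul_zero]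
  rw [jac_eq_fin x v hp hq, sq_abs, pow_two]
  set y : M := e x v
  set A : Matrix (Fin (finrank ℝ E)) (Fin (finrank ℝ E)) ℝ :=
    Matrix.of fun i j => ip y (fr y (EuclideanSpace.single i (1 : ℝ))) (dE e x v (p j)) with hA
  have h0 : A.det * A.det = (A.transpose * A).det := by
    rw [Matrix.det_mul, Matrix.det_transpose]
  rw [h0]
  congr 1
  ext i j
  rw [Matrix.mul_apply, Matrix.of_apply]
  have h1 : ∀ (z : E) (k : Fin (finrank ℝ E)), ip y (fr y (EuclideanSpace.single k 1)) z =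
      ((fr y).symm z) k := by
    intro z k
    rw [Jac.ip_fr_left]
    simp only [PiLp.single_apply, ite_mul, one_mul, zero_mul, Finset.sum_ite_eq', Finset.mem_univ, ↓reduceIte]
  have h2 := Jac.ip_fr_left y ((fr y).symm (dE e x v (p i))) (dE e x v (p j))
  rw [ContinuousLinearEquiv.apply_symm_apply] at h2
  rw [h2]
  apply Finset.sum_congr rfl
  intro k _
  exact congrArg₂ (fun a b : ℝ => a * b) (h1 _ k) (h1 _ k)

lemma Jac.nonneg (x : M) (v : E) : 0 ≤ jac e x v := abs_nonneg _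

lemma Jac.countably_generated (p : TangentBundle 𝓘(ℝ, E) M) :
    (𝓝 p).IsCountablyGenerated := by
  have hp : p ∈ (trivializationAt E (TangentSpace 𝓘(ℝ, E)) p.proj).source := by
    rw [(trivializationAt E (TangentSpace 𝓘(ℝ, E)) p.proj).mem_source]
    exact FiberBundle.mem_baseSet_trivializationAt' p.proj
  have h := (trivializationAt E (TangentSpace 𝓘(ℝ, E)) p.proj).toOpenPartialHomeomorph.symm_map_nhds_eq hp
  rw [← h]
  infer_instance

lemma Jac.tendstoTB_dE' (he : IsExp e) {z : ℕ → M} {v w : ℕ → E}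
    {z₀ : M} {v₀ w₀ : E} (hv : Tendsto (fun k => tb (z k) (v k)) atTop (𝓝 (tb z₀ v₀)))
    (hw : Tendsto (fun k => tb (z k) (w k)) atTop (𝓝 (tb z₀ w₀))) :
    Tendsto (fun k => tb (e (z k) (v k)) (dE e (z k) (v k) (w k))) atTop
      (𝓝 (tb (e z₀ v₀) (dE e z₀ v₀ w₀))) :=
  Jac.tendstoTB_dE he (Jac.toTB hv) (Jac.toTB hw)

lemma Jac.tendsto_jac (he : IsExp e) {z : ℕ → M} {v : ℕ → E} {z₀ : M} {v₀ : E}
    (hv : Tendsto (fun k => tb (z k) (v k)) atTop (𝓝 (tb z₀ v₀)))
    {p : ℕ → Fin (finrank ℝ E) → E} {p₀ : Fin (finrank ℝ E) → E}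
    (hp : ∀ j, Tendsto (fun k => tb (z k) (p k j)) atTop (𝓝 (tb z₀ (p₀ j))))
    (horth : ∀ k i j, ip (z k) (p k i) (p k j) = if i = j then 1 else 0) :
    Tendsto (fun k => jac e (z k) (v k)) atTop (𝓝 (jac e z₀ v₀)) := by
  have hf0 : ∀ i j, ip z₀ (p₀ i) (p₀ j) = if i = j then 1 else 0 := by
    intro i j
    have h1 := Jac.tendsto_ip (hp i) (hp j)
    simp only [horth] at h1
    exact tendsto_nhds_unique h1 tendsto_const_nhds
  have hd : ∀ j, Tendsto (fun k => tb (e (z k) (v k)) (dE e (z k) (v k) (p k j))) atTop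
      (𝓝 (tb (e z₀ v₀) (dE e z₀ v₀ (p₀ j)))) := fun j =>
    Jac.tendstoTB_dE' he hv (hp j)
  have hsq : Tendsto (fun k => jac e (z k) (v k) ^ 2) atTop (𝓝 (jac e z₀ v₀ ^ 2)) := by
    have h1 : ∀ k, (Matrix.of fun i j =>
        ip (e (z k) (v k)) (dE e (z k) (v k) (p k i)) (dE e (z k) (v k) (p k j))).det =
            jac e (z k) (v k) ^ 2 :=
      fun k => (Jac.sq_eq (z k) (v k) (horth k)).symm
    refine Tendsto.congr h1 ?_
    rw [Jac.sq_eq z₀ v₀ hf0]
    have h2 : Continuous fun A : Matrix (Fin (finrank ℝ E)) (Fin (finrank ℝ E)) ℝ => A.det :=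
      continuous_id.matrix_det
    have h3 : Tendsto (fun k => (Matrix.of fun i j =>
        ip (e (z k) (v k)) (dE e (z k) (v k) (p k i)) (dE e (z k) (v k) (p k j)) :
          Matrix (Fin (finrank ℝ E)) (Fin (finrank ℝ E)) ℝ)) atTop
        (𝓝 (Matrix.of fun i j => ip (e z₀ v₀) (dE e z₀ v₀ (p₀ i)) (dE e z₀ v₀ (p₀ j)))) := by
      refine tendsto_pi_nhds.2 fun i => tendsto_pi_nhds.2 fun j => ?_
      exact Jac.tendsto_ip (hd i) (hd j)
    exact (h2.tendsto _).comp h3
  have h3 := hsq.sqrt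
  simp only [Real.sqrt_sq (Jac.nonneg _ _)] at h3
  exact h3

theorem contTB_jac [CompactSpace M] (he : IsExp e) : ContTB (jac e) := by
  unfold ContTB
  rw [continuous_iff_continuousAt]
  rintro ⟨x₀, v₀⟩
  have := Jac.countably_generated (⟨x₀, v₀⟩ : TangentBundle 𝓘(ℝ, E) M)
  unfold ContinuousAt
  rw [tendsto_iff_seq_tendsto]
  intro s hs
  apply tendsto_of_subseq_tendsto
  intro ns hns
  set z : ℕ → M := fun k => (s (ns k)).proj with hz
  set v : ∀ k, TangentSpace 𝓘(ℝ, E) (z k) := fun k => (s (ns k)).snd with hv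
  have hzv : TendstoTB v v₀ := by
    unfold TendstoTB
    exact hs.comp hns
  have hfr1 : ∀ (x : M) (j : Fin (finrank ℝ E)),
      nm x (fr x (EuclideanSpace.single j (1 : ℝ))) = 1 := by
    intro x j
    rw [nm_fr]
    simp
  obtain ⟨z', f, φ, hφ, hz', hf⟩ := exists_tendstoTB_fin z
    (fun k (j : Fin (finrank ℝ E)) => Jac.up (z k) (fr (z k) (EuclideanSpace.single j (1 : ℝ)))) 1
    (fun k j => (hfr1 (z k) j).le)
  have hz'' : z' = x₀ := tendsto_nhds_unique hz' (hzv.base.comp hφ.tendsto_atTop)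
  subst hz''
  refine ⟨φ, ?_⟩
  have horth : ∀ (x : M) (i j : Fin (finrank ℝ E)), ip x (fr x (EuclideanSpace.single i 1))
      (fr x (EuclideanSpace.single j (1 : ℝ))) = if i = j then 1 else 0 := by
    intro x i j
    rw [ip_fr, EuclideanSpace.inner_single_left]
    simp only [Real.ringHom_apply, PiLp.single_apply, mul_ite, mul_one, mul_zero]
  exact Jac.tendsto_jac (E := E) he (z := fun k => z (φ k)) (v := fun k => v (φ k))
    (hzv.subseq hφ) (p := fun k j => fr (z (φ k)) (EuclideanSpace.single j (1 : ℝ))) hf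
    (fun k i j => horth _ i j)

theorem jac_pos [CompactSpace M] [ConnectedSpace M] [IsRiemannianManifold 𝓘(ℝ, E) M]
    (F : Facts e) {D : ℝ} (hB : InjGE e D) {x : M} {v : E} (hv : nm x v < D) :
    0 < jac e x v := by
  refine lt_of_le_of_ne (Jac.nonneg x v) (Ne.symm fun h0 => ?_)
  unfold jac at h0
  rw [abs_eq_zero] at h0
  obtain ⟨c, hc, hc0⟩ := Matrix.exists_mulVec_eq_zero_iff.2 h0
  set y : M := gam e x v 1
  have h1 : ∀ (z : E) (k : Fin (finrank ℝ E)), ip y (fr y (EuclideanSpace.single k 1)) z =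
      ((fr y).symm z) k := by
    intro z k
    rw [Jac.ip_fr_left]
    simp only [PiLp.single_apply, ite_mul, one_mul, zero_mul, Finset.sum_ite_eq', Finset.mem_univ, ↓reduceIte]
  have h2 : dE e x v (∑ j, c j • fr x (EuclideanSpace.single j (1 : ℝ))) = 0 := by
    have h3 : (fr y).symm (dE e x v (∑ j, c j • fr x (EuclideanSpace.single j (1 : ℝ)))) = 0 := by
      ext i
      have h4 := congrFun hc0 i
      rw [Jac.dE_sum, map_sum]
      simp only [Matrix.mulVec, dotProduct, h1, Matrix.of_apply, Pi.zero_apply, map_smul] at h4 ⊢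
      rw [PiLp.zero_apply, ← h4]
      simp only [WithLp.ofLp_sum, WithLp.ofLp_smul, Finset.sum_apply, Pi.smul_apply, smul_eq_mul, mul_comm]
    simpa using congrArg (fr y) h3
  have h5 := dE_injective F hB hv h2
  apply hc
  funext j
  have h6 := congrArg (fun w => ((fr x).symm w) j) h5
  simpa only [Pi.zero_apply, map_sum, map_smul, ContinuousLinearEquiv.symm_apply_apply, WithLp.ofLp_sum,     WithLp.ofLp_smul, PiLp.ofLp_single, Finset.sum_apply, Pi.smul_apply, Pi.single_apply, smul_eq_mul, mul_ite, mul_one,     mul_zero, Finset.sum_ite_eq, Finset.mem_univ, ↓reduceIte, map_zero, PiLp.zero_apply] using h6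

end

end Vale.Agent.P231
end
end

section

section

/-! Local comparison of an image measure with a measure implies equality. -/

open Set Filter MeasureTheory
open scoped Topology ENNReal

namespace Vale.Agent.P231

theorem area_tendsto_one_add {b : ℝ≥0∞} :
    Tendsto (fun ε : ℝ => ENNReal.ofReal (1 + ε) * b) (𝓝[>] 0) (𝓝 b) := by
  have h1 : Tendsto (fun ε : ℝ => 1 + ε) (𝓝[>] 0) (𝓝 (1 + 0)) :=
    (tendsto_const_nhds.add tendsto_id).mono_left nhdsWithin_le_nhds
  have h2 := ENNReal.Tendsto.mul_const (b := b) (ENNReal.tendsto_ofReal h1) (Or.inl (by simp))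
  simpa only [add_zero, ENNReal.ofReal_one, one_mul] using h2

theorem area_tendsto_one_sub {b : ℝ≥0∞} :
    Tendsto (fun ε : ℝ => ENNReal.ofReal (1 - ε) * b) (𝓝[>] 0) (𝓝 b) := by
  have h1 : Tendsto (fun ε : ℝ => 1 - ε) (𝓝[>] 0) (𝓝 (1 - 0)) :=
    (tendsto_const_nhds.sub tendsto_id).mono_left nhdsWithin_le_nhds
  have h2 := ENNReal.Tendsto.mul_const (b := b) (ENNReal.tendsto_ofReal h1) (Or.inl (by simp))
  simpa using h2

theorem area_abs {X Y : Type*} [TopologicalSpace X] [PolishSpace X] [MeasurableSpace X]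
    [BorelSpace X] [TopologicalSpace Y] [T2Space Y] [SecondCountableTopology Y]
    [MeasurableSpace Y] [BorelSpace Y] (μ : Measure X) (ν : Measure Y) {f : X → Y}
    (hf : Continuous f) {U : Set X} (hinj : InjOn f U)
    (h : ∀ v ∈ U, ∀ ε : ℝ, 0 < ε → ε < 1 → ∃ V, IsOpen V ∧ v ∈ V ∧
      ∀ S, MeasurableSet S → S ⊆ V → S ⊆ U →
        ENNReal.ofReal (1 - ε) * μ S ≤ ν (f '' S) ∧ ν (f '' S) ≤ ENNReal.ofReal (1 + ε) * μ S)
    {S : Set X} (hS : MeasurableSet S) (hSU : S ⊆ U) : ν (f '' S) = μ S := by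
  have key : ∀ ε : ℝ, 0 < ε → ε < 1 →
      ENNReal.ofReal (1 - ε) * μ S ≤ ν (f '' S) ∧ ν (f '' S) ≤ ENNReal.ofReal (1 + ε) * μ S := by
    intro ε hε hε1
    rcases U.eq_empty_or_nonempty with hU | hU
    · have : S = ∅ := by
        rw [← subset_empty_iff, ← hU]; exact hSU
      subst this
      simp
    choose! V hVo hvV hV using fun v (hv : v ∈ U) => h v hv ε hε hε1
    obtain ⟨t, htU, htc, hcov⟩ := TopologicalSpace.countable_cover_nhdsWithin
      (s := U) (f := V) (fun v hv => mem_nhdsWithin_of_mem_nhds ((hVo v hv).mem_nhds (hvV v hv)))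
    have htne : t.Nonempty := by
      rw [nonempty_iff_ne_empty]
      rintro rfl
      obtain ⟨u, hu⟩ := hU
      simpa only [mem_empty_iff_false, iUnion_of_empty, iUnion_empty] using hcov hu
    obtain ⟨g, hg⟩ := htc.exists_eq_range htne
    have hgU : ∀ k, g k ∈ U := fun k => htU (by rw [hg]; exact mem_range_self k)
    let W : ℕ → Set X := disjointed fun k => V (g k)
    have hWm : ∀ k, MeasurableSet (W k) := fun k =>
      MeasurableSet.disjointed (fun j => (hVo _ (hgU j)).measurableSet) k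
    have hWV : ∀ k, W k ⊆ V (g k) := fun k => disjointed_subset _ k
    have hWd : Pairwise fun i j => Disjoint (W i) (W j) := disjoint_disjointed _
    have hWU : U ⊆ ⋃ k, W k := by
      have h1 : ⋃ k, W k = ⋃ k, V (g k) := iUnion_disjointed
      rw [h1]
      intro u hu
      have h2 := hcov hu
      rw [mem_iUnion₂] at h2
      obtain ⟨v, hv, huv⟩ := h2
      rw [hg] at hv
      obtain ⟨k, rfl⟩ := hv
      exact mem_iUnion.2 ⟨k, huv⟩
    have hSW : S = ⋃ k, S ∩ W k := by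
      rw [← inter_iUnion]
      exact (inter_eq_left.2 (hSU.trans hWU)).symm
    have hSm : ∀ k, MeasurableSet (S ∩ W k) := fun k => hS.inter (hWm k)
    have hμ : μ S = ∑' k, μ (S ∩ W k) := by
      conv_lhs => rw [hSW]
      refine measure_iUnion (fun i j hij => ?_) hSm
      exact (hWd hij).mono inter_subset_right inter_subset_right
    have hν : ν (f '' S) = ∑' k, ν (f '' (S ∩ W k)) := by
      conv_lhs => rw [hSW, image_iUnion]
      refine measure_iUnion (fun i j hij => ?_) fun k => ?_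
      · rw [Function.onFun, disjoint_left]
        rintro _ ⟨a, ha, rfl⟩ ⟨b, hb, hab⟩
        have : b = a := hinj (hSU hb.1) (hSU ha.1) hab
        subst this
        exact (disjoint_left.1 (hWd hij)) ha.2 hb.2
      · exact (hSm k).image_of_continuousOn_injOn hf.continuousOn
          (hinj.mono (inter_subset_left.trans hSU))
    have hk : ∀ k, ENNReal.ofReal (1 - ε) * μ (S ∩ W k) ≤ ν (f '' (S ∩ W k)) ∧
        ν (f '' (S ∩ W k)) ≤ ENNReal.ofReal (1 + ε) * μ (S ∩ W k) := fun k =>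
      hV (g k) (hgU k) _ (hSm k) (inter_subset_right.trans (hWV k))
        (inter_subset_left.trans hSU)
    rw [hμ, hν, ← ENNReal.tsum_mul_left, ← ENNReal.tsum_mul_left]
    exact ⟨ENNReal.tsum_le_tsum fun k => (hk k).1, ENNReal.tsum_le_tsum fun k => (hk k).2⟩
  have hev : ∀ᶠ ε : ℝ in 𝓝[>] 0, 0 < ε ∧ ε < 1 :=
    Ioo_mem_nhdsGT (by norm_num : (0 : ℝ) < 1)
  refine le_antisymm ?_ ?_
  · exact ge_of_tendsto area_tendsto_one_add (hev.mono fun ε hε => (key ε hε.1 hε.2).2)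
  · exact le_of_tendsto area_tendsto_one_sub (hev.mono fun ε hε => (key ε hε.1 hε.2).1)

end Vale.Agent.P231
end
end

section

section

/-! P231 measure part: the exponential map is almost an isometry near zero. -/

set_option maxSynthPendingDepth 3

open Bundle Manifold Set Filter MeasureTheory Module
open scoped ContDiff Manifold Topology ENNReal

namespace Vale.Agent.P231

noncomputable section

open Vale.Agent.P234

section Calculus

variable {T : Type*} [NormedAddCommGroup T] [NormedSpace ℝ T]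

lemma LocalIso_second_order (G : T × T → ℝ) (hG : ContDiffAt ℝ 2 G (0, 0))
    (h0 : ∀ᶠ v in 𝓝 (0 : T), G (v, 0) = 0)
    (h1 : ∀ᶠ v in 𝓝 (0 : T), fderiv ℝ (fun h => G (v, h)) 0 = 0)
    (h2 : ∀ᶠ h in 𝓝 (0 : T), G (0, h) = 0) {η : ℝ} (hη : 0 < η) :
    ∀ᶠ p in 𝓝 ((0 : T), (0 : T)), |G p| ≤ η * ‖p.2‖ ^ 2 := by
  set i₂ : T →L[ℝ] T × T := ContinuousLinearMap.inr ℝ T T with hi₂
  set A : T × T → (T →L[ℝ] ℝ) := fun p => (fderiv ℝ G p).comp i₂ with hA
  have hGe : ∀ᶠ p in 𝓝 ((0 : T), (0 : T)), ContDiffAt ℝ 2 G p := hG.eventually (by simp)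
  have hAc : ContDiffAt ℝ 1 A (0, 0) := by
    have h3 : ContDiffAt ℝ 1 (fderiv ℝ G) (0, 0) := hG.fderiv_right (by norm_num)
    exact h3.clm_comp contDiffAt_const
  have hAe : ∀ᶠ p in 𝓝 ((0 : T), (0 : T)), ContDiffAt ℝ 1 A p := hAc.eventually (by simp)
  -- partial derivatives
  have hpG : ∀ p : T × T, DifferentiableAt ℝ G p →
      HasFDerivAt (fun h => G (p.1, h)) (A p) p.2 := fun p hp => by
    have h3 : HasFDerivAt (fun h : T => (p.1, h)) i₂ p.2 := hasFDerivAt_prodMk_right p.1 p.2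
    exact HasFDerivAt.comp p.2 (g := G) (f := fun h => (p.1, h)) hp.hasFDerivAt h3
  have hpA : ∀ p : T × T, DifferentiableAt ℝ A p →
      HasFDerivAt (fun h => A (p.1, h)) ((fderiv ℝ A p).comp i₂) p.2 := fun p hp => by
    have h3 : HasFDerivAt (fun h : T => (p.1, h)) i₂ p.2 := hasFDerivAt_prodMk_right p.1 p.2
    exact HasFDerivAt.comp p.2 (g := A) (f := fun h => (p.1, h)) hp.hasFDerivAt h3
  have htend : Tendsto (fun h : T => ((0 : T), h)) (𝓝 0) (𝓝 ((0 : T), (0 : T))) :=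
    (Continuous.prodMk_right (0 : T)).tendsto 0
  -- second partial derivative vanishes at the origin
  have hB0 : (fderiv ℝ A (0, 0)).comp i₂ = 0 := by
    have h3 := hpA (0, 0) (hAc.differentiableAt (by norm_num))
    have h4 : (fun h => A ((0 : T), h)) =ᶠ[𝓝 (0 : T)] fun _ => 0 := by
      have h5 : ∀ᶠ h in 𝓝 (0 : T), ∀ᶠ h' in 𝓝 h, G (0, h') = 0 := h2.eventually_nhds
      filter_upwards [h5, htend.eventually hGe] with h h6 h7
      have h8 := hpG (0, h) (h7.differentiableAt (by norm_num))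
      have h9 : HasFDerivAt (fun h' => G ((0 : T), h')) (0 : T →L[ℝ] ℝ) h :=
        (hasFDerivAt_const (0 : ℝ) h).congr_of_eventuallyEq h6
      exact h8.unique h9
    have h10 : HasFDerivAt (fun h => A ((0 : T), h)) (0 : T →L[ℝ] T →L[ℝ] ℝ) 0 :=
      (hasFDerivAt_const (0 : T →L[ℝ] ℝ) (0 : T)).congr_of_eventuallyEq h4
    exact h3.unique h10
  have hBc : ContinuousAt (fun p => (fderiv ℝ A p).comp i₂) (0, 0) := by
    have h3 : ContDiffAt ℝ 0 (fderiv ℝ A) (0, 0) := hAc.fderiv_right (by norm_num)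
    exact h3.continuousAt.clm_comp continuousAt_const
  have hBe : ∀ᶠ p in 𝓝 ((0 : T), (0 : T)), ‖(fderiv ℝ A p).comp i₂‖ < η := by
    have h3 : ContinuousAt (fun p => ‖(fderiv ℝ A p).comp i₂‖) (0, 0) := hBc.norm
    have h4 : ‖(fderiv ℝ A (0, 0)).comp i₂‖ < η := by rw [hB0, norm_zero]; exact hη
    exact h3.eventually_lt continuousAt_const h4
  have hfst : Tendsto (fun p : T × T => p.1) (𝓝 ((0 : T), (0 : T))) (𝓝 0) :=
    continuous_fst.tendsto ((0 : T), (0 : T))
  obtain ⟨r, hr, hball⟩ := Metric.eventually_nhds_iff_ball.mp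
    (hGe.and (hAe.and (hBe.and ((hfst.eventually h0).and (hfst.eventually h1)))))
  have hmem : ∀ v h : T, ‖v‖ < r → ‖h‖ < r → (v, h) ∈ Metric.ball ((0 : T), (0 : T)) r := by
    intro v h hv hh
    rw [Metric.mem_ball, Prod.dist_eq, dist_zero_right, dist_zero_right]
    exact max_lt hv hh
  filter_upwards [Metric.ball_mem_nhds ((0 : T), (0 : T)) hr] with p hp
  obtain ⟨v, h⟩ := p
  have hv : ‖v‖ < r := by
    rw [Metric.mem_ball, Prod.dist_eq, dist_zero_right, dist_zero_right] at hp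
    exact (le_max_left _ _).trans_lt hp
  have hh : ‖h‖ < r := by
    rw [Metric.mem_ball, Prod.dist_eq, dist_zero_right, dist_zero_right] at hp
    exact (le_max_right _ _).trans_lt hp
  have hAv0 : A (v, 0) = 0 := by
    have h3 := hball (v, 0) (hmem v 0 hv (by simpa only [norm_zero, gt_iff_lt] using hr))
    have h4 := hpG (v, 0) (h3.1.differentiableAt (by norm_num))
    rw [← h4.fderiv]
    exact h3.2.2.2.2
  have hAv : ∀ h' : T, ‖h'‖ < r → ‖A (v, h')‖ ≤ η * ‖h'‖ := by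
    intro h' hh'
    have h3 := Convex.norm_image_sub_le_of_norm_hasFDerivWithin_le (𝕜 := ℝ)
      (f := fun h => A (v, h)) (f' := fun h => (fderiv ℝ A (v, h)).comp i₂)
      (s := Metric.ball (0 : T) r) (x := 0) (y := h') (C := η)
      (fun x hx => (hpA (v, x) ((hball (v, x) (hmem v x hv (by simpa only [Metric.mem_ball, dist_zero_right] using hx))).2.1.differentiableAt
        (by norm_num))).hasFDerivWithinAt)
      (fun x hx => (hball (v, x) (hmem v x hv (by simpa using hx))).2.2.1.le)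
      (convex_ball 0 r) (by simpa only [Metric.mem_ball, dist_self, gt_iff_lt] using hr) (by simpa using hh')
    simp only [hAv0, sub_zero] at h3
    exact h3
  have h3 := Convex.norm_image_sub_le_of_norm_hasFDerivWithin_le (𝕜 := ℝ)
    (f := fun h => G (v, h)) (f' := fun h => A (v, h))
    (s := Metric.closedBall (0 : T) ‖h‖) (x := 0) (y := h) (C := η * ‖h‖)
    (fun x hx => (hpG (v, x) ((hball (v, x) (hmem v x hv
      ((by simpa only [Metric.mem_closedBall, dist_zero_right] using hx : ‖x‖ ≤ ‖h‖).trans_lt hh))).1.differentiableAt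
      (by norm_num))).hasFDerivWithinAt)
    (fun x hx => (hAv x ((by simpa only [Metric.mem_closedBall, dist_zero_right] using hx : ‖x‖ ≤ ‖h‖).trans_lt hh)).trans
      (mul_le_mul_of_nonneg_left (by simpa only [Metric.mem_closedBall, dist_zero_right] using hx) hη.le))
    (convex_closedBall 0 _) (by simp only [Metric.mem_closedBall, dist_self, norm_nonneg]) (by simp only [Metric.mem_closedBall, dist_zero_right, Std.le_refl])
  have hG0 : G (v, 0) = 0 := (hball (v, 0) (hmem v 0 hv (by simpa only [norm_zero, gt_iff_lt] using hr))).2.2.2.1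
  simp only [hG0, sub_zero, Real.norm_eq_abs] at h3
  calc |G (v, h)| ≤ η * ‖h‖ * ‖h‖ := h3
    _ = η * ‖(v, h).2‖ ^ 2 := by ring

lemma LocalIso_cost {T : Type*} [NormedAddCommGroup T] [InnerProductSpace ℝ T] (φ : T × T → ℝ)
    (hφ : ContDiffAt ℝ 2 φ (0, 0)) (hd : ∀ v, φ (v, v) = 0) (hpos : ∀ p, 0 ≤ φ p)
    (h1 : ∀ᶠ w in 𝓝 (0 : T), φ (0, w) = ‖w‖ ^ 2 / 2) {η : ℝ} (hη : 0 < η) :
    ∃ δ > 0, ∀ v w : T, ‖v‖ < δ → ‖w‖ < δ → |φ (v, w) - ‖v - w‖ ^ 2 / 2| ≤ η * ‖v - w‖ ^ 2 := by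
  set G : T × T → ℝ := fun p => φ (p.1, p.1 + p.2) - ‖p.2‖ ^ 2 / 2 with hG
  have hn : ContDiff ℝ 2 (fun h : T => ‖h‖ ^ 2 / 2) := (contDiff_norm_sq ℝ).div_const 2
  have hlin : ContDiffAt ℝ 2 (fun p : T × T => (p.1, p.1 + p.2)) (0, 0) := by fun_prop
  have hφ' : ContDiffAt ℝ 2 φ ((fun p : T × T => (p.1, p.1 + p.2)) (0, 0)) := by
    simpa using hφ
  have hG1 : ContDiffAt ℝ 2 (fun p : T × T => φ (p.1, p.1 + p.2)) (0, 0) :=
    ContDiffAt.comp (g := φ) (0, 0) hφ' hlin
  have hGc : ContDiffAt ℝ 2 G (0, 0) := by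
    refine hG1.sub ?_
    exact ContDiffAt.comp (g := fun h : T => ‖h‖ ^ 2 / 2) (f := fun p : T × T => p.2) (0, 0)
      hn.contDiffAt contDiffAt_snd
  have hG0 : ∀ v, G (v, 0) = 0 := fun v => by
    simp [hG, hd]
  have hmin2 : fderiv ℝ (fun h : T => ‖h‖ ^ 2 / 2) 0 = 0 := by
    refine IsLocalMin.fderiv_eq_zero (Eventually.of_forall fun h => ?_)
    have h3 : 0 ≤ ‖h‖ ^ 2 / 2 := by (clear * -; positivity)
    simpa only [norm_zero, ne_eq, OfNat.ofNat_ne_zero, not_false_eq_true, zero_pow, zero_div, ge_iff_le] using h3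
  have hGd : ∀ᶠ v in 𝓝 (0 : T), fderiv ℝ (fun h => G (v, h)) 0 = 0 := by
    have h3 : ∀ᶠ p in 𝓝 ((0 : T), (0 : T)), ContDiffAt ℝ 2 (fun p : T × T => φ (p.1, p.1 + p.2)) p :=
      hG1.eventually (by simp)
    have htend : Tendsto (fun v : T => (v, (0 : T))) (𝓝 0) (𝓝 ((0 : T), (0 : T))) :=
      (Continuous.prodMk_left (0 : T)).tendsto 0
    filter_upwards [htend.eventually h3] with v hv
    have h4 : DifferentiableAt ℝ (fun h : T => φ (v, v + h)) 0 := by
      have h5 : DifferentiableAt ℝ (fun h : T => (v, h)) 0 := by (clear * -; fun_prop)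
      exact DifferentiableAt.comp (g := fun p : T × T => φ (p.1, p.1 + p.2)) (0 : T)
        (hv.differentiableAt (by norm_num)) h5
    have h6 : fderiv ℝ (fun h : T => φ (v, v + h)) 0 = 0 := by
      refine IsLocalMin.fderiv_eq_zero (Eventually.of_forall fun h => ?_)
      simp only [add_zero, hd]
      exact hpos _
    have h7 : fderiv ℝ (fun h => G (v, h)) 0 =
        fderiv ℝ (fun h : T => φ (v, v + h)) 0 - fderiv ℝ (fun h : T => ‖h‖ ^ 2 / 2) 0 :=
      fderiv_fun_sub h4 (hn.contDiffAt.differentiableAt (by norm_num))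
    rw [h7, h6, hmin2, sub_zero]
  have hG2 : ∀ᶠ h in 𝓝 (0 : T), G (0, h) = 0 := by
    filter_upwards [h1] with h hh
    simp [hG, hh]
  have hmain := LocalIso_second_order G hGc (Eventually.of_forall hG0) hGd hG2 hη
  obtain ⟨r, hr, hball⟩ := Metric.eventually_nhds_iff_ball.mp hmain
  refine ⟨r / 2, by positivity, fun v w hv hw => ?_⟩
  have hmem : (v, w - v) ∈ Metric.ball ((0 : T), (0 : T)) r := by
    rw [Metric.mem_ball, Prod.dist_eq, dist_zero_right, dist_zero_right]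
    refine max_lt (by linarith only [hr, hv]) ?_
    have := norm_sub_le w v
    simp only
    linarith only [hv, hw, this]
  have h8 := hball _ hmem
  simp only [hG, add_sub_cancel] at h8
  rw [norm_sub_rev w v] at h8
  exact h8

end Calculus

variable {E : Type*} [NormedAddCommGroup E] [NormedSpace ℝ E] [FiniteDimensional ℝ E]
  {M : Type*} [MetricSpace M] [ChartedSpace E M]
  [RiemannianBundle (fun x : M => TangentSpace 𝓘(ℝ, E) x)]
  [IsManifold 𝓘(ℝ, E) ∞ M]
  [IsContMDiffRiemannianBundle 𝓘(ℝ, E) ∞ E (fun x : M => TangentSpace 𝓘(ℝ, E) x)]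
  {e : ∀ x : M, TangentSpace 𝓘(ℝ, E) x → M}

/-- `e y` is almost isometric near `0` -/
theorem exp_almost_isometry [CompactSpace M] (F : Facts e) (y : M) {ε : ℝ} (hε : 0 < ε) :
    ∃ δ > 0, ∀ v w : E, nm y v < δ → nm y w < δ →
      (1 - ε) * nm y (v - w) ≤ dist (e y v) (e y w) ∧
        dist (e y v) (e y w) ≤ (1 + ε) * nm y (v - w) := by
  obtain ⟨ρ, hρ, hmin, hsm⟩ := F.short
  have hs : SmoothAt E y (e y (0 : TangentSpace 𝓘(ℝ, E) y)) := by
    rw [F.isExp.map_zero]
    exact hsm y y (by rw [dist_self]; exact hρ)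
  have hc := (coord0 F.isExp hs).of_le (m := 2) (by norm_cast)
  set η : ℝ := min ε 1 / 2 with hη
  have hη0 : 0 < η := by positivity
  have h1 : ∀ᶠ w in 𝓝 (0 : TangentSpace 𝓘(ℝ, E) y),
      cost (e y (0 : TangentSpace 𝓘(ℝ, E) y)) (e y w) = ‖w‖ ^ 2 / 2 := by
    filter_upwards [Metric.ball_mem_nhds (0 : TangentSpace 𝓘(ℝ, E) y) hρ] with w hw
    rw [mem_ball_zero_iff] at hw
    have h2 := hmin y w 0 1 (by simpa only [sub_zero, abs_one, mul_one] using hw.le)
    rw [zero_smul, one_smul] at h2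
    rw [cost, h2]
    norm_num
  obtain ⟨δ, hδ, h⟩ := LocalIso_cost
    (fun p : TangentSpace 𝓘(ℝ, E) y × TangentSpace 𝓘(ℝ, E) y => cost (e y p.1) (e y p.2)) hc
    (fun v => by simp [cost]) (fun p => by simp only [cost]; (clear * -; positivity)) h1 hη0
  refine ⟨δ, hδ, fun v w hv hw => ?_⟩
  have h3 := h v w hv hw
  simp only [cost] at h3
  change |dist (e y v) (e y w) ^ 2 / 2 - nm y (v - w) ^ 2 / 2| ≤ η * nm y (v - w) ^ 2 at h3
  have hn0 : 0 ≤ nm y (v - w) := nm_nonneg _ _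
  have hd0 : 0 ≤ dist (e y v) (e y w) := dist_nonneg
  generalize nm y (v - w) = n at *
  generalize dist (e y v) (e y w) = d at *
  rw [abs_le] at h3
  obtain ⟨h4, h5⟩ := h3
  have hηε : η ≤ ε / 2 := by
    rw [hη]; have := min_le_left ε 1; linarith only [this]
  have hη1 : η ≤ 1 / 2 := by
    rw [hη]; have := min_le_right ε 1; linarith only [this]
  constructor
  · rcases le_or_gt 1 ε with h6 | h6
    · nlinarith only [hd0, hn0, h6]
    · have h7 : η = ε / 2 := by rw [hη, min_eq_left h6.le]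
      refine abs_le_of_sq_le_sq' ?_ hd0 |>.2
      rw [h7] at h4
      nlinarith only [h4, hε, h6]
  · refine abs_le_of_sq_le_sq' ?_ (by (clear * - hε hn0; positivity)) |>.2
    nlinarith only [h5, hε, mul_le_mul_of_nonneg_right hηε (sq_nonneg n)]

/-- The normalised Hausdorff measure of Euclidean space is Lebesgue measure. -/
lemma LocalIso_volume (n : ℕ) :
    riemVol n (EuclideanSpace ℝ (Fin n)) = (volume : Measure (EuclideanSpace ℝ (Fin n))) := by
  have hH : Measure.IsAddHaarMeasure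
      (Measure.hausdorffMeasure (n : ℝ) : Measure (EuclideanSpace ℝ (Fin n))) := by
    have h := isAddHaarMeasure_hausdorffMeasure (E := EuclideanSpace ℝ (Fin n))
    rwa [finrank_euclideanSpace_fin] at h
  have h1 := Measure.isAddLeftInvariant_eq_smul
    (volume : Measure (EuclideanSpace ℝ (Fin n)))
    (Measure.hausdorffMeasure (n : ℝ) : Measure (EuclideanSpace ℝ (Fin n)))
  set c := Measure.addHaarScalarFactor (volume : Measure (EuclideanSpace ℝ (Fin n)))
    (Measure.hausdorffMeasure (n : ℝ) : Measure (EuclideanSpace ℝ (Fin n))) with hc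
  have h2 : volume (Metric.ball (0 : EuclideanSpace ℝ (Fin n)) 1) =
      (c : ℝ≥0∞) * Measure.hausdorffMeasure (n : ℝ)
        (Metric.ball (0 : EuclideanSpace ℝ (Fin n)) 1) := by
    conv_lhs => rw [h1]
    rfl
  have h3 : Measure.hausdorffMeasure (n : ℝ)
      (Metric.ball (0 : EuclideanSpace ℝ (Fin n)) 1) ≠ 0 :=
    (Metric.measure_ball_pos _ _ one_pos).ne'
  have h4 : Measure.hausdorffMeasure (n : ℝ)
      (Metric.ball (0 : EuclideanSpace ℝ (Fin n)) 1) ≠ ⊤ := measure_ball_lt_top.ne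
  rw [riemVol, h2, ENNReal.mul_div_cancel_right h3 h4]
  conv_rhs => rw [h1]
  rfl

omit [IsManifold 𝓘(ℝ, E) ∞ M]
  [IsContMDiffRiemannianBundle 𝓘(ℝ, E) ∞ E (fun x : M => TangentSpace 𝓘(ℝ, E) x)] in
lemma LocalIso_nm_sub (y : M) (a b : Eu E) : nm y (fr y a - fr y b) = ‖a - b‖ := by
  rw [← map_sub, nm_fr]

lemma LocalIso_exists_eps (n : ℕ) {ε : ℝ} (hε : 0 < ε) :
    ∃ x : ℝ, 0 < x ∧ x < 1 ∧ (1 + x) ^ n ≤ 1 + ε ∧ (1 - ε) * ((1 - x)⁻¹) ^ n ≤ 1 := by
  have h1 : ContinuousAt (fun x : ℝ => (1 + x) ^ n) 0 := by fun_prop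
  have h2 : ContinuousAt (fun x : ℝ => (1 - ε) * ((1 - x)⁻¹) ^ n) 0 := by
    have h3 : ContinuousAt (fun x : ℝ => (1 - x)⁻¹) 0 :=
      ContinuousAt.inv₀ (by fun_prop) (by norm_num)
    exact continuousAt_const.mul (h3.pow n)
  have h4 : ∀ᶠ x in 𝓝 (0 : ℝ), (1 + x) ^ n < 1 + ε :=
    h1.eventually_lt continuousAt_const (by simpa only [add_zero, one_pow, lt_add_iff_pos_right] using hε)
  have h5 : ∀ᶠ x in 𝓝 (0 : ℝ), (1 - ε) * ((1 - x)⁻¹) ^ n < 1 :=
    h2.eventually_lt continuousAt_const (by simpa only [sub_zero, inv_one, one_pow, mul_one, sub_lt_self_iff] using hε)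
  have h6 : ∀ᶠ x in 𝓝[>] (0 : ℝ), x ∈ Ioo (0 : ℝ) 1 := Ioo_mem_nhdsGT one_pos
  obtain ⟨x, hx, h7, h8⟩ := (h6.and ((h4.filter_mono nhdsWithin_le_nhds).and
    (h5.filter_mono nhdsWithin_le_nhds))).exists
  exact ⟨x, hx.1, hx.2, h7.le, h8.le⟩

/-- hence it almost preserves the measures near `0` -/
theorem riemVol_small [CompactSpace M] [MeasurableSpace M] [BorelSpace M] (F : Facts e)
    (y : M) {ε : ℝ} (hε : 0 < ε) :
    ∃ δ > 0, ∀ S : Set (Eu E), S ⊆ Metric.ball 0 δ →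
      ENNReal.ofReal (1 - ε) * volume S ≤
        riemVol (finrank ℝ E) M (ef e y '' S) ∧
      riemVol (finrank ℝ E) M (ef e y '' S) ≤
        ENNReal.ofReal (1 + ε) * volume S := by
  obtain ⟨η, hη0, hη1, hu, hl⟩ := LocalIso_exists_eps (finrank ℝ E) hε
  obtain ⟨δ, hδ, h⟩ := exp_almost_isometry F y hη0
  refine ⟨δ, hδ, fun S hS => ?_⟩
  have hd : ∀ a ∈ S, ∀ b ∈ S, (1 - η) * ‖a - b‖ ≤ dist (ef e y a) (ef e y b) ∧
      dist (ef e y a) (ef e y b) ≤ (1 + η) * ‖a - b‖ := by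
    intro a ha b hb
    have h1 := h (fr y a) (fr y b) (by rw [nm_fr]; simpa only [Metric.mem_ball, dist_zero_right] using hS ha)
      (by rw [nm_fr]; simpa using hS hb)
    rw [LocalIso_nm_sub] at h1
    exact h1
  set c : ℝ≥0∞ := volume (Metric.ball (0 : EuclideanSpace ℝ (Fin (finrank ℝ E))) 1) /
    Measure.hausdorffMeasure (finrank ℝ E : ℝ)
      (Metric.ball (0 : EuclideanSpace ℝ (Fin (finrank ℝ E))) 1) with hc
  have hvol : volume S = c * Measure.hausdorffMeasure (finrank ℝ E : ℝ) S := by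
    rw [← LocalIso_volume]
    rfl
  have hriem : riemVol (finrank ℝ E) M (ef e y '' S) =
      c * Measure.hausdorffMeasure (finrank ℝ E : ℝ) (ef e y '' S) := rfl
  have hpos : (0 : ℝ) < 1 - η := sub_pos.mpr hη1
  constructor
  · -- lower bound
    have hinj : InjOn (ef e y) S := by
      intro a ha b hb hab
      have h1 := (hd a ha b hb).1
      rw [hab, dist_self] at h1
      have h2 : ‖a - b‖ ≤ 0 := by
        by_contra hcon
        push Not at hcon
        (clear * - h1 hη1 hcon; nlinarith)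
      exact sub_eq_zero.mp (norm_le_zero_iff.mp h2)
    set g : M → Eu E := Function.invFunOn (ef e y) S with hg
    have hgf : ∀ a ∈ S, g (ef e y a) = a := fun a ha => hinj.leftInvOn_invFunOn ha
    have himg : g '' (ef e y '' S) = S := by
      rw [image_image]
      exact (image_congr hgf).trans (image_id' S)
    have hLip : LipschitzOnWith (Real.toNNReal (1 - η)⁻¹) g (ef e y '' S) := by
      refine LipschitzOnWith.of_dist_le_mul ?_
      rintro _ ⟨a, ha, rfl⟩ _ ⟨b, hb, rfl⟩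
      rw [hgf a ha, hgf b hb, Real.coe_toNNReal _ (inv_nonneg.mpr hpos.le), dist_eq_norm,
        inv_mul_eq_div, le_div_iff₀ hpos, mul_comm]
      exact (hd a ha b hb).1
    have h1 := hLip.hausdorffMeasure_image_le (d := (finrank ℝ E : ℝ)) (by positivity)
    rw [himg, ENNReal.rpow_natCast] at h1
    rw [hvol, hriem]
    calc ENNReal.ofReal (1 - ε) * (c * Measure.hausdorffMeasure (finrank ℝ E : ℝ) S)
        ≤ ENNReal.ofReal (1 - ε) * (c * (((Real.toNNReal (1 - η)⁻¹ : NNReal) : ℝ≥0∞) ^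
            (finrank ℝ E) * Measure.hausdorffMeasure (finrank ℝ E : ℝ) (ef e y '' S))) := by
          (clear F hε hη0 hη1 hu hl δ hδ h hS hd hc hvol hriem hpos hinj g hg hgf himg hLip; gcongr)
      _ = (ENNReal.ofReal (1 - ε) * ((Real.toNNReal (1 - η)⁻¹ : NNReal) : ℝ≥0∞) ^
            (finrank ℝ E)) * (c * Measure.hausdorffMeasure (finrank ℝ E : ℝ) (ef e y '' S)) := by
          ring
      _ ≤ 1 * (c * Measure.hausdorffMeasure (finrank ℝ E : ℝ) (ef e y '' S)) := by
          gcongr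
          change ENNReal.ofReal (1 - ε) * ENNReal.ofReal (1 - η)⁻¹ ^ (finrank ℝ E) ≤ 1
          rw [← ENNReal.ofReal_pow (inv_nonneg.mpr hpos.le),
            ← ENNReal.ofReal_mul' (pow_nonneg (inv_nonneg.mpr hpos.le) _),
            ← ENNReal.ofReal_one]
          exact ENNReal.ofReal_le_ofReal hl
      _ = _ := one_mul _
  · -- upper bound
    have hLip : LipschitzOnWith (Real.toNNReal (1 + η)) (ef e y) S := by
      refine LipschitzOnWith.of_dist_le_mul fun a ha b hb => ?_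
      rw [Real.coe_toNNReal _ (by positivity), dist_eq_norm]
      exact (hd a ha b hb).2
    have h1 := hLip.hausdorffMeasure_image_le (d := (finrank ℝ E : ℝ)) (by (clear * -; positivity))
    rw [ENNReal.rpow_natCast] at h1
    rw [hvol, hriem]
    calc c * Measure.hausdorffMeasure (finrank ℝ E : ℝ) (ef e y '' S)
        ≤ c * (((Real.toNNReal (1 + η) : NNReal) : ℝ≥0∞) ^ (finrank ℝ E) *
            Measure.hausdorffMeasure (finrank ℝ E : ℝ) S) := by (clear F ε hε hη0 hη1 hu hl δ hδ h hS hd hc hvol hriem hpos hLip; gcongr)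
      _ = ((Real.toNNReal (1 + η) : NNReal) : ℝ≥0∞) ^ (finrank ℝ E) *
            (c * Measure.hausdorffMeasure (finrank ℝ E : ℝ) S) := by ring
      _ ≤ ENNReal.ofReal (1 + ε) * (c * Measure.hausdorffMeasure (finrank ℝ E : ℝ) S) := by
          gcongr
          change ENNReal.ofReal (1 + η) ^ (finrank ℝ E) ≤ _
          rw [← ENNReal.ofReal_pow (by positivity)]
          exact ENNReal.ofReal_le_ofReal hu

end

end Vale.Agent.P231
end
end

section

section

/-! The area formula for the exponential map. -/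

set_option maxSynthPendingDepth 3
set_option linter.unusedSectionVars false
set_option linter.unusedVariables false

open Bundle Manifold Set Filter MeasureTheory Module
open scoped ContDiff Manifold Topology ENNReal

namespace Vale.Agent.P231

noncomputable section

open Vale.Agent.P234

variable {E : Type*} [NormedAddCommGroup E] [NormedSpace ℝ E] [FiniteDimensional ℝ E]
  {M : Type*} [MetricSpace M] [ChartedSpace E M]
  [RiemannianBundle (fun x : M => TangentSpace 𝓘(ℝ, E) x)]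
  [IsManifold 𝓘(ℝ, E) ∞ M]
  [IsContMDiffRiemannianBundle 𝓘(ℝ, E) ∞ E (fun x : M => TangentSpace 𝓘(ℝ, E) x)]
  {e : ∀ x : M, TangentSpace 𝓘(ℝ, E) x → M}

theorem area_smoothAt_diag [CompactSpace M] (F : Facts e) (y : M) : SmoothAt E y y := by
  have h := F.smooth_cost y 0 (zero_mem_injDomain F.isExp y)
  rwa [F.isExp.map_zero] at h

theorem area_logMap_self [CompactSpace M] (F : Facts e) (y : M) : logMap e y y = 0 := by
  have h := logMap_eq F.isExp (z := y) (w := 0)
    (injDomain_subset_segMin F.isExp y (zero_mem_injDomain F.isExp y))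
    (F.smooth_cost y 0 (zero_mem_injDomain F.isExp y))
  rwa [F.isExp.map_zero] at h

/-- the derivative of the logarithm at the centre is the identity -/
theorem area_dlog [CompactSpace M] (F : Facts e) (y : M) (w : TangentSpace 𝓘(ℝ, E) y) :
    mfderiv 𝓘(ℝ, E) 𝓘(ℝ, TangentSpace 𝓘(ℝ, E) y) (logMap e y) y w = w := by
  have he := F.isExp
  have hd : MDifferentiableAt 𝓘(ℝ, E) 𝓘(ℝ, TangentSpace 𝓘(ℝ, E) y) (logMap e y) (e y 0) := by
    rw [he.map_zero]
    exact (contMDiffAt_logMap he (area_smoothAt_diag F y)).mdifferentiableAt (by simp)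
  have hE : MDifferentiableAt 𝓘(ℝ, TangentSpace 𝓘(ℝ, E) y) 𝓘(ℝ, E) (e y) 0 :=
    (contMDiff_exp_fiber he y).mdifferentiableAt (by simp)
  have hc := mfderiv_comp_apply (0 : TangentSpace 𝓘(ℝ, E) y) hd hE w
  have hev : (logMap e y ∘ e y) =ᶠ[𝓝 0] id :=
    eventually_logMap_exp he F.hopfRinow
      (injDomain_subset_segMin F.isExp y (zero_mem_injDomain F.isExp y))
      (F.smooth_cost y 0 (zero_mem_injDomain F.isExp y))
  have hid : mfderiv 𝓘(ℝ, TangentSpace 𝓘(ℝ, E) y) 𝓘(ℝ, TangentSpace 𝓘(ℝ, E) y)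
      (logMap e y ∘ e y) 0 =
      mfderiv 𝓘(ℝ, TangentSpace 𝓘(ℝ, E) y) 𝓘(ℝ, TangentSpace 𝓘(ℝ, E) y) id 0 := hev.mfderiv_eq
  rw [hid, mfderiv_id] at hc
  have hE0 : mfderiv 𝓘(ℝ, TangentSpace 𝓘(ℝ, E) y) 𝓘(ℝ, E) (e y) 0 w = w :=
    dE_zero_base he y w
  have hk : ∀ z : M, z = y → ∀ a : E,
      (mfderiv 𝓘(ℝ, E) 𝓘(ℝ, TangentSpace 𝓘(ℝ, E) y) (logMap e y) z
        (a : TangentSpace 𝓘(ℝ, E) z) : E) =
      mfderiv 𝓘(ℝ, E) 𝓘(ℝ, TangentSpace 𝓘(ℝ, E) y) (logMap e y) y
        (a : TangentSpace 𝓘(ℝ, E) y) := by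
    rintro z rfl a
    rfl
  have h1 := hk (e y 0) (he.map_zero y) w
  refine Eq.trans h1.symm ?_
  refine Eq.trans ?_ hc.symm
  exact congrArg (fun a : E => (mfderiv 𝓘(ℝ, E) 𝓘(ℝ, TangentSpace 𝓘(ℝ, E) y) (logMap e y)
    (e y 0) (a : TangentSpace 𝓘(ℝ, E) (e y 0)) : E)) hE0.symm

theorem area_chain {V T₁ T₂ W : Type*} [NormedAddCommGroup V] [NormedSpace ℝ V]
    [NormedAddCommGroup T₁] [NormedSpace ℝ T₁] [NormedAddCommGroup T₂] [NormedSpace ℝ T₂]
    [NormedAddCommGroup W] [NormedSpace ℝ W] (A : V →L[ℝ] T₁) (f : T₁ → M) (L : M → T₂)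
    (B : T₂ →L[ℝ] W) {ξ : V} {y : M} (hy : f (A ξ) = y)
    (hf : ContMDiffAt 𝓘(ℝ, T₁) 𝓘(ℝ, E) ∞ f (A ξ)) (hL : ContMDiffAt 𝓘(ℝ, E) 𝓘(ℝ, T₂) ∞ L y) :
    ContDiffAt ℝ ∞ (fun v => B (L (f (A v)))) ξ ∧
      ∀ a : V, fderiv ℝ (fun v => B (L (f (A v)))) ξ a =
        B (mfderiv 𝓘(ℝ, E) 𝓘(ℝ, T₂) L (f (A ξ)) (mfderiv 𝓘(ℝ, T₁) 𝓘(ℝ, E) f (A ξ) (A a))) := by
  subst hy
  have h1 : ContMDiffAt 𝓘(ℝ, V) 𝓘(ℝ, T₁) ∞ A ξ := A.contMDiff.contMDiffAt
  have h2 : ContMDiffAt 𝓘(ℝ, V) 𝓘(ℝ, E) ∞ (f ∘ A) ξ := ContMDiffAt.comp ξ hf h1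
  have h3 : ContMDiffAt 𝓘(ℝ, V) 𝓘(ℝ, T₂) ∞ (L ∘ (f ∘ A)) ξ := ContMDiffAt.comp ξ hL h2
  have h3' : ContDiffAt ℝ ∞ (L ∘ (f ∘ A)) ξ := h3.contDiffAt
  refine ⟨B.contDiff.contDiffAt.comp ξ h3', fun a => ?_⟩
  have c2 := mfderiv_comp_apply ξ (g := L) (f := f ∘ A) (hL.mdifferentiableAt (by simp))
    (h2.mdifferentiableAt (by simp)) a
  have c3 := mfderiv_comp_apply ξ (g := f) (f := A) (hf.mdifferentiableAt (by simp))
    (h1.mdifferentiableAt (by simp)) a
  have d1 : mfderiv 𝓘(ℝ, V) 𝓘(ℝ, T₁) A ξ = A := by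
    rw [mfderiv_eq_fderiv, ContinuousLinearMap.fderiv]
  rw [c3, d1, mfderiv_eq_fderiv] at c2
  have h5 : HasFDerivAt (fun v => B (L (f (A v))))
      (B.comp (fderiv ℝ (L ∘ (f ∘ A)) ξ)) ξ :=
    B.hasFDerivAt.comp ξ (h3'.differentiableAt (by simp)).hasFDerivAt
  rw [h5.fderiv]
  exact congrArg B c2

/-- `fr x` with values in the tangent space -/
def areaA (x : M) : Eu E →L[ℝ] TangentSpace 𝓘(ℝ, E) x := ((fr x : Eu E ≃L[ℝ] E) : Eu E →L[ℝ] E)

/-- the inverse of `fr y` on the tangent space -/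
def areaB (y : M) : TangentSpace 𝓘(ℝ, E) y →L[ℝ] Eu E :=
  (((fr y).symm : E ≃L[ℝ] Eu E) : E →L[ℝ] Eu E)

/-- the exponential map in orthonormal coordinates at both ends -/
def areaPsi (e : ∀ x : M, TangentSpace 𝓘(ℝ, E) x → M) (x y : M) (ξ : Eu E) : Eu E :=
  areaB (E := E) y (logMap e y (e x (areaA (E := E) x ξ)))

theorem area_psi [CompactSpace M] (F : Facts e) (x : M) {ξ₀ : Eu E} {y : M}
    (hy : ef e x ξ₀ = y) :
    ContDiffAt ℝ ∞ (areaPsi e x y) ξ₀ ∧
      ∀ a : Eu E, fderiv ℝ (areaPsi e x y) ξ₀ a =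
        (fr y).symm (dE e x (fr x ξ₀) (fr x a)) := by
  have he := F.isExp
  obtain ⟨h1, h2⟩ := area_chain (E := E) (areaA (E := E) x) (e x) (logMap e y)
    (areaB (E := E) y) (ξ := ξ₀) (y := y) hy (contMDiff_exp_fiber he x).contMDiffAt
    (contMDiffAt_logMap he (area_smoothAt_diag F y))
  refine ⟨h1, fun a => (h2 a).trans ?_⟩
  have key : ∀ z : M, z = y → ∀ w : E,
      (mfderiv 𝓘(ℝ, E) 𝓘(ℝ, TangentSpace 𝓘(ℝ, E) y) (logMap e y) z
        (w : TangentSpace 𝓘(ℝ, E) z) : E) = w := by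
    rintro z rfl w
    exact area_dlog F z w
  exact congrArg (fr (E := E) y).symm (key (e x (fr x ξ₀ : E)) hy (dE e x (fr x ξ₀) (fr x a)))

/-- the determinant of the coordinate expression is the Jacobian -/
theorem area_det [CompactSpace M] (F : Facts e) (x : M) {ξ₀ : Eu E} {y : M}
    (hy : ef e x ξ₀ = y) :
    |(fderiv ℝ (areaPsi e x y) ξ₀).det| = jac e x (fr x ξ₀) := by
  have hg : gam e x (fr x ξ₀) 1 = y := by
    rw [← hy]
    have h1 : ((1 : ℝ) • (fr x ξ₀ : E)) = fr x ξ₀ := one_smul ℝ _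
    exact congrArg (e x) h1
  unfold jac
  rw [hg]
  congr 1
  let b := (EuclideanSpace.basisFun (Fin (finrank ℝ E)) ℝ).toBasis
  have h1 : (fderiv ℝ (areaPsi e x y) ξ₀).det =
      (LinearMap.toMatrix b b (fderiv ℝ (areaPsi e x y) ξ₀ : Eu E →ₗ[ℝ] Eu E)).det := by
    rw [LinearMap.det_toMatrix]
  rw [h1]
  congr 1
  ext i j
  rw [LinearMap.toMatrix_apply]
  simp only [OrthonormalBasis.coe_toBasis, EuclideanSpace.basisFun_apply, ContinuousLinearMap.coe_coe, OrthonormalBasis.coe_toBasis_repr_apply, Matrix.of_apply, b]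
  rw [(area_psi F x hy).2, EuclideanSpace.basisFun_repr]
  set w := dE e x (fr x ξ₀) (fr x (EuclideanSpace.single j 1)) with hw
  have h2 : ip y (fr y (EuclideanSpace.single i 1)) w =
      ip y (fr y (EuclideanSpace.single i 1)) (fr y ((fr y).symm w)) := by
    rw [ContinuousLinearEquiv.apply_symm_apply]
  rw [h2, ip_fr, EuclideanSpace.inner_single_left]
  simp

theorem area_cont_fr {G : M → E → ℝ} (hG : ContTB G) (x : M) :
    Continuous fun ξ : Eu E => G x (fr x ξ) := by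
  have h1 : Continuous fun v : TangentSpace 𝓘(ℝ, E) x =>
      (⟨x, v⟩ : TangentBundle 𝓘(ℝ, E) M) :=
    FiberBundle.continuous_totalSpaceMk E (TangentSpace 𝓘(ℝ, E)) x
  exact (Continuous.comp hG h1).comp (areaA (E := E) x).continuous

theorem area_continuous_ef (he : IsExp e) (x : M) : Continuous (ef e x) := by
  have h1 : Continuous (e x) := (contMDiff_exp_fiber he x).continuous
  exact h1.comp (areaA (E := E) x).continuous

theorem area_injOn [CompactSpace M] (F : Facts e) {D : ℝ} (hB : InjGE e D) (x : M) :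
    InjOn (ef e x) (Metric.ball (0 : Eu E) D) := by
  intro ξ hξ η hη h
  have hn : ∀ ζ : Eu E, ζ ∈ Metric.ball (0 : Eu E) D → nm x (fr x ζ) < D := by
    intro ζ hζ
    rw [nm_fr]
    simpa using hζ
  have h1 : (fr x ξ : E) ∈ injDomain e x := hB.mem_injDomain (hn ξ hξ)
  have h2 : (fr x η : E) ∈ injDomain e x := hB.mem_injDomain (hn η hη)
  have h3 : (fr x ξ : E) = fr x η :=
    F.injDomain_unique h2 (injDomain_subset_segMin F.isExp x h1) h
  exact (fr x).injective h3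

theorem area_local [CompactSpace M] [ConnectedSpace M] [IsRiemannianManifold 𝓘(ℝ, E) M]
    [MeasurableSpace M] [BorelSpace M] (F : Facts e) {D : ℝ} (hB : InjGE e D)
    (x : M) {ξ₀ : Eu E} (hξ₀ : ξ₀ ∈ Metric.ball (0 : Eu E) D) {ε : ℝ} (hε : 0 < ε) (hε1 : ε < 1) :
    ∃ V : Set (Eu E), IsOpen V ∧ ξ₀ ∈ V ∧ ∀ S, MeasurableSet S → S ⊆ V →
      S ⊆ Metric.ball (0 : Eu E) D →
      ENNReal.ofReal (1 - ε) * ∫⁻ ξ in S, ENNReal.ofReal (jac e x (fr x ξ)) ≤
        riemVol (finrank ℝ E) M (ef e x '' S) ∧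
      riemVol (finrank ℝ E) M (ef e x '' S) ≤
        ENNReal.ofReal (1 + ε) * ∫⁻ ξ in S, ENNReal.ofReal (jac e x (fr x ξ)) := by
  have he := F.isExp
  set y := ef e x ξ₀ with hy
  set η : ℝ := ε / 3 with hη
  have hη0 : 0 < η := by positivity
  have hη1 : η < 1 := by rw [hη]; linarith only [hε1]
  obtain ⟨δ, hδ, hδS⟩ := riemVol_small F y hη0
  set ψ := areaPsi e x y with hψ
  have hψd : ContDiffAt ℝ ∞ ψ ξ₀ := (area_psi F x rfl).1
  have hψ1 : ContDiffAt ℝ 1 ψ ξ₀ := hψd.of_le (by simp only [WithTop.one_le_coe, le_top])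
  have hψ0 : ψ ξ₀ = 0 := by
    have h1 : logMap e y (e x (areaA (E := E) x ξ₀)) = 0 := area_logMap_self F y
    change areaB (E := E) y (logMap e y (e x (areaA (E := E) x ξ₀))) = 0
    rw [h1, map_zero]
  have hJ0 : 0 < jac e x (fr x ξ₀) := jac_pos F hB (by rw [nm_fr]; simpa only [Metric.mem_ball, dist_zero_right] using hξ₀)
  have hJc : Continuous fun ξ : Eu E => jac e x (fr x ξ) := area_cont_fr (contTB_jac he) x
  have hdc : ContinuousAt (fun ξ => |(fderiv ℝ ψ ξ).det|) ξ₀ := by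
    have h1 : ContinuousAt (fderiv ℝ ψ) ξ₀ :=
      (hψ1.fderiv_right (m := 0) (by simp)).continuousAt
    exact (ContinuousLinearMap.continuous_det.continuousAt.comp h1).abs
  have hdet : |(fderiv ℝ ψ ξ₀).det| = jac e x (fr x ξ₀) := area_det F x rfl
  -- eventual facts
  have e1 : ∀ᶠ ξ in 𝓝 ξ₀, DifferentiableAt ℝ ψ ξ :=
    (hψ1.eventually (by simp)).mono fun ξ h => h.differentiableAt (by simp)
  have e2 : ∀ᶠ ξ in 𝓝 ξ₀, |(fderiv ℝ ψ ξ).det| < (1 + η) * jac e x (fr x ξ) := by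
    refine hdc.eventually_lt (continuousAt_const.mul hJc.continuousAt) ?_
    rw [hdet]
    change jac e x (fr x ξ₀) < (1 + η) * jac e x (fr x ξ₀)
    (clear hε1 he y hy hη0 hη1 δ hδ hδS ψ hψ hψd hψ1 hψ0 hJc hdc hdet e1; nlinarith)
  have e3 : ∀ᶠ ξ in 𝓝 ξ₀, (1 - η) * jac e x (fr x ξ) < |(fderiv ℝ ψ ξ).det| := by
    refine (continuousAt_const.mul hJc.continuousAt).eventually_lt hdc ?_
    rw [hdet]
    change (1 - η) * jac e x (fr x ξ₀) < jac e x (fr x ξ₀)
    (clear hε1 he y hy hη0 hη1 δ hδ hδS ψ hψ hψd hψ1 hψ0 hJc hdc hdet e1 e2; nlinarith)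
  have e4 : ∀ᶠ ξ in 𝓝 ξ₀, ψ ξ ∈ Metric.ball (0 : Eu E) δ := by
    refine hψ1.continuousAt.eventually_mem ?_
    rw [hψ0]
    exact Metric.ball_mem_nhds _ hδ
  have e5 : ∀ᶠ ξ in 𝓝 ξ₀, ef e y (ψ ξ) = ef e x ξ := by
    have h1 : ∀ᶠ z in 𝓝 y, logMap e y z ∈ segMin e y ∧ e y (logMap e y z) = z :=
      eventually_logMap he F.hopfRinow (area_smoothAt_diag F y)
    filter_upwards [(area_continuous_ef he x).continuousAt.eventually h1] with ξ hξ
    refine Eq.trans ?_ hξ.2
    have h2 : (fr y (ψ ξ) : E) = logMap e y (ef e x ξ) :=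
      (fr (E := E) y).apply_symm_apply (logMap e y (ef e x ξ) : E)
    exact congrArg (e y) h2
  obtain ⟨V, hVs, hVo, hV0⟩ := mem_nhds_iff.1
    (e1.and (e2.and (e3.and (e4.and e5))))
  refine ⟨V, hVo, hV0, fun S hSm hSV hSD => ?_⟩
  have hS : ∀ ξ ∈ S, _ := fun ξ hξ => hVs (hSV hξ)
  have himg : ef e x '' S = ef e y '' (ψ '' S) := by
    rw [image_image]
    exact image_congr fun ξ hξ => (hS ξ hξ).2.2.2.2.symm
  have hinj : InjOn ψ S := by
    intro a ha b hb hab
    refine area_injOn F hB x (hSD ha) (hSD hb) ?_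
    rw [← (hS a ha).2.2.2.2, ← (hS b hb).2.2.2.2, hab]
  have hvol := lintegral_abs_det_fderiv_eq_addHaar_image (μ := (volume : Measure (Eu E)))
    hSm (f' := fderiv ℝ ψ) (fun ξ hξ => (hS ξ hξ).1.hasFDerivAt.hasFDerivWithinAt) hinj
  have hsub : ψ '' S ⊆ Metric.ball 0 δ := by
    rintro _ ⟨ξ, hξ, rfl⟩
    exact (hS ξ hξ).2.2.2.1
  obtain ⟨hlow, hup⟩ := hδS _ hsub
  rw [← himg, ← hvol] at hlow hup
  have hint1 : ∫⁻ ξ in S, ENNReal.ofReal |(fderiv ℝ ψ ξ).det| ≤
      ENNReal.ofReal (1 + η) * ∫⁻ ξ in S, ENNReal.ofReal (jac e x (fr x ξ)) := by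
    rw [← lintegral_const_mul' _ _ ENNReal.ofReal_ne_top]
    refine setLIntegral_mono' hSm fun ξ hξ => ?_
    rw [← ENNReal.ofReal_mul (by linarith only [hη0])]
    exact ENNReal.ofReal_le_ofReal (hS ξ hξ).2.1.le
  have hint2 : ENNReal.ofReal (1 - η) * ∫⁻ ξ in S, ENNReal.ofReal (jac e x (fr x ξ)) ≤
      ∫⁻ ξ in S, ENNReal.ofReal |(fderiv ℝ ψ ξ).det| := by
    rw [← lintegral_const_mul' _ _ ENNReal.ofReal_ne_top]
    refine setLIntegral_mono' hSm fun ξ hξ => ?_
    rw [← ENNReal.ofReal_mul (by linarith only [hε1, hη])]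
    exact ENNReal.ofReal_le_ofReal (hS ξ hξ).2.2.1.le
  constructor
  · calc ENNReal.ofReal (1 - ε) * ∫⁻ ξ in S, ENNReal.ofReal (jac e x (fr x ξ))
        ≤ ENNReal.ofReal (1 - η) * (ENNReal.ofReal (1 - η) *
            ∫⁻ ξ in S, ENNReal.ofReal (jac e x (fr x ξ))) := by
          rw [← mul_assoc, ← ENNReal.ofReal_mul (by linarith only [hε1, hη])]
          gcongr
          rw [hη]
          nlinarith only [hε]
      _ ≤ ENNReal.ofReal (1 - η) * ∫⁻ ξ in S, ENNReal.ofReal |(fderiv ℝ ψ ξ).det| := by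
          (clear F D hB hξ₀ he hy hη0 hη1 hδ hδS hψ hψd hψ1 hψ0 hJ0 hJc hdc hdet e1 e2 e3 e4 e5 hVo hV0 hSD himg hinj hvol hsub hlow hup hint1; gcongr)
      _ ≤ _ := hlow
  · calc riemVol (finrank ℝ E) M (ef e x '' S)
        ≤ ENNReal.ofReal (1 + η) * ∫⁻ ξ in S, ENNReal.ofReal |(fderiv ℝ ψ ξ).det| := hup
      _ ≤ ENNReal.ofReal (1 + η) * (ENNReal.ofReal (1 + η) *
            ∫⁻ ξ in S, ENNReal.ofReal (jac e x (fr x ξ))) := by
          (clear F D hB hξ₀ hε1 he hy hη hη1 hδ hδS hψ hψd hψ1 hψ0 hJ0 hJc hdc hdet e1 e2 e3 e4 e5 hVo hV0 hSD himg hinj hvol hsub hlow hup hint2; gcongr)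
      _ ≤ ENNReal.ofReal (1 + ε) * ∫⁻ ξ in S, ENNReal.ofReal (jac e x (fr x ξ)) := by
          rw [← mul_assoc, ← ENNReal.ofReal_mul (by linarith only [hη0])]
          gcongr
          rw [hη]
          nlinarith only [hε, hε1]

theorem area [CompactSpace M] [ConnectedSpace M] [IsRiemannianManifold 𝓘(ℝ, E) M]
    [MeasurableSpace M] [BorelSpace M] (F : Facts e) {D : ℝ} (hD : 0 < D) (hB : InjGE e D)
    (x : M) {S : Set (Eu E)} (hS : MeasurableSet S) (hSD : S ⊆ Metric.ball 0 D) :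
    riemVol (finrank ℝ E) M (ef e x '' S) =
      ∫⁻ ξ in S, ENNReal.ofReal (jac e x (fr x ξ)) := by
  have h := area_abs
    ((volume : Measure (Eu E)).withDensity fun ξ => ENNReal.ofReal (jac e x (fr x ξ)))
    (riemVol (finrank ℝ E) M) (area_continuous_ef F.isExp x) (area_injOn F hB x)
    (fun v hv ε hε hε1 => by
      obtain ⟨V, hVo, hV0, hV⟩ := area_local F hB x hv hε hε1
      refine ⟨V, hVo, hV0, fun T hT hTV hTD => ?_⟩
      rw [withDensity_apply _ hT]
      exact hV T hT hTV hTD) hS hSD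
  rw [h, withDensity_apply _ hS]

theorem riemVol_finite [CompactSpace M] [ConnectedSpace M] [IsRiemannianManifold 𝓘(ℝ, E) M]
    [MeasurableSpace M] [BorelSpace M] (F : Facts e) {D : ℝ} (hD : 0 < D) (hB : InjGE e D) :
    IsFiniteMeasure (riemVol (finrank ℝ E) M) := by
  have hball : ∀ x : M, riemVol (finrank ℝ E) M (Metric.ball x (D / 2)) < ⊤ := by
    intro x
    have hsub : Metric.ball x (D / 2) ⊆ ef e x '' Metric.closedBall (0 : Eu E) (D / 2) := by
      intro y hy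
      obtain ⟨v, hv, hd⟩ := F.hopfRinow x y
      have h1 : (fr (E := E) x ((fr (E := E) x).symm (v : E)) : E) = v :=
        (fr (E := E) x).apply_symm_apply (v : E)
      refine ⟨(fr (E := E) x).symm (v : E), ?_, ?_⟩
      · have h2 : nm (E := E) x (v : E) = dist x y := hd.symm
        rw [mem_closedBall_zero_iff, ← nm_fr (E := E) x, h1, h2, dist_comm]
        exact (Metric.mem_ball.1 hy).le
      · refine Eq.trans ?_ hv
        exact congrArg (e x) h1
    have hcb : Metric.closedBall (0 : Eu E) (D / 2) ⊆ Metric.ball 0 D :=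
      Metric.closedBall_subset_ball (by linarith only [hD])
    refine (measure_mono hsub).trans_lt ?_
    rw [area F hD hB x Metric.isClosed_closedBall.measurableSet hcb]
    have hJc : Continuous fun ξ : Eu E => jac e x (fr x ξ) :=
      area_cont_fr (contTB_jac F.isExp) x
    obtain ⟨C, hC⟩ := (isCompact_closedBall (0 : Eu E) (D / 2)).exists_bound_of_continuousOn
      hJc.continuousOn
    calc ∫⁻ ξ in Metric.closedBall (0 : Eu E) (D / 2), ENNReal.ofReal (jac e x (fr x ξ))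
        ≤ ∫⁻ ξ in Metric.closedBall (0 : Eu E) (D / 2), ENNReal.ofReal C := by
          refine setLIntegral_mono' Metric.isClosed_closedBall.measurableSet fun ξ hξ => ?_
          exact ENNReal.ofReal_le_ofReal ((le_abs_self _).trans (hC ξ hξ))
      _ = ENNReal.ofReal C * volume (Metric.closedBall (0 : Eu E) (D / 2)) := by
          rw [setLIntegral_const]
      _ < ⊤ := ENNReal.mul_lt_top ENNReal.ofReal_lt_top
          (isCompact_closedBall _ _).measure_lt_top
  obtain ⟨t, ht⟩ := isCompact_univ.elim_nhds_subcover (fun x : M => Metric.ball x (D / 2))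
    (fun x _ => Metric.ball_mem_nhds x (by linarith))
  refine ⟨(measure_mono ht.2).trans_lt ((measure_biUnion_finset_le t _).trans_lt ?_)⟩
  exact ENNReal.sum_lt_top.2 fun x _ => hball x

theorem riemVol_pos [CompactSpace M] [ConnectedSpace M] [IsRiemannianManifold 𝓘(ℝ, E) M]
    [MeasurableSpace M] [BorelSpace M] (F : Facts e) {D : ℝ} (hD : 0 < D) (hB : InjGE e D)
    {U : Set M} (hU : IsOpen U) (hU' : U.Nonempty) : 0 < riemVol (finrank ℝ E) M U := by
  obtain ⟨x, hx⟩ := hU'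
  have hx0 : ef e x 0 = x := by
    have h1 : (fr x (0 : Eu E) : E) = 0 := map_zero _
    have h2 : e x (fr x (0 : Eu E) : E) = e x 0 := congrArg (e x) h1
    exact h2.trans (F.isExp.map_zero x)
  have h1 : ef e x ⁻¹' U ∈ 𝓝 (0 : Eu E) :=
    (area_continuous_ef F.isExp x).continuousAt.preimage_mem_nhds
      (by rw [hx0]; exact hU.mem_nhds hx)
  obtain ⟨δ, hδ, hδU⟩ := Metric.mem_nhds_iff.1 h1
  have hr : 0 < min δ D := lt_min hδ hD
  have hsub : ef e x '' Metric.ball (0 : Eu E) (min δ D) ⊆ U := by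
    rintro _ ⟨ξ, hξ, rfl⟩
    exact hδU (Metric.ball_subset_ball (min_le_left _ _) hξ)
  refine lt_of_lt_of_le ?_ (measure_mono hsub)
  rw [area F hD hB x Metric.isOpen_ball.measurableSet
    (Metric.ball_subset_ball (min_le_right _ _))]
  have hJc : Continuous fun ξ : Eu E => jac e x (fr x ξ) :=
    area_cont_fr (contTB_jac F.isExp) x
  rw [setLIntegral_pos_iff hJc.measurable.ennreal_ofReal]
  have hsupp : Metric.ball (0 : Eu E) (min δ D) ⊆
      (Function.support fun ξ : Eu E => ENNReal.ofReal (jac e x (fr x ξ))) := by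
    intro ξ hξ
    rw [Function.mem_support, ENNReal.ofReal_ne_zero_iff]
    refine jac_pos F hB ?_
    rw [nm_fr]
    have := Metric.ball_subset_ball (min_le_right δ D) hξ
    simpa only [gt_iff_lt, Metric.mem_ball, dist_zero_right] using this
  rw [inter_eq_right.2 hsupp]
  exact Metric.measure_ball_pos _ _ hr

end

end Vale.Agent.P231
end
end

section

section

/-! P231 measure part, section MF: fibre integrals. -/

set_option maxSynthPendingDepth 3

open Bundle Manifold Set Filter MeasureTheory Module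
open scoped ContDiff Manifold Topology ENNReal

namespace Vale.Agent.P231

noncomputable section

open Vale.Agent.P234

/-- Fubini for an interval integral -/
theorem fiber_swap {α : Type*} [MeasurableSpace α] (μ : Measure α) [SFinite μ] (H : ℝ → α → ℝ)
    (S T : ℝ) (hH : Integrable (Function.uncurry H) ((volume.restrict (uIoc S T)).prod μ)) :
    ∫ s in S..T, (∫ a, H s a ∂μ) = ∫ a, (∫ s in S..T, H s a) ∂μ := by
  simp only [intervalIntegral.intervalIntegral_eq_integral_uIoc, smul_eq_mul]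
  rw [integral_const_mul]
  congr 1
  exact integral_integral_swap hH

theorem fiber_integrable {V : Type*} [NormedAddCommGroup V] [NormedSpace ℝ V]
    [FiniteDimensional ℝ V] [MeasurableSpace V] [BorelSpace V] {μ : Measure V}
    [IsFiniteMeasureOnCompacts μ] {H : V → ℝ} (hc : Continuous H) {b : ℝ}
    (hs : ∀ ξ, b < ‖ξ‖ → H ξ = 0) : Integrable H μ := by
  have : ProperSpace V := FiniteDimensional.proper ℝ V
  refine hc.integrable_of_hasCompactSupport ?_
  refine HasCompactSupport.of_support_subset_isCompact (isCompact_closedBall (0 : V) b) ?_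
  intro ξ hξ
  rw [Metric.mem_closedBall, dist_zero_right]
  by_contra h
  exact hξ (hs ξ (not_le.mp h))

variable {E : Type*} [NormedAddCommGroup E] [NormedSpace ℝ E] [FiniteDimensional ℝ E]
  {M : Type*} [MetricSpace M] [ChartedSpace E M]
  [RiemannianBundle (fun x : M => TangentSpace 𝓘(ℝ, E) x)]
  [IsManifold 𝓘(ℝ, E) ∞ M]
  [IsContMDiffRiemannianBundle 𝓘(ℝ, E) ∞ E (fun x : M => TangentSpace 𝓘(ℝ, E) x)]
  {e : ∀ x : M, TangentSpace 𝓘(ℝ, E) x → M}

/-- expansion in the chosen frame -/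
theorem fiber_fr_eq_sum (x : M) (ξ : Eu E) :
    fr x ξ = ∑ j, ξ j • fr x (EuclideanSpace.single j (1 : ℝ)) := by
  have h : ξ = ∑ j, ξ j • (EuclideanSpace.single j (1 : ℝ) : Eu E) := by
    have h0 := (EuclideanSpace.basisFun (Fin (finrank ℝ E)) ℝ).sum_repr ξ
    simpa only [EuclideanSpace.basisFun_repr, EuclideanSpace.basisFun_apply] using h0.symm
  conv_lhs => rw [h]
  rw [map_sum]
  simp only [map_smul]

theorem fiber_cont_mk {P : Type*} [TopologicalSpace P] {G : P → M → E → ℝ}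
    (hG : Continuous fun q : P × TangentBundle 𝓘(ℝ, E) M => G q.1 q.2.proj q.2.snd) (x : M) :
    Continuous fun q : P × Eu E => G q.1 x (fr x q.2) := by
  have h1 : Continuous fun ξ : Eu E =>
      (⟨x, fr (E := E) (M := M) x ξ⟩ : TangentBundle 𝓘(ℝ, E) M) :=
    (FiberBundle.continuous_totalSpaceMk E (TangentSpace 𝓘(ℝ, E)) x).comp
      (fr (E := E) (M := M) x).continuous
  exact hG.comp (continuous_fst.prodMk (h1.comp continuous_snd))

/-- uniform boundedness along convergent sequences of parameters -/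
theorem fiber_bdd [CompactSpace M] {P : Type*} [TopologicalSpace P] {G : P → M → E → ℝ}
    (hG : Continuous fun q : P × TangentBundle 𝓘(ℝ, E) M => G q.1 q.2.proj q.2.snd)
    {b : ℝ} (hs : ∀ p x v, b < nm x v → G p x v = 0) (p : ℕ → P) (p₀ : P)
    (hp : Tendsto p atTop (𝓝 p₀)) :
    ∃ C : ℝ, 0 ≤ C ∧ ∀ᶠ k in atTop, ∀ x v, |G (p k) x v| ≤ C := by
  by_contra hcon
  push Not at hcon
  have h1 : ∀ n : ℕ, ∃ᶠ k in atTop, ∃ x v, (n : ℝ) < |G (p k) x v| := fun n => by
    have := hcon n (Nat.cast_nonneg n)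
    exact this
  obtain ⟨φ, hφ, h2⟩ := extraction_forall_of_frequently h1
  choose x v hxv using h2
  have h3 : ∀ n, nm (x n) (v n) ≤ b := by
    intro n
    by_contra h
    have h0 := hs (p (φ n)) (x n) (v n) (not_le.mp h)
    have h4 := hxv n
    rw [h0, abs_zero] at h4
    exact absurd h4 (not_lt.mpr (Nat.cast_nonneg n))
  obtain ⟨z₀, v₀, ψ, hψ, hlim⟩ := exists_tendstoTB (E := E) (M := M) x (fun n => (v n : E)) b h3
  have h5 : Tendsto (fun n => G (p (φ (ψ n))) (x (ψ n)) (v (ψ n))) atTop (𝓝 (G p₀ z₀ v₀)) := by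
    have h6 : Tendsto (fun n => (p (φ (ψ n)), (⟨x (ψ n), (v (ψ n) : E)⟩ :
        TangentBundle 𝓘(ℝ, E) M))) atTop (𝓝 (p₀, (⟨z₀, v₀⟩ : TangentBundle 𝓘(ℝ, E) M))) :=
      ((hp.comp hφ.tendsto_atTop).comp hψ.tendsto_atTop).prodMk_nhds hlim
    exact (hG.tendsto (p₀, (⟨z₀, v₀⟩ : TangentBundle 𝓘(ℝ, E) M))).comp h6
  have h7 : Tendsto (fun n => |G (p (φ (ψ n))) (x (ψ n)) (v (ψ n))|) atTop atTop := by
    refine tendsto_atTop_mono (fun n => (hxv (ψ n)).le) ?_
    exact tendsto_natCast_atTop_atTop.comp hψ.tendsto_atTop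
  exact not_tendsto_atTop_of_tendsto_nhds h5.abs h7

theorem fiber_iso_integral {f g : Eu E → E} (x : M) (hg : ∀ ξ, g ξ = fr x ξ)
    (hf : ∃ L : Eu E →ₗ[ℝ] E, ∀ ξ, f ξ = L ξ) (hn : ∀ ξ, nm x (f ξ) = ‖ξ‖) (H : E → ℝ) :
    ∫ ξ : Eu E, H (f ξ) = ∫ ξ : Eu E, H (g ξ) := by
  obtain ⟨L, hL⟩ := hf
  let A : Eu E →ₗ[ℝ] Eu E := ((fr x).symm.toLinearMap).comp L
  have hA : ∀ ξ, ‖A ξ‖ = ‖ξ‖ := by
    intro ξ
    rw [← nm_fr x (A ξ)]
    have : fr x (A ξ) = f ξ := by
      rw [hL]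
      exact (fr x).apply_symm_apply (L ξ)
    rw [this, hn]
  let I : Eu E →ₗᵢ[ℝ] Eu E := ⟨A, hA⟩
  let J : Eu E ≃ₗᵢ[ℝ] Eu E := I.toLinearIsometryEquiv rfl
  have hJ : ∀ ξ, f ξ = g (J ξ) := by
    intro ξ
    rw [hg]
    have : fr x (A ξ) = f ξ := by
      rw [hL]
      exact (fr x).apply_symm_apply (L ξ)
    exact this.symm
  simp_rw [hJ]
  exact J.measurePreserving.integral_comp J.toHomeomorph.measurableEmbedding (fun ξ => H (g ξ))

/-- fibre integrals of a jointly continuous function, uniformly compactly supported along the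
fibres, depend continuously on the parameter and the base point -/
theorem continuous_fint [CompactSpace M] {P : Type*} [TopologicalSpace P]
    [FirstCountableTopology P] {G : P → M → E → ℝ}
    (hG : Continuous fun q : P × TangentBundle 𝓘(ℝ, E) M => G q.1 q.2.proj q.2.snd)
    {b : ℝ} (hs : ∀ p x v, b < nm x v → G p x v = 0) :
    Continuous fun q : P × M => fint (G q.1) q.2 := by
  rw [continuous_iff_seqContinuous]
  intro q q₀ hq
  have hp : Tendsto (fun k => (q k).1) atTop (𝓝 q₀.1) := (continuous_fst.tendsto q₀).comp hq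
  have hx : Tendsto (fun k => (q k).2) atTop (𝓝 q₀.2) := (continuous_snd.tendsto q₀).comp hq
  refine tendsto_of_subseq_tendsto fun ns hns => ?_
  obtain ⟨z₀, v₀, φ, hφ, hz, hlim⟩ := exists_tendstoTB_fin (E := E) (M := M)
    (ι := Fin (finrank ℝ E)) (fun k => (q (ns k)).2)
    (fun k j => (fr (q (ns k)).2 (EuclideanSpace.single j (1 : ℝ)) : E)) 1 (by
      intro k j
      have h := nm_fr (q (ns k)).2 (EuclideanSpace.single j (1 : ℝ) : Eu E)
      have h2 : ‖(EuclideanSpace.single j (1 : ℝ) : Eu E)‖ = 1 := by simp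
      rw [h2] at h
      exact h.le)
  have hz0 : z₀ = q₀.2 := by
    have h1 : Tendsto (fun k => (q (ns (φ k))).2) atTop (𝓝 q₀.2) :=
      (hx.comp hns).comp hφ.tendsto_atTop
    exact tendsto_nhds_unique hz h1
  subst hz0
  have hpφ : Tendsto (fun k => (q (ns (φ k))).1) atTop (𝓝 q₀.1) :=
    (hp.comp hns).comp hφ.tendsto_atTop
  let f : Eu E → E := fun ξ => ∑ j, ξ j • (v₀ j : E)
  have hfTB : ∀ ξ : Eu E, TendstoTB (E := E) (M := M) (z := fun k => (q (ns (φ k))).2)
      (fun k => (fr (q (ns (φ k))).2 ξ : E)) (z₀ := q₀.2) (f ξ : E) := by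
    intro ξ
    have h1 := TendstoTB.sum (E := E) (M := M) (ι := Fin (finrank ℝ E))
      (z := fun k => (q (ns (φ k))).2) (z₀ := q₀.2)
      (w := fun k j => (fr (q (ns (φ k))).2 (EuclideanSpace.single j (1 : ℝ)) : E))
      (w₀ := v₀) (c := fun _ j => ξ j) (c₀ := fun j => ξ j) hz hlim
      (fun j => tendsto_const_nhds)
    have h2 : (fun k => (fr (q (ns (φ k))).2 ξ : E)) =
        fun k => ∑ j, ξ j • (fr (q (ns (φ k))).2 (EuclideanSpace.single j (1 : ℝ)) : E) :=
      funext fun k => fiber_fr_eq_sum _ _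
    rw [h2]
    exact h1
  have hfn : ∀ ξ, nm q₀.2 (f ξ) = ‖ξ‖ := by
    intro ξ
    have h1 := (hfTB ξ).norm
    have h2 : Tendsto (fun k => nm (q (ns (φ k))).2 (fr (q (ns (φ k))).2 ξ)) atTop
        (𝓝 (nm q₀.2 (f ξ))) := h1
    simp only [nm_fr] at h2
    exact (tendsto_nhds_unique h2 tendsto_const_nhds)
  have hint : fint (G q₀.1) q₀.2 = ∫ ξ : Eu E, G q₀.1 q₀.2 (f ξ) := by
    symm
    refine fiber_iso_integral (E := E) (M := M) (f := f) (g := fun ξ => fr q₀.2 ξ) q₀.2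
      (fun _ => rfl) ⟨∑ j, (LinearMap.toSpanSingleton ℝ E (v₀ j)).comp
        (EuclideanSpace.proj j : Eu E →L[ℝ] ℝ).toLinearMap, fun ξ => ?_⟩ hfn (G q₀.1 q₀.2)
    rw [LinearMap.sum_apply]
    rfl
  refine ⟨φ, ?_⟩
  show Tendsto (fun k => fint (G (q (ns (φ k))).1) (q (ns (φ k))).2) atTop
    (𝓝 (fint (G q₀.1) q₀.2))
  rw [hint]
  obtain ⟨C, hC, hbd⟩ := fiber_bdd hG hs (fun k => (q (ns (φ k))).1) q₀.1 hpφ
  unfold fint
  refine tendsto_integral_filter_of_dominated_convergence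
    ((Metric.closedBall (0 : Eu E) b).indicator fun _ => C) ?_ ?_ ?_ ?_
  · refine Eventually.of_forall fun k => ?_
    exact ((fiber_cont_mk hG (q (ns (φ k))).2).comp
      (Continuous.prodMk_right (q (ns (φ k))).1)).aestronglyMeasurable
  · filter_upwards [hbd] with k hk
    refine Eventually.of_forall fun ξ => ?_
    by_cases hξ : ξ ∈ Metric.closedBall (0 : Eu E) b
    · rw [indicator_of_mem hξ]
      exact hk _ _
    · rw [indicator_of_notMem hξ]
      rw [Metric.mem_closedBall, dist_zero_right, not_le] at hξ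
      rw [hs _ _ _ (by rw [nm_fr]; exact hξ), norm_zero]
  · exact (integrable_indicator_iff Metric.isClosed_closedBall.measurableSet).2
      (integrableOn_const (hs := (isCompact_closedBall (0 : Eu E) b).measure_lt_top.ne))
  · refine Eventually.of_forall fun ξ => ?_
    have h6 : Tendsto (fun k => ((q (ns (φ k))).1,
        (⟨(q (ns (φ k))).2, (fr (q (ns (φ k))).2 ξ : E)⟩ : TangentBundle 𝓘(ℝ, E) M))) atTop
        (𝓝 (q₀.1, (⟨q₀.2, (f ξ : E)⟩ : TangentBundle 𝓘(ℝ, E) M))) :=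
      hpφ.prodMk_nhds (hfTB ξ)
    exact (hG.tendsto (q₀.1, (⟨q₀.2, (f ξ : E)⟩ : TangentBundle 𝓘(ℝ, E) M))).comp h6

theorem ContTB.cont_fr {G : M → E → ℝ} (hG : ContTB G) (x : M) :
    Continuous fun ξ : Eu E => G x (fr x ξ) := by
  have h1 : Continuous fun ξ : Eu E =>
      (⟨x, fr (E := E) (M := M) x ξ⟩ : TangentBundle 𝓘(ℝ, E) M) :=
    (FiberBundle.continuous_totalSpaceMk E (TangentSpace 𝓘(ℝ, E)) x).comp
      (fr (E := E) (M := M) x).continuous
  exact Continuous.comp (g := fun p : TangentBundle 𝓘(ℝ, E) M => G p.proj p.snd) hG h1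

theorem ContTB.bdd [CompactSpace M] {G : M → E → ℝ} (hG : ContTB G) {b : ℝ}
    (hs : ∀ x v, b < nm x v → G x v = 0) : ∃ C : ℝ, ∀ x v, |G x v| ≤ C := by
  have hG' : Continuous fun q : Unit × TangentBundle 𝓘(ℝ, E) M =>
      (fun (_ : Unit) => G) q.1 q.2.proj q.2.snd :=
    Continuous.comp (g := fun p : TangentBundle 𝓘(ℝ, E) M => G p.proj p.snd) hG continuous_snd
  obtain ⟨C, -, h⟩ := fiber_bdd (P := Unit) (G := fun _ => G) hG' (fun _ => hs)
    (fun _ => ()) () tendsto_const_nhds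
  obtain ⟨k, hk⟩ := h.exists
  exact ⟨C, hk⟩

theorem ContTB.integrable [CompactSpace M] {G : M → E → ℝ} (hG : ContTB G) {b : ℝ}
    (hs : ∀ x v, b < nm x v → G x v = 0) (x : M) :
    Integrable fun ξ : Eu E => G x (fr x ξ) :=
  fiber_integrable (hG.cont_fr x) (fun ξ hξ => hs x _ (by rw [nm_fr]; exact hξ))

/-- Fubini for a compact interval of parameters -/
theorem liou_interval [CompactSpace M] [MeasurableSpace M] [BorelSpace M]
    [IsFiniteMeasure (riemVol (finrank ℝ E) M)] {G : ℝ → M → E → ℝ}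
    (hG : Continuous fun q : ℝ × TangentBundle 𝓘(ℝ, E) M => G q.1 q.2.proj q.2.snd)
    {b : ℝ} (hs : ∀ p x v, b < nm x v → G p x v = 0) (S T : ℝ) :
    ∫ s in S..T, liou (G s) = liou fun x v => ∫ s in S..T, G s x v := by
  -- the fibre direction
  have h1 : ∀ x : M, fint (fun x v => ∫ s in S..T, G s x v) x = ∫ s in S..T, fint (G s) x := by
    intro x
    unfold fint
    symm
    refine fiber_swap (volume : Measure (Eu E)) (fun s ξ => G s x (fr x ξ)) S T ?_
    have hc := fiber_cont_mk hG x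
    have hK : IsCompact (uIcc S T ×ˢ Metric.closedBall (0 : Eu E) b) :=
      isCompact_uIcc.prod (isCompact_closedBall _ _)
    have h2 : IntegrableOn (fun q : ℝ × Eu E => G q.1 x (fr x q.2))
        (uIcc S T ×ˢ Metric.closedBall (0 : Eu E) b) (volume.prod volume) :=
      hc.continuousOn.integrableOn_compact hK
    have h3 : IntegrableOn (fun q : ℝ × Eu E => G q.1 x (fr x q.2))
        (uIcc S T ×ˢ (univ : Set (Eu E))) (volume.prod volume) := by
      refine h2.of_forall_diff_eq_zero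
        (measurableSet_uIcc.prod MeasurableSet.univ) ?_
      rintro ⟨s, ξ⟩ ⟨hq1, hq2⟩
      have hξ : ξ ∉ Metric.closedBall (0 : Eu E) b := fun h => hq2 ⟨hq1.1, h⟩
      rw [Metric.mem_closedBall, dist_zero_right, not_le] at hξ
      exact hs _ _ _ (by rw [nm_fr]; exact hξ)
    have h4 : IntegrableOn (fun q : ℝ × Eu E => G q.1 x (fr x q.2))
        (uIoc S T ×ˢ (univ : Set (Eu E))) (volume.prod volume) :=
      h3.mono_set (Set.prod_mono uIoc_subset_uIcc le_rfl)
    rw [IntegrableOn, ← Measure.prod_restrict, Measure.restrict_univ] at h4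
    exact h4
  unfold liou
  simp_rw [h1]
  refine fiber_swap (riemVol (finrank ℝ E) M) (fun s x => fint (G s) x) S T ?_
  have hc := continuous_fint hG hs
  have hK : IsCompact (uIcc S T ×ˢ (univ : Set M)) := isCompact_uIcc.prod isCompact_univ
  have h2 : IntegrableOn (fun q : ℝ × M => fint (G q.1) q.2) (uIcc S T ×ˢ (univ : Set M))
      (volume.prod (riemVol (finrank ℝ E) M)) :=
    hc.continuousOn.integrableOn_compact hK
  have h4 : IntegrableOn (fun q : ℝ × M => fint (G q.1) q.2) (uIoc S T ×ˢ (univ : Set M))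
      (volume.prod (riemVol (finrank ℝ E) M)) :=
    h2.mono_set (Set.prod_mono uIoc_subset_uIcc le_rfl)
  rw [IntegrableOn, ← Measure.prod_restrict, Measure.restrict_univ] at h4
  exact h4

end

end Vale.Agent.P231
end
end
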