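import Mathlib
import Vale.Agent.P231.Bdl.B1
import Vale.Agent.P234.Bd3.B3

set_option linter.all false

section

section

/-! P231 core: the local axioms imply the Jacobi data. -/

open Matrix Real Set Filter Topology MeasureTheory
open scoped ContDiff

namespace Vale.Agent.P231

noncomputable section

section aux
variable {ι : Type*} [Fintype ι] [DecidableEq ι]

lemma local_mul_inv {M : Matrix ι ι ℝ} (h : IsUnit M) : M * M⁻¹ = 1 :=
  Matrix.mul_nonsing_inv M ((Matrix.isUnit_iff_isUnit_det M).mp h)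

lemma local_inv_mul {M : Matrix ι ι ℝ} (h : IsUnit M) : M⁻¹ * M = 1 :=
  Matrix.nonsing_inv_mul M ((Matrix.isUnit_iff_isUnit_det M).mp h)

lemma local_neg_inv {M : Matrix ι ι ℝ} (h : IsUnit M) : (-M)⁻¹ = -M⁻¹ := by
  apply Matrix.inv_eq_right_inv
  rw [neg_mul_neg, local_mul_inv h]

lemma local_isUnit_neg_transpose {M : Matrix ι ι ℝ} (h : IsUnit M) : IsUnit (-(M.transpose)) := by
  apply IsUnit.neg
  rw [Matrix.isUnit_iff_isUnit_det, Matrix.det_transpose]
  exact (Matrix.isUnit_iff_isUnit_det M).mp h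

lemma local_cancel {M N : Matrix ι ι ℝ} (h : IsUnit M) (h0 : M * N = 0) : N = 0 := by
  have : M⁻¹ * (M * N) = 0 := by rw [h0, mul_zero]
  rwa [← mul_assoc, local_inv_mul h, one_mul] at this

end aux

theorem JData.of_local {ι : Type*} [Fintype ι] [DecidableEq ι] {D ρ : ℝ}
    {A : ℝ → ℝ → Matrix ι ι ℝ} (hD : 0 < D) (hρ : 0 < ρ)
    (diag : ∀ s, A s s = 0)
    (anti : ∀ s t, |t - s| < ρ → A t s = -(A s t).transpose)
    (rel : ∀ a b, a < b → b < a + ρ → ∀ s, ∃ X Z : Matrix ι ι ℝ,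
      ∀ t, A s t = A a t * X + A b t * Z)
    (smooth : ∀ a b i j, ContDiff ℝ ∞ (fun t => ((A a t).transpose * A b t) i j))
    (der : ∀ a b i j, HasDerivAt (fun t => ((A a t).transpose * A b t) i j) (A a b j i) b)
    (per : ∀ s t, A s (t + 2 * D) = A s t)
    (per' : ∀ s t, A (s + 2 * D) t = A s t)
    (unit : ∀ s t, s < t → t < s + D → IsUnit (A s t)) : JData D A := by
  set σ : ℝ := min ρ D with hσ
  have hσ0 : 0 < σ := lt_min hρ hD
  have hσρ : σ ≤ ρ := min_le_left _ _
  have hσD : σ ≤ D := min_le_right _ _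
  -- close pairs
  have hu : ∀ a b, a < b → b < a + σ → IsUnit (A a b) := fun a b h1 h2 =>
    unit a b h1 (by linarith only [hσD, h2])
  have hu' : ∀ a b, a < b → b < a + σ → IsUnit (A b a) := fun a b h1 h2 => by
    rw [anti a b (by rw [abs_of_pos (by linarith only [h1])]; linarith only [hσρ, h2])]
    exact local_isUnit_neg_transpose (hu a b h1 h2)
  have close : ∀ a b, a < b → b < a + σ → ∀ s t,
      A s t = A a t * (A a b)⁻¹ * A s b + A b t * (A b a)⁻¹ * A s a := by
    intro a b h1 h2 s t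
    obtain ⟨X, Z, h⟩ := rel a b h1 (by linarith only [hσρ, h2]) s
    have hZ : Z = (A b a)⁻¹ * A s a := by
      rw [h a, diag, zero_mul, zero_add, ← mul_assoc, local_inv_mul (hu' a b h1 h2), one_mul]
    have hX : X = (A a b)⁻¹ * A s b := by
      rw [h b, diag, zero_mul, add_zero, ← mul_assoc, local_inv_mul (hu a b h1 h2), one_mul]
    rw [h t, mul_assoc, mul_assoc, ← hX, ← hZ]
  -- antisymmetry at all distances
  have hanti : ∀ n : ℕ, ∀ s t, |t - s| < (3 / 2) ^ n * σ → A t s = -(A s t).transpose := by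
    intro n
    induction n with
    | zero =>
      intro s t h
      exact anti s t (by rw [pow_zero, one_mul] at h; linarith only [hσρ, h])
    | succ n ih =>
      -- it is enough to treat `s < t`
      have key : ∀ s t, s < t → t - s < (3 / 2) ^ (n + 1) * σ → A t s = -(A s t).transpose := by
        intro s t hst h
        set R : ℝ := (3 / 2) ^ n * σ with hR
        have hR' : (3 / 2 : ℝ) ^ (n + 1) * σ = 3 / 2 * R := by rw [hR, pow_succ]; ring
        rw [hR'] at h
        have hσR : σ ≤ R := by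
          have : (1 : ℝ) ≤ (3 / 2) ^ n := one_le_pow₀ (by norm_num)
          nlinarith only [hσ0, this]
        set a : ℝ := (s + t) / 2 with ha
        set b : ℝ := (s + t) / 2 + min (σ / 8) ((t - s) / 8) with hb
        have hm1 : min (σ / 8) ((t - s) / 8) ≤ σ / 8 := min_le_left _ _
        have hm2 : min (σ / 8) ((t - s) / 8) ≤ (t - s) / 8 := min_le_right _ _
        have hm0 : 0 < min (σ / 8) ((t - s) / 8) := lt_min (by linarith only [hσ0]) (by linarith only [hst])
        have hab : a < b := by rw [ha, hb]; linarith only [hm0]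
        have hab' : b < a + σ := by rw [ha, hb]; linarith only [hm1, hm0]
        have d1 : A t b = -(A b t).transpose := ih b t (by
          rw [abs_of_pos (by rw [hb]; linarith only [hm2, hm0])]; rw [hb]; linarith only [h, hσR, hm1, hm0])
        have d2 : A t a = -(A a t).transpose := ih a t (by
          rw [abs_of_pos (by rw [ha]; linarith only [hst])]; rw [ha]; linarith only [h, hσR, hm1, hm0])
        have d3 : A a s = -(A s a).transpose := ih s a (by
          rw [abs_of_pos (by rw [ha]; linarith only [hst])]; rw [ha]; linarith only [h, hσR, hm1, hm0])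
        have d4 : A b s = -(A s b).transpose := ih s b (by
          rw [abs_of_pos (by rw [hb]; linarith only [hst, hm0])]; rw [hb]; linarith only [h, hσR, hm1, hm0])
        have d5 : A b a = -(A a b).transpose := ih a b (by
          rw [abs_of_pos (by linarith only [hm0])]; linarith only [hσR, hm1, hm0])
        have u1 := hu a b hab hab'
        have u2 := hu' a b hab hab'
        have e1 : ((A a b)⁻¹).transpose = -(A b a)⁻¹ := by
          rw [Matrix.transpose_nonsing_inv, d5, local_neg_inv, neg_neg]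
          rw [Matrix.isUnit_iff_isUnit_det, Matrix.det_transpose]
          exact (Matrix.isUnit_iff_isUnit_det _).mp u1
        have e2 : ((A b a)⁻¹).transpose = -(A a b)⁻¹ := by
          have := congrArg Matrix.transpose e1
          rw [Matrix.transpose_transpose, Matrix.transpose_neg] at this
          rw [this, neg_neg]
        have f1 := close a b hab hab' s t
        have f2 := close a b hab hab' t s
        rw [f2, f1, d1, d2, d3, d4]
        simp only [Matrix.transpose_add, Matrix.transpose_mul, e1, e2, Matrix.neg_mul,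
          Matrix.mul_neg, neg_neg, neg_add, mul_assoc]
        rw [add_comm]
      intro s t h
      rcases lt_trichotomy s t with hst | hst | hst
      · exact key s t hst (by rwa [abs_of_pos (by linarith only [hst])] at h)
      · subst hst
        rw [diag]; simp
      · have := key t s hst (by rw [abs_sub_comm] at h; rwa [abs_of_pos (by linarith only [hst])] at h)
        rw [this]; simp
  have hanti' : ∀ s t, A t s = -(A s t).transpose := by
    intro s t
    obtain ⟨n, hn⟩ := pow_unbounded_of_one_lt (|t - s| / σ) (by norm_num : (1 : ℝ) < 3 / 2)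
    exact hanti n s t (by rwa [div_lt_iff₀ hσ0] at hn)
  refine ⟨hD, diag, fun s t => hanti' s t, ?_, smooth, der, per, unit⟩
  intro s t a b hab
  have hba : IsUnit (A b a) := by
    rw [hanti' a b]
    exact local_isUnit_neg_transpose hab
  obtain ⟨P1, Q1, h1⟩ := rel a (a + σ / 2) (by linarith only [hσ0]) (by linarith only [hρ, hσρ]) s
  obtain ⟨P2, Q2, h2⟩ := rel a (a + σ / 2) (by linarith) (by linarith only [hρ, hσρ]) b
  set X := (A a b)⁻¹ * A s b with hX
  set Z := (A b a)⁻¹ * A s a with hZ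
  set P := P1 - X - P2 * Z with hP
  set Q := Q1 - Q2 * Z with hQ
  have hΔ : ∀ t, A s t - A a t * X - A b t * Z = A a t * P + A (a + σ / 2) t * Q := by
    intro t
    rw [h1 t, h2 t, hP, hQ]
    noncomm_ring
  have hQ0 : Q = 0 := by
    have h3 := hΔ a
    rw [diag, zero_mul, zero_mul, zero_add, sub_zero, hZ, ← mul_assoc, local_mul_inv hba,
      one_mul, sub_self] at h3
    exact local_cancel (hu' a (a + σ / 2) (by linarith only [hσ0]) (by linarith only [hσ0])) h3.symm
  have hP0 : P = 0 := by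
    have h3 := hΔ b
    rw [hQ0, mul_zero, add_zero, diag, zero_mul, sub_zero, hX, ← mul_assoc, local_mul_inv hab,
      one_mul, sub_self] at h3
    exact local_cancel hab h3.symm
  have h4 := hΔ t
  rw [hP0, hQ0, mul_zero, mul_zero, add_zero] at h4
  rw [mul_assoc, mul_assoc, ← hX, ← hZ]
  have h5 : A s t = (A s t - A a t * X - A b t * Z) + (A a t * X + A b t * Z) := by abel
  rw [h5, h4, zero_add]

end

end Vale.Agent.P231
end
end

section

section

set_option maxSynthPendingDepth 3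

open Bundle Manifold Set Filter
open scoped ContDiff Manifold Topology

namespace Vale.Agent.P231

noncomputable section

open Vale.Agent.P234

/-- a smooth curve in the tangent bundle of a vector space -/
theorem contMDiff_curve_mk {V : Type*} [NormedAddCommGroup V] [NormedSpace ℝ V] {c d : ℝ → V}
    (hc : ContDiff ℝ ∞ c) (hd : ContDiff ℝ ∞ d) :
    ContMDiff 𝓘(ℝ, ℝ) 𝓘(ℝ, V).tangent ∞ (fun t : ℝ => (⟨c t, d t⟩ : TangentBundle 𝓘(ℝ, V) V)) := by
  intro t
  rw [Bundle.contMDiffAt_totalSpace]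
  refine ⟨hc.contMDiff.contMDiffAt, ?_⟩
  refine (hd.contMDiff.contMDiffAt (x := t)).congr_of_eventuallyEq
    (Filter.Eventually.of_forall fun w => ?_)
  simp

theorem contDiff_line {V : Type*} [NormedAddCommGroup V] [NormedSpace ℝ V] (v : V) (a : ℝ) :
    ContDiff ℝ ∞ (fun t : ℝ => (t - a) • v) :=
  (contDiff_id.sub contDiff_const).smul contDiff_const

theorem contDiff_line0 {V : Type*} [NormedAddCommGroup V] [NormedSpace ℝ V] (v : V) :
    ContDiff ℝ ∞ (fun t : ℝ => t • v) :=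
  contDiff_id.smul contDiff_const

theorem contDiff_cst {V : Type*} [NormedAddCommGroup V] [NormedSpace ℝ V] (v : V) :
    ContDiff ℝ ∞ (fun _ : ℝ => v) :=
  contDiff_const

variable {E : Type*} [NormedAddCommGroup E] [NormedSpace ℝ E] [FiniteDimensional ℝ E]
  {M : Type*} [MetricSpace M] [ChartedSpace E M]
  [RiemannianBundle (fun x : M => TangentSpace 𝓘(ℝ, E) x)]
  [IsManifold 𝓘(ℝ, E) ∞ M]
  [IsContMDiffRiemannianBundle 𝓘(ℝ, E) ∞ E (fun x : M => TangentSpace 𝓘(ℝ, E) x)]
  {e : ∀ x : M, TangentSpace 𝓘(ℝ, E) x → M}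

/-- the differential of the exponential map along smooth curves of vectors -/
theorem contMDiff_dE (he : IsExp e) (y : M) {c d : ℝ → TangentSpace 𝓘(ℝ, E) y}
    (hc : ContDiff ℝ ∞ c) (hd : ContDiff ℝ ∞ d) :
    ContMDiff 𝓘(ℝ, ℝ) 𝓘(ℝ, E).tangent ∞
      (fun t : ℝ => tb (e y (c t)) (dE e y (c t) (d t))) := by
  have h1 := contMDiff_curve_mk hc hd
  have h2 : ContMDiff 𝓘(ℝ, TangentSpace 𝓘(ℝ, E) y).tangent 𝓘(ℝ, E).tangent ∞
      (tangentMap 𝓘(ℝ, TangentSpace 𝓘(ℝ, E) y) 𝓘(ℝ, E) (e y)) :=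
    (contMDiff_exp_fiber he y).contMDiff_tangentMap (by simp)
  exact h2.comp h1

omit [FiniteDimensional ℝ E] [RiemannianBundle fun x : M => TangentSpace 𝓘(ℝ, E) x]
  [IsManifold 𝓘(ℝ, E) ∞ M]
  [IsContMDiffRiemannianBundle 𝓘(ℝ, E) ∞ E fun x : M => TangentSpace 𝓘(ℝ, E) x] in
theorem tb_congr {x x' : M} {v v' : E} (h : x = x') (h' : v = v') : tb x v = tb x' v' := by
  rw [h, h']

/-- Jacobi fields are smooth sections along the geodesic -/
theorem contMDiff_jf (F : Facts e) (x : M) (u : E) (a : ℝ) (w : E) :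
    ContMDiff 𝓘(ℝ, ℝ) 𝓘(ℝ, E).tangent ∞
      (fun t : ℝ => tb (gam e x u t) (jf e x u a t w)) := by
  have hc := contDiff_line (V := TangentSpace 𝓘(ℝ, E) (gam e x u a)) (vel (E := E) e x u a : E) a
  have hd := contDiff_line (V := TangentSpace 𝓘(ℝ, E) (gam e x u a)) w a
  have h := contMDiff_dE F.isExp (gam e x u a) hc hd
  refine h.congr fun t => ?_
  refine tb_congr ?_ ?_
  · have := gam_flow F x u a (t - a)
    rw [add_sub_cancel] at this
    exact this.symm
  · exact (dE_smul e (gam e x u a) _ w (t - a)).symm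

theorem contMDiff_vel (F : Facts e) (x : M) (u : E) :
    ContMDiff 𝓘(ℝ, ℝ) 𝓘(ℝ, E).tangent ∞
      (fun t : ℝ => tb (gam e x u t) (vel e x u t)) := by
  have hc := contDiff_line0 (V := TangentSpace 𝓘(ℝ, E) x) u
  have hd := contDiff_cst (V := TangentSpace 𝓘(ℝ, E) x) u
  exact contMDiff_dE F.isExp x hc hd

omit [FiniteDimensional ℝ E] in
theorem contDiff_ip_tb {c : ℝ → M} {v w : ℝ → E}
    (hv : ContMDiff 𝓘(ℝ, ℝ) 𝓘(ℝ, E).tangent ∞ (fun t : ℝ => tb (c t) (v t)))
    (hw : ContMDiff 𝓘(ℝ, ℝ) 𝓘(ℝ, E).tangent ∞ (fun t : ℝ => tb (c t) (w t))) :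
    ContDiff ℝ ∞ (fun t => ip (c t) (v t) (w t)) := by
  have h := ContMDiff.inner_bundle (E := fun x : M => TangentSpace 𝓘(ℝ, E) x) (b := c)
    (v := v) (w := w) hv hw
  exact h.contDiff

theorem contDiff_ip_jf (F : Facts e) (x : M) (u : E) (a b : ℝ) (w z : E) :
    ContDiff ℝ ∞ (fun t => ip (gam e x u t) (jf e x u a t w) (jf e x u b t z)) :=
  contDiff_ip_tb (contMDiff_jf F x u a w) (contMDiff_jf F x u b z)

theorem contDiff_ip_jf_vel (F : Facts e) (x : M) (u : E) (a : ℝ) (w : E) :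
    ContDiff ℝ ∞ (fun t => ip (gam e x u t) (jf e x u a t w) (vel e x u t)) :=
  contDiff_ip_tb (contMDiff_jf F x u a w) (contMDiff_vel F x u)

omit [FiniteDimensional ℝ E] [IsManifold 𝓘(ℝ, E) ∞ M]
  [IsContMDiffRiemannianBundle 𝓘(ℝ, E) ∞ E fun x : M => TangentSpace 𝓘(ℝ, E) x] in
theorem ip_smul_right (x : M) (c : ℝ) (v w : E) : ip x v (c • w) = c * ip x v w := by
  unfold ip
  exact real_inner_smul_right (F := TangentSpace 𝓘(ℝ, E) x) _ _ _

theorem hasDerivAt_ip_jf (F : Facts e) (x : M) (u : E) (a b : ℝ) (w z : E) :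
    HasDerivAt (fun t => ip (gam e x u t) (jf e x u a t w) (jf e x u b t z))
      (ip (gam e x u b) (jf e x u a b w) z) b := by
  have hY : ContMDiff 𝓘(ℝ, ℝ) 𝓘(ℝ, E).tangent ∞
      (fun t : ℝ => tb (gam e x u t) (dE e (gam e x u b) ((t - b) • vel e x u b) z)) := by
    have hc := contDiff_line (V := TangentSpace 𝓘(ℝ, E) (gam e x u b)) (vel (E := E) e x u b : E) b
    have hd := contDiff_cst (V := TangentSpace 𝓘(ℝ, E) (gam e x u b)) z
    have h := contMDiff_dE F.isExp (gam e x u b) hc hd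
    refine h.congr fun t => ?_
    refine tb_congr ?_ rfl
    have := gam_flow F x u b (t - b)
    rw [add_sub_cancel] at this
    exact this.symm
  have hg := contDiff_ip_tb (contMDiff_jf F x u a w) hY
  have hg' := (hg.differentiable (by simp)).differentiableAt (x := b)
  have h1 : HasDerivAt (fun t : ℝ => t - b) 1 b := (hasDerivAt_id b).sub_const b
  have h2 := h1.mul hg'.hasDerivAt
  have h3 : (fun t => ip (gam e x u t) (jf e x u a t w) (jf e x u b t z)) =
      (fun t : ℝ => t - b) * (fun t => ip (gam e x u t) (jf e x u a t w)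
        (dE e (gam e x u b) ((t - b) • vel e x u b) z)) := by
    funext t
    rw [Pi.mul_apply, ← ip_smul_right]
    rfl
  rw [h3]
  refine h2.congr_deriv ?_
  rw [sub_self, zero_mul, add_zero, one_mul, zero_smul, dE_zero_base F.isExp]

end

end Vale.Agent.P231
end
end

section

section

/-! P231 geometry: symmetry of the mixed second derivative of the cost near the diagonal. -/

set_option maxSynthPendingDepth 3

open Bundle Manifold Set Filter
open scoped ContDiff Manifold Topology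

namespace Vale.Agent.P231

noncomputable section

open Vale.Agent.P234

variable {E : Type*} [NormedAddCommGroup E] [NormedSpace ℝ E] [FiniteDimensional ℝ E]
  {M : Type*} [MetricSpace M] [ChartedSpace E M]
  [RiemannianBundle (fun x : M => TangentSpace 𝓘(ℝ, E) x)]
  [IsManifold 𝓘(ℝ, E) ∞ M]
  [IsContMDiffRiemannianBundle 𝓘(ℝ, E) ∞ E (fun x : M => TangentSpace 𝓘(ℝ, E) x)]
  {e : ∀ x : M, TangentSpace 𝓘(ℝ, E) x → M}

theorem fderiv_apply_of_has {V : Type*} [NormedAddCommGroup V] [NormedSpace ℝ V] {f : V → ℝ}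
    {L : V →L[ℝ] ℝ} {c : V} (h : HasFDerivAt f L c) (z : V) : fderiv ℝ f c z = L z := by
  rw [h.fderiv]

/-- Raw gradient formula. -/
theorem fderiv_cost_raw (he : IsExp e) {y x : M} {c : TangentSpace 𝓘(ℝ, E) y}
    (hyx : e y c = x) (b : TangentSpace 𝓘(ℝ, E) x) (hb : b ∈ segMin e x)
    (hs : SmoothAt E x (e x b)) (z : TangentSpace 𝓘(ℝ, E) y) :
    fderiv ℝ (fun a' : TangentSpace 𝓘(ℝ, E) y => cost (e y a') (e x b)) c z =
      -inner ℝ b (show TangentSpace 𝓘(ℝ, E) x from dE (E := E) e y c z) := by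
  subst hyx
  exact fderiv_apply_of_has (hasFDerivAt_cost he y c b hb hs) z

/-- One mixed second derivative of the cost. -/
theorem hess_cost_mixed (he : IsExp e) {x y : M} {a : TangentSpace 𝓘(ℝ, E) x}
    {c : TangentSpace 𝓘(ℝ, E) y} (hxy : e x a = y) (hyx : e y c = x)
    (ha : ∀ᶠ a' in 𝓝 a, a' ∈ segMin e x) (hs : SmoothAt E x y)
    (w : TangentSpace 𝓘(ℝ, E) x) (z : TangentSpace 𝓘(ℝ, E) y) :
    hess (fun p : TangentSpace 𝓘(ℝ, E) y × TangentSpace 𝓘(ℝ, E) x =>
      cost (e y p.1) (e x p.2)) (c, a) (0, w) (z, 0) =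
        -inner ℝ w (show TangentSpace 𝓘(ℝ, E) x from dE (E := E) e y c z) := by
  have hF : ContDiffAt ℝ ∞ (fun p : TangentSpace 𝓘(ℝ, E) y × TangentSpace 𝓘(ℝ, E) x =>
      cost (e y p.1) (e x p.2)) (c, a) := by
    apply SmoothAt.coord he
    rw [hyx, hxy]
    exact hs
  refine hess_mixed hF z w ?_
  have hsm : ∀ᶠ b in 𝓝 a, SmoothAt E x (e x b) := by
    have h5 := hs.eventually
    have h6 : Tendsto (fun b : TangentSpace 𝓘(ℝ, E) x => (x, e x b)) (𝓝 a) (𝓝 (x, y)) := by
      have h7 : Continuous (e x) := (contMDiff_exp_fiber he x).continuous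
      have h9 : Continuous (fun b : TangentSpace 𝓘(ℝ, E) x => (x, e x b)) :=
        continuous_const.prodMk h7
      have h8 := h9.tendsto a
      rwa [hxy] at h8
    exact h6.eventually h5
  have hcont : Tendsto (fun s : ℝ => a + s • w) (𝓝 0) (𝓝 a) := by
    have : Continuous (fun s : ℝ => a + s • w) := by fun_prop
    have h4 := this.tendsto 0
    simpa only [zero_smul, add_zero] using h4
  set d : TangentSpace 𝓘(ℝ, E) x := show TangentSpace 𝓘(ℝ, E) x from dE (E := E) e y c z with hd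
  have hev : (fun s : ℝ => fderiv ℝ (fun a' : TangentSpace 𝓘(ℝ, E) y =>
      cost (e y a') (e x (a + s • w))) c z) =ᶠ[𝓝 0]
      fun s : ℝ => -(inner ℝ a d + s * inner ℝ w d) := by
    filter_upwards [hcont.eventually hsm, hcont.eventually ha] with s h8 h9
    rw [fderiv_cost_raw he hyx _ h9 h8, ← hd, inner_add_left, real_inner_smul_left]
  have h10 : HasDerivAt (fun s : ℝ => -(inner ℝ a d + s * inner ℝ w d))
      (-inner ℝ w d) 0 := by
    have h12 := (((hasDerivAt_id' (0:ℝ)).mul_const (inner ℝ w d)).const_add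
      (inner ℝ a d)).neg
    rw [one_mul] at h12
    exact h12
  exact h10.congr_of_eventuallyEq hev

/-- Symmetry of the mixed second derivative of the cost. -/
theorem two_point (he : IsExp e) {x y : M} {a : TangentSpace 𝓘(ℝ, E) x}
    {c : TangentSpace 𝓘(ℝ, E) y} (hxy : e x a = y) (hyx : e y c = x)
    (ha : ∀ᶠ a' in 𝓝 a, a' ∈ segMin e x) (hc : ∀ᶠ c' in 𝓝 c, c' ∈ segMin e y)
    (hs : SmoothAt E x y) (w : TangentSpace 𝓘(ℝ, E) x) (z : TangentSpace 𝓘(ℝ, E) y) :
    inner ℝ w (show TangentSpace 𝓘(ℝ, E) x from dE (E := E) e y c z) =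
      inner ℝ z (show TangentSpace 𝓘(ℝ, E) y from dE (E := E) e x a w) := by
  have h1 := hess_cost_mixed he hxy hyx ha hs w z
  have h2 := hess_cost_mixed he hyx hxy hc hs.symm z w
  have hF : ContDiffAt ℝ ∞ (fun p : TangentSpace 𝓘(ℝ, E) y × TangentSpace 𝓘(ℝ, E) x =>
      cost (e y p.1) (e x p.2)) (c, a) := by
    apply SmoothAt.coord he
    rw [hyx, hxy]
    exact hs
  have hF2 := hF.of_le two_le_infty
  have h3 := hess_comp_affine hF2 ((ContinuousLinearMap.snd ℝ (TangentSpace 𝓘(ℝ, E) x)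
    (TangentSpace 𝓘(ℝ, E) y)).prod (ContinuousLinearMap.fst ℝ (TangentSpace 𝓘(ℝ, E) x)
    (TangentSpace 𝓘(ℝ, E) y))) (a, c) 0 (by simp only [ContinuousLinearMap.prod_apply, ContinuousLinearMap.coe_snd', ContinuousLinearMap.coe_fst', zero_add]) (0, z) (w, 0)
  simp only [zero_add, ContinuousLinearMap.prod_apply, ContinuousLinearMap.coe_fst',
    ContinuousLinearMap.coe_snd'] at h3
  have h4 : (fun p : TangentSpace 𝓘(ℝ, E) x × TangentSpace 𝓘(ℝ, E) y =>
      cost (e y p.2) (e x p.1)) = fun p => cost (e x p.1) (e y p.2) := by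
    funext p
    exact cost_comm _ _
  rw [h4, h2, hess_symm hF2, h1] at h3
  linarith only [h3]

omit [FiniteDimensional ℝ E] [IsManifold 𝓘(ℝ, E) ∞ M]
  [IsContMDiffRiemannianBundle 𝓘(ℝ, E) ∞ E (fun x : M => TangentSpace 𝓘(ℝ, E) x)] in
theorem anti_ip_smul_left (x : M) (r : ℝ) (a b : E) : ip x (r • a) b = r * ip x a b :=
  real_inner_smul_left (F := TangentSpace 𝓘(ℝ, E) x) a b r

omit [FiniteDimensional ℝ E] [IsManifold 𝓘(ℝ, E) ∞ M]
  [IsContMDiffRiemannianBundle 𝓘(ℝ, E) ∞ E (fun x : M => TangentSpace 𝓘(ℝ, E) x)] in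
theorem anti_ip_smul_right (x : M) (r : ℝ) (a b : E) : ip x a (r • b) = r * ip x a b :=
  real_inner_smul_right (F := TangentSpace 𝓘(ℝ, E) x) a b r

/-- `exists_anti` with the two needed facts of Flow.lean as hypotheses. -/
theorem exists_anti_aux (F : Facts e)
    (gam_flow : ∀ (x : M) (u : E) (s t : ℝ),
      gam e (gam e x u s) (vel e x u s) t = gam e x u (s + t))
    (nm_vel : ∀ (x : M) (u : E) (t : ℝ), nm (gam e x u t) (vel e x u t) = nm x u) : ∃ ρ : ℝ, 0 < ρ ∧ ∀ (x : M) (u : E),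
    nm x u = 1 → ∀ s t, |t - s| < ρ → ∀ w z : E,
      ip (gam e x u t) (jf e x u s t w) z = -ip (gam e x u s) w (jf e x u t s z) := by
  obtain ⟨ρ, hρ, hmin⟩ := F.isExp.minimizing
  refine ⟨ρ, hρ, fun x u hu s t hst w z => ?_⟩
  have he := F.isExp
  have hseg : ∀ (y : M) (v : TangentSpace 𝓘(ℝ, E) y), ‖v‖ < ρ → v ∈ segMin e y := by
    intro y v hv
    have h1 := hmin y v 0 1 (by simpa only [sub_zero, abs_one, mul_one] using hv.le)
    rw [zero_smul, one_smul, he.map_zero] at h1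
    change dist _ _ = _
    simpa using h1
  have hinj : ∀ (y : M) (v : TangentSpace 𝓘(ℝ, E) y), ‖v‖ < ρ → v ∈ injDomain e y := by
    intro y v hv
    obtain ⟨r, hr1, hr2⟩ : ∃ r : ℝ, 1 < r ∧ ‖v‖ * r ≤ ρ := by
      rcases (norm_nonneg v).eq_or_lt with h0 | h0
      · exact ⟨2, one_lt_two, by rw [← h0, zero_mul]; exact hρ.le⟩
      · exact ⟨ρ / ‖v‖, by rw [lt_div_iff₀ h0]; simpa using hv, by
          rw [mul_div_cancel₀ _ h0.ne']⟩
    refine ⟨r, hr1, ?_⟩
    have h1 := hmin y v 0 r (by rwa [sub_zero, abs_of_pos (by linarith)])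
    rw [zero_smul, he.map_zero, sub_zero, abs_of_pos (by linarith only [hr1] : (0 : ℝ) < r)] at h1
    rw [h1, mul_comm]
  have hev : ∀ (y : M) (v : TangentSpace 𝓘(ℝ, E) y), ‖v‖ < ρ →
      ∀ᶠ v' in 𝓝 v, v' ∈ segMin e y := by
    intro y v hv
    have h1 : ∀ᶠ v' in 𝓝 v, ‖v'‖ < ρ := continuous_norm.continuousAt.eventually_lt
      continuousAt_const hv
    filter_upwards [h1] with v' hv' using hseg y v' hv'
  have hnorm : ∀ r τ : ℝ, |r| < ρ → ‖(r • (show TangentSpace 𝓘(ℝ, E) (gam e x u τ) from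
      vel (E := E) e x u τ) : TangentSpace 𝓘(ℝ, E) (gam e x u τ))‖ < ρ := by
    intro r τ hr
    have h1 : ‖(show TangentSpace 𝓘(ℝ, E) (gam e x u τ) from vel (E := E) e x u τ)‖ = 1 :=
      (nm_vel x u τ).trans hu
    rw [norm_smul, h1, mul_one, Real.norm_eq_abs]
    exact hr
  have h1 := hnorm (t - s) s hst
  have h2 := hnorm (s - t) t (by rwa [abs_sub_comm])
  have hxy : e (gam e x u s) ((t - s) • (show TangentSpace 𝓘(ℝ, E) (gam e x u s) from
      vel (E := E) e x u s)) = gam e x u t := by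
    have := gam_flow x u s (t - s)
    rw [add_sub_cancel] at this
    exact this
  have hyx : e (gam e x u t) ((s - t) • (show TangentSpace 𝓘(ℝ, E) (gam e x u t) from
      vel (E := E) e x u t)) = gam e x u s := by
    have := gam_flow x u t (s - t)
    rw [add_sub_cancel] at this
    exact this
  have hs := F.smooth_cost _ _ (hinj _ _ h1)
  rw [hxy] at hs
  have key := two_point he hxy hyx (hev _ _ h1) (hev _ _ h2) hs w z
  unfold jf
  rw [anti_ip_smul_left, anti_ip_smul_right]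
  have k1 : ip (gam e x u t) (dE e (gam e x u s) ((t - s) • vel e x u s) w) z =
      ip (gam e x u s) w (dE e (gam e x u t) ((s - t) • vel e x u t) z) := by
    refine Eq.trans ?_ key.symm
    exact real_inner_comm (F := TangentSpace 𝓘(ℝ, E) (gam e x u t)) _ _
  rw [k1]
  ring

end

end Vale.Agent.P231
end
end

section

section

/-! P231 geometry: symmetry of the mixed second derivative of the cost near the diagonal. -/

set_option maxSynthPendingDepth 3

open Bundle Manifold Set Filter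
open scoped ContDiff Manifold Topology

namespace Vale.Agent.P231

noncomputable section

open Vale.Agent.P234

variable {E : Type*} [NormedAddCommGroup E] [NormedSpace ℝ E] [FiniteDimensional ℝ E]
  {M : Type*} [MetricSpace M] [ChartedSpace E M]
  [RiemannianBundle (fun x : M => TangentSpace 𝓘(ℝ, E) x)]
  [IsManifold 𝓘(ℝ, E) ∞ M]
  [IsContMDiffRiemannianBundle 𝓘(ℝ, E) ∞ E (fun x : M => TangentSpace 𝓘(ℝ, E) x)]
  {e : ∀ x : M, TangentSpace 𝓘(ℝ, E) x → M}

theorem exists_anti [CompactSpace M] (F : Facts e) : ∃ ρ : ℝ, 0 < ρ ∧ ∀ (x : M) (u : E),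
    nm x u = 1 → ∀ s t, |t - s| < ρ → ∀ w z : E,
      ip (gam e x u t) (jf e x u s t w) z = -ip (gam e x u s) w (jf e x u t s z) :=
  exists_anti_aux F (fun x u s t => gam_flow F x u s t) (fun x u t => nm_vel F x u t)

end

end Vale.Agent.P231
end
end

section

section

/-! P231 geometry G4: two-point formula for close times. -/

set_option maxSynthPendingDepth 3
set_option linter.unusedSectionVars false

open Bundle Manifold Set Filter
open scoped ContDiff Manifold Topology

namespace Vale.Agent.P231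

noncomputable section

open Vale.Agent.P234

variable {E : Type*} [NormedAddCommGroup E] [NormedSpace ℝ E] [FiniteDimensional ℝ E]
  {M : Type*} [MetricSpace M] [ChartedSpace E M]
  [RiemannianBundle (fun x : M => TangentSpace 𝓘(ℝ, E) x)]
  [IsManifold 𝓘(ℝ, E) ∞ M]
  [IsContMDiffRiemannianBundle 𝓘(ℝ, E) ∞ E (fun x : M => TangentSpace 𝓘(ℝ, E) x)]
  {e : ∀ x : M, TangentSpace 𝓘(ℝ, E) x → M}

/-- scaling of tangent vectors is smooth -/
lemma rel_scale (τ : ℝ) : ContMDiff 𝓘(ℝ, E).tangent 𝓘(ℝ, E).tangent ∞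
    (fun p : TangentBundle 𝓘(ℝ, E) M =>
      (⟨p.proj, τ • p.snd⟩ : TangentBundle 𝓘(ℝ, E) M)) := by
  intro p
  rw [Bundle.contMDiffAt_totalSpace]
  refine ⟨Bundle.contMDiffAt_proj _, ?_⟩
  have h1 : ContMDiffAt 𝓘(ℝ, E).tangent 𝓘(ℝ, E) ∞
      (fun q : TangentBundle 𝓘(ℝ, E) M =>
        (trivializationAt E (TangentSpace 𝓘(ℝ, E)) p.proj q).2) p :=
    (Bundle.contMDiffAt_totalSpace.1 (contMDiffAt_id (x := p))).2
  have h2 : ContMDiffAt 𝓘(ℝ, E).tangent 𝓘(ℝ, E) ∞
      (fun q : TangentBundle 𝓘(ℝ, E) M =>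
        τ • (trivializationAt E (TangentSpace 𝓘(ℝ, E)) p.proj q).2) p :=
    ((τ • ContinuousLinearMap.id ℝ E).contMDiff (n := ∞)).contMDiffAt.comp p h1
  refine h2.congr_of_eventuallyEq ?_
  have h3 : ∀ᶠ q : TangentBundle 𝓘(ℝ, E) M in 𝓝 p,
      q.proj ∈ (trivializationAt E (TangentSpace 𝓘(ℝ, E)) p.proj).baseSet := by
    have hc : ContinuousAt (fun q : TangentBundle 𝓘(ℝ, E) M => q.proj) p :=
      (FiberBundle.continuous_proj E _).continuousAt
    exact hc.eventually (((trivializationAt E (TangentSpace 𝓘(ℝ, E)) p.proj).open_baseSet).mem_nhds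
      (FiberBundle.mem_baseSet_trivializationAt' p.proj))
  filter_upwards [h3] with q hq
  have h4 := (trivializationAt E (TangentSpace 𝓘(ℝ, E)) p.proj).linear ℝ hq
  exact h4.map_smul τ q.snd

/-- short vectors are determined by their exponential -/
lemma rel_unique [CompactSpace M] (he : IsExp e) : ∃ ρ : ℝ, 0 < ρ ∧
    ∀ (x : M) (v w : TangentSpace 𝓘(ℝ, E) x), ‖v‖ < ρ → ‖w‖ < ρ → e x v = e x w → v = w := by
  obtain ⟨ρ, hρ, hm, hs⟩ := sh_scale he
  refine ⟨ρ, hρ, fun x v w hv hw hvw => ?_⟩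
  have key : ∀ z : TangentSpace 𝓘(ℝ, E) x, ‖z‖ < ρ → dist x (e x z) = ‖z‖ := by
    intro z hz
    have h := hm x z 0 1 (by simpa only [sub_zero, abs_one, mul_one] using hz.le)
    rw [zero_smul, he.map_zero, one_smul] at h
    simpa using h
  exact sh_unique he (key w hw) (key v hv) (hs x (e x w) (by rw [key w hw]; exact hw)).1 hvw

/-- uniform local logarithm near the diagonal -/
lemma rel_log [CompactSpace M] (he : IsExp e) {ρ₀ : ℝ} (hρ₀ : 0 < ρ₀) :
    ∃ ρ : ℝ, 0 < ρ ∧ ∀ x y : M, dist x y < ρ →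
      ∃ V : M × M → TangentBundle 𝓘(ℝ, E) M, ∀ᶠ p in 𝓝 ((x, y) : M × M),
        ContMDiffAt (𝓘(ℝ, E).prod 𝓘(ℝ, E)) 𝓘(ℝ, E).tangent ∞ V p ∧
        (V p).proj = p.1 ∧ e (V p).proj (V p).snd = p.2 ∧ ‖(V p).snd‖ < ρ₀ := by
  have key : ∀ x₀ : M, ∀ᶠ p in 𝓝 ((x₀, x₀) : M × M),
      ∃ V : M × M → TangentBundle 𝓘(ℝ, E) M, ∀ᶠ q in 𝓝 p,
        ContMDiffAt (𝓘(ℝ, E).prod 𝓘(ℝ, E)) 𝓘(ℝ, E).tangent ∞ V q ∧
        (V q).proj = q.1 ∧ e (V q).proj (V q).snd = q.2 ∧ ‖(V q).snd‖ < ρ₀ := by
    intro x₀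
    obtain ⟨V, hV0, hV⟩ := exists_local_log_open he x₀
    have hc : Tendsto (fun p => ‖(V p).snd‖) (𝓝 (x₀, x₀)) (𝓝 0) := by
      have h1 : ContinuousAt (fun p => ‖(V p).snd‖) (x₀, x₀) :=
        continuous_norm_snd.continuousAt.comp hV.self_of_nhds.1.continuousAt
      have h2 := h1.tendsto
      rw [hV0] at h2
      simpa only [norm_zero] using h2
    have hnear : ∀ᶠ p in 𝓝 ((x₀, x₀) : M × M),
        ContMDiffAt (𝓘(ℝ, E).prod 𝓘(ℝ, E)) 𝓘(ℝ, E).tangent ∞ V p ∧
        (V p).proj = p.1 ∧ e (V p).proj (V p).snd = p.2 ∧ ‖(V p).snd‖ < ρ₀ := by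
      filter_upwards [hV, hc.eventually (gt_mem_nhds hρ₀)] with p hp hp2
      exact ⟨hp.1, hp.2.1, hp.2.2, hp2⟩
    filter_upwards [eventually_eventually_nhds.2 hnear] with p hp
    exact ⟨V, hp⟩
  have hdiag : ∀ᶠ p in 𝓝ˢ (diagonal M),
      ∃ V : M × M → TangentBundle 𝓘(ℝ, E) M, ∀ᶠ q in 𝓝 p,
        ContMDiffAt (𝓘(ℝ, E).prod 𝓘(ℝ, E)) 𝓘(ℝ, E).tangent ∞ V q ∧
        (V q).proj = q.1 ∧ e (V q).proj (V q).snd = q.2 ∧ ‖(V q).snd‖ < ρ₀ := by
    rw [eventually_nhdsSet_iff_forall]
    rintro ⟨x, y⟩ hxy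
    have : x = y := hxy
    subst this
    exact key x
  rw [nhdsSet_diagonal_eq_uniformity] at hdiag
  obtain ⟨ρ, hρ, h⟩ := Metric.mem_uniformity_dist.1 hdiag
  exact ⟨ρ, hρ, fun x y hxy => h hxy⟩

/-- the point at fraction `τ` of the short geodesic given by a local logarithm `V` -/
def relPsi (e : ∀ x : M, TangentSpace 𝓘(ℝ, E) x → M)
    (V : M × M → TangentBundle 𝓘(ℝ, E) M) (τ : ℝ) (p : M × M) : M :=
  e (V p).proj (τ • (V p).snd)

lemma rel_contMDiffAt_psi (he : IsExp e) {V : M × M → TangentBundle 𝓘(ℝ, E) M} {p : M × M}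
    (hV : ContMDiffAt (𝓘(ℝ, E).prod 𝓘(ℝ, E)) 𝓘(ℝ, E).tangent ∞ V p) (τ : ℝ) :
    ContMDiffAt (𝓘(ℝ, E).prod 𝓘(ℝ, E)) 𝓘(ℝ, E) ∞ (relPsi e V τ) p := by
  have h1 : ContMDiff 𝓘(ℝ, E).tangent 𝓘(ℝ, E) ∞
      (fun q : TangentBundle 𝓘(ℝ, E) M => e q.proj (τ • q.snd)) := he.smooth.comp (rel_scale τ)
  exact (h1 (V p)).comp p hV

/-- the curve of points at time `t` for the variation `v + ε w` -/
def relK (e : ∀ x : M, TangentSpace 𝓘(ℝ, E) x → M) (y : M) (v w : TangentSpace 𝓘(ℝ, E) y)
    (r : ℝ) (ε : ℝ) : M :=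
  e y (r • (v + ε • w))

lemma rel_contDiff_line (y : M) (v w : TangentSpace 𝓘(ℝ, E) y) (r : ℝ) :
    ContDiff ℝ ∞ (fun ε : ℝ => r • (v + ε • w)) :=
  contDiff_const.smul (contDiff_const.add (contDiff_id.smul contDiff_const))

lemma rel_contMDiff_K (he : IsExp e) (y : M) (v w : TangentSpace 𝓘(ℝ, E) y) (r : ℝ) :
    ContMDiff 𝓘(ℝ, ℝ) 𝓘(ℝ, E) ∞ (relK e y v w r) :=
  (contMDiff_exp_fiber he y).comp (rel_contDiff_line y v w r).contMDiff

/-- derivative of a curve composed with a map from a vector space -/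
lemma rel_comp_line {F : Type*} [NormedAddCommGroup F] [NormedSpace ℝ F] {N : Type*}
    [TopologicalSpace N] [ChartedSpace E N] {f : F → N} {κ : ℝ → F} {κ' : F} {r : ℝ}
    (hf : MDifferentiableAt 𝓘(ℝ, F) 𝓘(ℝ, E) f (κ r)) (hκ : HasDerivAt κ κ' r) :
    (mfderiv 𝓘(ℝ, ℝ) 𝓘(ℝ, E) (fun t => f (κ t)) r (1 : ℝ) : E) =
      mfderiv 𝓘(ℝ, F) 𝓘(ℝ, E) f (κ r) κ' := by
  have h3 := mfderiv_comp (I := 𝓘(ℝ, ℝ)) (I' := 𝓘(ℝ, F)) (I'' := 𝓘(ℝ, E)) r hf
    hκ.differentiableAt.mdifferentiableAt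
  have h4 : (mfderiv 𝓘(ℝ, ℝ) 𝓘(ℝ, F) κ r (1 : ℝ) : F) = κ' := by
    rw [mfderiv_eq_fderiv, hκ.hasFDerivAt.fderiv]
    exact one_smul ℝ κ'
  have h5 := congrArg (fun L => (L (1 : ℝ) : E)) h3
  refine h5.trans ?_
  change (mfderiv 𝓘(ℝ, F) 𝓘(ℝ, E) f (κ r) (mfderiv 𝓘(ℝ, ℝ) 𝓘(ℝ, F) κ r (1 : ℝ)) : E) = _
  rw [h4]

lemma rel_deriv_K (he : IsExp e) (y : M) (v w : TangentSpace 𝓘(ℝ, E) y) (r : ℝ) :
    (mfderiv 𝓘(ℝ, ℝ) 𝓘(ℝ, E) (relK e y v w r) 0 (1 : ℝ) : E) = r • dE e y (r • v) w := by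
  have h1 : MDifferentiableAt 𝓘(ℝ, TangentSpace 𝓘(ℝ, E) y) 𝓘(ℝ, E) (e y)
      (r • (v + (0 : ℝ) • w)) :=
    (contMDiff_exp_fiber he y).mdifferentiableAt (by simp)
  have h5 : HasDerivAt (fun ε : ℝ => r • (v + ε • w)) (r • w) 0 := by
    have h6 : HasDerivAt (fun ε : ℝ => ε • w) ((1 : ℝ) • w) 0 :=
      (hasDerivAt_id (0 : ℝ)).smul_const w
    rw [one_smul] at h6
    exact (h6.const_add v).const_smul r
  have h7 := rel_comp_line (f := e y) (κ := fun ε : ℝ => r • (v + ε • w)) h1 h5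
  refine h7.trans ?_
  have h8 : r • (v + (0 : ℝ) • w) = r • v := by rw [zero_smul, add_zero]
  change (mfderiv 𝓘(ℝ, TangentSpace 𝓘(ℝ, E) y) 𝓘(ℝ, E) (e y) (r • (v + (0 : ℝ) • w)) (r • w) : E)
    = r • dE e y (r • v) w
  have h9 : ∀ z z' : TangentSpace 𝓘(ℝ, E) y, z = z' →
      (mfderiv 𝓘(ℝ, TangentSpace 𝓘(ℝ, E) y) 𝓘(ℝ, E) (e y) z (r • w) : E) =
        r • dE e y z' w := by
    rintro z z' rfl
    exact (mfderiv 𝓘(ℝ, TangentSpace 𝓘(ℝ, E) y) 𝓘(ℝ, E) (e y) z).map_smul r w
  exact h9 _ _ h8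

/-- flow property with the explicit velocity -/
lemma rel_flow (F : Facts e) (x : M) (u : TangentSpace 𝓘(ℝ, E) x) (s : ℝ) :
    nm (gam e x u s) (vel e x u s) = ‖u‖ ∧
      ∀ t : ℝ, gam e (gam e x u s) (vel e x u s) t = gam e x u (s + t) := by
  obtain ⟨w, hw, hwt⟩ := F.flow x u s
  have h1 := F.isExp.velocity (e x (s • u)) w
  have h2 : (fun t : ℝ => e (e x (s • u)) (t • w)) = fun t : ℝ => e x ((s + t) • u) :=
    funext hwt
  have h3 : MDifferentiableAt 𝓘(ℝ, TangentSpace 𝓘(ℝ, E) x) 𝓘(ℝ, E) (e x)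
      ((s + (0 : ℝ)) • u) :=
    (contMDiff_exp_fiber F.isExp x).mdifferentiableAt (by simp)
  have h4 : HasDerivAt (fun t : ℝ => (s + t) • u) u 0 := by
    have h6 : HasDerivAt (fun t : ℝ => (s + t) • u) ((1 : ℝ) • u) 0 :=
      ((hasDerivAt_id (0 : ℝ)).const_add s).smul_const u
    rwa [one_smul] at h6
  have h5 := rel_comp_line (f := e x) (κ := fun t : ℝ => (s + t) • u) h3 h4
  have h6 : ∀ f g : ℝ → M, f = g →
      (mfderiv 𝓘(ℝ, ℝ) 𝓘(ℝ, E) f 0 (1 : ℝ) : E) = mfderiv 𝓘(ℝ, ℝ) 𝓘(ℝ, E) g 0 (1 : ℝ) := by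
    rintro f g rfl
    rfl
  have h7 : ∀ z z' : TangentSpace 𝓘(ℝ, E) x, z = z' →
      (mfderiv 𝓘(ℝ, TangentSpace 𝓘(ℝ, E) x) 𝓘(ℝ, E) (e x) z u : E) = dE e x z' u := by
    rintro z z' rfl
    rfl
  have h8 : (w : E) = vel e x u s := by
    refine h1.symm.trans ((h6 _ _ h2).trans (h5.trans ?_))
    exact h7 _ _ (by rw [add_zero]; rfl)
  have h9 : ∀ z z' : E, z = z' → nm (gam e x u s) z = nm (gam e x u s) z' := by
    rintro z z' rfl
    rfl
  refine ⟨(h9 _ _ h8).symm.trans hw, fun t => ?_⟩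
  have h11 : ∀ z z' : E, z = z' → gam e (gam e x u s) z t = gam e (gam e x u s) z' t := by
    rintro z z' rfl
    rfl
  exact (h11 _ _ h8).symm.trans (hwt t)

/-- flow property with a free base point -/
lemma rel_flow_at (F : Facts e) {x : M} (v : TangentSpace 𝓘(ℝ, E) x) (s : ℝ) {x' : M}
    (hx' : e x (s • v) = x') :
    ∃ w : TangentSpace 𝓘(ℝ, E) x', ‖w‖ = ‖v‖ ∧ ∀ t : ℝ, e x' (t • w) = e x ((s + t) • v) := by
  subst hx'
  exact F.flow x v s

/-- the variation through geodesics is recovered from its values at two close times -/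
lemma relK_eq (F : Facts e) {ρ : ℝ}
    (hu : ∀ (x : M) (v w : TangentSpace 𝓘(ℝ, E) x), ‖v‖ < ρ → ‖w‖ < ρ → e x v = e x w → v = w)
    (y : M) (v w : TangentSpace 𝓘(ℝ, E) y) {s a b t : ℝ} (hab : a < b) (hv : (b - a) * ‖v‖ < ρ)
    {V : M × M → TangentBundle 𝓘(ℝ, E) M}
    (hV : ∀ᶠ p in 𝓝 ((e y ((a - s) • v), e y ((b - s) • v)) : M × M),
      (V p).proj = p.1 ∧ e (V p).proj (V p).snd = p.2 ∧ ‖(V p).snd‖ < ρ) :
    ∀ᶠ ε in 𝓝 (0 : ℝ), relK e y v w (t - s) ε =
      relPsi e V ((t - a) / (b - a)) (relK e y v w (a - s) ε, relK e y v w (b - s) ε) := by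
  have hba : 0 < b - a := by linarith only [hab]
  have h1 : ∀ᶠ ε in 𝓝 (0 : ℝ), (b - a) * ‖v + ε • w‖ < ρ := by
    have hc : Continuous (fun ε : ℝ => (b - a) * ‖v + ε • w‖) :=
      continuous_const.mul (continuous_const.add (continuous_id.smul continuous_const)).norm
    have h2 := hc.tendsto 0
    simp only [zero_smul, add_zero] at h2
    exact h2.eventually (gt_mem_nhds hv)
  have h2 : Tendsto (fun ε : ℝ => ((relK e y v w (a - s) ε, relK e y v w (b - s) ε) : M × M))
      (𝓝 0) (𝓝 (e y ((a - s) • v), e y ((b - s) • v))) := by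
    have h3 : Continuous (fun ε : ℝ =>
        ((relK e y v w (a - s) ε, relK e y v w (b - s) ε) : M × M)) :=
      (rel_contMDiff_K F.isExp y v w (a - s)).continuous.prodMk
        (rel_contMDiff_K F.isExp y v w (b - s)).continuous
    have h4 := h3.tendsto 0
    simpa only [relK, zero_smul, add_zero] using h4
  filter_upwards [h1, h2.eventually hV] with ε hε hVε
  obtain ⟨hV1, hV2, hV3⟩ := hVε
  set z := v + ε • w with hz
  have hV1' : (V (relK e y v w (a - s) ε, relK e y v w (b - s) ε)).proj =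
    e y ((a - s) • z) := hV1
  have hV2' : e (V (relK e y v w (a - s) ε, relK e y v w (b - s) ε)).proj
    (V (relK e y v w (a - s) ε, relK e y v w (b - s) ε)).snd = e y ((b - s) • z) := hV2
  change e y ((t - s) • z) = e (V (relK e y v w (a - s) ε, relK e y v w (b - s) ε)).proj
    (((t - a) / (b - a)) • (V (relK e y v w (a - s) ε, relK e y v w (b - s) ε)).snd)
  generalize V (relK e y v w (a - s) ε, relK e y v w (b - s) ε) = p at hV1' hV2' hV3 ⊢
  obtain ⟨w', hw'1, hw'2⟩ := rel_flow_at F z (a - s) (x' := p.proj) hV1'.symm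
  have h5 : p.snd = (b - a) • w' := by
    refine hu p.proj _ _ hV3 ?_ ?_
    · rw [norm_smul, Real.norm_eq_abs, abs_of_pos hba, hw'1]
      exact hε
    · rw [hV2', hw'2]
      congr 2
      ring
  rw [h5, smul_smul, div_mul_cancel₀ _ hba.ne', hw'2]
  congr 2
  ring

/-- raw derivative of `relPsi` -/
def relL (e : ∀ x : M, TangentSpace 𝓘(ℝ, E) x → M)
    (V : M × M → TangentBundle 𝓘(ℝ, E) M) (τ : ℝ) (p : M × M) (z : E × E) : E :=
  mfderiv (𝓘(ℝ, E).prod 𝓘(ℝ, E)) 𝓘(ℝ, E) (relPsi e V τ) p z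

lemma relL_add (V : M × M → TangentBundle 𝓘(ℝ, E) M) (τ : ℝ) (p : M × M) (z z' : E × E) :
    relL e V τ p (z + z') = relL e V τ p z + relL e V τ p z' :=
  (mfderiv (𝓘(ℝ, E).prod 𝓘(ℝ, E)) 𝓘(ℝ, E) (relPsi e V τ) p).map_add z z'

lemma relL_zero (V : M × M → TangentBundle 𝓘(ℝ, E) M) (τ : ℝ) (p : M × M) :
    relL e V τ p (0 : E × E) = 0 :=
  (mfderiv (𝓘(ℝ, E).prod 𝓘(ℝ, E)) 𝓘(ℝ, E) (relPsi e V τ) p).map_zero

/-- chain rule for a function of two points along a curve -/
lemma rel_comp_pair {f : M × M → M} {k l : ℝ → M}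
    (hf : MDifferentiableAt (𝓘(ℝ, E).prod 𝓘(ℝ, E)) 𝓘(ℝ, E) f (k 0, l 0))
    (hk : MDifferentiableAt 𝓘(ℝ, ℝ) 𝓘(ℝ, E) k 0) (hl : MDifferentiableAt 𝓘(ℝ, ℝ) 𝓘(ℝ, E) l 0) :
    (mfderiv 𝓘(ℝ, ℝ) 𝓘(ℝ, E) (fun ε => f (k ε, l ε)) 0 (1 : ℝ) : E) =
      mfderiv (𝓘(ℝ, E).prod 𝓘(ℝ, E)) 𝓘(ℝ, E) f (k 0, l 0)
        (((mfderiv 𝓘(ℝ, ℝ) 𝓘(ℝ, E) k 0 (1 : ℝ) : E),
          (mfderiv 𝓘(ℝ, ℝ) 𝓘(ℝ, E) l 0 (1 : ℝ) : E)) : E × E) := by
  have h1 := mfderiv_comp (I := 𝓘(ℝ, ℝ)) (I' := 𝓘(ℝ, E).prod 𝓘(ℝ, E)) (I'' := 𝓘(ℝ, E))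
    (f := fun ε => (k ε, l ε)) (0 : ℝ) hf (hk.prodMk hl)
  have h2 := mfderiv_prodMk hk hl
  rw [h2] at h1
  exact congrArg (fun L => (L (1 : ℝ) : E)) h1

lemma rel_congr_raw {f g : ℝ → M} {r : ℝ} (h : f =ᶠ[𝓝 r] g) :
    (mfderiv 𝓘(ℝ, ℝ) 𝓘(ℝ, E) f r (1 : ℝ) : E) = mfderiv 𝓘(ℝ, ℝ) 𝓘(ℝ, E) g r (1 : ℝ) :=
  DFunLike.congr_fun (h.mfderiv_eq (I := 𝓘(ℝ, ℝ)) (I' := 𝓘(ℝ, E))) (1 : ℝ)

lemma rel_deriv (F : Facts e) {ρ : ℝ}
    (hu : ∀ (x : M) (v w : TangentSpace 𝓘(ℝ, E) x), ‖v‖ < ρ → ‖w‖ < ρ → e x v = e x w → v = w)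
    (y : M) (v w : TangentSpace 𝓘(ℝ, E) y) {s a b t : ℝ} (hab : a < b) (hv : (b - a) * ‖v‖ < ρ)
    {V : M × M → TangentBundle 𝓘(ℝ, E) M}
    (hV : ∀ᶠ p in 𝓝 ((e y ((a - s) • v), e y ((b - s) • v)) : M × M),
      ContMDiffAt (𝓘(ℝ, E).prod 𝓘(ℝ, E)) 𝓘(ℝ, E).tangent ∞ V p ∧
      (V p).proj = p.1 ∧ e (V p).proj (V p).snd = p.2 ∧ ‖(V p).snd‖ < ρ) :
    (t - s) • dE e y ((t - s) • v) w =
      relL e V ((t - a) / (b - a)) (e y ((a - s) • v), e y ((b - s) • v))
        ((a - s) • dE e y ((a - s) • v) w, (b - s) • dE e y ((b - s) • v) w) := by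
  have h1 := relK_eq F hu y v w (t := t) hab hv (hV.mono fun p hp => hp.2)
  have h2 : ∀ r : ℝ, relK e y v w r 0 = e y (r • v) := by
    intro r
    unfold relK
    rw [zero_smul, add_zero]
  have h3 : MDifferentiableAt (𝓘(ℝ, E).prod 𝓘(ℝ, E)) 𝓘(ℝ, E)
      (relPsi e V ((t - a) / (b - a))) (relK e y v w (a - s) 0, relK e y v w (b - s) 0) := by
    rw [h2, h2]
    exact (rel_contMDiffAt_psi F.isExp hV.self_of_nhds.1 _).mdifferentiableAt (by simp)
  have h4 : ∀ r : ℝ, MDifferentiableAt 𝓘(ℝ, ℝ) 𝓘(ℝ, E) (relK e y v w r) 0 := fun r =>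
    (rel_contMDiff_K F.isExp y v w r).mdifferentiableAt (by simp)
  have h5 := rel_comp_pair h3 (h4 _) (h4 _)
  have h6 := rel_congr_raw (E := E) (f := relK e y v w (t - s)) (g := fun ε =>
    relPsi e V ((t - a) / (b - a)) (relK e y v w (a - s) ε, relK e y v w (b - s) ε)) h1
  have h7 := rel_deriv_K F.isExp y v w (t - s)
  rw [rel_deriv_K F.isExp y v w (a - s), rel_deriv_K F.isExp y v w (b - s)] at h5
  refine h7.symm.trans (h6.trans (h5.trans ?_))
  rw [h2, h2]
  rfl

/-- raw differential of a vector valued function -/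
def relD (f : M → E) (p : M) (w : E) : E := mfderiv 𝓘(ℝ, E) 𝓘(ℝ, E) f p w

lemma relD_zero (f : M → E) (p : M) : relD f p (0 : E) = 0 :=
  (mfderiv 𝓘(ℝ, E) 𝓘(ℝ, E) f p).map_zero

/-- if the differential of the exponential map annihilates `X` along a ray then `X = 0` -/
lemma rel_inj (he : IsExp e) (y : M) (v X : TangentSpace 𝓘(ℝ, E) y)
    (h : ∀ r : ℝ, r ≠ 0 → dE e y (r • v) X = 0) : X = 0 := by
  set G : TangentSpace 𝓘(ℝ, E) y → E := fun z => extChartAt 𝓘(ℝ, E) y (e y z) with hG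
  have hsrc : ∀ᶠ z in 𝓝 (0 : TangentSpace 𝓘(ℝ, E) y), e y z ∈ (chartAt E y).source := by
    have h1 : ContinuousAt (e y) 0 := (contMDiff_exp_fiber he y).continuous.continuousAt
    have h2 : (chartAt E y).source ∈ 𝓝 (e y 0) := by
      rw [he.map_zero]
      exact chart_source_mem_nhds E y
    exact h1.eventually h2
  have hGd : ∀ z : TangentSpace 𝓘(ℝ, E) y, e y z ∈ (chartAt E y).source →
      ContDiffAt ℝ ∞ G z := by
    intro z hz
    rw [← contMDiffAt_iff_contDiffAt]
    exact (contMDiffAt_extChartAt' (I := 𝓘(ℝ, E)) (n := ∞) hz).comp z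
      ((contMDiff_exp_fiber he y) z)
  have hG0 : ContDiffAt ℝ ∞ G 0 := hGd 0 hsrc.self_of_nhds
  have hf : ∀ z : TangentSpace 𝓘(ℝ, E) y, e y z ∈ (chartAt E y).source →
      dE e y z X = 0 → fderiv ℝ G z X = 0 := by
    intro z hz hz0
    have h1 : MDifferentiableAt 𝓘(ℝ, E) 𝓘(ℝ, E) (extChartAt 𝓘(ℝ, E) y) (e y z) :=
      mdifferentiableAt_extChartAt hz
    have h2 : MDifferentiableAt 𝓘(ℝ, TangentSpace 𝓘(ℝ, E) y) 𝓘(ℝ, E) (e y) z :=
      (contMDiff_exp_fiber he y).mdifferentiableAt (by simp)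
    have h3 := mfderiv_comp z h1 h2
    rw [← mfderiv_eq_fderiv]
    have h4 := DFunLike.congr_fun h3 X
    refine h4.trans ?_
    change relD (extChartAt 𝓘(ℝ, E) y) (e y z) (dE (E := E) e y z X) = 0
    rw [hz0, relD_zero]
  have h1 : fderiv ℝ G 0 X = X := by
    have h2 := hasDerivAt_exp_chart he y X
    have h3 : HasFDerivAt G (fderiv ℝ G 0) ((0 : ℝ) • X) := by
      rw [zero_smul]
      exact (hG0.differentiableAt (by simp)).hasFDerivAt
    have h4 : HasDerivAt (fun t : ℝ => t • X) X 0 := by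
      have h5 : HasDerivAt (fun t : ℝ => t • X) ((1 : ℝ) • X) 0 :=
        (hasDerivAt_id (0 : ℝ)).smul_const X
      rwa [one_smul] at h5
    have h3' : HasFDerivAt G (fderiv ℝ G 0) ((fun t : ℝ => t • X) 0) := h3
    have h6 : HasDerivAt (G ∘ fun t : ℝ => t • X) (fderiv ℝ G 0 X) 0 :=
      h3'.comp_hasDerivAt (0 : ℝ) h4
    exact h6.unique h2
  have h2 : ContinuousAt (fun r : ℝ => fderiv ℝ G (r • v) X) 0 := by
    have h3 : ContinuousAt (fderiv ℝ G) ((0 : ℝ) • v) := by
      rw [zero_smul]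
      exact (hG0.fderiv_right (m := 0) (by simp only [zero_add, WithTop.one_le_coe, le_top])).continuousAt
    have h4 : ContinuousAt (fun r : ℝ => r • v) 0 :=
      (continuous_id.smul continuous_const).continuousAt
    exact (ContinuousAt.comp (f := fun r : ℝ => r • v) h3 h4).clm_apply continuousAt_const
  have h3 : Tendsto (fun r : ℝ => fderiv ℝ G (r • v) X) (𝓝[≠] 0) (𝓝 (X : E)) := by
    have h4 := h2.tendsto
    rw [zero_smul, h1] at h4
    exact h4.mono_left nhdsWithin_le_nhds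
  have h4 : ∀ᶠ r in 𝓝[≠] (0 : ℝ), fderiv ℝ G (r • v) X = 0 := by
    have h5 : Tendsto (fun r : ℝ => r • v) (𝓝[≠] 0) (𝓝 0) := by
      have h6 : ContinuousAt (fun r : ℝ => r • v) 0 :=
        (continuous_id.smul continuous_const).continuousAt
      have h7 := h6.tendsto
      rw [zero_smul] at h7
      exact h7.mono_left nhdsWithin_le_nhds
    filter_upwards [h5.eventually hsrc, self_mem_nhdsWithin] with r hr hr0
    exact hf _ hr (h r hr0)
  have h5 : Tendsto (fun r : ℝ => fderiv ℝ G (r • v) X) (𝓝[≠] 0) (𝓝 (0 : E)) :=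
    (tendsto_congr' h4).2 tendsto_const_nhds
  exact tendsto_nhds_unique (X := E) h3 h5

/-- two-point formula, abstract form -/
lemma rel_jf (F : Facts e) {ρ : ℝ}
    (hu : ∀ (x : M) (v w : TangentSpace 𝓘(ℝ, E) x), ‖v‖ < ρ → ‖w‖ < ρ → e x v = e x w → v = w)
    (x : M) (u : TangentSpace 𝓘(ℝ, E) x) {a b : ℝ} (hab : a < b) (hv : (b - a) * ‖u‖ < ρ)
    {V : M × M → TangentBundle 𝓘(ℝ, E) M}
    (hV : ∀ᶠ p in 𝓝 ((gam e x u a, gam e x u b) : M × M),
      ContMDiffAt (𝓘(ℝ, E).prod 𝓘(ℝ, E)) 𝓘(ℝ, E).tangent ∞ V p ∧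
      (V p).proj = p.1 ∧ e (V p).proj (V p).snd = p.2 ∧ ‖(V p).snd‖ < ρ) (s t : ℝ) (w : E) :
    jf e x u s t w = relL e V ((t - a) / (b - a)) (gam e x u a, gam e x u b)
      (jf e x u s a w, jf e x u s b w) := by
  obtain ⟨hn, hfl⟩ := rel_flow F x u s
  have ha : gam e (gam e x u s) (vel e x u s) (a - s) = gam e x u a := by
    rw [hfl, add_sub_cancel]
  have hb : gam e (gam e x u s) (vel e x u s) (b - s) = gam e x u b := by
    rw [hfl, add_sub_cancel]
  rw [← ha, ← hb] at hV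
  have hv' : (b - a) * nm (gam e x u s) (vel e x u s) < ρ := by
    rw [hn]
    exact hv
  have h : jf e x u s t w = relL e V ((t - a) / (b - a))
      (gam e (gam e x u s) (vel e x u s) (a - s), gam e (gam e x u s) (vel e x u s) (b - s))
      (jf e x u s a w, jf e x u s b w) :=
    rel_deriv F hu (gam e x u s) (vel (E := E) e x u s) w (s := s) (t := t) hab hv' hV
  rw [ha, hb] at h
  exact h

lemma rel_dE_add' (x : M) (v w z : TangentSpace 𝓘(ℝ, E) x) :
    dE (E := E) e x v (w + z) = dE e x v w + dE e x v z :=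
  (mfderiv 𝓘(ℝ, TangentSpace 𝓘(ℝ, E) x) 𝓘(ℝ, E) (e x) v).map_add w z

lemma rel_dE_smul' (x : M) (v w : TangentSpace 𝓘(ℝ, E) x) (c : ℝ) :
    dE (E := E) e x v (c • w) = c • dE e x v w :=
  (mfderiv 𝓘(ℝ, TangentSpace 𝓘(ℝ, E) x) 𝓘(ℝ, E) (e x) v).map_smul c w

lemma rel_dE_add (x : M) (v w z : E) :
    dE e x v (w + z) = dE e x v w + dE e x v z := rel_dE_add' x v w z

lemma rel_dE_smul (x : M) (v w : E) (c : ℝ) :
    dE e x v (c • w) = c • dE e x v w := rel_dE_smul' x v w c

/-- `jf` as a linear map -/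
def relJ (e : ∀ x : M, TangentSpace 𝓘(ℝ, E) x → M) (x : M) (u : E) (s t : ℝ) : E →ₗ[ℝ] E where
  toFun := jf e x u s t
  map_add' w z := by rw [jf, jf, jf, rel_dE_add, smul_add]
  map_smul' c w := by rw [jf, jf, rel_dE_smul, RingHom.id_apply, smul_comm]

theorem exists_rel [CompactSpace M] (F : Facts e) : ∃ ρ : ℝ, 0 < ρ ∧ ∀ (x : M) (u : E),
    nm x u = 1 → ∀ a b, a < b → b < a + ρ → ∀ (s : ℝ) (w : E), ∃ X Z : E,
      ∀ t, jf e x u s t w = jf e x u a t X + jf e x u b t Z := by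
  obtain ⟨ρ₁, hρ₁, hu⟩ := rel_unique F.isExp
  obtain ⟨ρ₂, hρ₂, hlog⟩ := rel_log F.isExp hρ₁
  obtain ⟨ρ₃, hρ₃, hmin⟩ := F.isExp.minimizing
  refine ⟨min ρ₁ (min ρ₂ ρ₃), lt_min hρ₁ (lt_min hρ₂ hρ₃), ?_⟩
  intro x u hn a b hab hb s w
  have hb1 : b - a < ρ₁ := by
    have := min_le_left ρ₁ (min ρ₂ ρ₃)
    linarith only [hb, this]
  have hb2 : b - a < ρ₂ := by
    have h1 := min_le_right ρ₁ (min ρ₂ ρ₃)
    have h2 := min_le_left ρ₂ ρ₃
    linarith only [hb, h1, h2]
  have hb3 : b - a < ρ₃ := by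
    have h1 := min_le_right ρ₁ (min ρ₂ ρ₃)
    have h2 := min_le_right ρ₂ ρ₃
    linarith only [hb, h1, h2]
  have hba : 0 < b - a := by linarith
  have hd : dist (gam e x u a) (gam e x u b) < ρ₂ := by
    have h1 : dist (gam e x u a) (gam e x u b) = nm x u * |b - a| :=
      hmin x u a b (by
        change nm x u * |b - a| ≤ ρ₃
        rw [hn, one_mul, abs_of_pos hba]
        exact hb3.le)
    rw [h1, hn, one_mul, abs_of_pos hba]
    exact hb2
  obtain ⟨V, hV⟩ := hlog _ _ hd
  have hv : (b - a) * nm x u < ρ₁ := by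
    rw [hn, mul_one]
    exact hb1
  have key : ∀ (s t : ℝ) (w : E), jf e x u s t w = relL e V ((t - a) / (b - a))
      (gam e x u a, gam e x u b) (jf e x u s a w, jf e x u s b w) := fun s t w =>
    rel_jf F hu x u hab hv hV s t w
  have ja : ∀ X : E, jf e x u a a X = 0 := fun X => by rw [jf, sub_self, zero_smul]
  have jb : ∀ Z : E, jf e x u b b Z = 0 := fun Z => by rw [jf, sub_self, zero_smul]
  have inj : ∀ (c : ℝ) (X : E), (∀ t, jf e x u c t X = 0) → X = 0 := by
    intro c X h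
    refine rel_inj F.isExp (gam e x u c) (vel (E := E) e x u c) X fun r hr => ?_
    have h1 := h (c + r)
    rw [jf, add_sub_cancel_left] at h1
    exact (smul_eq_zero.1 h1).resolve_left hr
  have sa : Function.Surjective (relJ e x u a b) := by
    rw [← LinearMap.injective_iff_surjective]
    refine (injective_iff_map_eq_zero _).2 fun X hX => inj a X fun t => ?_
    have hX' : jf e x u a b X = 0 := hX
    rw [key a t X, ja, hX']
    exact relL_zero V _ _
  have sb : Function.Surjective (relJ e x u b a) := by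
    rw [← LinearMap.injective_iff_surjective]
    refine (injective_iff_map_eq_zero _).2 fun Z hZ => inj b Z fun t => ?_
    have hZ' : jf e x u b a Z = 0 := hZ
    rw [key b t Z, jb, hZ']
    exact relL_zero V _ _
  obtain ⟨X, hX⟩ := sa (jf e x u s b w)
  obtain ⟨Z, hZ⟩ := sb (jf e x u s a w)
  have hX' : jf e x u a b X = jf e x u s b w := hX
  have hZ' : jf e x u b a Z = jf e x u s a w := hZ
  refine ⟨X, Z, fun t => ?_⟩
  rw [key a t X, key b t Z, key s t w, ja, jb, hX', hZ', ← relL_add]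
  congr 1
  ext <;> simp

end

end Vale.Agent.P231
end
end

section

section

/-! Closed geodesics of length `2D`: periodicity of geodesics, velocities and Jacobi fields. -/

set_option maxSynthPendingDepth 3
set_option linter.unusedSectionVars false

open Bundle Manifold Set Filter
open scoped ContDiff Manifold Topology

namespace Vale.Agent.P231

noncomputable section

open Vale.Agent.P234

variable {E : Type*} [NormedAddCommGroup E] [NormedSpace ℝ E] [FiniteDimensional ℝ E]
  {M : Type*} [MetricSpace M] [ChartedSpace E M]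
  [RiemannianBundle (fun x : M => TangentSpace 𝓘(ℝ, E) x)]
  [IsManifold 𝓘(ℝ, E) ∞ M]
  [IsContMDiffRiemannianBundle 𝓘(ℝ, E) ∞ E (fun x : M => TangentSpace 𝓘(ℝ, E) x)]
  {e : ∀ x : M, TangentSpace 𝓘(ℝ, E) x → M}

theorem nm_smul (x : M) (v : E) (c : ℝ) : nm x (c • v) = |c| * nm x v := by
  have key : ∀ v : TangentSpace 𝓘(ℝ, E) x, ‖c • v‖ = |c| * ‖v‖ := fun v => by
    rw [norm_smul, Real.norm_eq_abs]
  exact key v

theorem gam_per (F : Facts e) {D : ℝ} (hD : 0 ≤ D)
    (hcl : ∀ (x : M) (v : E), nm x v = 2 * D → e x v = x)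
    (x : M) (u : E) (hu : nm x u = 1) (t : ℝ) : gam e x u (t + 2 * D) = gam e x u t := by
  rw [← gam_flow F x u t (2 * D)]
  apply hcl
  rw [nm_smul, nm_vel F, hu, mul_one, abs_of_nonneg (by linarith)]

theorem mfderiv_curve_congr {f g : ℝ → M} (h : f = g) (t : ℝ) (r : ℝ) :
    (mfderiv 𝓘(ℝ, ℝ) 𝓘(ℝ, E) f t r : E) = (mfderiv 𝓘(ℝ, ℝ) 𝓘(ℝ, E) g t r : E) := by
  subst h
  rfl

theorem vel_per (F : Facts e) {D : ℝ} (hD : 0 ≤ D)
    (hcl : ∀ (x : M) (v : E), nm x v = 2 * D → e x v = x)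
    (x : M) (u : E) (hu : nm x u = 1) (t : ℝ) : vel e x u (t + 2 * D) = vel e x u t := by
  have hg : ∀ s, MDifferentiableAt 𝓘(ℝ, ℝ) 𝓘(ℝ, E) (gam e x u) s := fun s =>
    (contMDiff_ray F.isExp x (u : TangentSpace 𝓘(ℝ, E) x)).mdifferentiableAt (by simp)
  have hτ : HasDerivAt (fun s : ℝ => s + 2 * D) 1 t := (hasDerivAt_id t).add_const _
  have hτd : MDifferentiableAt 𝓘(ℝ, ℝ) 𝓘(ℝ, ℝ) (fun s : ℝ => s + 2 * D) t :=
    hτ.differentiableAt.mdifferentiableAt
  have h1 := mfderiv_comp_apply t (hg (t + 2 * D)) hτd (1 : ℝ)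
  have h2 : mfderiv 𝓘(ℝ, ℝ) 𝓘(ℝ, ℝ) (fun s : ℝ => s + 2 * D) t (1 : ℝ) = (1 : ℝ) := by
    rw [mfderiv_eq_fderiv]
    refine (congrArg (fun L : ℝ →L[ℝ] ℝ => L 1) hτ.hasFDerivAt.fderiv).trans ?_
    simp only [ContinuousLinearMap.toSpanSingleton_apply, smul_eq_mul, mul_one]
  have h4 : (gam e x u ∘ fun s : ℝ => s + 2 * D) = gam e x u := by
    funext s
    exact gam_per F hD hcl x u hu s
  have h5 := mfderiv_gam F.isExp x u (t + 2 * D)
  have h6 := mfderiv_gam F.isExp x u t
  have h7 := mfderiv_curve_congr (E := E) h4 t (1 : ℝ)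
  rw [← h5, ← h6, ← h7]
  refine Eq.trans ?_ h1.symm
  exact congrArg (fun r : ℝ => (mfderiv 𝓘(ℝ, ℝ) 𝓘(ℝ, E) (gam e x u) (t + 2 * D) r : E)) h2.symm

/-- derivative of `ε ↦ e y (c ε)` -/
theorem mfderiv_exp_curve (he : IsExp e) (y : M) {c : ℝ → TangentSpace 𝓘(ℝ, E) y}
    {c' : TangentSpace 𝓘(ℝ, E) y} {ε : ℝ} (hc : HasDerivAt c c' ε) :
    (mfderiv 𝓘(ℝ, ℝ) 𝓘(ℝ, E) (fun s => e y (c s)) ε (1 : ℝ) : E) = dE e y (c ε : E) c' := by
  have hEd : MDifferentiableAt 𝓘(ℝ, TangentSpace 𝓘(ℝ, E) y) 𝓘(ℝ, E) (e y) (c ε) :=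
    (contMDiff_exp_fiber he y).mdifferentiableAt (by simp)
  have hcd : MDifferentiableAt 𝓘(ℝ, ℝ) 𝓘(ℝ, TangentSpace 𝓘(ℝ, E) y) c ε :=
    hc.differentiableAt.mdifferentiableAt
  have h1 := mfderiv_comp_apply ε hEd hcd (1 : ℝ)
  have h2 : mfderiv 𝓘(ℝ, ℝ) 𝓘(ℝ, TangentSpace 𝓘(ℝ, E) y) c ε (1 : ℝ) = c' := by
    rw [mfderiv_eq_fderiv]
    refine (congrArg (fun L : ℝ →L[ℝ] TangentSpace 𝓘(ℝ, E) y => L 1)
      hc.hasFDerivAt.fderiv).trans ?_
    simp
  refine Eq.trans h1 ?_
  exact congrArg (fun z : TangentSpace 𝓘(ℝ, E) y =>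
    (mfderiv 𝓘(ℝ, TangentSpace 𝓘(ℝ, E) y) 𝓘(ℝ, E) (e y) (c ε) z : E)) h2

theorem jf_per (F : Facts e) {D : ℝ} (hD : 0 < D)
    (hcl : ∀ (x : M) (v : E), nm x v = 2 * D → e x v = x)
    (x : M) (u : E) (hu : nm x u = 1) (s t : ℝ) (w : E)
    (hw : ip (gam e x u s) w (vel e x u s) = 0) :
    jf e x u s (t + 2 * D) w = jf e x u s t w := by
  have hnu : nm (gam e x u s) (vel e x u s) = 1 := by rw [nm_vel F, hu]
  unfold jf
  generalize hy : gam e x u s = y at *
  generalize hν : vel e x u s = ν at *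
  set ν' : TangentSpace 𝓘(ℝ, E) y := ν with hν'
  set w' : TangentSpace 𝓘(ℝ, E) y := w with hw'
  have hν1 : ‖ν'‖ = 1 := hnu
  have hort : inner ℝ w' ν' = 0 := hw
  rcases eq_or_ne ‖w'‖ 0 with h0 | h0
  · have hw0 : w' = 0 := norm_eq_zero.1 h0
    have h1 : ∀ v : E, dE e y v w = 0 := by
      intro v
      have h2 := dE_smul e y v 0 (0 : ℝ)
      rw [zero_smul, zero_smul] at h2
      have h3 : w = 0 := hw0
      rw [h3]
      exact h2
    rw [h1, h1, smul_zero, smul_zero]
  · set ŵ : TangentSpace 𝓘(ℝ, E) y := ‖w'‖⁻¹ • w' with hŵ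
    have hŵ1 : ‖ŵ‖ = 1 := by
      rw [hŵ, norm_smul, norm_inv, norm_norm, inv_mul_cancel₀ h0]
    have hŵo : inner ℝ ν' ŵ = 0 := by
      rw [hŵ, inner_smul_right, real_inner_comm, hort, mul_zero]
    set γ : ℝ → TangentSpace 𝓘(ℝ, E) y := fun ε => Real.cos ε • ν' + Real.sin ε • ŵ with hγ
    have hγn : ∀ ε, ‖γ ε‖ = 1 := by
      intro ε
      have h2 : ‖γ ε‖ ^ 2 = 1 := by
        rw [hγ]
        simp only
        rw [norm_add_sq_real, norm_smul, norm_smul, inner_smul_left, inner_smul_right, hŵo, hν1,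
          hŵ1]
        simp only [Real.norm_eq_abs, mul_one, mul_zero, add_zero, sq_abs]
        exact Real.cos_sq_add_sin_sq ε
      have h3 : 0 ≤ ‖γ ε‖ := norm_nonneg _
      nlinarith only [h2, h3]
    have hγd : ∀ R : ℝ, HasDerivAt (fun ε => R • γ ε) (R • ŵ) 0 := by
      intro R
      have h2 : HasDerivAt γ (-Real.sin 0 • ν' + Real.cos 0 • ŵ) 0 :=
        ((Real.hasDerivAt_cos 0).smul_const ν').add ((Real.hasDerivAt_sin 0).smul_const ŵ)
      have h3 : -Real.sin 0 • ν' + Real.cos 0 • ŵ = ŵ := by simp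
      rw [h3] at h2
      exact h2.const_smul R
    have hcurve : ∀ R : ℝ, (fun ε => e y ((R + 2 * D) • γ ε)) = fun ε => e y (R • γ ε) := by
      intro R
      funext ε
      exact gam_per F hD.le hcl y (γ ε) (hγn ε) R
    have hmain : dE e y (((t - s) + 2 * D) • γ 0 : TangentSpace 𝓘(ℝ, E) y)
        (((t - s) + 2 * D) • ŵ : TangentSpace 𝓘(ℝ, E) y) =
        dE e y ((t - s) • γ 0 : TangentSpace 𝓘(ℝ, E) y)
        ((t - s) • ŵ : TangentSpace 𝓘(ℝ, E) y) := by
      have h2 := mfderiv_exp_curve F.isExp y (hγd ((t - s) + 2 * D))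
      have h3 := mfderiv_exp_curve F.isExp y (hγd (t - s))
      have h4 := mfderiv_curve_congr (E := E) (hcurve (t - s)) 0 (1 : ℝ)
      exact h2.symm.trans (h4.trans h3)
    have hγ0 : γ 0 = ν' := by simp only [hγ, Real.cos_zero, one_smul, Real.sin_zero, zero_smul, add_zero]
    rw [hγ0] at hmain
    have hsm : ∀ (R : ℝ) (v : E), dE e y v (R • ŵ : TangentSpace 𝓘(ℝ, E) y) =
        R • ‖w'‖⁻¹ • dE e y v w := by
      intro R v
      have h2 := dE_smul e y v (ŵ : E) R
      have h3 := dE_smul e y v w (‖w'‖⁻¹)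
      refine Eq.trans h2 ?_
      congr 1
    have hmain2 := ((hsm (t - s + 2 * D) _).symm.trans hmain).trans (hsm (t - s) _)
    have h5 := congrArg (fun z : E => ‖w'‖ • z) hmain2
    simp only [smul_smul] at h5
    have h6 : ∀ R : ℝ, ‖w'‖ * (R * ‖w'‖⁻¹) = R := by
      intro R
      (clear * - h0; field_simp)
    rw [h6, h6] at h5
    have h7 : t + 2 * D - s = t - s + 2 * D := by ring
    rw [h7]
    exact h5

end

end Vale.Agent.P231
end
end

section

section

/-! Gauss lemma: the tangential component of a Jacobi field is affine in time. -/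

set_option maxSynthPendingDepth 3
set_option linter.unusedSectionVars false

open Bundle Manifold Set Filter
open scoped ContDiff Manifold Topology

namespace Vale.Agent.P231

noncomputable section

open Vale.Agent.P234

variable {E : Type*} [NormedAddCommGroup E] [NormedSpace ℝ E] [FiniteDimensional ℝ E]
  {M : Type*} [MetricSpace M] [ChartedSpace E M]
  [RiemannianBundle (fun x : M => TangentSpace 𝓘(ℝ, E) x)]
  [IsManifold 𝓘(ℝ, E) ∞ M]
  [IsContMDiffRiemannianBundle 𝓘(ℝ, E) ∞ E (fun x : M => TangentSpace 𝓘(ℝ, E) x)]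
  {e : ∀ x : M, TangentSpace 𝓘(ℝ, E) x → M}

theorem ip_add_left (x : M) (a b c : E) : ip x (a + b) c = ip x a c + ip x b c := by
  have key : ∀ a b c : TangentSpace 𝓘(ℝ, E) x, inner ℝ (a + b) c = inner ℝ a c + inner ℝ b c :=
    fun a b c => inner_add_left a b c
  exact key a b c

/-- `jf t a` applied to the velocity at `t` -/
theorem jf_vel (F : Facts e) (x : M) (u : E) (a t : ℝ) :
    jf e x u t a (vel e x u t) = (a - t) • vel e x u a := by
  have h := vel_flow F x u t (a - t)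
  rw [show t + (a - t) = a by ring] at h
  rw [← h]
  rfl

theorem affine_of_deriv2 {f : ℝ → ℝ} (hf : ContDiff ℝ 2 f)
    (h2 : ∀ t, deriv (deriv f) t = 0) {s c : ℝ}
    (hs : ∀ᶠ t in 𝓝 s, f t = (t - s) * c) (t : ℝ) : f t = (t - s) * c := by
  have hd1 : ContDiff ℝ 1 (deriv f) := by
    have := hf
    rw [show (2 : WithTop ℕ∞) = 1 + 1 by norm_num, contDiff_succ_iff_deriv] at this
    exact this.2.2
  have hconst : ∀ x y, deriv f x = deriv f y :=
    is_const_of_deriv_eq_zero (hd1.differentiable (by simp)) h2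
  have hds : deriv f s = c := by
    have h3 : f =ᶠ[𝓝 s] fun t => (t - s) * c := hs
    rw [h3.deriv_eq]
    have h4 : HasDerivAt (fun t : ℝ => (t - s) * c) (1 * c) s :=
      ((hasDerivAt_id s).sub_const s).mul_const c
    rw [h4.deriv, one_mul]
  have hg : ∀ x y, f x - (x - s) * c = f y - (y - s) * c := by
    apply is_const_of_deriv_eq_zero (f := fun x => f x - (x - s) * c)
    · exact (hf.differentiable (by simp)).sub
        ((differentiable_id.sub_const s).mul_const c)
    · intro x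
      have h4 : HasDerivAt (fun t : ℝ => (t - s) * c) (1 * c) x :=
        ((hasDerivAt_id x).sub_const s).mul_const c
      have h5 : HasDerivAt f (deriv f x) x := (hf.differentiable (by simp) x).hasDerivAt
      have h6 : HasDerivAt (fun x => f x - (x - s) * c) (deriv f x - 1 * c) x := h5.sub h4
      rw [h6.deriv, hconst x s, hds]
      ring
  have h7 := hg t s
  have h8 : f s = 0 := by
    have := hs.self_of_nhds
    rw [this]; ring
  rw [h8] at h7
  linarith only [h7]

theorem gauss [CompactSpace M] (F : Facts e) (x : M) (u : E) (hu : nm x u = 1) (s t : ℝ)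
    (w : E) :
    ip (gam e x u t) (jf e x u s t w) (vel e x u t) =
      (t - s) * ip (gam e x u s) w (vel e x u s) := by
  obtain ⟨ρ₁, hρ₁, hA⟩ := exists_anti F
  obtain ⟨ρ₂, hρ₂, hR⟩ := exists_rel F
  -- close times
  have hclose : ∀ a τ : ℝ, |τ - a| < ρ₁ → ∀ X : E,
      ip (gam e x u τ) (jf e x u a τ X) (vel e x u τ) =
        (τ - a) * ip (gam e x u a) X (vel e x u a) := by
    intro a τ h X
    rw [hA x u hu a τ h X, jf_vel F, ip_smul_right]
    ring
  set f : ℝ → ℝ := fun τ => ip (gam e x u τ) (jf e x u s τ w) (vel e x u τ) with hf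
  have hfs : ContDiff ℝ ∞ f := contDiff_ip_jf_vel F x u s w
  have hf2 : ContDiff ℝ 2 f := contDiff_infty.1 hfs 2
  have h2 : ∀ τ, deriv (deriv f) τ = 0 := by
    intro τ
    set ρ := min ρ₁ ρ₂ with hρ
    have hρ0 : 0 < ρ := lt_min hρ₁ hρ₂
    have hρ1 : ρ ≤ ρ₁ := min_le_left _ _
    have hρ2 : ρ ≤ ρ₂ := min_le_right _ _
    obtain ⟨X, Z, hXZ⟩ := hR x u hu (τ - ρ / 4) (τ + ρ / 4) (by linarith only [hρ0]) (by linarith only [hρ₂, hρ2]) s w
    have hev : f =ᶠ[𝓝 τ] fun r =>
        (r - (τ - ρ / 4)) * ip (gam e x u (τ - ρ / 4)) X (vel e x u (τ - ρ / 4)) +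
        (r - (τ + ρ / 4)) * ip (gam e x u (τ + ρ / 4)) Z (vel e x u (τ + ρ / 4)) := by
      have hball : ∀ᶠ r in 𝓝 τ, |r - τ| < ρ / 4 := by
        have := Metric.ball_mem_nhds τ (by linarith : 0 < ρ / 4)
        filter_upwards [this] with r hr
        rwa [Metric.mem_ball, Real.dist_eq] at hr
      filter_upwards [hball] with r hr
      rw [abs_lt] at hr
      simp only [hf]
      rw [hXZ r, ip_add_left, hclose _ _ _ X, hclose _ _ _ Z]
      · rw [abs_lt]; constructor <;> linarith only [hρ1, hr, hρ₁]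
      · rw [abs_lt]; constructor <;> linarith
    have h3 := hev.deriv
    rw [h3.deriv_eq]
    have h4 : deriv (fun r =>
        (r - (τ - ρ / 4)) * ip (gam e x u (τ - ρ / 4)) X (vel e x u (τ - ρ / 4)) +
        (r - (τ + ρ / 4)) * ip (gam e x u (τ + ρ / 4)) Z (vel e x u (τ + ρ / 4))) =
        fun _ => ip (gam e x u (τ - ρ / 4)) X (vel e x u (τ - ρ / 4)) +
          ip (gam e x u (τ + ρ / 4)) Z (vel e x u (τ + ρ / 4)) := by
      funext r
      have h5 := ((((hasDerivAt_id r).sub_const (τ - ρ / 4)).mul_const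
        (ip (gam e x u (τ - ρ / 4)) X (vel e x u (τ - ρ / 4)))).add
        (((hasDerivAt_id r).sub_const (τ + ρ / 4)).mul_const
        (ip (gam e x u (τ + ρ / 4)) Z (vel e x u (τ + ρ / 4)))))
      simp only [one_mul] at h5
      exact h5.deriv
    rw [h4]
    exact deriv_const _ _
  have hs : ∀ᶠ τ in 𝓝 s, f τ = (τ - s) * ip (gam e x u s) w (vel e x u s) := by
    have := Metric.ball_mem_nhds s hρ₁
    filter_upwards [this] with τ hτ
    rw [Metric.mem_ball, Real.dist_eq] at hτ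
    exact hclose s τ hτ w
  exact affine_of_deriv2 hf2 h2 hs t

end

end Vale.Agent.P231
end
end

section

section

/-! P231 geometry: the Jacobi data of a closed geodesic in orthonormal frames. -/

set_option maxSynthPendingDepth 3

open Bundle Manifold Set Filter
open scoped ContDiff Manifold Topology

namespace Vale.Agent.P231

noncomputable section

open Vale.Agent.P234

variable {E : Type*} [NormedAddCommGroup E] [NormedSpace ℝ E] [FiniteDimensional ℝ E]
  {M : Type*} [MetricSpace M] [ChartedSpace E M]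
  [RiemannianBundle (fun x : M => TangentSpace 𝓘(ℝ, E) x)]
  [IsManifold 𝓘(ℝ, E) ∞ M]
  [IsContMDiffRiemannianBundle 𝓘(ℝ, E) ∞ E (fun x : M => TangentSpace 𝓘(ℝ, E) x)]
  {e : ∀ x : M, TangentSpace 𝓘(ℝ, E) x → M}

section Ip

omit [FiniteDimensional ℝ E] [IsManifold 𝓘(ℝ, E) ∞ M]
  [IsContMDiffRiemannianBundle 𝓘(ℝ, E) ∞ E (fun x : M => TangentSpace 𝓘(ℝ, E) x)]

lemma asm_ip_comm (x : M) (a b : E) : ip x a b = ip x b a :=
  real_inner_comm (F := TangentSpace 𝓘(ℝ, E) x) _ _

lemma asm_ip_add_left (x : M) (a b c : E) : ip x (a + b) c = ip x a c + ip x b c :=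
  inner_add_left (E := TangentSpace 𝓘(ℝ, E) x) (𝕜 := ℝ) a b c

lemma asm_ip_add_right (x : M) (a b c : E) : ip x a (b + c) = ip x a b + ip x a c :=
  inner_add_right (E := TangentSpace 𝓘(ℝ, E) x) (𝕜 := ℝ) a b c

lemma asm_ip_smul_left (x : M) (r : ℝ) (a b : E) : ip x (r • a) b = r * ip x a b :=
  real_inner_smul_left (F := TangentSpace 𝓘(ℝ, E) x) a b r

lemma asm_ip_smul_right (x : M) (r : ℝ) (a b : E) : ip x a (r • b) = r * ip x a b :=
  real_inner_smul_right (F := TangentSpace 𝓘(ℝ, E) x) a b r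

lemma asm_ip_zero_right (x : M) (a : E) : ip x a 0 = 0 :=
  inner_zero_right (E := TangentSpace 𝓘(ℝ, E) x) (𝕜 := ℝ) a

lemma asm_ip_self (x : M) (a : E) : ip x a a = nm x a ^ 2 :=
  real_inner_self_eq_norm_sq (F := TangentSpace 𝓘(ℝ, E) x) a

lemma asm_nm_smul (x : M) (r : ℝ) (a : E) : nm x (r • a) = |r| * nm x a :=
  norm_smul (α := ℝ) (β := TangentSpace 𝓘(ℝ, E) x) r a

lemma asm_ip_sum_right (x : M) {ι : Type*} (s : Finset ι) (a : E) (f : ι → E) :
    ip x a (∑ i ∈ s, f i) = ∑ i ∈ s, ip x a (f i) :=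
  inner_sum (𝕜 := ℝ) (E := TangentSpace 𝓘(ℝ, E) x) s f a

lemma asm_ip_sum_left (x : M) {ι : Type*} (s : Finset ι) (a : E) (f : ι → E) :
    ip x (∑ i ∈ s, f i) a = ∑ i ∈ s, ip x (f i) a :=
  sum_inner (𝕜 := ℝ) (E := TangentSpace 𝓘(ℝ, E) x) s f a

end Ip

omit [IsManifold 𝓘(ℝ, E) ∞ M]
  [IsContMDiffRiemannianBundle 𝓘(ℝ, E) ∞ E (fun x : M => TangentSpace 𝓘(ℝ, E) x)] in
lemma asm_exists_frame {N : ℕ} (hN : Module.finrank ℝ E = N + 1) (y : M) (ν : E) (hν : nm y ν = 1) :
    ∃ β : Fin N → E, (∀ i j, ip y (β i) (β j) = if i = j then 1 else 0) ∧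
      (∀ i, ip y (β i) ν = 0) ∧ ∀ w, ip y w ν = 0 → w = ∑ i, ip y (β i) w • β i := by
  have hfd : FiniteDimensional ℝ (TangentSpace 𝓘(ℝ, E) y) := finDimTangent y
  have hT : Module.finrank ℝ (TangentSpace 𝓘(ℝ, E) y) = N + 1 := hN
  have hν0 : (ν : TangentSpace 𝓘(ℝ, E) y) ≠ 0 := by
    intro h
    have h1 : nm y ν = ‖(0 : TangentSpace 𝓘(ℝ, E) y)‖ := congrArg _ h
    rw [norm_zero, hν] at h1
    exact one_ne_zero h1
  let W : Submodule ℝ (TangentSpace 𝓘(ℝ, E) y) := (ℝ ∙ (ν : TangentSpace 𝓘(ℝ, E) y))ᗮ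
  have hW : Module.finrank ℝ W = N := by
    have : Fact (Module.finrank ℝ (TangentSpace 𝓘(ℝ, E) y) = N + 1) := ⟨hT⟩
    exact Submodule.finrank_orthogonal_span_singleton hν0
  let B : OrthonormalBasis (Fin N) ℝ W := (stdOrthonormalBasis ℝ W).reindex (finCongr hW)
  refine ⟨fun i => ((B i : W) : TangentSpace 𝓘(ℝ, E) y), ?_, ?_, ?_⟩
  · intro i j
    have := orthonormal_iff_ite.mp B.orthonormal i j
    exact this
  · intro i
    exact Submodule.mem_orthogonal_singleton_iff_inner_left.mp (B i).2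
  · intro w hw
    have hwW : (w : TangentSpace 𝓘(ℝ, E) y) ∈ W :=
      (Submodule.mem_orthogonal_singleton_iff_inner_left (E := TangentSpace 𝓘(ℝ, E) y)
        (𝕜 := ℝ)).mpr hw
    have h1 := B.sum_repr' ⟨w, hwW⟩
    have h2 := congrArg (Submodule.subtype W) h1
    rw [map_sum] at h2
    exact h2.symm

/-- a choice of an orthonormal frame of the orthogonal complement of a unit vector. -/
def asmFrame (E : Type*) [NormedAddCommGroup E] [NormedSpace ℝ E] [FiniteDimensional ℝ E]
    {M : Type*} [MetricSpace M] [ChartedSpace E M]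
    [RiemannianBundle (fun x : M => TangentSpace 𝓘(ℝ, E) x)]
    {N : ℕ} (hN : Module.finrank ℝ E = N + 1) (y : M) (ν : E) : Fin N → E :=
  open Classical in if h : nm y ν = 1 then (asm_exists_frame hN y ν h).choose else 0

section Frame

variable {N : ℕ} (hN : Module.finrank ℝ E = N + 1)

omit [IsManifold 𝓘(ℝ, E) ∞ M]
  [IsContMDiffRiemannianBundle 𝓘(ℝ, E) ∞ E (fun x : M => TangentSpace 𝓘(ℝ, E) x)] in
lemma asm_frame_spec {y : M} {ν : E} (h : nm y ν = 1) :
    (∀ i j, ip y (asmFrame E hN y ν i) (asmFrame E hN y ν j) = if i = j then 1 else 0) ∧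
      (∀ i, ip y (asmFrame E hN y ν i) ν = 0) ∧
      ∀ w, ip y w ν = 0 → w = ∑ i, ip y (asmFrame E hN y ν i) w • asmFrame E hN y ν i := by
  rw [asmFrame, dif_pos h]
  exact (asm_exists_frame hN y ν h).choose_spec

end Frame

lemma asm_jf_add (x : M) (u : E) (s t : ℝ) (w z : E) :
    jf e x u s t (w + z) = jf e x u s t w + jf e x u s t z := by
  rw [jf, jf, jf, dE_add, smul_add]

lemma asm_jf_smul (x : M) (u : E) (s t : ℝ) (c : ℝ) (w : E) :
    jf e x u s t (c • w) = c • jf e x u s t w := by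
  rw [jf, jf, dE_smul, smul_comm]

lemma asm_jf_zero_vec (x : M) (u : E) (s t : ℝ) : jf e x u s t 0 = 0 := by
  have := asm_jf_smul (e := e) x u s t 0 0
  simpa using this

lemma asm_jf_sum (x : M) (u : E) (s t : ℝ) {ι : Type*} (S : Finset ι) (f : ι → E) :
    jf e x u s t (∑ i ∈ S, f i) = ∑ i ∈ S, jf e x u s t (f i) := by
  classical
  induction S using Finset.induction_on with
  | empty => simp [asm_jf_zero_vec]
  | insert a S ha ih => rw [Finset.sum_insert ha, Finset.sum_insert ha, asm_jf_add, ih]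

omit [IsManifold 𝓘(ℝ, E) ∞ M]
  [IsContMDiffRiemannianBundle 𝓘(ℝ, E) ∞ E (fun x : M => TangentSpace 𝓘(ℝ, E) x)] in
/-- Parseval in the orthogonal complement. -/
lemma asm_ip_eq_sum {N : ℕ} (hN : Module.finrank ℝ E = N + 1) {y : M} {ν : E} (h : nm y ν = 1)
    (w z : E) (hz : ip y z ν = 0) :
    ip y w z = ∑ i, ip y (asmFrame E hN y ν i) w * ip y (asmFrame E hN y ν i) z := by
  conv_lhs => rw [(asm_frame_spec hN h).2.2 z hz]
  rw [asm_ip_sum_right]
  refine Finset.sum_congr rfl fun i _ => ?_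
  rw [asm_ip_smul_right, asm_ip_comm y w, mul_comm]

section Main

variable [CompactSpace M] [ConnectedSpace M] [IsRiemannianManifold 𝓘(ℝ, E) M]

theorem exists_jdata
    (F : Facts e) {D : ℝ} (hD : 0 < D) (hB : InjGE e D)
    (hcl : ∀ (x : M) (v : E), nm x v = 2 * D → e x v = x)
    {N : ℕ} (hN : Module.finrank ℝ E = N + 1) (x : M) (u : E) (hu : nm x u = 1) :
    ∃ (b : ℝ → Fin N → E) (A : ℝ → ℝ → Matrix (Fin N) (Fin N) ℝ), JData D A ∧
      (∀ t i j, ip (gam e x u t) (b t i) (b t j) = if i = j then 1 else 0) ∧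
      (∀ t i, ip (gam e x u t) (b t i) (vel e x u t) = 0) ∧
      (∀ s t j, jf e x u s t (b s j) = ∑ i, A s t i j • b t i) := by
  have hv : ∀ t, nm (gam e x u t) (vel e x u t) = 1 := fun t => (nm_vel F x u t).trans hu
  set b : ℝ → Fin N → E := fun t => asmFrame E hN (gam e x u t) (vel e x u t) with hb
  have hon : ∀ t i j, ip (gam e x u t) (b t i) (b t j) = if i = j then 1 else 0 :=
    fun t => (asm_frame_spec hN (hv t)).1
  have hperp : ∀ t i, ip (gam e x u t) (b t i) (vel e x u t) = 0 :=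
    fun t => (asm_frame_spec hN (hv t)).2.1
  have hcomp : ∀ t w, ip (gam e x u t) w (vel e x u t) = 0 →
      w = ∑ i, ip (gam e x u t) (b t i) w • b t i := fun t => (asm_frame_spec hN (hv t)).2.2
  have hpars : ∀ t w z, ip (gam e x u t) z (vel e x u t) = 0 → ip (gam e x u t) w z =
      ∑ i, ip (gam e x u t) (b t i) w * ip (gam e x u t) (b t i) z :=
    fun t w z hz => asm_ip_eq_sum hN (hv t) w z hz
  -- Jacobi fields with orthogonal derivative stay orthogonal
  have hjp : ∀ s t w, ip (gam e x u s) w (vel e x u s) = 0 →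
      ip (gam e x u t) (jf e x u s t w) (vel e x u t) = 0 := fun s t w hw => by
    rw [gauss F x u hu s t w, hw, mul_zero]
  set A : ℝ → ℝ → Matrix (Fin N) (Fin N) ℝ := fun s t i j =>
    ip (gam e x u t) (b t i) (jf e x u s t (b s j)) with hA
  have hAdef : ∀ s t i j, A s t i j = ip (gam e x u t) (b t i) (jf e x u s t (b s j)) :=
    fun _ _ _ _ => rfl
  have hcol : ∀ s t j, jf e x u s t (b s j) = ∑ i, A s t i j • b t i := fun s t j =>
    hcomp t _ (hjp s t _ (hperp s j))
  have hbper : ∀ t, b (t + 2 * D) = b t := fun t => by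
    simp only [hb]
    rw [gam_per F hD.le hcl x u hu t, vel_per F hD.le hcl x u hu t]
  obtain ⟨ρ₁, hρ₁, hanti⟩ := exists_anti F
  obtain ⟨ρ₂, hρ₂, hrel⟩ := exists_rel F
  refine ⟨b, A, JData.of_local (ρ := min ρ₁ ρ₂) hD (lt_min hρ₁ hρ₂) ?_ ?_ ?_ ?_ ?_ ?_ ?_ ?_,
    hon, hperp, hcol⟩
  · -- diag
    intro s
    ext i j
    rw [hAdef, jf, sub_self, zero_smul, asm_ip_zero_right, Matrix.zero_apply]
  · -- anti
    intro s t hst
    ext i j
    rw [Matrix.neg_apply, Matrix.transpose_apply, hAdef, hAdef]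
    have := hanti x u hu s t (hst.trans_le (min_le_left _ _)) (b s i) (b t j)
    rw [asm_ip_comm (gam e x u t) (b t j), this, neg_neg]
  · -- rel
    intro a c hac hca s
    have hX : ∀ j : Fin N, ∃ X Z : E, ip (gam e x u a) X (vel e x u a) = 0 ∧
        ip (gam e x u c) Z (vel e x u c) = 0 ∧
        ∀ t, jf e x u s t (b s j) = jf e x u a t X + jf e x u c t Z := by
      intro j
      obtain ⟨X, Z, h⟩ := hrel x u hu a c hac
        (hca.trans_le (add_le_add le_rfl (min_le_right _ _))) s (b s j)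
      have h1 : ∀ t, 0 = (t - a) * ip (gam e x u a) X (vel e x u a) +
          (t - c) * ip (gam e x u c) Z (vel e x u c) := by
        intro t
        rw [← gauss F x u hu a t X, ← gauss F x u hu c t Z, ← asm_ip_add_left, ← h t]
        exact (hjp s t _ (hperp s j)).symm
      have h2 := h1 a
      have h3 := h1 c
      rw [sub_self, zero_mul, zero_add] at h2
      rw [sub_self, zero_mul, add_zero] at h3
      refine ⟨X, Z, ?_, ?_, h⟩
      · rcases mul_eq_zero.mp h3.symm with h4 | h4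
        · exact absurd h4 (sub_ne_zero.mpr hac.ne')
        · exact h4
      · rcases mul_eq_zero.mp h2.symm with h4 | h4
        · exact absurd h4 (sub_ne_zero.mpr hac.ne)
        · exact h4
    choose X Z hXp hZp hXZ using hX
    refine ⟨Matrix.of fun k j => ip (gam e x u a) (b a k) (X j),
      Matrix.of fun k j => ip (gam e x u c) (b c k) (Z j), fun t => ?_⟩
    ext i j
    rw [Matrix.add_apply, Matrix.mul_apply, Matrix.mul_apply, hAdef, hXZ j t, asm_ip_add_right]
    simp only [Matrix.of_apply]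
    congr 1
    · conv_lhs => rw [hcomp a (X j) (hXp j)]
      rw [asm_jf_sum, asm_ip_sum_right]
      refine Finset.sum_congr rfl fun k _ => ?_
      rw [asm_jf_smul, asm_ip_smul_right, hAdef, mul_comm]
    · conv_lhs => rw [hcomp c (Z j) (hZp j)]
      rw [asm_jf_sum, asm_ip_sum_right]
      refine Finset.sum_congr rfl fun k _ => ?_
      rw [asm_jf_smul, asm_ip_smul_right, hAdef, mul_comm]
  · -- smooth
    intro a c i j
    have h1 : (fun t => ((A a t).transpose * A c t) i j) =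
        fun t => ip (gam e x u t) (jf e x u a t (b a i)) (jf e x u c t (b c j)) := by
      funext t
      rw [hpars t _ _ (hjp c t _ (hperp c j)), Matrix.mul_apply]
      rfl
    rw [h1]
    exact contDiff_ip_jf F x u a c _ _
  · -- der
    intro a c i j
    have h1 : (fun t => ((A a t).transpose * A c t) i j) =
        fun t => ip (gam e x u t) (jf e x u a t (b a i)) (jf e x u c t (b c j)) := by
      funext t
      rw [hpars t _ _ (hjp c t _ (hperp c j)), Matrix.mul_apply]
      rfl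
    rw [h1, hAdef, asm_ip_comm]
    exact hasDerivAt_ip_jf F x u a c _ _
  · -- per
    intro s t
    ext i j
    rw [hAdef, hAdef, hbper, gam_per F hD.le hcl x u hu t, jf_per F hD hcl x u hu s t _ (hperp s j)]
  · -- per'
    intro s t
    ext i j
    have h1 : jf e x u (s + 2 * D) t (b (s + 2 * D) j) = jf e x u s (t - 2 * D) (b s j) := by
      rw [jf, jf, hbper, gam_per F hD.le hcl x u hu s, vel_per F hD.le hcl x u hu s,
        show t - (s + 2 * D) = t - 2 * D - s by ring]
    have h2 := jf_per F hD hcl x u hu s (t - 2 * D) _ (hperp s j)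
    rw [sub_add_cancel] at h2
    rw [hAdef, hAdef, h1, h2]
  · -- unit
    intro s t hst hts
    rw [← Matrix.mulVec_injective_iff_isUnit]
    intro c c' hcc
    have hc0 : (A s t).mulVec (c - c') = 0 := by
      rw [Matrix.mulVec_sub]
      exact sub_eq_zero.mpr hcc
    set d := c - c' with hd
    have h1 : jf e x u s t (∑ j, d j • b s j) = 0 := by
      rw [asm_jf_sum]
      have : ∀ j, jf e x u s t (d j • b s j) = ∑ i, (A s t i j * d j) • b t i := by
        intro j
        rw [asm_jf_smul, hcol, Finset.smul_sum]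
        refine Finset.sum_congr rfl fun i _ => ?_
        rw [smul_smul, mul_comm]
      rw [Finset.sum_congr rfl fun j _ => this j, Finset.sum_comm]
      refine Finset.sum_eq_zero fun i _ => ?_
      rw [← Finset.sum_smul]
      have := congrFun hc0 i
      rw [Matrix.mulVec, dotProduct, Pi.zero_apply] at this
      rw [this, zero_smul]
    have h2 : dE e (gam e x u s) ((t - s) • vel e x u s) (∑ j, d j • b s j) = 0 := by
      rw [jf] at h1
      exact (smul_eq_zero.mp h1).resolve_left (sub_ne_zero.mpr hst.ne')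
    have h3 : ∑ j, d j • b s j = 0 := by
      refine dE_injective F hB ?_ h2
      rw [asm_nm_smul, hv, mul_one, abs_of_pos (sub_pos.mpr hst)]
      linarith only [hts]
    have h4 : ∀ i, d i = 0 := by
      intro i
      have h5 : ip (gam e x u s) (b s i) (∑ j, d j • b s j) = 0 := by
        rw [h3, asm_ip_zero_right]
      rw [asm_ip_sum_right] at h5
      simp_rw [asm_ip_smul_right, hon] at h5
      simpa only [mul_ite, mul_one, mul_zero, Finset.sum_ite_eq, Finset.mem_univ, ↓reduceIte] using h5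
    rw [← sub_eq_zero]
    exact funext h4

end Main

end

end Vale.Agent.P231
end
end

section

section

/-! P231 measure part MC: the Jacobian of the exponential map and the Jacobi data. -/

set_option maxSynthPendingDepth 3
set_option linter.unusedSectionVars false

open Bundle Manifold Set Filter MeasureTheory Module
open scoped ContDiff Manifold Topology ENNReal

namespace Vale.Agent.P231

noncomputable section

open Vale.Agent.P234

variable {E : Type*} [NormedAddCommGroup E] [NormedSpace ℝ E] [FiniteDimensional ℝ E]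
  {M : Type*} [MetricSpace M] [ChartedSpace E M]
  [RiemannianBundle (fun x : M => TangentSpace 𝓘(ℝ, E) x)]
  [IsManifold 𝓘(ℝ, E) ∞ M]
  [IsContMDiffRiemannianBundle 𝓘(ℝ, E) ∞ E (fun x : M => TangentSpace 𝓘(ℝ, E) x)]
  {e : ∀ x : M, TangentSpace 𝓘(ℝ, E) x → M}

lemma absDet_point (F : Facts e) (x : M) (u : E) (s t : ℝ) :
    e (gam e x u s) ((t - s) • vel e x u s : E) = gam e x u t := by
  have h := gam_flow F x u s (t - s)
  rw [add_sub_cancel] at h
  exact h

lemma absDet_vel (F : Facts e) (x : M) (u : E) (s t : ℝ) :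
    dE e (gam e x u s) ((t - s) • vel e x u s) (vel e x u s) = vel e x u t := by
  have h := vel_flow F x u s (t - s)
  rw [add_sub_cancel] at h
  exact h

theorem abs_det_jf [CompactSpace M] (F : Facts e) {N : ℕ} (hN : finrank ℝ E = N + 1) (x : M)
    (u : E) (hu : nm x u = 1) {b : ℝ → Fin N → E} {A : ℝ → ℝ → Matrix (Fin N) (Fin N) ℝ}
    (h1 : ∀ t i j, ip (gam e x u t) (b t i) (b t j) = if i = j then 1 else 0)
    (h2 : ∀ t i, ip (gam e x u t) (b t i) (vel e x u t) = 0)
    (h3 : ∀ s t j, jf e x u s t (b s j) = ∑ i, A s t i j • b t i) (s t : ℝ) :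
    |(A s t).det| = |t - s| ^ N * jac e (gam e x u s) ((t - s) • vel e x u s) := by
  classical
  have hpt := absDet_point F x u s t
  have hvt := absDet_vel F x u s t
  have hself : ∀ τ, ip (gam e x u τ) (vel e x u τ) (vel e x u τ) = 1 := fun τ => by
    rw [asm_ip_self, nm_vel F, hu, one_pow]
  have hframe : ∀ τ, ∀ i j : Fin N ⊕ Unit,
      ip (gam e x u τ) (Sum.elim (b τ) (fun _ => vel e x u τ) i)
        (Sum.elim (b τ) (fun _ => vel e x u τ) j) = if i = j then 1 else 0 := by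
    intro τ i j
    rcases i with i | i <;> rcases j with j | j
    · simpa using h1 τ i j
    · simpa using h2 τ i
    · have := h2 τ j
      rw [asm_ip_comm] at this
      simpa using this
    · simpa using hself τ
  have hcard : Fintype.card (Fin N ⊕ Unit) = finrank ℝ E := by simp only [Fintype.card_sum, Fintype.card_fin, Fintype.card_unique, hN, Nat.add_left_cancel_iff]
  have hq : ∀ i j : Fin N ⊕ Unit,
      ip (e (gam e x u s) ((t - s) • vel e x u s : E))
        (Sum.elim (b t) (fun _ => vel e x u t) i)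
        (Sum.elim (b t) (fun _ => vel e x u t) j) = if i = j then 1 else 0 := by
    rw [hpt]
    exact hframe t
  have hj := jac_eq (e := e) hcard (gam e x u s) ((t - s) • vel e x u s) (hframe s) hq
  set M11 : Matrix (Fin N) (Fin N) ℝ := Matrix.of fun i j =>
    ip (gam e x u t) (b t i) (dE e (gam e x u s) ((t - s) • vel e x u s) (b s j)) with hM11
  have hA : A s t = (t - s) • M11 := by
    ext i j
    have h4 := congrArg (fun z => ip (gam e x u t) (b t i) z) (h3 s t j)
    simp only [jf, asm_ip_smul_right, asm_ip_sum_right, h1] at h4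
    rw [Matrix.smul_apply, hM11, Matrix.of_apply, smul_eq_mul, h4]
    simp only [mul_ite, mul_one, mul_zero, Finset.sum_ite_eq, Finset.mem_univ, ↓reduceIte]
  have h21 : ∀ j, ip (gam e x u t) (vel e x u t)
      (dE e (gam e x u s) ((t - s) • vel e x u s) (b s j)) = 0 := by
    intro j
    by_cases hst : t - s = 0
    · have hts : t = s := sub_eq_zero.1 hst
      subst hts
      rw [sub_self, zero_smul, dE_zero_base F.isExp, asm_ip_comm]
      exact h2 t j
    · have h4 := congrArg (fun z => ip (gam e x u t) (vel e x u t) z) (h3 s t j)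
      simp only [jf, asm_ip_smul_right, asm_ip_sum_right] at h4
      have h5 : ∑ i, A s t i j * ip (gam e x u t) (vel e x u t) (b t i) = 0 := by
        refine Finset.sum_eq_zero fun i _ => ?_
        rw [asm_ip_comm, h2, mul_zero]
      rw [h5] at h4
      exact (mul_eq_zero.1 h4).resolve_left hst
  have hM : (Matrix.of fun i j : Fin N ⊕ Unit =>
      ip (e (gam e x u s) ((t - s) • vel e x u s : E))
        (Sum.elim (b t) (fun _ => vel e x u t) i)
        (dE e (gam e x u s) ((t - s) • vel e x u s)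
          (Sum.elim (b s) (fun _ => vel e x u s) j))) = Matrix.fromBlocks M11 0 0 1 := by
    rw [hpt]
    ext i j
    rcases i with i | i <;> rcases j with j | j
    · simp [hM11]
    · simp [hvt, h2]
    · simp [h21]
    · simp [hvt, hself]
  rw [hj, hM, Matrix.det_fromBlocks_zero₂₁, Matrix.det_one, mul_one, hA, Matrix.det_smul,
    Fintype.card_fin, abs_mul, abs_pow]

theorem finrank_ker_le [CompactSpace M] (F : Facts e) {D : ℝ} {l : ℕ}
    (hl : ∀ (x : M) (v : E), nm x v = D → finrank ℝ (LinearMap.ker (dEl e x v)) ≤ l)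
    (hD : 0 < D) {N : ℕ} (x : M) (u : E) (hu : nm x u = 1) {b : ℝ → Fin N → E}
    {A : ℝ → ℝ → Matrix (Fin N) (Fin N) ℝ}
    (h1 : ∀ t i j, ip (gam e x u t) (b t i) (b t j) = if i = j then 1 else 0)
    (h3 : ∀ s t j, jf e x u s t (b s j) = ∑ i, A s t i j • b t i) (s : ℝ) :
    finrank ℝ (LinearMap.ker (A s (s + D)).mulVecLin) ≤ l := by
  classical
  have hl' := hl (gam e x u s) (D • vel e x u s)
    (by rw [asm_nm_smul, nm_vel F, hu, mul_one, abs_of_pos hD])
  refine le_trans ?_ hl'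
  let Φ : (Fin N → ℝ) →ₗ[ℝ] E := Fintype.linearCombination ℝ (b s)
  have hΦ : ∀ c, Φ c = ∑ j, c j • b s j := fun c => Fintype.linearCombination_apply ℝ (b s) c
  have hker : ∀ c ∈ LinearMap.ker (A s (s + D)).mulVecLin,
      Φ c ∈ LinearMap.ker (dEl e (gam e x u s) (D • vel e x u s)) := by
    intro c hc
    have hc' : ∀ i, ∑ j, A s (s + D) i j * c j = 0 := fun i => congrFun hc i
    have h4 : jf e x u s (s + D) (Φ c) = 0 := by
      rw [hΦ, asm_jf_sum]
      calc ∑ j, jf e x u s (s + D) (c j • b s j)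
          = ∑ j, ∑ i, (c j * A s (s + D) i j) • b (s + D) i := by
            refine Finset.sum_congr rfl fun j _ => ?_
            rw [asm_jf_smul, h3, Finset.smul_sum]
            refine Finset.sum_congr rfl fun i _ => ?_
            rw [smul_smul]
        _ = ∑ i, (∑ j, A s (s + D) i j * c j) • b (s + D) i := by
            rw [Finset.sum_comm]
            refine Finset.sum_congr rfl fun i _ => ?_
            rw [Finset.sum_smul]
            refine Finset.sum_congr rfl fun j _ => ?_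
            rw [mul_comm]
        _ = 0 := by simp only [hc', zero_smul, Finset.sum_const_zero]
    rw [jf, add_sub_cancel_left] at h4
    exact (smul_eq_zero.1 h4).resolve_left hD.ne'
  refine LinearMap.finrank_le_finrank_of_injective
    (f := (Φ.restrict hker)) ?_
  intro c c' hcc
  have h5 : Φ c = Φ c' := congrArg Subtype.val hcc
  apply Subtype.ext
  funext k
  have h6 := congrArg (fun z => ip (gam e x u s) (b s k) z) h5
  simpa only [hΦ, asm_ip_sum_right, asm_ip_smul_right, h1, mul_ite, mul_one, mul_zero, Finset.sum_ite_eq,     Finset.mem_univ, ↓reduceIte] using h6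

/-- symmetry of the Jacobian under reversal of the geodesic -/
theorem jac_symm [CompactSpace M] [ConnectedSpace M] [IsRiemannianManifold 𝓘(ℝ, E) M]
    (F : Facts e) {D : ℝ} (hD : 0 < D) (hB : InjGE e D)
    (hcl : ∀ (x : M) (v : E), nm x v = 2 * D → e x v = x) (x : M) (v : E) :
    jac e (gam e x v 1) (-vel e x v 1) = jac e x v := by
  by_cases hv : v = 0
  · subst hv
    have h1 : gam e x (0 : E) 1 = x := by
      have := gam_smul (e := e) x (0 : E) 0 1
      rw [zero_smul, zero_mul] at this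
      rw [this]
      exact gam_zero F.isExp x 0
    have h2 : vel e x (0 : E) 1 = 0 := by
      have := vel_smul (e := e) x (0 : E) 0 1
      rw [zero_smul, zero_smul] at this
      exact this
    rw [h1, h2, neg_zero]
  · have hr : 0 < nm x v := by
      have h0 : 0 ≤ nm x v := nm_nonneg x v
      refine lt_of_le_of_ne h0 fun h => hv ?_
      exact (norm_eq_zero (E := TangentSpace 𝓘(ℝ, E) x) (a := v)).1 h.symm
    set r := nm x v with hrdef
    set u : E := r⁻¹ • v with hudef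
    have hu : nm x u = 1 := by
      rw [hudef, asm_nm_smul, abs_of_pos (inv_pos.2 hr), ← hrdef, inv_mul_cancel₀ hr.ne']
    have hvu : v = r • u := by rw [hudef, smul_smul, mul_inv_cancel₀ hr.ne', one_smul]
    have hpos : 0 < finrank ℝ E := by
      have : Nontrivial E := ⟨⟨v, 0, hv⟩⟩
      exact finrank_pos
    obtain ⟨N, hN⟩ : ∃ N, finrank ℝ E = N + 1 := ⟨finrank ℝ E - 1, by omega⟩
    obtain ⟨b, A, hJ, h1, h2, h3⟩ := exists_jdata F hD hB hcl hN x u hu
    have e1 := abs_det_jf F hN x u hu h1 h2 h3 0 r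
    have e2 := abs_det_jf F hN x u hu h1 h2 h3 r 0
    rw [hJ.anti 0 r, Matrix.det_neg, Matrix.det_transpose, abs_mul, abs_pow, abs_neg, abs_one,
      one_pow, one_mul, e1] at e2
    rw [gam_zero F.isExp, vel_zero F.isExp, sub_zero, ← hvu, zero_sub, abs_neg,
      abs_of_pos hr] at e2
    have h5 := mul_left_cancel₀ (pow_pos hr N).ne' e2
    rw [h5]
    have h6 : gam e x v 1 = gam e x u r := by
      rw [hvu, gam_smul, mul_one]
    have h7 : vel e x v 1 = r • vel e x u r := by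
      rw [hvu, vel_smul, mul_one]
    rw [h6, h7, neg_smul]

end

end Vale.Agent.P231
end
end

section

section

/-! P231 measure part ME: the inverse of the exponential map. -/

set_option maxSynthPendingDepth 3
set_option linter.unusedSectionVars false

open Bundle Manifold Set Filter MeasureTheory Module
open scoped ContDiff Manifold Topology ENNReal

namespace Vale.Agent.P231

noncomputable section

open Vale.Agent.P234

variable {E : Type*} [NormedAddCommGroup E] [NormedSpace ℝ E] [FiniteDimensional ℝ E]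
  {M : Type*} [MetricSpace M] [ChartedSpace E M]
  [RiemannianBundle (fun x : M => TangentSpace 𝓘(ℝ, E) x)]
  [IsManifold 𝓘(ℝ, E) ∞ M]
  [IsContMDiffRiemannianBundle 𝓘(ℝ, E) ∞ E (fun x : M => TangentSpace 𝓘(ℝ, E) x)]
  {e : ∀ x : M, TangentSpace 𝓘(ℝ, E) x → M}

/-! ### auxiliary lemmas -/

theorem log_gam_one (x : M) (v : E) : gam e x v 1 = e x v := by
  have h : ((1 : ℝ) • v : E) = v := one_smul ℝ v
  exact congrArg (e x) h

/-- Uniqueness of the minimizing vector when the cost is smooth (no compactness). -/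
theorem log_segMin_unique (he : IsExp e) {x : M} {v w : TangentSpace 𝓘(ℝ, E) x}
    (hv : v ∈ segMin e x) (hw : w ∈ segMin e x) (hs : SmoothAt E x (e x v))
    (hvw : e x w = e x v) : w = v := by
  have h1 := hasFDerivAt_cost_zero he x v hv hs
  have h2 := hasFDerivAt_cost_zero he x w hw (by rw [hvw]; exact hs)
  rw [hvw] at h2
  have h3 := h1.unique h2
  have h4 : ∀ ξ : TangentSpace 𝓘(ℝ, E) x, inner ℝ v ξ = inner ℝ w ξ := by
    intro ξ
    have := congrArg (fun L => L ξ) h3
    simpa only [neg_apply, coe_innerSL_apply, neg_inj] using this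
  exact (ext_inner_right ℝ h4).symm

theorem log_nm_neg (x : M) (v : E) : nm x (-v) = nm x v :=
  norm_neg (E := TangentSpace 𝓘(ℝ, E) x) v

/-! ### ME (file Meas/Log.lean) -/

theorem lg_spec (F : Facts e) (x y : M) :
    nm x (lg e x y) = dist x y ∧ e x (lg e x y : E) = y := by
  obtain ⟨v, hv, hd⟩ := F.hopfRinow x y
  have h : ∃ v : E, nm x v = dist x y ∧ gam e x v 1 = y :=
    ⟨v, hd.symm, (log_gam_one (E := E) x v).trans hv⟩
  have h2 := Classical.epsilon_spec h
  exact ⟨h2.1, (log_gam_one x _).symm.trans h2.2⟩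

theorem lg_eq (F : Facts e) {D : ℝ} (hB : InjGE e D) {x : M} {v : E} (hv : nm x v < D) :
    lg e x (e x v) = v := by
  obtain ⟨h1, h2⟩ := lg_spec F x (e x v)
  have h3 : (v : TangentSpace 𝓘(ℝ, E) x) ∈ injDomain e x := hB.mem_injDomain hv
  generalize lg e x (e x v) = w at h1 h2 ⊢
  have h4 : (w : TangentSpace 𝓘(ℝ, E) x) ∈ segMin e x := by
    have h5 : dist x (e x w) = nm x w := by rw [h2, h1]
    exact h5
  exact log_segMin_unique F.isExp (injDomain_subset_segMin F.isExp x h3) h4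
    (F.smooth_cost x v h3) h2

theorem lg_swap (F : Facts e) {D : ℝ} (hB : InjGE e D) {x y : M} (h : dist x y < D) :
    lg e y x = -vel e x (lg e x y) 1 := by
  obtain ⟨h1, h2⟩ := lg_spec F x y
  have h3 : gam e x (lg e x y) 1 = y := (log_gam_one x _).trans h2
  have h4 := gam_flow F x (lg e x y) 1 (-1)
  have h5 := nm_vel F x (lg e x y) 1
  rw [h3] at h4 h5
  rw [add_neg_cancel, gam_zero F.isExp] at h4
  have h6 : e y (-vel e x (lg e x y) 1 : E) = x := by
    have h7 : ((-1 : ℝ) • vel e x (lg e x y) 1 : E) = -vel e x (lg e x y) 1 := neg_one_smul ℝ _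
    exact (congrArg (e y) h7).symm.trans h4
  have h8 : nm y (-vel e x (lg e x y) 1) < D := by
    rw [log_nm_neg, h5, h1]
    exact h
  have h9 := lg_eq F hB h8
  rw [h6] at h9
  exact h9

/-- continuity of `(x, y) ↦ G x (lg x y)` extended by zero -/
theorem continuous_lg [CompactSpace M] (F : Facts e) {D : ℝ} (hB : InjGE e D) {G : M → E → ℝ}
    (hG : ContTB G) {b : ℝ} (hb : b < D) (hs : ∀ x v, b < nm x v → G x v = 0) :
    Continuous fun p : M × M => G p.1 (lg e p.1 p.2) := by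
  rw [continuous_iff_seqContinuous]
  intro u p hu
  change Tendsto (fun k => G (u k).1 (lg e (u k).1 (u k).2)) atTop (𝓝 (G p.1 (lg e p.1 p.2)))
  have hu1 : Tendsto (fun k => (u k).1) atTop (𝓝 p.1) := (continuous_fst.tendsto p).comp hu
  have hu2 : Tendsto (fun k => (u k).2) atTop (𝓝 p.2) := (continuous_snd.tendsto p).comp hu
  have hdist : Tendsto (fun k => dist (u k).1 (u k).2) atTop (𝓝 (dist p.1 p.2)) := hu1.dist hu2
  rcases lt_or_ge b (dist p.1 p.2) with hlt | hge
  · -- far: everything is zero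
    have h0 : G p.1 (lg e p.1 p.2) = 0 := hs _ _ (by rw [(lg_spec F p.1 p.2).1]; exact hlt)
    rw [h0]
    refine tendsto_const_nhds.congr' ?_
    filter_upwards [hdist.eventually (lt_mem_nhds hlt)] with k hk
    exact (hs _ _ (by rw [(lg_spec F (u k).1 (u k).2).1]; exact hk)).symm
  · -- near
    refine tendsto_of_subseq_tendsto fun ns hns => ?_
    obtain ⟨L, hL⟩ : ∃ L : ℕ → E, ∀ k, L k = lg e (u (ns k)).1 (u (ns k)).2 := ⟨_, fun _ => rfl⟩
    have hL1 : ∀ k, nm (u (ns k)).1 (L k) = dist (u (ns k)).1 (u (ns k)).2 := by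
      intro k
      rw [hL k]
      exact (lg_spec F _ _).1
    have hL2 : ∀ k, e (u (ns k)).1 (L k) = (u (ns k)).2 := by
      intro k
      rw [hL k]
      exact (lg_spec F _ _).2
    have hbd : ∀ k, nm (u (ns k)).1 (L k) ≤ Metric.diam (univ : Set M) := by
      intro k
      rw [hL1 k]
      exact Metric.dist_le_diam_of_mem isCompact_univ.isBounded (mem_univ _) (mem_univ _)
    obtain ⟨z₀, v₀, φ, hφ, hT⟩ := exists_tendstoTB (E := E) (fun k => (u (ns k)).1)
      (fun k => L k) _ hbd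
    refine ⟨φ, ?_⟩
    have hns' : Tendsto (fun k => ns (φ k)) atTop atTop := hns.comp hφ.tendsto_atTop
    have hz : z₀ = p.1 := tendsto_nhds_unique hT.base (hu1.comp hns')
    subst hz
    have hexp := hT.exp F.isExp
    have hy : e p.1 v₀ = p.2 := by
      refine tendsto_nhds_unique hexp ?_
      refine (hu2.comp hns').congr fun k => ?_
      exact (hL2 (φ k)).symm
    have hn : nm (E := E) p.1 v₀ = dist p.1 p.2 := by
      refine tendsto_nhds_unique hT.norm ?_
      refine (hdist.comp hns').congr fun k => ?_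
      exact (hL1 (φ k)).symm
    have hlt : nm (E := E) p.1 v₀ < D := by rw [hn]; linarith
    have hv := lg_eq (E := E) F hB hlt
    rw [hy] at hv
    rw [hv]
    refine ((hG.tendsto (⟨p.1, v₀⟩ : TangentBundle 𝓘(ℝ, E) M)).comp hT).congr fun k => ?_
    change G (u (ns (φ k))).1 (L (φ k)) = _
    rw [hL]

theorem log_continuous_tb (x : M) :
    Continuous fun ξ : Eu E => (⟨x, (fr x ξ : E)⟩ : TangentBundle 𝓘(ℝ, E) M) := by
  have h : Continuous (fun v : TangentSpace 𝓘(ℝ, E) x => (⟨x, v⟩ : TangentBundle 𝓘(ℝ, E) M)) :=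
    FiberBundle.continuous_totalSpaceMk E (TangentSpace 𝓘(ℝ, E)) x
  have h2 : Continuous (fr x : Eu E → E) := ContinuousLinearEquiv.continuous (fr x)
  exact h.comp h2

theorem log_continuous_ef (he : IsExp e) (x : M) : Continuous (ef e x) := by
  have h := log_continuous_tb (E := E) (M := M) x
  have h2 := he.smooth.continuous.comp h
  exact h2

theorem log_image_ball (F : Facts e) {D : ℝ} (hB : InjGE e D) (x : M) :
    ef e x '' Metric.ball 0 D = {y | dist x y < D} := by
  ext y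
  constructor
  · rintro ⟨ξ, hξ, rfl⟩
    rw [mem_ball_zero_iff] at hξ
    have h1 : nm x (fr x ξ) = ‖ξ‖ := nm_fr x ξ
    have h2 : dist x (e x (fr x ξ : E)) = nm x (fr x ξ) :=
      hB x (fr x ξ : E) (by
        change nm x (fr x ξ) ≤ D
        rw [h1]; exact hξ.le)
    change dist x (e x (fr x ξ : E)) < D
    rw [h2, h1]
    exact hξ
  · intro hy
    obtain ⟨h1, h2⟩ := lg_spec F x y
    have h3 : (fr x ((fr x).symm (lg e x y)) : E) = lg e x y := (fr x).apply_symm_apply _
    refine ⟨(fr x).symm (lg e x y), ?_, ?_⟩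
    · rw [mem_ball_zero_iff, ← nm_fr x, h3, h1]
      exact hy
    · exact (congrArg (e x) h3).trans h2

end

end Vale.Agent.P231
end
end

section

section

/-! P231 measure part ME: change of variables for the inverse of the exponential map. -/

set_option maxSynthPendingDepth 3
set_option linter.unusedSectionVars false

open Bundle Manifold Set Filter MeasureTheory Module
open scoped ContDiff Manifold Topology ENNReal

namespace Vale.Agent.P231

noncomputable section

open Vale.Agent.P234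

variable {E : Type*} [NormedAddCommGroup E] [NormedSpace ℝ E] [FiniteDimensional ℝ E]
  {M : Type*} [MetricSpace M] [ChartedSpace E M]
  [RiemannianBundle (fun x : M => TangentSpace 𝓘(ℝ, E) x)]
  [IsManifold 𝓘(ℝ, E) ∞ M]
  [IsContMDiffRiemannianBundle 𝓘(ℝ, E) ∞ E (fun x : M => TangentSpace 𝓘(ℝ, E) x)]
  {e : ∀ x : M, TangentSpace 𝓘(ℝ, E) x → M}

theorem log_measurable_jac [CompactSpace M] (he : IsExp e) (x : M) :
    Measurable fun ξ : Eu E => ENNReal.ofReal (jac e x (fr x ξ)) := by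
  have h1 := log_continuous_tb (E := E) (M := M) x
  have h2 := (contTB_jac he).comp h1
  have h3 : Continuous fun ξ : Eu E => jac e x (fr x ξ) := h2
  exact h3.measurable.ennreal_ofReal

theorem log_map_eq [CompactSpace M] [ConnectedSpace M] [IsRiemannianManifold 𝓘(ℝ, E) M]
    [MeasurableSpace M] [BorelSpace M] (F : Facts e) {D : ℝ} (hD : 0 < D) (hB : InjGE e D)
    (x : M) :
    ((volume.restrict (Metric.ball (0 : Eu E) D)).withDensity
      (fun ξ : Eu E => ENNReal.ofReal (jac e x (fr x ξ)))).map (ef e x) =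
      (riemVol (finrank ℝ E) M).restrict (ef e x '' Metric.ball 0 D) := by
  have hφ : Measurable (ef e x) := (log_continuous_ef F.isExp x).measurable
  refine Measure.ext fun T hT => ?_
  have h1 : MeasurableSet (ef e x ⁻¹' T) := hφ hT
  rw [Measure.map_apply hφ hT, withDensity_apply _ h1, Measure.restrict_restrict h1,
    Measure.restrict_apply hT]
  have h2 := area F hD hB x (h1.inter (measurableSet_ball (x := (0 : Eu E)) (ε := D)))
    inter_subset_right
  rw [← h2]
  congr 1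
  ext y
  constructor
  · rintro ⟨ξ, ⟨h1, h2⟩, rfl⟩
    exact ⟨h1, mem_image_of_mem _ h2⟩
  · rintro ⟨h1, ⟨ξ, h2, rfl⟩⟩
    exact ⟨ξ, ⟨h1, h2⟩, rfl⟩

theorem log_integral_image [CompactSpace M] [ConnectedSpace M] [IsRiemannianManifold 𝓘(ℝ, E) M]
    [MeasurableSpace M] [BorelSpace M] (F : Facts e) {D : ℝ} (hD : 0 < D) (hB : InjGE e D)
    (x : M) {f : M → ℝ} (hf : Continuous f) :
    ∫ y in ef e x '' Metric.ball 0 D, f y ∂(riemVol (finrank ℝ E) M) =
      ∫ ξ in Metric.ball (0 : Eu E) D, jac e x (fr x ξ) * f (ef e x ξ) := by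
  have hφ : Measurable (ef e x) := (log_continuous_ef F.isExp x).measurable
  rw [← log_map_eq F hD hB x, integral_map hφ.aemeasurable hf.aestronglyMeasurable]
  rw [integral_withDensity_eq_integral_toReal_smul (log_measurable_jac F.isExp x)
    (ae_of_all _ fun _ => ENNReal.ofReal_lt_top)]
  refine integral_congr_ae (ae_of_all _ fun ξ => ?_)
  have h4 : (0 : ℝ) ≤ jac e x (fr x ξ) := abs_nonneg _
  simp only [ENNReal.toReal_ofReal h4, smul_eq_mul]

/-- change of variables -/
theorem integral_lg [CompactSpace M] [ConnectedSpace M] [IsRiemannianManifold 𝓘(ℝ, E) M]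
    [MeasurableSpace M] [BorelSpace M] (F : Facts e) {D : ℝ} (hD : 0 < D) (hB : InjGE e D)
    {G : M → E → ℝ} (hG : ContTB G) {b : ℝ} (hb : b < D) (hs : ∀ x v, b < nm x v → G x v = 0)
    (x : M) :
    ∫ y, G x (lg e x y) ∂(riemVol (finrank ℝ E) M) =
      fint (fun x v => G x v * jac e x v) x := by
  have hf : Continuous fun y => G x (lg e x y) :=
    (continuous_lg F hB hG hb hs).comp (continuous_const.prodMk continuous_id)
  have h1 : ∫ y, G x (lg e x y) ∂(riemVol (finrank ℝ E) M) =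
      ∫ y in ef e x '' Metric.ball 0 D, G x (lg e x y) ∂(riemVol (finrank ℝ E) M) := by
    symm
    refine setIntegral_eq_integral_of_forall_compl_eq_zero fun y hy => hs _ _ ?_
    rw [log_image_ball F hB x, mem_ofPred_eq, not_lt] at hy
    rw [(lg_spec F x y).1]
    linarith
  rw [h1, log_integral_image F hD hB x hf]
  have h2 : fint (fun x v => G x v * jac e x v) x =
      ∫ ξ in Metric.ball (0 : Eu E) D, G x (fr x ξ) * jac e x (fr x ξ) := by
    symm
    refine setIntegral_eq_integral_of_forall_compl_eq_zero fun ξ hξ => ?_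
    rw [mem_ball_zero_iff, not_lt] at hξ
    rw [hs x (fr x ξ) (by rw [nm_fr]; linarith only [hb, hξ]), zero_mul]
  rw [h2]
  refine setIntegral_congr_fun measurableSet_ball fun ξ hξ => ?_
  rw [mem_ball_zero_iff] at hξ
  have h3 : lg e x (ef e x ξ) = fr x ξ := lg_eq F hB (by rw [nm_fr]; exact hξ)
  simp only [h3]
  ring

end

end Vale.Agent.P231
end
end

section

section

/-! P231 measure part, MG: symmetries of the Liouville integral and Liouville's theorem. -/

set_option maxSynthPendingDepth 3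
set_option linter.unusedSectionVars false

open Bundle Manifold Set Filter MeasureTheory Module
open scoped ContDiff Manifold Topology ENNReal

namespace Vale.Agent.P231

noncomputable section

open Vale.Agent.P234

variable {E : Type*} [NormedAddCommGroup E] [NormedSpace ℝ E] [FiniteDimensional ℝ E]
  {M : Type*} [MetricSpace M] [ChartedSpace E M]
  [RiemannianBundle (fun x : M => TangentSpace 𝓘(ℝ, E) x)]
  [IsManifold 𝓘(ℝ, E) ∞ M]
  [IsContMDiffRiemannianBundle 𝓘(ℝ, E) ∞ E (fun x : M => TangentSpace 𝓘(ℝ, E) x)]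
  {e : ∀ x : M, TangentSpace 𝓘(ℝ, E) x → M}

/-- continuity of the Riemannian norm -/
theorem invar_contTB_nm : ContTB (E := E) (M := M) nm :=
  continuous_norm_tangent (E := E) (M := M)

theorem invar_nm_smul (x : M) (c : ℝ) (v : E) : nm x (c • v) = |c| * nm x v :=
  norm_smul (β := TangentSpace 𝓘(ℝ, E) x) c v

theorem invar_nm_neg (x : M) (v : E) : nm x (-v) = nm x v :=
  norm_neg (E := TangentSpace 𝓘(ℝ, E) x) v

theorem invar_contTB_smul {G : M → E → ℝ} (hG : ContTB G) (c : ℝ) :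
    ContTB fun x v => G x (c • v) := by
  have h1 : Continuous fun p : TangentBundle 𝓘(ℝ, E) M =>
      (⟨p.proj, c • p.snd⟩ : TangentBundle 𝓘(ℝ, E) M) :=
    (contMDiff_tb_smul (E := E) (M := M)).continuous.comp
      ((continuous_const (y := c)).prodMk continuous_id)
  exact hG.comp h1

theorem invar_contTB_neg {G : M → E → ℝ} (hG : ContTB G) :
    ContTB fun x v => G x (-v) := by
  have h := invar_contTB_smul hG (-1)
  refine h.congr fun p => ?_
  exact congrArg (G p.proj) (neg_one_smul ℝ (p.snd : E))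

theorem invar_contTB_flow (F : Facts e) {G : M → E → ℝ} (hG : ContTB G) (s : ℝ) :
    ContTB fun x v => G (gam e x v s) (vel e x v s) := by
  have h1 := (contMDiff_flow F).continuous.comp
    ((continuous_const (y := s)).prodMk (continuous_id (X := TangentBundle 𝓘(ℝ, E) M)))
  exact hG.comp h1

theorem liou_neg [MeasurableSpace M] [BorelSpace M] (G : M → E → ℝ) :
    liou (fun x v => G x (-v)) = liou G := by
  unfold liou
  congr 1
  funext x
  unfold fint
  have h1 : ∀ ξ : Eu E, G x (-(fr x ξ)) = (fun ζ : Eu E => G x (fr x ζ)) (-ξ) := by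
    intro ξ
    simp only [map_neg]
  simp_rw [h1]
  exact integral_neg_eq_self (fun ζ : Eu E => G x (fr x ζ)) volume

/-- division of a function supported inside the injectivity radius by the Jacobian -/
theorem invar_contTB_div [CompactSpace M] [ConnectedSpace M] [IsRiemannianManifold 𝓘(ℝ, E) M]
    (F : Facts e) {D : ℝ} (hB : InjGE e D) {G : M → E → ℝ} (hG : ContTB G) {b : ℝ} (hb : b < D)
    (hs : ∀ x v, b < nm x v → G x v = 0) : ContTB fun x v => G x v / jac e x v := by
  have hnm := invar_contTB_nm (E := E) (M := M)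
  refine continuous_iff_continuousAt.2 fun p => ?_
  by_cases hp : nm (E := E) p.proj p.snd < D
  · have h1 : ContinuousAt (fun q : TangentBundle 𝓘(ℝ, E) M => G q.proj q.snd) p :=
      hG.continuousAt
    have h2 : ContinuousAt (fun q : TangentBundle 𝓘(ℝ, E) M => jac e q.proj q.snd) p :=
      (contTB_jac F.isExp).continuousAt
    exact h1.div h2 (jac_pos F hB hp).ne'
  · have h1 : ∀ᶠ q : TangentBundle 𝓘(ℝ, E) M in 𝓝 p, b < nm (E := E) q.proj q.snd :=
      hnm.continuousAt.eventually (lt_mem_nhds (lt_of_lt_of_le hb (not_lt.1 hp)))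
    have h2 : (fun q : TangentBundle 𝓘(ℝ, E) M => G q.proj (q.snd : E) / jac e q.proj (q.snd : E))
        =ᶠ[𝓝 p] fun _ => (0 : ℝ) := by
      filter_upwards [h1] with q hq
      have h3 := hs q.proj (q.snd : E) hq
      rw [h3, zero_div]
    exact continuousAt_const.congr h2.symm

theorem invar_mul_div [CompactSpace M] [ConnectedSpace M] [IsRiemannianManifold 𝓘(ℝ, E) M]
    (F : Facts e) {D : ℝ} (hB : InjGE e D) {b : ℝ} (hb : b < D) {x : M} {v : E} {g : ℝ}
    (hg : b < nm x v → g = 0) : g / jac e x v * jac e x v = g := by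
  by_cases hp : nm x v < D
  · exact div_mul_cancel₀ _ (jac_pos F hB hp).ne'
  · rw [hg (lt_of_lt_of_le hb (not_lt.1 hp))]
    simp

theorem liou_swap [CompactSpace M] [ConnectedSpace M] [IsRiemannianManifold 𝓘(ℝ, E) M]
    [MeasurableSpace M] [BorelSpace M] (F : Facts e) {D : ℝ} (hD : 0 < D) (hB : InjGE e D)
    (hcl : ∀ (x : M) (v : E), nm x v = 2 * D → e x v = x)
    {G : M → E → ℝ} (hG : ContTB G) {b : ℝ} (hb : b < D) (hs : ∀ x v, b < nm x v → G x v = 0) :
    liou (fun x v => G (gam e x v 1) (-vel e x v 1)) = liou G := by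
  have hfin := riemVol_finite F hD hB
  set H : M → E → ℝ := fun x v => G x v / jac e x v with hH
  have hHc : ContTB H := invar_contTB_div F hB hG hb hs
  have hHs : ∀ x v, b < nm x v → H x v = 0 := by
    intro x v hv
    rw [hH]
    simp only
    rw [hs x v hv, zero_div]
  set K : M → E → ℝ := fun x v => H (gam e x v 1) (-vel e x v 1) with hK
  have hKc : ContTB K := invar_contTB_flow F (invar_contTB_neg hHc) 1
  have hKs : ∀ x v, b < nm x v → K x v = 0 := by
    intro x v hv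
    apply hHs
    rw [invar_nm_neg, nm_vel F]
    exact hv
  -- the two change of variables
  have h1 : liou G = ∫ x, ∫ y, H x (lg e x y) ∂(riemVol (finrank ℝ E) M)
      ∂(riemVol (finrank ℝ E) M) := by
    unfold liou
    congr 1
    funext x
    rw [integral_lg F hD hB hHc hb hHs x]
    unfold fint
    congr 1
    funext ξ
    exact (invar_mul_div F hB hb (fun h => hs x (fr x ξ) h)).symm
  have h2 : liou (fun x v => G (gam e x v 1) (-vel e x v 1))
      = ∫ x, ∫ y, K x (lg e x y) ∂(riemVol (finrank ℝ E) M) ∂(riemVol (finrank ℝ E) M) := by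
    unfold liou
    congr 1
    funext x
    rw [integral_lg F hD hB hKc hb hKs x]
    unfold fint
    congr 1
    funext ξ
    have h3 := jac_symm F hD hB hcl x (fr x ξ)
    have h4 : K x (fr x ξ) * jac e x (fr x ξ) =
        G (gam e x (fr x ξ) 1) (-vel e x (fr x ξ) 1) := by
      rw [hK, hH]
      simp only
      rw [h3]
      refine invar_mul_div F hB hb fun h => ?_
      apply hs
      rw [invar_nm_neg, nm_vel F]
      exact h
    exact h4.symm
  -- symmetry
  have h3 : ∀ x y : M, K x (lg e x y) = H y (lg e y x) := by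
    intro x y
    have hsx := lg_spec F x y
    have hsy := lg_spec F y x
    by_cases hd : dist x y < D
    · have e1 := lg_swap F hB hd
      have e2 : gam e x (lg e x y) 1 = y := by
        unfold gam
        rw [one_smul]
        exact hsx.2
      rw [hK]
      simp only
      rw [e2, e1]
    · have hd' : b < dist x y := lt_of_lt_of_le hb (not_lt.1 hd)
      rw [hKs x _ (by rw [hsx.1]; exact hd'), hHs y _ (by rw [hsy.1, dist_comm]; exact hd')]
  rw [h1, h2]
  simp_rw [h3]
  have hcont := continuous_lg F hB hHc hb hHs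
  have hint : Integrable (fun p : M × M => H p.1 (lg e p.1 p.2))
      ((riemVol (finrank ℝ E) M).prod (riemVol (finrank ℝ E) M)) :=
    hcont.integrable_of_hasCompactSupport (HasCompactSupport.of_compactSpace _)
  exact (integral_integral_swap (f := fun x y => H x (lg e x y)) hint).symm

theorem invar_flow_one [CompactSpace M] [ConnectedSpace M] [IsRiemannianManifold 𝓘(ℝ, E) M]
    [MeasurableSpace M] [BorelSpace M] (F : Facts e) {D : ℝ} (hD : 0 < D) (hB : InjGE e D)
    (hcl : ∀ (x : M) (v : E), nm x v = 2 * D → e x v = x)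
    {G : M → E → ℝ} (hG : ContTB G) {b : ℝ} (hb : b < D) (hs : ∀ x v, b < nm x v → G x v = 0) :
    liou (fun x v => G (gam e x v 1) (vel e x v 1)) = liou G := by
  have h := liou_swap F hD hB hcl (invar_contTB_neg hG) hb
    (fun x v hv => hs x (-v) (by rw [invar_nm_neg]; exact hv))
  simp only [neg_neg] at h
  rw [h]
  exact liou_neg G

theorem invar_scale [MeasurableSpace M] [BorelSpace M] (G : M → E → ℝ) (c : ℝ) :
    liou (fun x v => G x (c • v)) = |(c ^ (finrank ℝ (Eu E)))⁻¹| * liou G := by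
  unfold liou
  rw [← integral_const_mul]
  congr 1
  funext x
  unfold fint
  have h1 : ∀ ξ : Eu E, G x (c • (fr x ξ)) = (fun ζ : Eu E => G x (fr x ζ)) (c • ξ) := by
    intro ξ
    simp only [map_smul]
  simp_rw [h1]
  rw [Measure.integral_comp_smul volume (fun ζ : Eu E => G x (fr x ζ)) c, smul_eq_mul]

theorem invar_flow_small [CompactSpace M] [ConnectedSpace M] [IsRiemannianManifold 𝓘(ℝ, E) M]
    [MeasurableSpace M] [BorelSpace M] (F : Facts e) {D : ℝ} (hD : 0 < D) (hB : InjGE e D)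
    (hcl : ∀ (x : M) (v : E), nm x v = 2 * D → e x v = x)
    {G : M → E → ℝ} (hG : ContTB G) {b : ℝ} (hb : b < D) (hs : ∀ x v, b < nm x v → G x v = 0)
    {s : ℝ} (hs0 : 0 < s) (hs1 : s ≤ 1) :
    liou (fun x v => G (gam e x v s) (vel e x v s)) = liou G := by
  set Gs : M → E → ℝ := fun x w => G x (s⁻¹ • w) with hGs
  have hGc : ContTB Gs := invar_contTB_smul hG s⁻¹
  have hbs : s * b < D := by
    rcases le_total 0 b with h | h
    · exact lt_of_le_of_lt (mul_le_of_le_one_left h hs1) hb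
    · exact lt_of_le_of_lt (mul_nonpos_of_nonneg_of_nonpos hs0.le h) hD
  have hGss : ∀ x v, s * b < nm x v → Gs x v = 0 := by
    intro x v hv
    apply hs
    rw [invar_nm_smul, abs_of_pos (inv_pos.2 hs0), lt_inv_mul_iff₀ hs0]
    exact hv
  have h1 := invar_flow_one F hD hB hcl hGc hbs hGss
  have h2 := invar_scale (fun x v => Gs (gam e x v 1) (vel e x v 1)) s
  have h3 := invar_scale Gs s
  have e1 : ∀ (x : M) (v : E), Gs (gam e x (s • v) 1) (vel e x (s • v) 1) =
      G (gam e x v s) (vel e x v s) := by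
    intro x v
    rw [hGs]
    simp only
    rw [gam_smul, vel_smul, mul_one, smul_smul, inv_mul_cancel₀ hs0.ne', one_smul]
  have e2 : ∀ (x : M) (v : E), Gs x (s • v) = G x v := by
    intro x v
    rw [hGs]
    simp only
    rw [smul_smul, inv_mul_cancel₀ hs0.ne', one_smul]
  simp_rw [e1] at h2
  simp_rw [e2] at h3
  rw [h2, h1]
  exact h3.symm

/-- Liouville's theorem -/
theorem liou_flow [CompactSpace M] [ConnectedSpace M] [IsRiemannianManifold 𝓘(ℝ, E) M]
    [MeasurableSpace M] [BorelSpace M] (F : Facts e) {D : ℝ} (hD : 0 < D) (hB : InjGE e D)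
    (hcl : ∀ (x : M) (v : E), nm x v = 2 * D → e x v = x)
    {G : M → E → ℝ} (hG : ContTB G) {b : ℝ} (hb : b < D) (hs : ∀ x v, b < nm x v → G x v = 0)
    {s : ℝ} (hs0 : 0 ≤ s) :
    liou (fun x v => G (gam e x v s) (vel e x v s)) = liou G := by
  rcases hs0.eq_or_lt with h0 | h0
  · have e1 : ∀ (x : M) (v : E), G (gam e x v s) (vel e x v s) = G x v := by
      intro x v
      rw [← h0, vel_zero F.isExp, gam_zero F.isExp]
    simp_rw [e1]
  · obtain ⟨k, hk⟩ := exists_nat_ge s
    have hk0 : (0 : ℝ) < k := lt_of_lt_of_le h0 hk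
    set s' : ℝ := s / k with hs'
    have hs'0 : 0 < s' := div_pos h0 hk0
    have hs'1 : s' ≤ 1 := (div_le_one hk0).2 hk
    have key : ∀ j : ℕ, liou (fun x v => G (gam e x v (j * s')) (vel e x v (j * s'))) = liou G := by
      intro j
      induction j with
      | zero =>
        have e1 : ∀ (x : M) (v : E), G (gam e x v (((0 : ℕ) : ℝ) * s'))
            (vel e x v (((0 : ℕ) : ℝ) * s')) = G x v := by
          intro x v
          rw [Nat.cast_zero, zero_mul, vel_zero F.isExp, gam_zero F.isExp]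
        simp_rw [e1]
      | succ j ih =>
        have h1 := invar_flow_small F hD hB hcl
          (invar_contTB_flow F hG ((j : ℝ) * s')) hb
          (fun x v hv => hs _ _ (by rw [nm_vel F]; exact hv)) hs'0 hs'1
        rw [ih] at h1
        rw [← h1]
        congr 1
        funext x v
        have e1 : (((j + 1 : ℕ) : ℝ)) * s' = s' + j * s' := by push_cast; ring
        rw [e1, ← gam_flow F x v s' (j * s'), ← vel_flow F x v s' (j * s')]
    have h1 := key k
    have e1 : (k : ℝ) * s' = s := by rw [hs']; field_simp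
    rw [e1] at h1
    exact h1

end

end Vale.Agent.P231
end
end

section

section

/-! P231 measure part, MH: the core inequality and rigidity along closed geodesics. -/

set_option maxSynthPendingDepth 3

open Bundle Manifold Set Filter MeasureTheory Module
open scoped ContDiff Manifold Topology ENNReal Matrix

namespace Vale.Agent.P231

noncomputable section

open Vale.Agent.P234

/-! ### linear algebra -/

section LA

variable {N : ℕ}

theorem geoAvg_ker_smul (A : Matrix (Fin N) (Fin N) ℝ) {c : ℝ} (hc : c ≠ 0) :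
    LinearMap.ker (c • A).mulVecLin = LinearMap.ker A.mulVecLin := by
  ext v
  rw [LinearMap.mem_ker, LinearMap.mem_ker, Matrix.mulVecLin_apply, Matrix.mulVecLin_apply,
    Matrix.smul_mulVec]
  exact smul_eq_zero_iff_right hc

theorem geoAvg_det_smul (A : Matrix (Fin N) (Fin N) ℝ) {c : ℝ} (hc : 0 ≤ c) :
    |(c • A).det| = c ^ N * |A.det| := by
  rw [Matrix.det_smul, Fintype.card_fin, abs_mul, abs_of_nonneg (pow_nonneg hc N)]

/-- expansion in an adapted orthonormal family -/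
theorem geoAvg_expand {T : Type*} [NormedAddCommGroup T] [InnerProductSpace ℝ T]
    [FiniteDimensional ℝ T] (hT : finrank ℝ T = N + 1) (b : Fin N → T) (u : T)
    (hb : ∀ i j, inner ℝ (b i) (b j) = if i = j then (1 : ℝ) else 0)
    (hbu : ∀ i, inner ℝ (b i) u = (0 : ℝ)) (hu : ‖u‖ = 1) (w : T)
    (hw : inner ℝ w u = (0 : ℝ)) : w = ∑ j, (inner ℝ (b j) w : ℝ) • b j := by
  classical
  set v : Option (Fin N) → T := fun o => o.elim u b with hv
  have hon : Orthonormal ℝ v := by
    rw [orthonormal_iff_ite]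
    rintro (_ | i) (_ | j)
    · simp [hv, hu]
    · simp only [hv, Option.elim_none, Option.elim_some]
      rw [real_inner_comm, hbu]
      simp
    · simp only [hv, Option.elim_none, Option.elim_some]
      rw [hbu]
      simp
    · simp only [hv, Option.elim_some]
      rw [hb]
      simp
  have hcard : Fintype.card (Option (Fin N)) = finrank ℝ T := by
    rw [Fintype.card_option, Fintype.card_fin, hT]
  set B := basisOfOrthonormalOfCardEqFinrank hon hcard with hB
  have hBv : ⇑B = v := coe_basisOfOrthonormalOfCardEqFinrank hon hcard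
  have h1 := B.sum_repr w
  rw [hBv] at h1
  have h2 : ∀ o, B.repr w o = inner ℝ (v o) w := by
    intro o
    conv_rhs => rw [← h1]
    rw [inner_sum]
    simp only [inner_smul_right, orthonormal_iff_ite.mp hon, mul_ite, mul_one, mul_zero]
    simp only [Finset.sum_ite_eq, Finset.mem_univ, ↓reduceIte]
  conv_lhs => rw [← h1]
  rw [Fintype.sum_option]
  simp only [h2, hv, Option.elim_none, Option.elim_some]
  rw [real_inner_comm, hw, zero_smul, zero_add]

theorem geoAvg_proj_min (P : Matrix (Fin N) (Fin N) ℝ) (h1 : Pᵀ = P) (h2 : P * P = P)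
    (c d : Fin N → ℝ) (hd : P.mulVec d = d) :
    (c - P.mulVec c) ⬝ᵥ (c - P.mulVec c) ≤ (c - d) ⬝ᵥ (c - d) := by
  have hPP : ∀ a, P.mulVec (P.mulVec a) = P.mulVec a := fun a => by
    rw [Matrix.mulVec_mulVec, h2]
  have hsym : ∀ a b, (P.mulVec a) ⬝ᵥ b = a ⬝ᵥ (P.mulVec b) := fun a b => by
    rw [Matrix.dotProduct_mulVec, ← Matrix.mulVec_transpose, h1]
  have e : c - d = (c - P.mulVec c) + (P.mulVec c - d) := by abel
  have horth : (c - P.mulVec c) ⬝ᵥ (P.mulVec c - d) = 0 := by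
    have e2 : P.mulVec c - d = P.mulVec (c - d) := by rw [Matrix.mulVec_sub, hd]
    rw [e2, ← hsym, Matrix.mulVec_sub, hPP, sub_self, zero_dotProduct]
  rw [e, add_dotProduct, dotProduct_add, dotProduct_add, horth, dotProduct_comm (P.mulVec c - d),
    horth, add_zero, zero_add]
  have : 0 ≤ (P.mulVec c - d) ⬝ᵥ (P.mulVec c - d) := by
    unfold dotProduct
    exact Finset.sum_nonneg fun i _ => mul_self_nonneg _
  linarith

theorem geoAvg_proj_quad (P : Matrix (Fin N) (Fin N) ℝ) (h1 : Pᵀ = P) (h2 : P * P = P)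
    (c : Fin N → ℝ) : c ⬝ᵥ P.mulVec c = c ⬝ᵥ c - (c - P.mulVec c) ⬝ᵥ (c - P.mulVec c) := by
  have hPP : P.mulVec (P.mulVec c) = P.mulVec c := by
    rw [Matrix.mulVec_mulVec, h2]
  have hsym : ∀ a b, (P.mulVec a) ⬝ᵥ b = a ⬝ᵥ (P.mulVec b) := fun a b => by
    rw [Matrix.dotProduct_mulVec, ← Matrix.mulVec_transpose, h1]
  rw [sub_dotProduct, dotProduct_sub, dotProduct_sub, hsym c c, hsym, hPP]
  ring

end LA

variable {E : Type*} [NormedAddCommGroup E] [NormedSpace ℝ E] [FiniteDimensional ℝ E]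
  {M : Type*} [MetricSpace M] [ChartedSpace E M]
  [RiemannianBundle (fun x : M => TangentSpace 𝓘(ℝ, E) x)]
  [IsManifold 𝓘(ℝ, E) ∞ M]
  [IsContMDiffRiemannianBundle 𝓘(ℝ, E) ∞ E (fun x : M => TangentSpace 𝓘(ℝ, E) x)]
  {e : ∀ x : M, TangentSpace 𝓘(ℝ, E) x → M}

omit [FiniteDimensional ℝ E] [IsManifold 𝓘(ℝ, E) ∞ M]
  [IsContMDiffRiemannianBundle 𝓘(ℝ, E) ∞ E (fun x : M => TangentSpace 𝓘(ℝ, E) x)] in
theorem geoAvg_nm_sum {N : ℕ} (y : M) (β : Fin N → E)
    (hβ : ∀ i j, ip y (β i) (β j) = if i = j then 1 else 0) (c : Fin N → ℝ) :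
    nm y (∑ i, c i • β i) ^ 2 = c ⬝ᵥ c := by
  rw [← ip_self, asm_ip_sum_left]
  unfold dotProduct
  refine Finset.sum_congr rfl fun i _ => ?_
  rw [asm_ip_smul_left, asm_ip_sum_right]
  simp only [asm_ip_smul_right, hβ, mul_ite, mul_one, mul_zero, Finset.sum_ite_eq,
    Finset.mem_univ, if_true]

omit [IsManifold 𝓘(ℝ, E) ∞ M]
  [IsContMDiffRiemannianBundle 𝓘(ℝ, E) ∞ E (fun x : M => TangentSpace 𝓘(ℝ, E) x)] in
theorem geoAvg_frame {N : ℕ} (hN : finrank ℝ E = N + 1) (y : M) (u : E) (hu : nm y u = 1)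
    (β : Fin N → E) (hβ : ∀ i j, ip y (β i) (β j) = if i = j then 1 else 0)
    (hβu : ∀ i, ip y (β i) u = 0) (w : E) (hw : ip y w u = 0) :
    w = ∑ i, ip y (β i) w • β i := by
  have hfd : FiniteDimensional ℝ (TangentSpace 𝓘(ℝ, E) y) := finDimTangent y
  have hT : Module.finrank ℝ (TangentSpace 𝓘(ℝ, E) y) = N + 1 := hN
  exact geoAvg_expand (T := TangentSpace 𝓘(ℝ, E) y) hT β u hβ hβu hu w hw

theorem geoAvg_jf {N : ℕ} (x : M) (u : E) {b : ℝ → Fin N → E}
    {A : ℝ → ℝ → Matrix (Fin N) (Fin N) ℝ}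
    (h3 : ∀ s t j, jf e x u s t (b s j) = ∑ i, A s t i j • b t i) (s t : ℝ) (c : Fin N → ℝ) :
    jf e x u s t (∑ j, c j • b s j) = ∑ i, ((A s t) *ᵥ c) i • b t i := by
  rw [asm_jf_sum]
  simp only [asm_jf_smul, h3, Finset.smul_sum, smul_smul]
  rw [Finset.sum_comm]
  refine Finset.sum_congr rfl fun i _ => ?_
  rw [← Finset.sum_smul]
  congr 1
  unfold Matrix.mulVec dotProduct
  exact Finset.sum_congr rfl fun j _ => mul_comm _ _

/-- logarithmic form of the model Jacobian -/
theorem geoAvg_log_mj {D : ℝ} (hD : 0 < D) (N l : ℕ) {r : ℝ} (hr : r ∈ Ioo 0 D) :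
    Real.log (mj D N l r) = N * (Real.log (Real.sin (Real.pi / (2 * D) * r)) -
      Real.log (Real.pi / (2 * D) * r)) + l * Real.log (Real.cos (Real.pi / (2 * D) * r)) := by
  have hπ := Real.pi_pos
  have h0 : 0 < Real.pi / (2 * D) * r := by have := hr.1; positivity
  have h1 : Real.pi / (2 * D) * r < Real.pi / 2 := by
    rw [div_mul_eq_mul_div, div_lt_div_iff₀ (by positivity) (by norm_num)]
    nlinarith only [hπ, hr.2]
  have hs : 0 < Real.sin (Real.pi / (2 * D) * r) := Real.sin_pos_of_pos_of_lt_pi h0 (by linarith only [h0, h1])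
  have hc : 0 < Real.cos (Real.pi / (2 * D) * r) :=
    Real.cos_pos_of_mem_Ioo ⟨by linarith only [h0, h1], h1⟩
  have e1 : Real.pi * r / (2 * D) = Real.pi / (2 * D) * r := by ring
  unfold mj
  rw [e1, Real.log_mul (pow_ne_zero _ (div_pos hs h0).ne') (pow_ne_zero _ hc.ne'), Real.log_pow,
    Real.log_pow, Real.log_div hs.ne' h0.ne']

theorem geoAvg_continuous [CompactSpace M] (F : Facts e) (x : M) (u : E) {r : ℝ} (hr : r ≠ 0) :
    Continuous fun s : ℝ => jac e (gam e x u s) (r • vel e x u s) := by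
  have h := contTB_jac F.isExp
  have hflow := (contMDiff_flow F).continuous
  have hg : Continuous fun s : ℝ => (r⁻¹ * s, tb x (r • u)) :=
    (continuous_const.mul continuous_id).prodMk continuous_const
  have hcomp := h.comp (hflow.comp hg)
  refine hcomp.congr fun s => ?_
  show jac e (gam e x (r • u) (r⁻¹ * s)) (vel e x (r • u) (r⁻¹ * s)) = _
  rw [gam_smul, vel_smul, mul_inv_cancel_left₀ hr]

/-- the sharp inequality along one closed geodesic -/
theorem geo_avg [CompactSpace M] [ConnectedSpace M] [IsRiemannianManifold 𝓘(ℝ, E) M]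
    (F : Facts e) {D : ℝ} (hD : 0 < D) (hB : InjGE e D)
    (hcl : ∀ (x : M) (v : E), nm x v = 2 * D → e x v = x)
    {N : ℕ} (hN : finrank ℝ E = N + 1) {l : ℕ}
    (hl : ∀ (x : M) (v : E), nm x v = D → finrank ℝ (LinearMap.ker (dEl e x v)) ≤ l)
    (x : M) (u : E) (hu : nm x u = 1) {r : ℝ} (hr : r ∈ Ioo 0 D) :
    2 * D * Real.log (mj D N l r) ≤
      ∫ s in (0 : ℝ)..(2 * D), Real.log (jac e (gam e x u s) (r • vel e x u s)) := by
  obtain ⟨b, A, hJ, h1, h2, h3⟩ := exists_jdata F hD hB hcl hN x u hu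
  have hπ := Real.pi_pos
  have hJ' := hJ.scale
  rw [geoAvg_log_mj hD N l hr]
  set c := Real.pi / (2 * D) with hc
  set k := 2 * D / Real.pi with hk
  have hc0 : 0 < c := by positivity
  have hk0 : 0 < k := by positivity
  have hck : c * k = 1 := by rw [hc, hk]; field_simp
  have hkπ : Real.pi / 2 * k = D := by rw [hk]; field_simp
  have hπk : Real.pi * k = 2 * D := by rw [hk]; field_simp
  have hr0 := hr.1
  have hρ : c * r ∈ Ioo 0 (Real.pi / 2) := by
    refine ⟨by (clear * - hD hr0; positivity), ?_⟩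
    have : c * r < c * D := mul_lt_mul_of_pos_left hr.2 hc0
    have e : c * D = Real.pi / 2 := by rw [hc]; field_simp
    linarith only [this, e]
  have hker : finrank ℝ (LinearMap.ker
      ((fun s t => c • A (s * k) (t * k)) 0 (Real.pi / 2)).mulVecLin) ≤ l := by
    show finrank ℝ (LinearMap.ker (c • A (0 * k) (Real.pi / 2 * k)).mulVecLin) ≤ l
    have := finrank_ker_le F hl hD x u hu h1 h3 0
    rw [zero_add] at this
    rw [geoAvg_ker_smul _ hc0.ne', hkπ, zero_mul]
    exact this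
  have key := core_ineq hJ' hker hρ
  rw [Fintype.card_fin] at key
  have hnv : ∀ s, nm (gam e x u s) (r • vel e x u s) = r := fun s => by
    rw [nm_smul, nm_vel F, hu, mul_one, abs_of_pos hr0]
  have hjp : ∀ s, 0 < jac e (gam e x u s) (r • vel e x u s) := fun s =>
    jac_pos F hB (by rw [hnv]; exact hr.2)
  set f : ℝ → ℝ := fun s => Real.log (jac e (gam e x u s) (r • vel e x u s)) with hf
  have hfc : Continuous f := by
    have h := geoAvg_continuous F x u hr0.ne'
    exact h.log fun s => (hjp s).ne'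
  have e1 : ∀ s, Real.log |((fun s t => c • A (s * k) (t * k)) s (s + c * r)).det|
      = N * Real.log (c * r) + f (s * k) := by
    intro s
    have e2 : (s + c * r) * k = s * k + r := by
      have : c * r * k = r := by rw [mul_right_comm, hck, one_mul]
      rw [add_mul, this]
    show Real.log |(c • A (s * k) ((s + c * r) * k)).det| = _
    rw [geoAvg_det_smul _ hc0.le, abs_det_jf F hN x u hu h1 h2 h3, e2, add_sub_cancel_left,
      abs_of_pos hr0, ← mul_assoc, ← mul_pow, Real.log_mul (by (clear * - hD hr0; positivity)) (hjp _).ne',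
      Real.log_pow]
  have e2 : (∫ s in (0 : ℝ)..Real.pi,
      Real.log |((fun s t => c • A (s * k) (t * k)) s (s + c * r)).det|)
      = Real.pi * (N * Real.log (c * r)) + k⁻¹ * ∫ s in (0 : ℝ)..(2 * D), f s := by
    have hint : IntervalIntegrable (fun s => f (s * k)) volume 0 Real.pi := by
      have : Continuous fun s => f (s * k) := hfc.comp (continuous_id.mul continuous_const)
      exact this.intervalIntegrable _ _
    simp only [e1]
    rw [intervalIntegral.integral_add (by simp) hint,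
      intervalIntegral.integral_comp_mul_right f hk0.ne', hπk, zero_mul,
      intervalIntegral.integral_const, sub_zero, smul_eq_mul, smul_eq_mul]
  rw [e2] at key
  have hk1 : k⁻¹ = c := by
    rw [inv_eq_iff_eq_inv]
    exact eq_inv_of_mul_eq_one_right hck
  rw [hk1] at key
  have h5 : k * (Real.pi * (l * Real.log (Real.cos (c * r)) + N * Real.log (Real.sin (c * r)))) ≤
      k * (Real.pi * (N * Real.log (c * r)) + c * ∫ s in (0 : ℝ)..(2 * D), f s) :=
    mul_le_mul_of_nonneg_left key hk0.le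
  have h6 : k * (Real.pi * (N * Real.log (c * r)) + c * ∫ s in (0 : ℝ)..(2 * D), f s)
      = 2 * D * (N * Real.log (c * r)) + ∫ s in (0 : ℝ)..(2 * D), f s := by
    linear_combination (N * Real.log (c * r)) * hπk + (∫ s in (0 : ℝ)..(2 * D), f s) * hck
  have h7 : k * (Real.pi * (l * Real.log (Real.cos (c * r)) + N * Real.log (Real.sin (c * r))))
      = 2 * D * (l * Real.log (Real.cos (c * r)) + N * Real.log (Real.sin (c * r))) := by
    linear_combination (l * Real.log (Real.cos (c * r)) + N * Real.log (Real.sin (c * r))) * hπk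
  rw [h6, h7] at h5
  linarith only [h5]

/-- the norm of the differential of the exponential map in terms of the distance to the kernel
at distance `D` -/
theorem geoAvg_claim [CompactSpace M] [ConnectedSpace M] [IsRiemannianManifold 𝓘(ℝ, E) M]
    (F : Facts e) {D : ℝ} (hD : 0 < D) (hB : InjGE e D)
    (hcl : ∀ (x : M) (v : E), nm x v = 2 * D → e x v = x)
    {N : ℕ} (hN : finrank ℝ E = N + 1) {l : ℕ}
    (hl : ∀ (x : M) (v : E), nm x v = D → finrank ℝ (LinearMap.ker (dEl e x v)) ≤ l)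
    (hj : ∀ (x : M) (v : E), 0 < nm x v → nm x v < D → jac e x v = mj D N l (nm x v))
    (x : M) (u : E) (hu : nm x u = 1) :
    ∃ q : E → ℝ, ∀ w, ip x w u = 0 →
      (∀ z, ip x z u = 0 → jf e x u 0 D z = 0 → q w ≤ nm x (w - z) ^ 2) ∧
      (∃ z, ip x z u = 0 ∧ jf e x u 0 D z = 0 ∧ q w = nm x (w - z) ^ 2) ∧
      ∀ r ∈ Ioo 0 D, (Real.pi / (2 * D) * nm (gam e x u r) (jf e x u 0 r w)) ^ 2 =
        Real.sin (Real.pi / (2 * D) * r) ^ 2 *
          (nm x w ^ 2 - Real.sin (Real.pi / (2 * D) * r) ^ 2 * (nm x w ^ 2 - q w)) := by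
  obtain ⟨b, A, hJ, h1, h2, h3⟩ := exists_jdata F hD hB hcl hN x u hu
  have hπ := Real.pi_pos
  have hJ' := hJ.scale
  set c := Real.pi / (2 * D) with hc
  set k := 2 * D / Real.pi with hk
  have hc0 : 0 < c := by positivity
  have hk0 : 0 < k := by positivity
  have hck : c * k = 1 := by rw [hc, hk]; field_simp
  have hkπ : Real.pi / 2 * k = D := by rw [hk]; field_simp
  have hker : ∀ s, finrank ℝ (LinearMap.ker
      ((fun s t => c • A (s * k) (t * k)) s (s + Real.pi / 2)).mulVecLin) ≤ l := by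
    intro s
    show finrank ℝ (LinearMap.ker (c • A (s * k) ((s + Real.pi / 2) * k)).mulVecLin) ≤ l
    rw [geoAvg_ker_smul _ hc0.ne', add_mul, hkπ]
    exact finrank_ker_le F hl hD x u hu h1 h3 (s * k)
  have hdet : ∀ s t, s < t → t < s + Real.pi / 2 →
      |((fun s t => c • A (s * k) (t * k)) s t).det| =
        Real.cos (t - s) ^ l * Real.sin (t - s) ^ Fintype.card (Fin N) := by
    intro s t hst hts
    show |(c • A (s * k) (t * k)).det| = _
    have e1 : t * k - s * k = (t - s) * k := by ring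
    have h0 : 0 < (t - s) * k := mul_pos (by linarith only [hst]) hk0
    have hn : nm (gam e x u (s * k)) (((t - s) * k) • vel e x u (s * k)) = (t - s) * k := by
      rw [nm_smul, nm_vel F, hu, mul_one, abs_of_pos h0]
    have hlt : (t - s) * k < D := by
      rw [← hkπ]; exact mul_lt_mul_of_pos_right (by linarith only [hts]) hk0
    rw [geoAvg_det_smul _ hc0.le, abs_det_jf F hN x u hu h1 h2 h3, e1, abs_of_pos h0,
      hj _ _ (by rw [hn]; exact h0) (by rw [hn]; exact hlt), hn, Fintype.card_fin]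
    have e2 : Real.pi * ((t - s) * k) / (2 * D) = t - s := by
      have : Real.pi * ((t - s) * k) / (2 * D) = (t - s) * (c * k) := by rw [hc]; ring
      rw [this, hck, mul_one]
    have e3 : t - s ≠ 0 := by linarith only [hst]
    unfold mj
    rw [e2, ← mul_assoc, ← mul_assoc, ← mul_pow, ← mul_pow]
    have e4 : c * ((t - s) * k) * (Real.sin (t - s) / (t - s)) = Real.sin (t - s) := by
      have : c * ((t - s) * k) = t - s := by rw [mul_left_comm, hck, mul_one]
      rw [this]; (clear * - e3; field_simp)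
    rw [e4, mul_comm]
  obtain ⟨P, hP1, hP2, hP3, hP4⟩ := core_rigid hJ' hker hdet
  have hgam0 : gam e x u 0 = x := gam_zero F.isExp x u
  have hvel0 : vel e x u 0 = u := vel_zero F.isExp x u
  have hb0 : ∀ i j, ip x (b 0 i) (b 0 j) = if i = j then 1 else 0 := by
    intro i j; have := h1 0 i j; rwa [hgam0] at this
  have hbu : ∀ i, ip x (b 0 i) u = 0 := by
    intro i; have := h2 0 i; rwa [hgam0, hvel0] at this
  -- coordinates
  set co : E → Fin N → ℝ := fun w i => ip x (b 0 i) w with hco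
  have hexp : ∀ w, ip x w u = 0 → w = ∑ i, co w i • b 0 i := fun w hw =>
    geoAvg_frame hN x u hu (b 0) hb0 hbu w hw
  have hcomb : ∀ c : Fin N → ℝ, ip x (∑ i, c i • b 0 i) u = 0 := by
    intro c
    rw [asm_ip_sum_left]
    refine Finset.sum_eq_zero fun i _ => ?_
    rw [asm_ip_smul_left, hbu, mul_zero]
  have hsubexp : ∀ c d : Fin N → ℝ, (∑ i, c i • b 0 i) - (∑ i, d i • b 0 i)
      = ∑ i, (c - d) i • b 0 i := by
    intro c d
    rw [← Finset.sum_sub_distrib]
    exact Finset.sum_congr rfl fun i _ => by rw [Pi.sub_apply, sub_smul]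
  have hjfn : ∀ (t : ℝ) (c : Fin N → ℝ), nm (gam e x u t) (jf e x u 0 t (∑ i, c i • b 0 i)) ^ 2
      = (A 0 t *ᵥ c) ⬝ᵥ (A 0 t *ᵥ c) := by
    intro t c
    rw [geoAvg_jf x u h3 0 t c]
    exact geoAvg_nm_sum _ _ (h1 t) _
  have hP3' : ∀ v, A 0 D *ᵥ v = 0 ↔ P *ᵥ v = v := by
    intro v
    rw [← hP3 v]
    show _ ↔ (c • A (0 * k) (Real.pi / 2 * k)) *ᵥ v = 0
    rw [hkπ, zero_mul, Matrix.smul_mulVec]
    exact (smul_eq_zero_iff_right hc0.ne').symm
  have hK : ∀ c : Fin N → ℝ, jf e x u 0 D (∑ i, c i • b 0 i) = 0 ↔ P *ᵥ c = c := by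
    intro c
    rw [← hP3']
    constructor
    · intro h
      have h5 := hjfn D c
      rw [h] at h5
      have h6 : nm (gam e x u D) (0 : E) = 0 := norm_zero (E := TangentSpace 𝓘(ℝ, E) (gam e x u D))
      rw [h6] at h5
      have h7 : (A 0 D *ᵥ c) ⬝ᵥ (A 0 D *ᵥ c) = 0 := by rw [← h5]; ring
      exact dotProduct_self_eq_zero.mp h7
    · intro h
      rw [geoAvg_jf x u h3 0 D c, h]
      simp only [Pi.zero_apply, zero_smul, Finset.sum_const_zero]
  refine ⟨fun w => (co w - P *ᵥ co w) ⬝ᵥ (co w - P *ᵥ co w), fun w hw => ⟨?_, ?_, ?_⟩⟩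
  · intro z hz hz0
    have h5 := hexp z hz
    have h6 : P *ᵥ co z = co z := by
      rw [h5] at hz0
      exact (hK _).mp hz0
    have h7 := geoAvg_proj_min P hP1 hP2 (co w) (co z) h6
    have h8 : w - z = ∑ i, (co w - co z) i • b 0 i := by
      rw [← hsubexp, ← hexp w hw, ← h5]
    rw [h8, geoAvg_nm_sum _ _ hb0]
    exact h7
  · refine ⟨∑ i, (P *ᵥ co w) i • b 0 i, hcomb _, ?_, ?_⟩
    · rw [hK, Matrix.mulVec_mulVec, hP2]
    · have h8 : w - ∑ i, (P *ᵥ co w) i • b 0 i = ∑ i, (co w - P *ᵥ co w) i • b 0 i := by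
        rw [← hsubexp, ← hexp w hw]
      rw [h8, geoAvg_nm_sum _ _ hb0]
  · intro r hr
    have hr0 := hr.1
    have hρ : c * r ∈ Ioo 0 (Real.pi / 2) := by
      refine ⟨by (clear * - hD hr0; positivity), ?_⟩
      have : c * r < c * D := mul_lt_mul_of_pos_left hr.2 hc0
      have e : c * D = Real.pi / 2 := by rw [hc]; field_simp
      linarith only [this, e]
    have h5 := hP4 (c * r) hρ
    have e1 : c * r * k = r := by rw [mul_right_comm, hck, one_mul]
    have h6 : Gm (fun s t => c • A (s * k) (t * k)) 0 (c * r) = (c ^ 2) • ((A 0 r)ᵀ * A 0 r) := by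
      show (c • A (0 * k) (c * r * k))ᵀ * (c • A (0 * k) (c * r * k)) = _
      rw [zero_mul, e1, Matrix.transpose_smul, Matrix.smul_mul, Matrix.mul_smul, smul_smul, pow_two]
    rw [h6] at h5
    have hnw : nm x w ^ 2 = co w ⬝ᵥ co w := by
      conv_lhs => rw [hexp w hw]
      exact geoAvg_nm_sum _ _ hb0 _
    have h7 := hjfn r (co w)
    rw [← hexp w hw] at h7
    have h8 : (A 0 r *ᵥ co w) ⬝ᵥ (A 0 r *ᵥ co w) = co w ⬝ᵥ (((A 0 r)ᵀ * A 0 r) *ᵥ co w) := by
      rw [← Matrix.mulVec_mulVec, Matrix.dotProduct_mulVec (co w), Matrix.vecMul_transpose]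
    have h9 : c ^ 2 * (co w ⬝ᵥ (((A 0 r)ᵀ * A 0 r) *ᵥ co w))
        = Real.sin (c * r) ^ 2 * (co w ⬝ᵥ co w
          - Real.sin (c * r) ^ 2 * (co w ⬝ᵥ (P *ᵥ co w))) := by
      have h10 := congrArg (fun B => co w ⬝ᵥ (B *ᵥ co w)) h5
      simp only [Matrix.smul_mulVec, dotProduct_smul, Matrix.sub_mulVec, Matrix.one_mulVec,
        dotProduct_sub, smul_eq_mul] at h10
      exact h10
    rw [mul_pow, h7, h8, h9, hnw, geoAvg_proj_quad P hP1 hP2]

theorem geoAvg_jf_zero (F : Facts e) (x : M) (u : E) (r : ℝ) (w : E) :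
    jf e x u 0 r w = r • dE e x (r • u) w := by
  unfold jf
  rw [gam_zero F.isExp, vel_zero F.isExp, sub_zero]

theorem geoAvg_split [CompactSpace M] (F : Facts e) (x : M) (u : E) (hu : nm x u = 1) {r : ℝ}
    (hr : 0 < r) (a : ℝ) (w : E) (hw : ip x w u = 0) :
    nm (gam e x u r) (dE e x (r • u) (a • u + w)) ^ 2 =
      a ^ 2 + nm (gam e x u r) (dE e x (r • u) w) ^ 2 := by
  have hg := gauss F x u hu 0 r w
  rw [gam_zero F.isExp, vel_zero F.isExp, hw, mul_zero, geoAvg_jf_zero F, asm_ip_smul_left] at hg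
  have hg' : ip (gam e x u r) (dE e x (r • u) w) (vel e x u r) = 0 :=
    (mul_eq_zero.mp hg).resolve_left hr.ne'
  have e1 : dE e x (r • u) (a • u + w) = a • vel e x u r + dE e x (r • u) w := by
    rw [dE_add, dE_smul]
    rfl
  have hv : nm (gam e x u r) (vel e x u r) = 1 := (nm_vel F x u r).trans hu
  rw [e1, ← ip_self, asm_ip_add_left, asm_ip_add_right, asm_ip_add_right, asm_ip_smul_left,
    asm_ip_smul_right, ip_self, hv, asm_ip_smul_left, asm_ip_smul_right,
    asm_ip_comm _ (vel e x u r), hg', ip_self]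
  ring

/-- the kernel at distance `D` is the same for `u` and `-u` -/
theorem geoAvg_ker_neg (F : Facts e) {D : ℝ} (hD : 0 < D)
    (hcl : ∀ (x : M) (v : E), nm x v = 2 * D → e x v = x) (x : M) (u : E) (hu : nm x u = 1)
    (z : E) (hz : ip x z u = 0) : jf e x u 0 D z = - jf e x (-u) 0 D z := by
  have hw : ip (gam e x u 0) z (vel e x u 0) = 0 := by
    rw [gam_zero F.isExp, vel_zero F.isExp]; exact hz
  have h := jf_per F hD hcl x u hu 0 (-D) z hw
  rw [show -D + 2 * D = D by ring] at h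
  rw [h, geoAvg_jf_zero F, geoAvg_jf_zero F, neg_smul]
  have : ((-D) • u : E) = D • (-u) := by rw [neg_smul, smul_neg]
  rw [this]

/-- rigidity along geodesics: equality in the Jacobian determines the metric -/
theorem geo_rigid [CompactSpace M] [ConnectedSpace M] [IsRiemannianManifold 𝓘(ℝ, E) M]
    (F : Facts e) {D : ℝ} (hD : 0 < D) (hB : InjGE e D)
    (hcl : ∀ (x : M) (v : E), nm x v = 2 * D → e x v = x)
    {N : ℕ} (hN : finrank ℝ E = N + 1) {l : ℕ}
    (hl : ∀ (x : M) (v : E), nm x v = D → finrank ℝ (LinearMap.ker (dEl e x v)) ≤ l)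
    (hj : ∀ (x : M) (v : E), 0 < nm x v → nm x v < D → jac e x v = mj D N l (nm x v))
    (x : M) (v : E) (hv : nm x v < D) (w : E) :
    nm (e x (-v)) (dE e x (-v) w) = nm (e x v) (dE e x v w) := by
  have hφ : ∀ z z' : E, z = z' → nm (e x z) (dE e x z w) = nm (e x z') (dE e x z' w) := by
    rintro z z' rfl
    rfl
  by_cases h0 : nm x v = 0
  · have hv0 : v = 0 := norm_eq_zero (E := TangentSpace 𝓘(ℝ, E) x) |>.mp h0
    exact hφ (-v) v (by rw [hv0, neg_zero])
  have hr0 : 0 < nm x v := lt_of_le_of_ne (nm_nonneg x v) (Ne.symm h0)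
  set r := nm x v with hr
  set u : E := r⁻¹ • v with hu_def
  have hu : nm x u = 1 := by
    rw [hu_def, nm_smul, abs_of_pos (inv_pos.mpr hr0), ← hr]
    exact inv_mul_cancel₀ h0
  have hv1 : v = r • u := by rw [hu_def, smul_smul, mul_inv_cancel₀ h0, one_smul]
  have hv2 : -v = r • (-u) := by rw [smul_neg, ← hv1]
  have hnu : nm x (-u) = 1 := by
    have := nm_smul x u (-1)
    rw [neg_one_smul, abs_neg, abs_one, one_mul] at this
    rw [this, hu]
  have hipn : ∀ z, ip x z (-u) = - ip x z u := fun z => by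
    have := asm_ip_smul_right x (-1) z u
    rwa [neg_one_smul, neg_one_mul] at this
  have hπ := Real.pi_pos
  set c := Real.pi / (2 * D) with hc
  have hc0 : 0 < c := by positivity
  obtain ⟨q, hq⟩ := geoAvg_claim F hD hB hcl hN hl hj x u hu
  obtain ⟨q', hq'⟩ := geoAvg_claim F hD hB hcl hN hl hj x (-u) hnu
  -- decomposition
  set a := ip x w u with ha
  set w' : E := w - a • u with hw'
  have hw'u : ip x w' u = 0 := by
    have e1 : w = w' + a • u := by rw [hw']; abel
    have e2 : ip x w u = ip x w' u + ip x (a • u) u := by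
      conv_lhs => rw [e1]
      exact asm_ip_add_left x w' (a • u) u
    rw [asm_ip_smul_left, ip_self, hu, ← ha] at e2
    linarith only [e2]
  have hw'nu : ip x w' (-u) = 0 := by rw [hipn, hw'u, neg_zero]
  obtain ⟨p1, ⟨z1, z1u, z1K, z1q⟩, p3⟩ := hq w' hw'u
  obtain ⟨p1', ⟨z2, z2u, z2K, z2q⟩, p3'⟩ := hq' w' hw'nu
  have z2u' : ip x z2 u = 0 := by
    have := z2u
    rw [hipn] at this
    linarith only [this]
  have hqq : q w' = q' w' := by
    apply le_antisymm
    · rw [z2q]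
      apply p1 z2 z2u'
      rw [geoAvg_ker_neg F hD hcl x u hu z2 z2u', z2K, neg_zero]
    · rw [z1q]
      apply p1' z1 (by rw [hipn, z1u, neg_zero])
      have := geoAvg_ker_neg F hD hcl x u hu z1 z1u
      rw [z1K] at this
      exact neg_eq_zero.mp this.symm
  have k1 := p3 r ⟨hr0, hv⟩
  have k2 := p3' r ⟨hr0, hv⟩
  rw [← hqq, ← k1, geoAvg_jf_zero F, geoAvg_jf_zero F, nm_smul, nm_smul, abs_of_pos hr0] at k2
  have k3 : nm (gam e x (-u) r) (dE e x (r • (-u)) w') ^ 2
      = nm (gam e x u r) (dE e x (r • u) w') ^ 2 := by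
    have hcr : (c * r) ^ 2 ≠ 0 := by positivity
    apply mul_left_cancel₀ hcr
    linear_combination k2
  have s1 := geoAvg_split F x u hu hr0 a w' hw'u
  have s2 := geoAvg_split F x (-u) hnu hr0 (-a) w' hw'nu
  have e1 : a • u + w' = w := by rw [hw']; abel
  have e2 : (-a) • (-u) + w' = w := by rw [smul_neg, neg_smul, neg_neg, e1]
  rw [e1] at s1
  rw [e2] at s2
  have hfin : nm (gam e x (-u) r) (dE e x (r • (-u)) w) ^ 2
      = nm (gam e x u r) (dE e x (r • u) w) ^ 2 := by
    rw [s1, s2, k3]; ring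
  have hfin2 : nm (gam e x (-u) r) (dE e x (r • (-u)) w)
      = nm (gam e x u r) (dE e x (r • u) w) :=
    (sq_eq_sq₀ (nm_nonneg _ _) (nm_nonneg _ _)).1 hfin
  exact ((hφ _ _ hv2).trans hfin2).trans (hφ _ _ hv1).symm

end

end Vale.Agent.P231
end
end

section

section

/-! P231 measure part: real analysis used in Meas/Ineq.lean (periodic functions, cutoffs). -/

open Set Filter MeasureTheory
open scoped Topology

namespace Vale.Agent.P231

noncomputable section

/-- a periodic continuous function with nonnegative mean has primitive bounded below -/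
theorem ineqAux_periodic {h : ℝ → ℝ} (hc : Continuous h) {P C : ℝ} (hP : 0 < P)
    (hper : Function.Periodic h P) (hC : ∀ t, |h t| ≤ C)
    (h0 : 0 ≤ ∫ t in (0 : ℝ)..P, h t) {R : ℝ} (hR : 0 ≤ R) :
    -(P * C) ≤ ∫ t in (0 : ℝ)..R, h t := by
  have hint : ∀ a b : ℝ, IntervalIntegrable h volume a b := fun a b => hc.intervalIntegrable a b
  set k : ℤ := ⌊R / P⌋ with hk
  have hk0 : 0 ≤ k := Int.floor_nonneg.2 (div_nonneg hR hP.le)
  set θ : ℝ := R - k * P with hθ
  have hθ0 : 0 ≤ θ := by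
    have := Int.floor_le (R / P)
    rw [le_div_iff₀ hP] at this
    rw [hθ]; linarith only [this]
  have hθP : θ ≤ P := by
    have := Int.lt_floor_add_one (R / P)
    rw [div_lt_iff₀ hP] at this
    rw [hθ]; nlinarith only [this]
  have hRk : R = θ + k • P := by
    rw [hθ, zsmul_eq_mul]; ring
  have h1 : ∫ t in (0 : ℝ)..R, h t = (∫ t in (0 : ℝ)..θ, h t) + k • ∫ t in (0 : ℝ)..P, h t := by
    rw [← intervalIntegral.integral_add_adjacent_intervals (hint 0 θ) (hint θ R)]
    congr 1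
    rw [hRk, hper.intervalIntegral_add_zsmul_eq k θ hint, hper.intervalIntegral_add_eq θ 0,
      zero_add]
  have h2 : |∫ t in (0 : ℝ)..θ, h t| ≤ C * |θ - 0| := by
    have := intervalIntegral.norm_integral_le_of_norm_le_const (a := 0) (b := θ) (C := C)
      (f := h) (fun x _ => by rw [Real.norm_eq_abs]; exact hC x)
    simpa only [sub_zero, ge_iff_le, Real.norm_eq_abs] using this
  have hC0 : 0 ≤ C := (abs_nonneg _).trans (hC 0)
  rw [sub_zero, abs_of_nonneg hθ0] at h2
  have h3 : C * θ ≤ P * C := by nlinarith only [hθP, hC0]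
  have h4 : 0 ≤ k • ∫ t in (0 : ℝ)..P, h t := by
    rw [zsmul_eq_mul]
    exact mul_nonneg (by exact_mod_cast hk0) h0
  have h5 := (abs_le.1 h2).1
  rw [h1]
  linarith only [h3, h4, h5]

/-- the cutoff functions -/
def cutk (D : ℝ) (k : ℕ) (r : ℝ) : ℝ :=
  max 0 (min 1 (min (k * r - 1) (k * (D - r) - 1)))

theorem continuous_cutk (D : ℝ) (k : ℕ) : Continuous (cutk D k) := by
  unfold cutk; fun_prop

theorem cutk_nonneg (D : ℝ) (k : ℕ) (r : ℝ) : 0 ≤ cutk D k r := le_max_left _ _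

theorem cutk_le_one (D : ℝ) (k : ℕ) (r : ℝ) : cutk D k r ≤ 1 :=
  max_le zero_le_one (min_le_left _ _)

theorem cutk_ne_zero {D : ℝ} {k : ℕ} {r : ℝ} (h : cutk D k r ≠ 0) :
    0 < k ∧ (1 : ℝ) / k ≤ r ∧ r ≤ D - 1 / k := by
  unfold cutk at h
  have h1 : 0 < min 1 (min (k * r - 1) (k * (D - r) - 1)) := by
    by_contra hcon
    exact h (max_eq_left (not_lt.1 hcon))
  obtain ⟨-, h2⟩ := lt_min_iff.1 h1
  obtain ⟨h3, h4⟩ := lt_min_iff.1 h2
  have hk : 0 < k := by
    rcases Nat.eq_zero_or_pos k with hk | hk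
    · subst hk; simp only [CharP.cast_eq_zero, zero_mul, zero_sub, Left.neg_pos_iff] at h3; linarith
    · exact hk
  have hk' : (0 : ℝ) < k := by exact_mod_cast hk
  refine ⟨hk, ?_, ?_⟩
  · rw [div_le_iff₀ hk']; linarith only [h3]
  · have : (1 : ℝ) / k ≤ D - r := by rw [div_le_iff₀ hk']; linarith only [h4]
    linarith only [this]

theorem cutk_mono {D : ℝ} {k m : ℕ} (h : k ≤ m) (r : ℝ) : cutk D k r ≤ cutk D m r := by
  by_cases h0 : cutk D k r = 0
  · rw [h0]; exact cutk_nonneg _ _ _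
  · obtain ⟨hk, h1, h2⟩ := cutk_ne_zero h0
    have hk' : (0 : ℝ) < k := by exact_mod_cast hk
    have hr : 0 ≤ r := le_trans (by positivity) h1
    have hD : 0 ≤ D - r := le_trans (by positivity) (by linarith only [h2] : (1 : ℝ) / k ≤ D - r)
    have hkm : (k : ℝ) ≤ m := by exact_mod_cast h
    have e1 : k * r - 1 ≤ m * r - 1 := by nlinarith only [hr, hkm]
    have e2 : k * (D - r) - 1 ≤ m * (D - r) - 1 := by nlinarith only [hD, hkm]
    exact max_le_max le_rfl (min_le_min le_rfl (min_le_min e1 e2))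

theorem cutk_eventually {D r : ℝ} (h0 : 0 < r) (h1 : r < D) :
    ∀ᶠ k : ℕ in atTop, cutk D k r = 1 := by
  obtain ⟨k0, hk0⟩ := exists_nat_ge (max (2 / r) (2 / (D - r)))
  filter_upwards [eventually_ge_atTop k0] with k hk
  have hkk : (k0 : ℝ) ≤ k := by exact_mod_cast hk
  have hD : 0 < D - r := by linarith only [h1]
  have e1 : 2 ≤ k * r := by
    have : 2 / r ≤ k := (le_max_left _ _).trans (hk0.trans hkk)
    rwa [div_le_iff₀ h0] at this
  have e2 : 2 ≤ k * (D - r) := by
    have : 2 / (D - r) ≤ k := (le_max_right _ _).trans (hk0.trans hkk)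
    rwa [div_le_iff₀ hD] at this
  unfold cutk
  rw [min_eq_left (le_min (by linarith only [e1]) (by linarith only [e2]))]
  exact max_eq_right zero_le_one

theorem cutk_tendsto_integral {D : ℝ} (hD : 0 < D) {F : ℝ → ℝ} (hF : Continuous F) :
    Tendsto (fun k : ℕ => ∫ r in (0 : ℝ)..D, cutk D k r * F r) atTop
      (𝓝 (∫ r in (0 : ℝ)..D, F r)) := by
  refine intervalIntegral.tendsto_integral_filter_of_dominated_convergence (fun r => |F r|) ?_ ?_
    ?_ ?_
  · exact Eventually.of_forall fun k =>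
      ((continuous_cutk D k).mul hF).aestronglyMeasurable
  · refine Eventually.of_forall fun k => Eventually.of_forall fun r _ => ?_
    rw [Real.norm_eq_abs, abs_mul, abs_of_nonneg (cutk_nonneg D k r)]
    exact mul_le_of_le_one_left (abs_nonneg _) (cutk_le_one D k r)
  · exact hF.abs.intervalIntegrable _ _
  · have hne : ∀ᵐ r : ℝ ∂volume, r ≠ D := by
      simp [ae_iff]
    filter_upwards [hne] with r hr hmem
    rw [uIoc_of_le hD.le] at hmem
    have h1 : r < D := lt_of_le_of_ne hmem.2 hr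
    refine tendsto_const_nhds.congr' ?_
    filter_upwards [cutk_eventually hmem.1 h1] with k hk
    rw [hk, one_mul]

/-- radial integrals -/
theorem integral_radial {n N : ℕ} (hn : n = N + 1) {D : ℝ} (hD : 0 < D) {φ : ℝ → ℝ}
    (hφ : ∀ r, D < r → φ r = 0) :
    ∫ ξ : EuclideanSpace ℝ (Fin n), φ ‖ξ‖ =
      (N + 1) * (volume (Metric.ball (0 : EuclideanSpace ℝ (Fin (N + 1))) 1)).toReal *
        ∫ r in (0 : ℝ)..D, r ^ N * φ r := by
  subst hn
  rw [integral_fun_norm_addHaar volume φ]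
  have h1 : Module.finrank ℝ (EuclideanSpace ℝ (Fin (N + 1))) = N + 1 := by simp
  rw [h1, Nat.add_sub_cancel, nsmul_eq_mul, smul_eq_mul, measureReal_def,
    intervalIntegral.integral_of_le hD.le]
  push_cast
  rw [mul_assoc]
  congr 2
  have h2 : ∫ y in Ioi (0 : ℝ), y ^ N • φ y = ∫ y in Ioc (0 : ℝ) D, y ^ N • φ y := by
    refine setIntegral_eq_of_subset_of_forall_sdiff_eq_zero measurableSet_Ioi
      (fun x hx => hx.1) ?_
    rintro x ⟨hx1, hx2⟩
    have hx3 : D < x := by
      by_contra hcon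
      exact hx2 ⟨hx1, not_lt.1 hcon⟩
    rw [hφ x hx3, smul_zero]
  exact h2

theorem cutk_supp {D : ℝ} {k : ℕ} {r : ℝ} (h : cutk D k r ≠ 0) :
    (1 : ℝ) / (k + 1) ≤ r ∧ r ≤ D - 1 / (k + 1) := by
  obtain ⟨hk, h1, h2⟩ := cutk_ne_zero h
  have hk' : (0 : ℝ) < k := by exact_mod_cast hk
  have h3 : (1 : ℝ) / (k + 1) ≤ 1 / k := one_div_le_one_div_of_le hk' (by linarith only [])
  exact ⟨h3.trans h1, by linarith only [h2, h3]⟩

end

end Vale.Agent.P231
end
end

section

section

/-! P231 measure part, section MI: the averaged inequality, the volume bound and its equality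
case. -/

set_option maxSynthPendingDepth 3
set_option linter.unusedSectionVars false

open Bundle Manifold Set Filter MeasureTheory Module
open scoped ContDiff Manifold Topology ENNReal

namespace Vale.Agent.P231

noncomputable section

open Vale.Agent.P234

/-! ### the model Jacobian -/

theorem mj_pos {D : ℝ} (N l : ℕ) {r : ℝ} (h0 : 0 < r) (h1 : r < D) : 0 < mj D N l r := by
  have hD : 0 < D := h0.trans h1
  have e1 : 0 < Real.pi * r / (2 * D) := by positivity
  have e2 : Real.pi * r / (2 * D) < Real.pi / 2 := by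
    rw [div_lt_div_iff₀ (by positivity) (by positivity)]
    nlinarith only [h1, Real.pi_pos]
  have e3 := Real.sin_pos_of_pos_of_lt_pi e1 (by linarith only [e1, e2])
  have e4 := Real.cos_pos_of_mem_Ioo ⟨by linarith [Real.pi_pos], e2⟩
  unfold mj
  positivity

theorem continuousOn_mj {D : ℝ} (hD : 0 < D) (N l : ℕ) : ContinuousOn (mj D N l) (Ioi 0) := by
  unfold mj
  have h1 : Continuous fun r : ℝ => Real.pi * r / (2 * D) := by fun_prop
  refine ContinuousOn.mul (ContinuousOn.pow (ContinuousOn.div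
    (Real.continuous_sin.comp h1).continuousOn h1.continuousOn ?_) N)
    ((Real.continuous_cos.comp h1).pow l).continuousOn
  intro r hr
  have : 0 < Real.pi * r / (2 * D) := by
    have : 0 < r := hr
    positivity
  exact this.ne'

/-- the model density -/
def mdens (D : ℝ) (N l : ℕ) (r : ℝ) : ℝ :=
  (2 * D / Real.pi * Real.sin (Real.pi * r / (2 * D))) ^ N * Real.cos (Real.pi * r / (2 * D)) ^ l

theorem continuous_mdens (D : ℝ) (N l : ℕ) : Continuous (mdens D N l) := by
  unfold mdens; fun_prop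

theorem pow_mul_mj {D : ℝ} (hD : 0 < D) (N l : ℕ) {r : ℝ} (hr : 0 < r) :
    r ^ N * mj D N l r = mdens D N l r := by
  unfold mj mdens
  rw [← mul_assoc, ← mul_pow]
  congr 2
  have := Real.pi_pos.ne'
  field_simp

/-- integral of the cut off model Jacobian -/
theorem integral_cut_mj {n N l : ℕ} (hn : n = N + 1) {D : ℝ} (hD : 0 < D) (k : ℕ) :
    ∫ ξ : EuclideanSpace ℝ (Fin n), cutk D k ‖ξ‖ * mj D N l ‖ξ‖ =
      (N + 1) * (volume (Metric.ball (0 : EuclideanSpace ℝ (Fin (N + 1))) 1)).toReal *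
        ∫ r in (0 : ℝ)..D, cutk D k r * mdens D N l r := by
  have h1 := integral_radial hn hD (φ := fun r => cutk D k r * mj D N l r) (fun r hr => by
    by_cases h : cutk D k r = 0
    · simp [h]
    · have := (cutk_supp h).2
      have h3 : (0 : ℝ) < 1 / (k + 1) := by (clear * -; positivity)
      linarith only [hr, this, h3])
  rw [h1]
  congr 1
  refine intervalIntegral.integral_congr_ae (Eventually.of_forall fun r hr => ?_)
  rw [uIoc_of_le hD.le] at hr
  rw [← pow_mul_mj hD N l hr.1]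
  ring

variable {E : Type*} [NormedAddCommGroup E] [NormedSpace ℝ E] [FiniteDimensional ℝ E]
  {M : Type*} [MetricSpace M] [ChartedSpace E M]
  [RiemannianBundle (fun x : M => TangentSpace 𝓘(ℝ, E) x)]
  [IsManifold 𝓘(ℝ, E) ∞ M]
  [IsContMDiffRiemannianBundle 𝓘(ℝ, E) ∞ E (fun x : M => TangentSpace 𝓘(ℝ, E) x)]
  {e : ∀ x : M, TangentSpace 𝓘(ℝ, E) x → M}

theorem continuous_nmTB :
    Continuous fun p : TangentBundle 𝓘(ℝ, E) M => nm (E := E) p.proj p.snd :=
  continuous_norm_tangent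

/-- a function vanishing for small and large vectors, continuous in between -/
theorem contTB_of_ioo {G : M → E → ℝ} {a b D : ℝ} (ha : 0 < a) (hb : b < D)
    (hz : ∀ x v, (nm x v < a ∨ b < nm x v) → G x v = 0)
    (hc : ContinuousOn (fun p : TangentBundle 𝓘(ℝ, E) M => G p.proj p.snd)
      {p | 0 < nm (E := E) p.proj p.snd ∧ nm (E := E) p.proj p.snd < D}) : ContTB G := by
  unfold ContTB
  rw [continuous_iff_continuousAt]
  intro p
  have hn := (continuous_nmTB (E := E) (M := M))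
  by_cases h1 : nm (E := E) p.proj p.snd < a
  · have hev : ∀ᶠ q : TangentBundle 𝓘(ℝ, E) M in 𝓝 p, G q.proj q.snd = 0 := by
      filter_upwards [hn.continuousAt.eventually (gt_mem_nhds h1)] with q hq
      exact hz _ _ (Or.inl hq)
    exact (continuousAt_const (y := (0 : ℝ))).congr (hev.mono fun q hq => hq.symm)
  · by_cases h2 : b < nm (E := E) p.proj p.snd
    · have hev : ∀ᶠ q : TangentBundle 𝓘(ℝ, E) M in 𝓝 p, G q.proj q.snd = 0 := by
        filter_upwards [hn.continuousAt.eventually (lt_mem_nhds h2)] with q hq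
        exact hz _ _ (Or.inr hq)
      exact (continuousAt_const (y := (0 : ℝ))).congr (hev.mono fun q hq => hq.symm)
    · have ho : IsOpen {p : TangentBundle 𝓘(ℝ, E) M |
          0 < nm (E := E) p.proj p.snd ∧ nm (E := E) p.proj p.snd < D} :=
        (isOpen_lt continuous_const hn).inter (isOpen_lt hn continuous_const)
      exact hc.continuousAt (ho.mem_nhds ⟨by linarith, by linarith only [hb, h2]⟩)

/-! ### linearity and monotonicity of `liou` -/

theorem continuous_fint' [CompactSpace M] {G : M → E → ℝ} (hG : ContTB G) {b : ℝ}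
    (hs : ∀ x v, b < nm x v → G x v = 0) : Continuous (fint G) := by
  have h := continuous_fint (P := Unit) (G := fun _ => G)
    (hG.comp continuous_snd) (b := b) (fun _ => hs)
  exact h.comp (Continuous.prodMk continuous_const continuous_id : Continuous fun x : M => ((), x))

theorem integrable_fint [CompactSpace M] [MeasurableSpace M] [BorelSpace M]
    [IsFiniteMeasure (riemVol (finrank ℝ E) M)] {G : M → E → ℝ} (hG : ContTB G) {b : ℝ}
    (hs : ∀ x v, b < nm x v → G x v = 0) :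
    Integrable (fint G) (riemVol (finrank ℝ E) M) :=
  (continuous_fint' hG hs).integrable_of_hasCompactSupport (HasCompactSupport.of_compactSpace _)

theorem liou_add [CompactSpace M] [MeasurableSpace M] [BorelSpace M]
    [IsFiniteMeasure (riemVol (finrank ℝ E) M)] {G H : M → E → ℝ} (hG : ContTB G)
    (hH : ContTB H) {b : ℝ} (hs : ∀ x v, b < nm x v → G x v = 0)
    (hs' : ∀ x v, b < nm x v → H x v = 0) :
    liou (fun x v => G x v + H x v) = liou G + liou H := by
  unfold liou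
  rw [← integral_add (integrable_fint hG hs) (integrable_fint hH hs')]
  refine integral_congr_ae (Eventually.of_forall fun x => ?_)
  exact integral_add (hG.integrable hs x) (hH.integrable hs' x)

theorem liou_mono [CompactSpace M] [MeasurableSpace M] [BorelSpace M]
    [IsFiniteMeasure (riemVol (finrank ℝ E) M)] {G H : M → E → ℝ} (hG : ContTB G)
    (hH : ContTB H) {b : ℝ} (hs : ∀ x v, b < nm x v → G x v = 0)
    (hs' : ∀ x v, b < nm x v → H x v = 0) (hle : ∀ x v, G x v ≤ H x v) :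
    liou G ≤ liou H := by
  unfold liou
  refine integral_mono (integrable_fint hG hs) (integrable_fint hH hs') fun x => ?_
  exact integral_mono (hG.integrable hs x) (hH.integrable hs' x) fun ξ => hle _ _

theorem contTB_logterm [CompactSpace M] [ConnectedSpace M] [IsRiemannianManifold 𝓘(ℝ, E) M]
    (F : Facts e) {D : ℝ} (hD : 0 < D) (hB : InjGE e D) {N l : ℕ}
    {χ : ℝ → ℝ} (hχ : Continuous χ) {a b : ℝ} (ha : 0 < a) (hb : b < D)
    (hs : ∀ r, χ r ≠ 0 → a ≤ r ∧ r ≤ b) {Φ : ℝ → ℝ → ℝ}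
    (hΦ : ContinuousOn (Function.uncurry Φ) (Ioi 0 ×ˢ Ioi 0)) :
    ContTB (fun (x : M) (v : E) => χ (nm x v) * Φ (jac e x v) (mj D N l (nm x v))) := by
  have hn := (continuous_nmTB (E := E) (M := M))
  refine contTB_of_ioo ha hb ?_ ?_
  · intro x v h
    have : χ (nm x v) = 0 := by
      by_contra hcon
      obtain ⟨h1, h2⟩ := hs _ hcon
      rcases h with h | h <;> linarith
    rw [this, zero_mul]
  · refine ContinuousOn.mul (hχ.comp hn).continuousOn ?_
    have h2 : ContinuousOn (fun p : TangentBundle 𝓘(ℝ, E) M =>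
        (jac e p.proj p.snd, mj D N l (nm (E := E) p.proj p.snd)))
        {p | 0 < nm (E := E) p.proj p.snd ∧ nm (E := E) p.proj p.snd < D} := by
      refine ContinuousOn.prodMk (contTB_jac F.isExp).continuousOn ?_
      exact (continuousOn_mj hD N l).comp hn.continuousOn fun p hp => hp.1
    exact hΦ.comp h2 fun p hp => ⟨jac_pos F hB hp.2, mj_pos N l hp.1 hp.2⟩

/-- lower bound of `liou` from a pointwise lower bound on a ball bundle -/
theorem liou_lower [CompactSpace M] [MeasurableSpace M] [BorelSpace M]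
    [IsFiniteMeasure (riemVol (finrank ℝ E) M)] {G : M → E → ℝ} (hG : ContTB G) {b : ℝ}
    (hs : ∀ x v, b < nm x v → G x v = 0) {c : ℝ} (hc : ∀ x v, -c ≤ G x v) :
    -(c * ((volume (Metric.closedBall (0 : Eu E) b)).toReal *
      (riemVol (finrank ℝ E) M univ).toReal)) ≤ liou G := by
  have hfin : volume (Metric.closedBall (0 : Eu E) b) ≠ ⊤ := measure_closedBall_lt_top.ne
  have h1 : ∀ x : M, -(c * (volume (Metric.closedBall (0 : Eu E) b)).toReal) ≤ fint G x := by
    intro x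
    have h2 : ∫ ξ : Eu E, (Metric.closedBall (0 : Eu E) b).indicator (fun _ => -c) ξ =
        -(c * (volume (Metric.closedBall (0 : Eu E) b)).toReal) := by
      rw [integral_indicator Metric.isClosed_closedBall.measurableSet, setIntegral_const,
        measureReal_def, smul_eq_mul]
      ring
    rw [← h2]
    refine integral_mono ?_ (hG.integrable hs x) fun ξ => ?_
    · exact (integrable_indicator_iff Metric.isClosed_closedBall.measurableSet).2
        (integrableOn_const hfin)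
    · by_cases hξ : ξ ∈ Metric.closedBall (0 : Eu E) b
      · simp only [indicator_of_mem hξ]
        exact hc _ _
      · simp only [indicator_of_notMem hξ]
        rw [mem_closedBall_zero_iff, not_le] at hξ
        rw [hs x _ (by rw [nm_fr]; exact hξ)]
  have h3 : ∫ _ : M, -(c * (volume (Metric.closedBall (0 : Eu E) b)).toReal)
      ∂(riemVol (finrank ℝ E) M) = -(c * ((volume (Metric.closedBall (0 : Eu E) b)).toReal *
      (riemVol (finrank ℝ E) M univ).toReal)) := by
    rw [integral_const, measureReal_def, smul_eq_mul]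
    ring
  rw [← h3]
  exact integral_mono (integrable_const _) (integrable_fint hG hs) h1

/-- fibrewise time integral of a continuous family -/
theorem contTB_interval {G : ℝ → M → E → ℝ}
    (hG : Continuous fun q : ℝ × TangentBundle 𝓘(ℝ, E) M => G q.1 q.2.proj q.2.snd) (T : ℝ) :
    ContTB (fun x v => ∫ s in (0 : ℝ)..T, G s x v) := by
  have h1 : Continuous (Function.uncurry fun (p : TangentBundle 𝓘(ℝ, E) M) (s : ℝ) =>
      G s p.proj p.snd) := hG.comp continuous_swap
  exact intervalIntegral.continuous_parametric_intervalIntegral_of_continuous' h1 0 T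

/-- the continuity of the logarithmic excess -/
theorem contTB_log [CompactSpace M] [ConnectedSpace M] [IsRiemannianManifold 𝓘(ℝ, E) M]
    (F : Facts e) {D : ℝ} (hD : 0 < D) (hB : InjGE e D) {N l : ℕ}
    {χ : ℝ → ℝ} (hχ : Continuous χ) {a b : ℝ} (ha : 0 < a) (hb : b < D)
    (hs : ∀ r, χ r ≠ 0 → a ≤ r ∧ r ≤ b) :
    ContTB (fun (x : M) (v : E) =>
      χ (nm x v) * (Real.log (jac e x v) - Real.log (mj D N l (nm x v)))) := by
  have hΦ : ContinuousOn (Function.uncurry fun x y : ℝ => Real.log x - Real.log y)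
      (Ioi 0 ×ˢ Ioi 0) := by
    refine ContinuousOn.sub (Real.continuousOn_log.comp continuousOn_fst ?_)
      (Real.continuousOn_log.comp continuousOn_snd ?_)
    · rintro ⟨x, y⟩ ⟨hx, hy⟩
      exact (show (0 : ℝ) < x from hx).ne'
    · rintro ⟨x, y⟩ ⟨hx, hy⟩
      exact (show (0 : ℝ) < y from hy).ne'
  exact contTB_logterm F hD hB hχ ha hb hs hΦ

/-- the time average of the logarithmic excess is bounded below -/
theorem time_lower [CompactSpace M] [ConnectedSpace M] [IsRiemannianManifold 𝓘(ℝ, E) M]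
    (F : Facts e) {D : ℝ} (hD : 0 < D) (hB : InjGE e D)
    (hcl : ∀ (x : M) (v : E), nm x v = 2 * D → e x v = x)
    {N : ℕ} (hN : finrank ℝ E = N + 1) {l : ℕ}
    (hl : ∀ (x : M) (v : E), nm x v = D → finrank ℝ (LinearMap.ker (dEl e x v)) ≤ l)
    {χ : ℝ → ℝ} (hχ0 : ∀ r, 0 ≤ χ r) {a b : ℝ} (ha : 0 < a) (hb : b < D)
    (hs : ∀ r, χ r ≠ 0 → a ≤ r ∧ r ≤ b) {g : M → E → ℝ}
    (hg : g = fun x v => χ (nm x v) * (Real.log (jac e x v) - Real.log (mj D N l (nm x v))))
    (hgc : ContTB g) {C : ℝ} (hC : ∀ x v, |g x v| ≤ C) {T : ℝ} (hT : 0 < T) (x : M) (v : E) :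
    -(2 * D * C / a) ≤ ∫ s in (0 : ℝ)..T, g (gam e x v s) (vel e x v s) := by
  have hC0 : 0 ≤ C := (abs_nonneg _).trans (hC x v)
  by_cases h0 : χ (nm x v) = 0
  · have h1 : ∀ s, g (gam e x v s) (vel e x v s) = 0 := by
      intro s
      simp only [hg, nm_vel F, h0, zero_mul]
    simp only [h1, intervalIntegral.integral_zero]
    have : 0 ≤ 2 * D * C / a := by (clear * - hD hC0 ha; positivity)
    linarith only [this]
  · obtain ⟨har, hrb⟩ := hs _ h0
    set r : ℝ := nm x v with hr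
    have hr0 : 0 < r := ha.trans_le har
    obtain ⟨u, hu, hvu⟩ : ∃ u : E, nm x u = 1 ∧ v = r • u := by
      refine ⟨r⁻¹ • v, ?_, ?_⟩
      · rw [nm_smul, ← hr, abs_of_pos (inv_pos.2 hr0), inv_mul_cancel₀ hr0.ne']
      · rw [smul_smul, mul_inv_cancel₀ hr0.ne', one_smul]
    set h : ℝ → ℝ := fun t => g (gam e x u t) (r • vel e x u t) with hh
    have hGh : ∀ s, g (gam e x v s) (vel e x v s) = h (r * s) := by
      intro s
      simp only [hh]
      rw [hvu, gam_smul, vel_smul]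
    have hcont : Continuous h := by
      have h1 : Continuous fun t : ℝ => ((r⁻¹ * t, (⟨x, v⟩ : TangentBundle 𝓘(ℝ, E) M)) :
          ℝ × TangentBundle 𝓘(ℝ, E) M) := by fun_prop
      have h2 := (hgc.comp (contMDiff_flow F).continuous).comp h1
      have h3 : h = fun t => g (gam e x v (r⁻¹ * t)) (vel e x v (r⁻¹ * t)) := by
        funext t
        rw [hGh, ← mul_assoc, mul_inv_cancel₀ hr0.ne', one_mul]
      rw [h3]
      exact h2
    have hper : Function.Periodic h (2 * D) := by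
      intro t
      simp only [hh]
      rw [gam_per F hD.le hcl x u hu, vel_per F hD.le hcl x u hu]
    have hnmr : ∀ t, nm (gam e x u t) (r • vel e x u t) = r := by
      intro t
      rw [nm_smul, nm_vel F, hu, mul_one, abs_of_pos hr0]
    have hform : ∀ t, h t = χ r * (Real.log (jac e (gam e x u t) (r • vel e x u t)) -
        Real.log (mj D N l r)) := by
      intro t
      simp only [hh, hg, hnmr]
    have hL : ∀ t, Real.log (jac e (gam e x u t) (r • vel e x u t)) =
        h t / χ r + Real.log (mj D N l r) := by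
      intro t
      rw [hform]
      field_simp
      ring
    have hLc : Continuous fun t => Real.log (jac e (gam e x u t) (r • vel e x u t)) := by
      simp only [hL]
      fun_prop
    have hint : 0 ≤ ∫ t in (0 : ℝ)..(2 * D), h t := by
      have h1 := geo_avg F hD hB hcl hN hl x u hu (r := r) ⟨hr0, hrb.trans_lt hb⟩
      simp only [hform]
      rw [intervalIntegral.integral_const_mul, intervalIntegral.integral_sub
        (hLc.intervalIntegrable _ _) intervalIntegrable_const,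
        intervalIntegral.integral_const, sub_zero, smul_eq_mul]
      exact mul_nonneg (hχ0 r) (by (clear χ hχ0 hs g hg hgc C hC T hT hC0 h0 hr hvu h hh hGh hcont hper hnmr hform hL hLc; linarith))
    have hlow := ineqAux_periodic hcont (P := 2 * D) (C := C) (by positivity) hper
      (fun t => hC _ _) hint (R := r * T) (by (clear * - hr0 hT; positivity))
    have hcomp : ∫ s in (0 : ℝ)..T, g (gam e x v s) (vel e x v s) =
        r⁻¹ * ∫ t in (0 : ℝ)..(r * T), h t := by
      simp only [hGh]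
      rw [intervalIntegral.integral_comp_mul_left h hr0.ne', mul_zero, smul_eq_mul]
    rw [hcomp]
    have h2 : r⁻¹ * (-(2 * D * C)) ≤ r⁻¹ * ∫ t in (0 : ℝ)..(r * T), h t :=
      mul_le_mul_of_nonneg_left hlow (inv_nonneg.2 hr0.le)
    refine le_trans ?_ h2
    have h3 : r⁻¹ ≤ a⁻¹ := inv_anti₀ ha har
    have h4 : 0 ≤ 2 * D * C := by (clear * - hD hC0; positivity)
    have h5 : r⁻¹ * (2 * D * C) ≤ a⁻¹ * (2 * D * C) := mul_le_mul_of_nonneg_right h3 h4
    rw [div_eq_mul_inv]
    linarith only [h5]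

/-! ### MI (file Meas/Ineq.lean) -/

/-- the continuous function `G` below has nonnegative integral -/
theorem liou_log_nonneg [CompactSpace M] [ConnectedSpace M] [IsRiemannianManifold 𝓘(ℝ, E) M]
    [MeasurableSpace M] [BorelSpace M]
    (F : Facts e) {D : ℝ} (hD : 0 < D) (hB : InjGE e D)
    (hcl : ∀ (x : M) (v : E), nm x v = 2 * D → e x v = x)
    {N : ℕ} (hN : finrank ℝ E = N + 1) {l : ℕ}
    (hl : ∀ (x : M) (v : E), nm x v = D → finrank ℝ (LinearMap.ker (dEl e x v)) ≤ l)
    {χ : ℝ → ℝ} (hχ : Continuous χ) (hχ0 : ∀ r, 0 ≤ χ r) {a b : ℝ} (ha : 0 < a) (hb : b < D)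
    (hs : ∀ r, χ r ≠ 0 → a ≤ r ∧ r ≤ b) :
    0 ≤ liou (fun (x : M) (v : E) =>
      χ (nm x v) * (Real.log (jac e x v) - Real.log (mj D N l (nm x v)))) := by
  have := riemVol_finite F hD hB
  have hgc := contTB_log F hD hB (N := N) (l := l) hχ ha hb hs
  set g : M → E → ℝ := fun x v =>
    χ (nm x v) * (Real.log (jac e x v) - Real.log (mj D N l (nm x v))) with hg
  have hχz : ∀ r, b < r → χ r = 0 := by
    intro r hr
    by_contra hcon
    have := (hs r hcon).2
    linarith only [hr, this]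
  have hgs : ∀ x v, b < nm x v → g x v = 0 := by
    intro x v h
    simp only [hg, hχz _ h, zero_mul]
  obtain ⟨C, hC⟩ := hgc.bdd hgs
  -- the flow
  have hGc : Continuous fun q : ℝ × TangentBundle 𝓘(ℝ, E) M =>
      (fun (s : ℝ) (x : M) (v : E) => g (gam e x v s) (vel e x v s)) q.1 q.2.proj q.2.snd :=
    hgc.comp (contMDiff_flow F).continuous
  have hGs : ∀ (p : ℝ) (x : M) (v : E), b < nm x v →
      (fun (s : ℝ) (x : M) (v : E) => g (gam e x v s) (vel e x v s)) p x v = 0 := by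
    intro p x v h
    exact hgs _ _ (by rw [nm_vel F]; exact h)
  have key : ∀ T : ℝ, 0 < T →
      T * liou g = liou (fun x v => ∫ s in (0 : ℝ)..T, g (gam e x v s) (vel e x v s)) := by
    intro T hT
    have h2 := liou_interval hGc hGs 0 T
    rw [← h2]
    have h1 : ∀ s ∈ uIcc 0 T, liou (fun (x : M) (v : E) => g (gam e x v s) (vel e x v s)) =
        liou g := fun s hs' => by
      rw [uIcc_of_le hT.le] at hs'
      exact liou_flow F hD hB hcl hgc hb hgs hs'.1
    rw [intervalIntegral.integral_congr h1, intervalIntegral.integral_const, sub_zero,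
      smul_eq_mul]
  -- conclusion
  set K : ℝ := 2 * D * C / a * ((volume (Metric.closedBall (0 : Eu E) b)).toReal *
    (riemVol (finrank ℝ E) M univ).toReal) with hK
  have hlow : ∀ T : ℝ, 0 < T → -K ≤ T * liou g := by
    intro T hT
    rw [key T hT]
    refine liou_lower (contTB_interval hGc T) (b := b) ?_
      (time_lower F hD hB hcl hN hl hχ0 ha hb hs hg hgc hC hT)
    intro x v hv
    have h3 : ∀ s, g (gam e x v s) (vel e x v s) = 0 := fun s => hGs s x v hv
    simp only [h3, intervalIntegral.integral_zero]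
  by_contra hneg
  rw [not_le] at hneg
  have hK0 : 0 ≤ K := by
    obtain ⟨x⟩ : Nonempty M := inferInstance
    have hC0 : 0 ≤ C := (abs_nonneg _).trans (hC x 0)
    rw [hK]
    (clear hcl hN hl hχ hχ0 hb hs hgc hg hχz hgs hGc hGs key K hK hlow hneg; positivity)
  have h1 := hlow ((K + 1) / (-liou g)) (div_pos (by (clear hcl hN hl hχ hχ0 hb hs hgc hg hχz hgs hGc hGs key hlow hneg; linarith)) (by (clear hcl hN hl hχ hχ0 a b ha hb hs hgc hg hχz hgs C hC hGc hGs key K hK hlow hK0; linarith)))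
  have h2 : (K + 1) / (-liou g) * liou g = -(K + 1) := by
    have : liou g ≠ 0 := hneg.ne
    rw [div_neg, neg_mul, div_mul_cancel₀ _ this]
  linarith

/-- the excess of the Jacobian over its linearised model -/
def exc (e : ∀ x : M, TangentSpace 𝓘(ℝ, E) x → M) (D : ℝ) (N l : ℕ) (x : M) (v : E) : ℝ :=
  jac e x v - mj D N l (nm x v) *
    (1 + (Real.log (jac e x v) - Real.log (mj D N l (nm x v))))

theorem exc_nonneg [CompactSpace M] [ConnectedSpace M] [IsRiemannianManifold 𝓘(ℝ, E) M]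
    (F : Facts e) {D : ℝ} (hB : InjGE e D) {N l : ℕ} {x : M} {v : E} (h0 : 0 < nm x v)
    (h1 : nm x v < D) : 0 ≤ exc e D N l x v := by
  have hj := jac_pos F hB h1
  have hm := mj_pos N l h0 h1
  have h2 := Real.log_le_sub_one_of_pos (div_pos hj hm)
  rw [Real.log_div hj.ne' hm.ne'] at h2
  have h3 : mj D N l (nm x v) * (1 + (Real.log (jac e x v) - Real.log (mj D N l (nm x v)))) ≤
      mj D N l (nm x v) * (jac e x v / mj D N l (nm x v)) :=
    mul_le_mul_of_nonneg_left (by linarith) hm.le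
  rw [mul_div_cancel₀ _ hm.ne'] at h3
  unfold exc
  (clear F hB h0 h1 hj hm h2; linarith)

theorem exc_pos [CompactSpace M] [ConnectedSpace M] [IsRiemannianManifold 𝓘(ℝ, E) M]
    (F : Facts e) {D : ℝ} (hB : InjGE e D) {N l : ℕ} {x : M} {v : E} (h0 : 0 < nm x v)
    (h1 : nm x v < D) (hne : jac e x v ≠ mj D N l (nm x v)) : 0 < exc e D N l x v := by
  have hj := jac_pos F hB h1
  have hm := mj_pos N l h0 h1
  have hq : jac e x v / mj D N l (nm x v) ≠ 1 := by
    rw [Ne, div_eq_one_iff_eq hm.ne']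
    exact hne
  have h2 := Real.log_lt_sub_one_of_pos (div_pos hj hm) hq
  rw [Real.log_div hj.ne' hm.ne'] at h2
  have h3 : mj D N l (nm x v) * (1 + (Real.log (jac e x v) - Real.log (mj D N l (nm x v)))) <
      mj D N l (nm x v) * (jac e x v / mj D N l (nm x v)) :=
    mul_lt_mul_of_pos_left (by linarith) hm
  rw [mul_div_cancel₀ _ hm.ne'] at h3
  unfold exc
  (clear F hB h0 h1 hne hj hm hq h2; linarith)

theorem cutk_vanish {D : ℝ} (k : ℕ) {r : ℝ} (h : D - 1 / ((k : ℝ) + 1) < r) :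
    cutk D k r = 0 := by
  by_contra hcon
  have := (cutk_supp hcon).2
  linarith

theorem cut_lt {D : ℝ} (k : ℕ) : D - 1 / ((k : ℝ) + 1) < D := by
  have : (0 : ℝ) < 1 / ((k : ℝ) + 1) := by positivity
  linarith

theorem contTB_cut_exc [CompactSpace M] [ConnectedSpace M] [IsRiemannianManifold 𝓘(ℝ, E) M]
    (F : Facts e) {D : ℝ} (hD : 0 < D) (hB : InjGE e D) (N l k : ℕ) :
    ContTB (fun (x : M) (v : E) => cutk D k (nm x v) * exc e D N l x v) := by
  have hΦ : ContinuousOn (Function.uncurry fun x y : ℝ =>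
      x - y * (1 + (Real.log x - Real.log y))) (Ioi 0 ×ˢ Ioi 0) := by
    have h1 : ContinuousOn (fun p : ℝ × ℝ => Real.log p.1) (Ioi 0 ×ˢ Ioi 0) :=
      Real.continuousOn_log.comp continuousOn_fst fun p hp => (show (0 : ℝ) < p.1 from hp.1).ne'
    have h2 : ContinuousOn (fun p : ℝ × ℝ => Real.log p.2) (Ioi 0 ×ˢ Ioi 0) :=
      Real.continuousOn_log.comp continuousOn_snd fun p hp => (show (0 : ℝ) < p.2 from hp.2).ne'
    exact continuousOn_fst.sub (continuousOn_snd.mul (continuousOn_const.add (h1.sub h2)))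
  exact contTB_logterm F hD hB (continuous_cutk D k)
    (a := 1 / ((k : ℝ) + 1)) (by positivity) (cut_lt k) (fun r hr => cutk_supp hr) hΦ

theorem contTB_cut_jac [CompactSpace M] [ConnectedSpace M] [IsRiemannianManifold 𝓘(ℝ, E) M]
    (F : Facts e) {D : ℝ} (hD : 0 < D) (hB : InjGE e D) (k : ℕ) :
    ContTB (fun (x : M) (v : E) => cutk D k (nm x v) * jac e x v) :=
  contTB_logterm F hD hB (N := 0) (l := 0) (continuous_cutk D k)
    (a := 1 / ((k : ℝ) + 1)) (by positivity) (cut_lt k) (fun r hr => cutk_supp hr)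
    (Φ := fun x _ => x) continuousOn_fst

theorem contTB_cut_mj [CompactSpace M] [ConnectedSpace M] [IsRiemannianManifold 𝓘(ℝ, E) M]
    (F : Facts e) {D : ℝ} (hD : 0 < D) (hB : InjGE e D) (N l k : ℕ) :
    ContTB (fun (x : M) (v : E) => cutk D k (nm x v) * mj D N l (nm x v)) :=
  contTB_logterm F hD hB (continuous_cutk D k)
    (a := 1 / ((k : ℝ) + 1)) (by (clear * -; positivity)) (cut_lt k) (fun r hr => cutk_supp hr)
    (Φ := fun _ y => y) continuousOn_snd

/-- the integral of the cut off Jacobian over a fibre is at most the volume -/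
theorem fint_cut_jac_le [CompactSpace M] [ConnectedSpace M] [IsRiemannianManifold 𝓘(ℝ, E) M]
    [MeasurableSpace M] [BorelSpace M]
    (F : Facts e) {D : ℝ} (hD : 0 < D) (hB : InjGE e D) (k : ℕ) (x : M) :
    fint (fun (x : M) (v : E) => cutk D k (nm x v) * jac e x v) x ≤
      (riemVol (finrank ℝ E) M univ).toReal := by
  have := riemVol_finite F hD hB
  have hc := contTB_cut_jac F hD hB k
  have hz : ∀ (x : M) (v : E), D - 1 / ((k : ℝ) + 1) < nm x v →
      cutk D k (nm x v) * jac e x v = 0 := fun x v h => by rw [cutk_vanish k h, zero_mul]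
  have hi := hc.integrable hz x
  have hj0 : ∀ v : E, 0 ≤ jac e x v := fun v => abs_nonneg _
  unfold fint
  rw [integral_eq_lintegral_of_nonneg_ae
    (Eventually.of_forall fun ξ => mul_nonneg (cutk_nonneg _ _ _) (hj0 _))
    hi.aestronglyMeasurable]
  refine ENNReal.toReal_mono (measure_ne_top _ _) ?_
  have h1 : ∫⁻ ξ : Eu E, ENNReal.ofReal (cutk D k (nm x (fr x ξ)) * jac e x (fr x ξ)) ≤
      ∫⁻ ξ in Metric.ball (0 : Eu E) D, ENNReal.ofReal (jac e x (fr x ξ)) := by
    rw [← lintegral_indicator Metric.isOpen_ball.measurableSet]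
    refine lintegral_mono fun ξ => ?_
    by_cases hξ : ξ ∈ Metric.ball (0 : Eu E) D
    · rw [indicator_of_mem hξ]
      exact ENNReal.ofReal_le_ofReal
        (mul_le_of_le_one_left (hj0 _) (cutk_le_one _ _ _))
    · rw [mem_ball_zero_iff, not_lt] at hξ
      have h2 : cutk D k (nm x (fr x ξ)) = 0 := by
        rw [nm_fr]
        exact cutk_vanish k ((cut_lt k).trans_le hξ)
      rw [h2, zero_mul, ENNReal.ofReal_zero]
      exact zero_le
  refine h1.trans ?_
  rw [← area F hD hB x Metric.isOpen_ball.measurableSet le_rfl]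
  exact measure_mono (subset_univ _)

/-- the main inequality, for a cutoff -/
theorem main_cut [CompactSpace M] [ConnectedSpace M] [IsRiemannianManifold 𝓘(ℝ, E) M]
    [MeasurableSpace M] [BorelSpace M]
    (F : Facts e) {D : ℝ} (hD : 0 < D) (hB : InjGE e D)
    (hcl : ∀ (x : M) (v : E), nm x v = 2 * D → e x v = x)
    {N : ℕ} (hN : finrank ℝ E = N + 1) {l : ℕ}
    (hl : ∀ (x : M) (v : E), nm x v = D → finrank ℝ (LinearMap.ker (dEl e x v)) ≤ l) (k : ℕ) :
    liou (fun (x : M) (v : E) => cutk D k (nm x v) * exc e D N l x v) +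
      (riemVol (finrank ℝ E) M univ).toReal *
        ((N + 1) * (volume (Metric.ball (0 : EuclideanSpace ℝ (Fin (N + 1))) 1)).toReal *
        ∫ r in (0 : ℝ)..D, cutk D k r * mdens D N l r) ≤
    (riemVol (finrank ℝ E) M univ).toReal * (riemVol (finrank ℝ E) M univ).toReal := by
  have := riemVol_finite F hD hB
  have hzz : ∀ (Φ : M → E → ℝ) (x : M) (v : E), D - 1 / ((k : ℝ) + 1) < nm x v →
      cutk D k (nm x v) * Φ x v = 0 := fun Φ x v h => by rw [cutk_vanish k h, zero_mul]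
  -- upper bound
  have h1 : liou (fun (x : M) (v : E) => cutk D k (nm x v) * jac e x v) ≤
      (riemVol (finrank ℝ E) M univ).toReal * (riemVol (finrank ℝ E) M univ).toReal := by
    have h2 : ∫ _ : M, (riemVol (finrank ℝ E) M univ).toReal ∂(riemVol (finrank ℝ E) M) =
        (riemVol (finrank ℝ E) M univ).toReal * (riemVol (finrank ℝ E) M univ).toReal := by
      rw [integral_const, measureReal_def, smul_eq_mul]
    rw [← h2]
    exact integral_mono (integrable_fint (contTB_cut_jac F hD hB k) (hzz _)) (integrable_const _)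
      (fint_cut_jac_le F hD hB k)
  -- the model term
  have h3 : liou (fun (x : M) (v : E) => cutk D k (nm x v) * mj D N l (nm x v)) =
      (riemVol (finrank ℝ E) M univ).toReal *
        ((N + 1) * (volume (Metric.ball (0 : EuclideanSpace ℝ (Fin (N + 1))) 1)).toReal *
        ∫ r in (0 : ℝ)..D, cutk D k r * mdens D N l r) := by
    have h4 : ∀ x : M, fint (fun (x : M) (v : E) => cutk D k (nm x v) * mj D N l (nm x v)) x =
        (N + 1) * (volume (Metric.ball (0 : EuclideanSpace ℝ (Fin (N + 1))) 1)).toReal *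
        ∫ r in (0 : ℝ)..D, cutk D k r * mdens D N l r := by
      intro x
      rw [← integral_cut_mj hN hD k]
      unfold fint
      simp only [nm_fr]
    unfold liou
    simp only [h4]
    rw [integral_const, measureReal_def, smul_eq_mul]
  -- the logarithmic term
  have hψ : Continuous fun r => cutk D k r * mj D N l r := by
    rw [continuous_iff_continuousAt]
    intro r
    by_cases hr : r < 1 / ((k : ℝ) + 1)
    · have hev : ∀ᶠ q in 𝓝 r, cutk D k q * mj D N l q = 0 := by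
        filter_upwards [gt_mem_nhds hr] with q hq
        have : cutk D k q = 0 := by
          by_contra hcon
          have := (cutk_supp hcon).1
          linarith only [hq, this]
        rw [this, zero_mul]
      exact (continuousAt_const (y := (0 : ℝ))).congr (hev.mono fun q hq => hq.symm)
    · have hr0 : 0 < r := lt_of_lt_of_le (by (clear * -; positivity)) (not_lt.1 hr)
      exact (continuous_cutk D k).continuousAt.mul
        ((continuousOn_mj hD N l).continuousAt (Ioi_mem_nhds hr0))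
  have hψ0 : ∀ r, 0 ≤ cutk D k r * mj D N l r := by
    intro r
    by_cases h : cutk D k r = 0
    · rw [h, zero_mul]
    · have h5 := cutk_supp h
      have h6 : (0 : ℝ) < 1 / (k + 1) := by (clear * -; positivity)
      exact mul_nonneg (cutk_nonneg _ _ _) (mj_pos N l (by linarith only [h5, h6]) (by linarith only [h5, h6])).le
  have hψs : ∀ r, cutk D k r * mj D N l r ≠ 0 →
      1 / ((k : ℝ) + 1) ≤ r ∧ r ≤ D - 1 / ((k : ℝ) + 1) := fun r hr =>
    cutk_supp (left_ne_zero_of_mul hr)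
  have h7 := liou_log_nonneg F hD hB hcl hN hl hψ hψ0 (by positivity) (cut_lt k) hψs
  have h7c := contTB_log F hD hB (N := N) (l := l) hψ (by positivity) (cut_lt k) hψs
  -- assemble
  have h8 : liou (fun (x : M) (v : E) => cutk D k (nm x v) * jac e x v) =
      liou (fun (x : M) (v : E) => cutk D k (nm x v) * exc e D N l x v) +
      liou (fun (x : M) (v : E) => cutk D k (nm x v) * mj D N l (nm x v)) +
      liou (fun (x : M) (v : E) => cutk D k (nm x v) * mj D N l (nm x v) *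
        (Real.log (jac e x v) - Real.log (mj D N l (nm x v)))) := by
    have hz3 : ∀ (x : M) (v : E), D - 1 / ((k : ℝ) + 1) < nm x v →
        cutk D k (nm x v) * mj D N l (nm x v) *
        (Real.log (jac e x v) - Real.log (mj D N l (nm x v))) = 0 := fun x v h => by
      rw [cutk_vanish k h, zero_mul, zero_mul]
    rw [← liou_add (contTB_cut_exc F hD hB N l k) (contTB_cut_mj F hD hB N l k) (hzz _) (hzz _),
      ← liou_add (b := D - 1 / ((k : ℝ) + 1)) ?_ h7c ?_ hz3]
    · congr 1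
      funext x v
      unfold exc
      ring
    · exact (contTB_cut_exc F hD hB N l k).add (contTB_cut_mj F hD hB N l k)
    · intro x v h
      rw [cutk_vanish k h, zero_mul, zero_mul, add_zero]
  linarith

theorem tendsto_cut_mvol {D : ℝ} (hD : 0 < D) (N l : ℕ) :
    Tendsto (fun k : ℕ => (N + 1) *
      (volume (Metric.ball (0 : EuclideanSpace ℝ (Fin (N + 1))) 1)).toReal *
        ∫ r in (0 : ℝ)..D, cutk D k r * mdens D N l r) atTop (𝓝 (mvol D N l)) :=
  (cutk_tendsto_integral hD (continuous_mdens D N l)).const_mul _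

theorem cut_exc_nonneg [CompactSpace M] [ConnectedSpace M] [IsRiemannianManifold 𝓘(ℝ, E) M]
    (F : Facts e) {D : ℝ} (hB : InjGE e D) (N l k : ℕ) (x : M) (v : E) :
    0 ≤ cutk D k (nm x v) * exc e D N l x v := by
  by_cases h : cutk D k (nm x v) = 0
  · rw [h, zero_mul]
  · have h5 := cutk_supp h
    have h6 : (0 : ℝ) < 1 / (k + 1) := by positivity
    exact mul_nonneg (cutk_nonneg _ _ _) (exc_nonneg F hB (by linarith) (by linarith only [h5, h6]))

theorem riemVol_toReal_pos [CompactSpace M] [ConnectedSpace M]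
    [IsRiemannianManifold 𝓘(ℝ, E) M] [MeasurableSpace M] [BorelSpace M]
    (F : Facts e) {D : ℝ} (hD : 0 < D) (hB : InjGE e D) :
    0 < (riemVol (finrank ℝ E) M univ).toReal := by
  have := riemVol_finite F hD hB
  exact ENNReal.toReal_pos (riemVol_pos F hD hB isOpen_univ univ_nonempty).ne' (measure_ne_top _ _)

theorem mvol_le_toReal [CompactSpace M] [ConnectedSpace M] [IsRiemannianManifold 𝓘(ℝ, E) M]
    [MeasurableSpace M] [BorelSpace M]
    (F : Facts e) {D : ℝ} (hD : 0 < D) (hB : InjGE e D)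
    (hcl : ∀ (x : M) (v : E), nm x v = 2 * D → e x v = x)
    {N : ℕ} (hN : finrank ℝ E = N + 1) {l : ℕ}
    (hl : ∀ (x : M) (v : E), nm x v = D → finrank ℝ (LinearMap.ker (dEl e x v)) ≤ l) :
    mvol D N l ≤ (riemVol (finrank ℝ E) M univ).toReal := by
  have hV := riemVol_toReal_pos (M := M) F hD hB
  refine le_of_tendsto (tendsto_cut_mvol hD N l) (Eventually.of_forall fun k => ?_)
  have h1 := main_cut F hD hB hcl hN hl k
  have h2 : 0 ≤ liou (fun (x : M) (v : E) => cutk D k (nm x v) * exc e D N l x v) :=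
    integral_nonneg fun x => integral_nonneg fun ξ => cut_exc_nonneg F hB N l k x _
  refine le_of_mul_le_mul_left ?_ hV
  linarith

theorem vol_ineq [CompactSpace M] [ConnectedSpace M] [IsRiemannianManifold 𝓘(ℝ, E) M]
    [MeasurableSpace M] [BorelSpace M]
    (F : Facts e) {D : ℝ} (hD : 0 < D) (hB : InjGE e D)
    (hcl : ∀ (x : M) (v : E), nm x v = 2 * D → e x v = x)
    {N : ℕ} (hN : finrank ℝ E = N + 1) {l : ℕ}
    (hl : ∀ (x : M) (v : E), nm x v = D → finrank ℝ (LinearMap.ker (dEl e x v)) ≤ l) :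
    ENNReal.ofReal (mvol D N l) ≤ riemVol (finrank ℝ E) M univ := by
  have := riemVol_finite F hD hB
  rw [ENNReal.ofReal_le_iff_le_toReal (measure_ne_top _ _)]
  exact mvol_le_toReal F hD hB hcl hN hl

theorem vol_rigid [CompactSpace M] [ConnectedSpace M] [IsRiemannianManifold 𝓘(ℝ, E) M]
    [MeasurableSpace M] [BorelSpace M]
    (F : Facts e) {D : ℝ} (hD : 0 < D) (hB : InjGE e D)
    (hcl : ∀ (x : M) (v : E), nm x v = 2 * D → e x v = x)
    {N : ℕ} (hN : finrank ℝ E = N + 1) {l : ℕ}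
    (hl : ∀ (x : M) (v : E), nm x v = D → finrank ℝ (LinearMap.ker (dEl e x v)) ≤ l)
    (hV : riemVol (finrank ℝ E) M univ ≤ ENNReal.ofReal (mvol D N l))
    (x : M) (v : E) (h0 : 0 < nm x v) (h1 : nm x v < D) : jac e x v = mj D N l (nm x v) := by
  have := riemVol_finite F hD hB
  by_contra hne
  have hVpos := riemVol_toReal_pos (M := M) F hD hB
  have hVle : (riemVol (finrank ℝ E) M univ).toReal ≤ mvol D N l := by
    have h2 : 0 ≤ mvol D N l := by
      by_contra hcon
      rw [ENNReal.ofReal_of_nonpos (not_le.1 hcon).le] at hV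
      have h3 : riemVol (finrank ℝ E) M univ = 0 := le_antisymm hV (zero_le)
      rw [h3] at hVpos
      simp at hVpos
    calc (riemVol (finrank ℝ E) M univ).toReal
        ≤ (ENNReal.ofReal (mvol D N l)).toReal := ENNReal.toReal_mono ENNReal.ofReal_ne_top hV
      _ = mvol D N l := ENNReal.toReal_ofReal h2
  have hexc := exc_pos F hB h0 h1 hne
  obtain ⟨k, hk⟩ := (cutk_eventually h0 h1).exists
  -- the integral of the excess is positive
  have hcT := contTB_cut_exc F hD hB N l k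
  have hz : ∀ (x : M) (v : E), D - 1 / ((k : ℝ) + 1) < nm x v →
      cutk D k (nm x v) * exc e D N l x v = 0 := fun x v h => by rw [cutk_vanish k h, zero_mul]
  have hfx : 0 < fint (fun (x : M) (v : E) => cutk D k (nm x v) * exc e D N l x v) x := by
    refine (integral_pos_iff_support_of_nonneg (fun ξ => cut_exc_nonneg F hB N l k x _)
      (hcT.integrable hz x)).2 ?_
    have hopen : IsOpen (Function.support fun ξ : Eu E =>
        cutk D k (nm x (fr x ξ)) * exc e D N l x (fr x ξ)) := (hcT.cont_fr x).isOpen_support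
    refine hopen.measure_pos _ ⟨(fr x).symm v, ?_⟩
    rw [Function.mem_support, ContinuousLinearEquiv.apply_symm_apply, hk, one_mul]
    exact hexc.ne'
  have hlp : 0 < liou (fun (x : M) (v : E) => cutk D k (nm x v) * exc e D N l x v) := by
    refine (integral_pos_iff_support_of_nonneg
      (fun y => integral_nonneg fun ξ => cut_exc_nonneg F hB N l k y _)
      (integrable_fint hcT hz)).2 ?_
    exact riemVol_pos F hD hB (continuous_fint' hcT hz).isOpen_support ⟨x, hfx.ne'⟩
  set c := liou (fun (x : M) (v : E) => cutk D k (nm x v) * exc e D N l x v) with hc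
  have hlim : c + (riemVol (finrank ℝ E) M univ).toReal * mvol D N l ≤
      (riemVol (finrank ℝ E) M univ).toReal * (riemVol (finrank ℝ E) M univ).toReal := by
    have ht := ((tendsto_cut_mvol hD N l).const_mul
      (riemVol (finrank ℝ E) M univ).toReal).const_add c
    refine le_of_tendsto ht ?_
    filter_upwards [eventually_ge_atTop k] with m hm
    have h2 := main_cut F hD hB hcl hN hl m
    have hzm : ∀ (x : M) (v : E), D - 1 / ((m : ℝ) + 1) < nm x v →
        cutk D m (nm x v) * exc e D N l x v = 0 := fun x v h => by rw [cutk_vanish m h, zero_mul]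
    have hkm : D - 1 / ((k : ℝ) + 1) ≤ D - 1 / ((m : ℝ) + 1) := by
      have : (1 : ℝ) / (m + 1) ≤ 1 / (k + 1) := by
        apply one_div_le_one_div_of_le (by (clear * -; positivity))
        have : (k : ℝ) ≤ m := by exact_mod_cast hm
        linarith only [this]
      linarith only [this]
    have h3 : c ≤ liou (fun (x : M) (v : E) => cutk D m (nm x v) * exc e D N l x v) := by
      refine liou_mono hcT (contTB_cut_exc F hD hB N l m) (b := D - 1 / ((m : ℝ) + 1))
        (fun x v h => hz x v (hkm.trans_lt h)) hzm fun y w => ?_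
      by_cases h : cutk D k (nm y w) = 0
      · rw [h, zero_mul]
        exact cut_exc_nonneg F hB N l m y w
      · have h5 := cutk_supp h
        have h6 : (0 : ℝ) < 1 / (k + 1) := by (clear * -; positivity)
        exact mul_le_mul_of_nonneg_right (cutk_mono hm _)
          (exc_nonneg F hB (by linarith only [h5, h6]) (by linarith only [h5, h6]))
    (clear hV x v h0 h1 hne hVpos hVle hexc hk hfx hlp hc ht; linarith)
  (clear x v h0 h1 hne hexc hk hfx hc; nlinarith)

end

end Vale.Agent.P231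
end
end

section

section

/-! P231 measure part MJ: the geodesic symmetries are isometries. -/

set_option maxSynthPendingDepth 3
set_option linter.unusedSectionVars false

open Bundle Manifold Set Filter MeasureTheory Module
open scoped ContDiff Manifold Topology ENNReal

namespace Vale.Agent.P231

noncomputable section

open Vale.Agent.P234

variable {E : Type*} [NormedAddCommGroup E] [NormedSpace ℝ E] [FiniteDimensional ℝ E]
  {M : Type*} [MetricSpace M] [ChartedSpace E M]
  [RiemannianBundle (fun x : M => TangentSpace 𝓘(ℝ, E) x)]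
  [IsManifold 𝓘(ℝ, E) ∞ M]
  [IsContMDiffRiemannianBundle 𝓘(ℝ, E) ∞ E (fun x : M => TangentSpace 𝓘(ℝ, E) x)]
  {e : ∀ x : M, TangentSpace 𝓘(ℝ, E) x → M}

/-- length estimate -/
theorem symm_dist_le_of_speed [IsRiemannianManifold 𝓘(ℝ, E) M] {c : ℝ → M} {a b ℓ : ℝ}
    (hab : a ≤ b) (hℓ : 0 ≤ ℓ) (hc : ∀ t ∈ Icc a b, ContMDiffAt 𝓘(ℝ, ℝ) 𝓘(ℝ, E) 1 c t)
    (hs : ∀ t ∈ Icc a b, nm (E := E) (c t) (mfderiv 𝓘(ℝ, ℝ) 𝓘(ℝ, E) c t (1 : ℝ)) ≤ ℓ) :
    dist (c a) (c b) ≤ ℓ * (b - a) := by
  have h1 : edist (c a) (c b) ≤ ENNReal.ofReal (ℓ * (b - a)) := by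
    rw [IsRiemannianManifold.out (I := 𝓘(ℝ, E)) (c a) (c b)]
    have h2 : riemannianEDist 𝓘(ℝ, E) (c a) (c b) ≤ pathELength 𝓘(ℝ, E) c a b := by
      apply riemannianEDist_le_pathELength
      · exact fun t ht => (hc t ht).contMDiffWithinAt
      · rfl
      · rfl
      · exact hab
    refine h2.trans ?_
    rw [pathELength_eq_lintegral_mfderiv_Icc]
    calc ∫⁻ t in Icc a b, ‖mfderiv 𝓘(ℝ, ℝ) 𝓘(ℝ, E) c t 1‖ₑ
        ≤ ∫⁻ _t in Icc a b, ENNReal.ofReal ℓ := by
          apply setLIntegral_mono measurable_const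
          intro t ht
          rw [← ofReal_norm]
          exact ENNReal.ofReal_le_ofReal (hs t ht)
      _ = ENNReal.ofReal (ℓ * (b - a)) := by
          rw [setLIntegral_const, Real.volume_Icc, ENNReal.ofReal_mul hℓ]
  rw [edist_dist] at h1
  exact (ENNReal.ofReal_le_ofReal_iff (mul_nonneg hℓ (by linarith))).1 h1

theorem symm_nm_neg (x : M) (v : E) : nm x (-v) = nm x v := by
  have key : ∀ v : TangentSpace 𝓘(ℝ, E) x, ‖-v‖ = ‖v‖ := fun v => norm_neg v
  exact key v

theorem symm_dE_neg (x : M) (v w : E) : dE e x v (-w) = - dE e x v w := by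
  have h := dE_smul e x v w (-1)
  simpa only [neg_smul, one_smul] using h

/-- antipodal vectors of length `D` have the same endpoint -/
theorem symm_antipode (F : Facts e) {D : ℝ} (hD : 0 < D)
    (hcl : ∀ (x : M) (v : E), nm x v = 2 * D → e x v = x) (p : M) (w : E) (hw : nm p w = D) :
    e p (-w) = e p w := by
  have h1 : nm p (D⁻¹ • w) = 1 := by
    rw [nm_smul, hw, abs_of_pos (inv_pos.2 hD), inv_mul_cancel₀ hD.ne']
  have h2 := gam_per F hD.le hcl p (D⁻¹ • w) h1 (-D)
  have h3 : -D + 2 * D = D := by ring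
  rw [h3, ] at h2
  have h4 : ∀ t : ℝ, gam e p (D⁻¹ • w) t = e p ((t * D⁻¹) • w : E) := by
    intro t
    show e p (t • D⁻¹ • w : E) = _
    rw [smul_smul]
  rw [h4, h4, mul_inv_cancel₀ hD.ne', neg_mul, mul_inv_cancel₀ hD.ne', neg_smul, one_smul] at h2
  exact h2.symm

section

variable [CompactSpace M] [ConnectedSpace M] [IsRiemannianManifold 𝓘(ℝ, E) M]

/-- some minimizing vector -/
def symmL (F : Facts e) (p y : M) : TangentSpace 𝓘(ℝ, E) p := (F.hopfRinow p y).choose

theorem symmL_exp (F : Facts e) (p y : M) : e p (symmL F p y) = y :=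
  (F.hopfRinow p y).choose_spec.1

theorem symmL_norm (F : Facts e) (p y : M) : ‖symmL F p y‖ = dist p y :=
  (F.hopfRinow p y).choose_spec.2.symm

/-- `L` as a continuous linear map of tangent spaces -/
def symmLL {p p' : M} {L : E →ₗ[ℝ] E} (hL : ∀ v, nm p' (L v) = nm p v) :
    TangentSpace 𝓘(ℝ, E) p →L[ℝ] TangentSpace 𝓘(ℝ, E) p' :=
  LinearMap.mkContinuous
    ({ toFun := fun v => (L v : E), map_add' := fun a b => L.map_add a b,
       map_smul' := fun c a => L.map_smul c a } :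
      TangentSpace 𝓘(ℝ, E) p →ₗ[ℝ] TangentSpace 𝓘(ℝ, E) p') 1
    fun v => ((hL v).le.trans_eq (one_mul _).symm)

theorem symmLL_norm {p p' : M} {L : E →ₗ[ℝ] E} (hL : ∀ v, nm p' (L v) = nm p v)
    (v : TangentSpace 𝓘(ℝ, E) p) : ‖symmLL hL v‖ = ‖v‖ := hL v

section map

variable {p p' : M} {L : E →ₗ[ℝ] E}

/-- the map -/
def symmT (F : Facts e) (hL : ∀ v, nm p' (L v) = nm p v) (y : M) : M :=
  e p' (symmLL hL (symmL F p y))

theorem symmT_exp_of_le (F : Facts e) {D : ℝ} (hB : InjGE e D)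
    (hL : ∀ v, nm p' (L v) = nm p v)
    (hC : ∀ v v' : TangentSpace 𝓘(ℝ, E) p, ‖v‖ = D → ‖v'‖ = D →
      dist (e p' (symmLL hL v)) (e p' (symmLL hL v')) ≤ dist (e p v) (e p v'))
    (v : TangentSpace 𝓘(ℝ, E) p) (hv : ‖v‖ ≤ D) :
    symmT F hL (e p v) = e p' (symmLL hL v) := by
  unfold symmT
  rcases hv.lt_or_eq with h | h
  · have h1 : symmL F p (e p v) = v := by
      have h2 : v ∈ injDomain e p := hB.mem_injDomain h
      have h3 : symmL F p (e p v) ∈ segMin e p := by
        show dist p (e p (symmL F p (e p v))) = ‖symmL F p (e p v)‖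
        rw [symmL_exp F, symmL_norm F]
      exact F.injDomain_unique h2 h3 (symmL_exp F p _)
    rw [h1]
  · have h1 : dist p (e p v) = D := by
      rw [hB p v hv]
      exact h
    have h2 := hC (symmL F p (e p v)) v ((symmL_norm F p _).trans h1) h
    rw [symmL_exp F, dist_self] at h2
    exact dist_le_zero.1 h2

theorem symm_reduce (F : Facts e) {D : ℝ} (hD : 0 < D)
    (hcl : ∀ (x : M) (v : E), nm x v = 2 * D → e x v = x) {x : M}
    {u : TangentSpace 𝓘(ℝ, E) x} (hu1 : ‖u‖ = 1) (k : ℤ) (t : ℝ) :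
    e x ((t + k * (2 * D)) • u) = e x (t • u) := by
  have hper : Function.Periodic (fun t : ℝ => e x (t • u)) (2 * D) := fun t =>
    gam_per F hD.le hcl x u hu1 t
  exact hper.int_mul k t

theorem symmT_exp (F : Facts e) {D : ℝ} (hD : 0 < D) (hB : InjGE e D)
    (hcl : ∀ (x : M) (v : E), nm x v = 2 * D → e x v = x)
    (hL : ∀ v, nm p' (L v) = nm p v)
    (hC : ∀ v v' : TangentSpace 𝓘(ℝ, E) p, ‖v‖ = D → ‖v'‖ = D →
      dist (e p' (symmLL hL v)) (e p' (symmLL hL v')) ≤ dist (e p v) (e p v'))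
    (v : TangentSpace 𝓘(ℝ, E) p) : symmT F hL (e p v) = e p' (symmLL hL v) := by
  by_cases hv : ‖v‖ ≤ D
  · exact symmT_exp_of_le F hB hL hC v hv
  · push Not at hv
    set r := ‖v‖ with hr
    have hr0 : 0 < r := hD.trans hv
    set u : TangentSpace 𝓘(ℝ, E) p := r⁻¹ • v with hu
    have hu1 : ‖u‖ = 1 := by
      rw [hu, norm_smul, ← hr, Real.norm_of_nonneg (inv_pos.2 hr0).le, inv_mul_cancel₀ hr0.ne']
    have hvu : v = r • u := by
      rw [hu, smul_smul, mul_inv_cancel₀ hr0.ne', one_smul]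
    have hu1' : ‖symmLL hL u‖ = 1 := (symmLL_norm hL u).trans hu1
    set k : ℤ := round (r / (2 * D)) with hk
    set t0 : ℝ := r - k * (2 * D) with ht0
    have h3 : |t0| ≤ D := by
      have h4 : t0 = (r / (2 * D) - round (r / (2 * D))) * (2 * D) := by
        rw [ht0, hk, sub_mul, div_mul_cancel₀ _ (by positivity)]
      rw [h4, abs_mul, abs_of_pos (by positivity : (0:ℝ) < 2 * D)]
      have := abs_sub_round (r / (2 * D))
      nlinarith only [hD, this]
    have hrt : r = t0 + k * (2 * D) := by rw [ht0]; ring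
    have h6 := symmT_exp_of_le F hB hL hC (t0 • u) (by
      rw [norm_smul, hu1, mul_one]
      exact h3)
    have h7 : e p v = e p (t0 • u) := by
      rw [hvu, hrt]
      exact symm_reduce F hD hcl hu1 k t0
    have h8 : e p' (symmLL hL v) = e p' (symmLL hL (t0 • u)) := by
      have h9 : symmLL hL v = (t0 + k * (2 * D)) • symmLL hL u := by
        rw [← hrt, ← map_smul, ← hvu]
      have h10 : symmLL hL (t0 • u) = t0 • symmLL hL u := map_smul _ _ _
      rw [h9, h10]
      exact symm_reduce F hD hcl hu1' k t0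
    rw [h7, h6, h8]

theorem continuous_symmT (F : Facts e) {D : ℝ} (hB : InjGE e D)
    (hd : ∀ x y : M, dist x y ≤ D)
    (hL : ∀ v, nm p' (L v) = nm p v)
    (hC : ∀ v v' : TangentSpace 𝓘(ℝ, E) p, ‖v‖ = D → ‖v'‖ = D →
      dist (e p' (symmLL hL v)) (e p' (symmLL hL v')) ≤ dist (e p v) (e p v')) :
    Continuous (symmT F hL) := by
  have : ProperSpace (TangentSpace 𝓘(ℝ, E) p) := FiniteDimensional.proper ℝ _
  have hc : Continuous (e p) := (contMDiff_exp_fiber F.isExp p).continuous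
  have hc' : Continuous (e p') := (contMDiff_exp_fiber F.isExp p').continuous
  let g : Metric.closedBall (0 : TangentSpace 𝓘(ℝ, E) p) D → M := fun v => e p v
  have hgc : Continuous g := hc.comp continuous_subtype_val
  have hsurj : Function.Surjective g := fun y => by
    refine ⟨⟨symmL F p y, ?_⟩, symmL_exp F p y⟩
    rw [mem_closedBall_zero_iff]
    exact (symmL_norm F p y).trans_le (hd p y)
  have hcomp : CompactSpace (Metric.closedBall (0 : TangentSpace 𝓘(ℝ, E) p) D) :=
    isCompact_iff_compactSpace.1 (isCompact_closedBall _ _)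
  have hq : Topology.IsQuotientMap g := hgc.isClosedMap.isQuotientMap hgc hsurj
  rw [hq.continuous_iff]
  have h1 : symmT F hL ∘ g = fun v => e p' (symmLL hL v.1) :=
    funext fun v => symmT_exp_of_le F hB hL hC _ (mem_closedBall_zero_iff.1 v.2)
  rw [h1]
  exact hc'.comp ((symmLL hL).continuous.comp continuous_subtype_val)

theorem symm_speed (F : Facts e) {D : ℝ} (hD : 0 < D) (hB : InjGE e D)
    (hcl : ∀ (x : M) (v : E), nm x v = 2 * D → e x v = x)
    (hL : ∀ v, nm p' (L v) = nm p v)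
    (hg : ∀ v : E, nm p v < D → ∀ w : E,
      nm (e p' (L v)) (dE e p' (L v) (L w)) = nm (e p v) (dE e p v w))
    (hC : ∀ v v' : TangentSpace 𝓘(ℝ, E) p, ‖v‖ = D → ‖v'‖ = D →
      dist (e p' (symmLL hL v)) (e p' (symmLL hL v')) ≤ dist (e p v) (e p v'))
    {c : ℝ → M} {t : ℝ} (hc : ContMDiffAt 𝓘(ℝ, ℝ) 𝓘(ℝ, E) ∞ c t) (ht : dist p (c t) < D) :
    ContMDiffAt 𝓘(ℝ, ℝ) 𝓘(ℝ, E) ∞ (fun s => symmT F hL (c s)) t ∧
      nm (E := E) (symmT F hL (c t))
        (mfderiv 𝓘(ℝ, ℝ) 𝓘(ℝ, E) (fun s => symmT F hL (c s)) t (1 : ℝ)) =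
      nm (E := E) (c t) (mfderiv 𝓘(ℝ, ℝ) 𝓘(ℝ, E) c t (1 : ℝ)) := by
  set v : TangentSpace 𝓘(ℝ, E) p := symmL F p (c t) with hv
  have hvD : ‖v‖ < D := (symmL_norm F p (c t)).trans_lt ht
  have hev : e p v = c t := symmL_exp F p (c t)
  obtain ⟨Λ, hΛ, hΛv, hΛ1, -⟩ := F.smoothLog (hB.mem_injDomain hvD)
  rw [hev] at hΛ hΛv hΛ1
  set η : ℝ → TangentSpace 𝓘(ℝ, E) p := fun s => Λ (c s) with hη
  have hηs : ContMDiffAt 𝓘(ℝ, ℝ) 𝓘(ℝ, TangentSpace 𝓘(ℝ, E) p) ∞ η t := hΛ.comp t hc
  have hηd : HasDerivAt η (deriv η t) t :=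
    (hηs.contDiffAt.differentiableAt (by simp)).hasDerivAt
  have hηt : η t = v := hΛv
  have h1 : c =ᶠ[𝓝 t] fun s => e p (η s) := by
    filter_upwards [hc.continuousAt hΛ1] with s hs
    exact hs.2.symm
  have h2 : (fun s => symmT F hL (c s)) =ᶠ[𝓝 t] fun s => e p' (symmLL hL (η s)) := by
    filter_upwards [h1] with s hs
    rw [hs]
    exact symmT_exp F hD hB hcl hL hC _
  have hηd' : HasDerivAt (fun s => symmLL hL (η s)) (symmLL hL (deriv η t)) t :=
    (symmLL hL).hasFDerivAt.comp_hasDerivAt t hηd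
  have h3 : (mfderiv 𝓘(ℝ, ℝ) 𝓘(ℝ, E) c t (1 : ℝ) : E) = dE e p (η t : E) (deriv η t) :=
    (congrArg (fun L : ℝ →L[ℝ] E => L 1) h1.mfderiv_eq).trans (mfderiv_exp_curve F.isExp p hηd)
  have h4 : (mfderiv 𝓘(ℝ, ℝ) 𝓘(ℝ, E) (fun s => symmT F hL (c s)) t (1 : ℝ) : E) =
      dE e p' (symmLL hL (η t) : E) (symmLL hL (deriv η t) : E) :=
    (congrArg (fun L : ℝ →L[ℝ] E => L 1) h2.mfderiv_eq).trans
      (mfderiv_exp_curve F.isExp p' hηd')
  refine ⟨?_, ?_⟩
  · refine ContMDiffAt.congr_of_eventuallyEq ?_ h2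
    have h5 : ContMDiffAt 𝓘(ℝ, ℝ) 𝓘(ℝ, TangentSpace 𝓘(ℝ, E) p') ∞
        (fun s => symmLL hL (η s)) t :=
      ((symmLL hL).contDiff.contDiffAt.comp t hηs.contDiffAt).contMDiffAt
    exact (contMDiff_exp_fiber F.isExp p').contMDiffAt.comp t h5
  · have h5 : symmT F hL (c t) = e p' (symmLL hL v) := rfl
    have h6 : nm (E := E) (e p' (symmLL hL v))
        (dE (E := E) e p' (symmLL hL v) (symmLL hL (deriv η t))) =
        nm (E := E) (e p v) (dE (E := E) e p v (deriv η t)) := hg v hvD _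
    have h8 : nm (E := E) (symmT F hL (c t))
        (mfderiv 𝓘(ℝ, ℝ) 𝓘(ℝ, E) (fun s => symmT F hL (c s)) t (1 : ℝ)) =
        nm (E := E) (e p' (symmLL hL v))
          (dE (E := E) e p' (symmLL hL v) (symmLL hL (deriv η t))) := by
      rw [h5]
      refine congrArg (nm (E := E) (e p' (symmLL hL v))) (h4.trans ?_)
      rw [hηt]
    have h9 : nm (E := E) (c t) (mfderiv 𝓘(ℝ, ℝ) 𝓘(ℝ, E) c t (1 : ℝ)) =
        nm (E := E) (e p v) (dE (E := E) e p v (deriv η t)) := by
      rw [hev]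
      refine congrArg (nm (E := E) (c t)) (h3.trans ?_)
      rw [hηt]
    exact h8.trans (h6.trans h9.symm)

theorem symmT_dist_le (F : Facts e) {D : ℝ} (hD : 0 < D) (hB : InjGE e D)
    (hd : ∀ x y : M, dist x y ≤ D)
    (hcl : ∀ (x : M) (v : E), nm x v = 2 * D → e x v = x)
    (hL : ∀ v, nm p' (L v) = nm p v)
    (hg : ∀ v : E, nm p v < D → ∀ w : E,
      nm (e p' (L v)) (dE e p' (L v) (L w)) = nm (e p v) (dE e p v w))
    (hC : ∀ v v' : TangentSpace 𝓘(ℝ, E) p, ‖v‖ = D → ‖v'‖ = D →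
      dist (e p' (symmLL hL v)) (e p' (symmLL hL v')) ≤ dist (e p v) (e p v')) (x y : M) :
    dist (symmT F hL x) (symmT F hL y) ≤ dist x y := by
  obtain ⟨w, hw, hdw⟩ := F.hopfRinow x y
  set c : ℝ → M := gam e x (w : E) with hc
  have hc0 : c 0 = x := gam_zero F.isExp x w
  have hc1 : c 1 = y := by
    have : c 1 = e x ((1 : ℝ) • w) := rfl
    rw [this, one_smul, hw]
  have hcs : ContMDiff 𝓘(ℝ, ℝ) 𝓘(ℝ, E) ∞ c := contMDiff_gam F.isExp x w
  have hcc : Continuous c := hcs.continuous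
  set ℓ := dist x y with hℓ
  have hℓ0 : 0 ≤ ℓ := dist_nonneg
  have hspeed : ∀ t, nm (E := E) (c t) (mfderiv 𝓘(ℝ, ℝ) 𝓘(ℝ, E) c t (1 : ℝ)) = ℓ := by
    intro t
    have h1 : nm (E := E) (c t) (mfderiv 𝓘(ℝ, ℝ) 𝓘(ℝ, E) c t (1 : ℝ)) =
        nm (E := E) (c t) (vel e x (w : E) t) :=
      congrArg (nm (E := E) (c t)) (mfderiv_gam F.isExp x w t)
    rw [h1]
    exact (nm_vel F x w t).trans hdw.symm
  have hS := continuous_symmT F hB hd hL hC
  have hself : ∀ a b, a ≤ b → dist (c a) (c b) ≤ ℓ * (b - a) := fun a b hab =>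
    symm_dist_le_of_speed hab hℓ0 (fun t _ => (hcs.contMDiffAt).of_le (by simp only [WithTop.one_le_coe, le_top]))
      fun t _ => (hspeed t).le
  have hA : ∀ a b, a ≤ b → (∀ t ∈ Icc a b, dist p (c t) < D) →
      dist (symmT F hL (c a)) (symmT F hL (c b)) ≤ ℓ * (b - a) := by
    intro a b hab h
    have h1 := fun t ht => symm_speed F hD hB hcl hL hg hC (hcs.contMDiffAt (x := t)) (h t ht)
    exact symm_dist_le_of_speed (c := fun s => symmT F hL (c s)) hab hℓ0
      (fun t ht => (h1 t ht).1.of_le (by simp only [WithTop.one_le_coe, le_top])) fun t ht => by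
        rw [(h1 t ht).2, hspeed]
  have hA1 : ∀ a b, a ≤ b → (∀ t ∈ Ico a b, dist p (c t) < D) →
      dist (symmT F hL (c a)) (symmT F hL (c b)) ≤ ℓ * (b - a) := by
    intro a b hab h
    rcases hab.eq_or_lt with rfl | hab'
    · simp
    · have hcl' : IsClosed {t : ℝ | dist (symmT F hL (c a)) (symmT F hL (c t)) ≤ ℓ * (t - a)} :=
        isClosed_le (continuous_const.dist (hS.comp hcc))
          (continuous_const.mul (continuous_id.sub continuous_const))
      have hsub : Ico a b ⊆ {t : ℝ | dist (symmT F hL (c a)) (symmT F hL (c t)) ≤ ℓ * (t - a)} :=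
        fun t ht => hA a t ht.1 fun s hs => h s ⟨hs.1, hs.2.trans_lt ht.2⟩
      have h2 := closure_minimal hsub hcl'
      rw [closure_Ico hab'.ne] at h2
      exact h2 ⟨hab, le_rfl⟩
  have hA2 : ∀ a b, a ≤ b → (∀ t ∈ Ioc a b, dist p (c t) < D) →
      dist (symmT F hL (c a)) (symmT F hL (c b)) ≤ ℓ * (b - a) := by
    intro a b hab h
    rcases hab.eq_or_lt with rfl | hab'
    · simp
    · have hcl' : IsClosed {t : ℝ | dist (symmT F hL (c t)) (symmT F hL (c b)) ≤ ℓ * (b - t)} :=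
        isClosed_le ((hS.comp hcc).dist continuous_const)
          (continuous_const.mul (continuous_const.sub continuous_id))
      have hsub : Ioc a b ⊆ {t : ℝ | dist (symmT F hL (c t)) (symmT F hL (c b)) ≤ ℓ * (b - t)} :=
        fun t ht => hA t b ht.2 fun s hs => h s ⟨ht.1.trans_le hs.1, hs.2⟩
      have h2 := closure_minimal hsub hcl'
      rw [closure_Ioc hab'.ne] at h2
      exact h2 ⟨le_rfl, hab⟩
  have hfix : ∀ q q', dist p q = D → dist p q' = D →
      dist (symmT F hL q) (symmT F hL q') ≤ dist q q' := by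
    intro q q' hq hq'
    have h1 := hC (symmL F p q) (symmL F p q') ((symmL_norm F p q).trans hq)
      ((symmL_norm F p q').trans hq')
    rw [symmL_exp F, symmL_exp F] at h1
    exact h1
  by_cases h : ∃ t ∈ Icc (0 : ℝ) 1, dist p (c t) = D
  · have hKc : IsCompact {t : ℝ | t ∈ Icc (0 : ℝ) 1 ∧ dist p (c t) = D} := by
      refine isCompact_Icc.of_isClosed_subset ?_ fun t ht => ht.1
      exact isClosed_Icc.inter (isClosed_eq (continuous_const.dist hcc) continuous_const)
    have hKn : {t : ℝ | t ∈ Icc (0 : ℝ) 1 ∧ dist p (c t) = D}.Nonempty := by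
      obtain ⟨t, h1, h2⟩ := h
      exact ⟨t, h1, h2⟩
    obtain ⟨a, haK, ha⟩ := hKc.exists_isLeast hKn
    obtain ⟨b, hbK, hb⟩ := hKc.exists_isGreatest hKn
    have hab : a ≤ b := ha hbK
    have h1 : dist (symmT F hL (c 0)) (symmT F hL (c a)) ≤ ℓ * (a - 0) := by
      refine hA1 0 a haK.1.1 fun t ht => lt_of_le_of_ne (hd _ _) fun h2 => ?_
      have h3 : t ∈ {t : ℝ | t ∈ Icc (0 : ℝ) 1 ∧ dist p (c t) = D} :=
        ⟨⟨ht.1, ht.2.le.trans haK.1.2⟩, h2⟩
      exact absurd (ha h3) (not_le.2 ht.2)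
    have h2 : dist (symmT F hL (c b)) (symmT F hL (c 1)) ≤ ℓ * (1 - b) := by
      refine hA2 b 1 hbK.1.2 fun t ht => lt_of_le_of_ne (hd _ _) fun h2 => ?_
      have h3 : t ∈ {t : ℝ | t ∈ Icc (0 : ℝ) 1 ∧ dist p (c t) = D} :=
        ⟨⟨hbK.1.1.trans ht.1.le, ht.2⟩, h2⟩
      exact absurd (hb h3) (not_le.2 ht.1)
    have h3 : dist (symmT F hL (c a)) (symmT F hL (c b)) ≤ ℓ * (b - a) :=
      (hfix _ _ haK.2 hbK.2).trans (hself a b hab)
    rw [hc0] at h1
    rw [hc1] at h2
    calc dist (symmT F hL x) (symmT F hL y)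
        ≤ dist (symmT F hL x) (symmT F hL (c a)) + dist (symmT F hL (c a)) (symmT F hL (c b)) +
          dist (symmT F hL (c b)) (symmT F hL y) := dist_triangle4 _ _ _ _
      _ ≤ ℓ * (a - 0) + ℓ * (b - a) + ℓ * (1 - b) := add_le_add (add_le_add h1 h3) h2
      _ = ℓ := by ring
  · push Not at h
    have h1 := hA 0 1 zero_le_one fun t ht => lt_of_le_of_ne (hd _ _) (h t ht)
    rw [hc0, hc1] at h1
    (clear D hD hB hd hcl hg hC w hw c hc hc0 hc1 hcs hcc hdw hℓ hℓ0 hspeed hS hself hA hA1 hA2 hfix h; linarith)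

end map

theorem exists_lipschitz_map (F : Facts e) {D : ℝ} (hD : 0 < D) (hB : InjGE e D)
    (hd : ∀ x y : M, dist x y ≤ D)
    (hcl : ∀ (x : M) (v : E), nm x v = 2 * D → e x v = x) (p p' : M) (L : E →ₗ[ℝ] E)
    (hL : ∀ v, nm p' (L v) = nm p v)
    (hg : ∀ v : E, nm p v < D → ∀ w : E,
      nm (e p' (L v)) (dE e p' (L v) (L w)) = nm (e p v) (dE e p v w))
    (hC : ∀ v v' : E, nm p v = D → nm p v' = D →
      dist (e p' (L v)) (e p' (L v')) ≤ dist (e p v) (e p v')) :
    ∃ σ : M → M, (∀ x y, dist (σ x) (σ y) ≤ dist x y) ∧ ∀ v : E, σ (e p v) = e p' (L v) :=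
  ⟨symmT F hL, symmT_dist_le F hD hB hd hcl hL hg (fun v v' h h' => hC v v' h h'),
    fun v => symmT_exp F hD hB hcl hL (fun v v' h h' => hC v v' h h') v⟩

theorem exists_symmetry (F : Facts e) {D : ℝ} (hD : 0 < D) (hB : InjGE e D)
    (hd : ∀ x y : M, dist x y ≤ D)
    (hcl : ∀ (x : M) (v : E), nm x v = 2 * D → e x v = x)
    (hg : ∀ (x : M) (v : E), nm x v < D → ∀ w : E,
      nm (e x (-v)) (dE e x (-v) w) = nm (e x v) (dE e x v w)) (p : M) :
    ∃ σ : M ≃ᵢ M, ∀ v : E, σ (e p v) = e p (-v) := by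
  obtain ⟨σ, h1, h2⟩ := exists_lipschitz_map F hD hB hd hcl p p (-LinearMap.id)
    (fun v => symm_nm_neg p v)
    (fun v hv w => by
      have h3 : nm (e p (-v)) (dE e p (-v) (-w)) = nm (e p (-v)) (dE e p (-v) w) := by
        rw [symm_dE_neg, symm_nm_neg]
      exact h3.trans (hg p v hv w))
    (fun v v' hv hv' => by
      have h3 : e p (-v) = e p v := symm_antipode F hD hcl p v hv
      have h4 : e p (-v') = e p v' := symm_antipode F hD hcl p v' hv'
      show dist (e p (-v)) (e p (-v')) ≤ _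
      rw [h3, h4])
  have h2' : ∀ v : TangentSpace 𝓘(ℝ, E) p, σ (e p v) = e p (-v) := fun v => h2 v
  have hinv : ∀ y, σ (σ y) = y := by
    intro y
    have h3 := h2' (symmL F p y)
    rw [symmL_exp F] at h3
    rw [h3, h2', neg_neg, symmL_exp F]
  refine ⟨IsometryEquiv.mk' σ σ hinv ?_, fun v => h2 v⟩
  refine Isometry.of_dist_eq fun x y => le_antisymm (h1 x y) ?_
  have h3 := h1 (σ x) (σ y)
  rwa [hinv, hinv] at h3

end

end

end Vale.Agent.P231
end
end

section

section

/-! P231, from rigidity to two-point homogeneity: definitions. -/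

set_option maxSynthPendingDepth 3

open Bundle Manifold Set Filter MeasureTheory Module
open scoped ContDiff Manifold Topology ENNReal

namespace Vale.Agent.P231

noncomputable section

open Vale.Agent.P234

/-! ### abstract algebraic data on a Euclidean space -/

section Abstract

variable {V : Type*} [NormedAddCommGroup V] [InnerProductSpace ℝ V]

/-- For unit `u`, `P u` is an orthogonal projection onto a subspace of the orthogonal complement
of `u`, and `‖w‖² + 3 ‖P u w‖²` (for `w` orthogonal to `u`) is the restriction of a 4-linear form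
with the symmetries of a curvature tensor in normal coordinates. -/
structure QData (P : V → V →ₗ[ℝ] V) (B : V →ₗ[ℝ] V →ₗ[ℝ] V →ₗ[ℝ] V →ₗ[ℝ] ℝ) : Prop where
  idem : ∀ u w, ‖u‖ = 1 → P u (P u w) = P u w
  symm : ∀ u a b, ‖u‖ = 1 → inner ℝ (P u a) b = inner ℝ a (P u b)
  perp : ∀ u w, ‖u‖ = 1 → inner ℝ (P u w) u = 0
  sym1 : ∀ a b c d, B a b c d = B b a c d
  sym2 : ∀ a b c d, B a b c d = B a b d c
  gauss : ∀ v b, B v v v b = 0
  val : ∀ u w, ‖u‖ = 1 → inner ℝ u w = 0 → B u u w w = ‖w‖ ^ 2 + 3 * ‖P u w‖ ^ 2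

/-- the reflection `v ↦ -v + 2 (⟨u, v⟩ u + P u v)` -/
def Srefl (P : V → V →ₗ[ℝ] V) (u : V) : V →ₗ[ℝ] V :=
  -LinearMap.id + (2 : ℝ) • (LinearMap.toSpanSingleton ℝ V u ∘ₗ innerₛₗ ℝ u + P u)

end Abstract

variable {E : Type*} [NormedAddCommGroup E] [NormedSpace ℝ E]
  {M : Type*} [MetricSpace M] [ChartedSpace E M]
  [RiemannianBundle (fun x : M => TangentSpace 𝓘(ℝ, E) x)]

/-- For unit `u ∈ T_x M`, `P u` is the orthogonal projection onto the kernel of the differential of
the exponential map at `D u`, it has rank `l`, and the metric in normal coordinates at `x` is given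
by the model formula. -/
structure PData (e : ∀ x : M, TangentSpace 𝓘(ℝ, E) x → M) (D : ℝ) (l : ℕ) (x : M)
    (P : E → E →ₗ[ℝ] E) : Prop where
  idem : ∀ u w : E, nm x u = 1 → P u (P u w) = P u w
  symm : ∀ u a b : E, nm x u = 1 → ip x (P u a) b = ip x a (P u b)
  perp : ∀ u w : E, nm x u = 1 → ip x (P u w) u = 0
  ker : ∀ u w : E, nm x u = 1 → (dE e x (D • u) w = 0 ↔ P u w = w)
  rank : ∀ u : E, nm x u = 1 → finrank ℝ (LinearMap.range (P u)) = l
  gram : ∀ u w : E, nm x u = 1 → ip x u w = 0 → ∀ r ∈ Ioo 0 D,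
    nm (e x (r • u : E)) (dE e x (r • u) w) ^ 2 =
      (Real.sin (Real.pi * r / (2 * D)) / (Real.pi * r / (2 * D))) ^ 2 *
        (nm x w ^ 2 - Real.sin (Real.pi * r / (2 * D)) ^ 2 * nm x (P u w) ^ 2)

variable [FiniteDimensional ℝ E]

/-- `P` in the orthonormal coordinates `fr x` -/
def trP (x : M) (P : E → E →ₗ[ℝ] E) (a : Eu E) : Eu E →ₗ[ℝ] Eu E :=
  (fr x : Eu E ≃L[ℝ] E).symm.toLinearEquiv.toLinearMap ∘ₗ P (fr x a) ∘ₗ
    (fr x : Eu E ≃L[ℝ] E).toLinearEquiv.toLinearMap

end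

end Vale.Agent.P231
end
end

section

section

/-! P231 homogeneity part, HA: the projections `P u` and the metric in normal coordinates. -/

set_option maxSynthPendingDepth 3

open Bundle Manifold Set Filter MeasureTheory Module
open scoped ContDiff Manifold Topology ENNReal Matrix

namespace Vale.Agent.P231

noncomputable section

open Vale.Agent.P234

/-- in the equality case the kernel has dimension exactly `l` -/
theorem gram_core_rank {ι : Type*} [Fintype ι] [DecidableEq ι] {A : ℝ → ℝ → Matrix ι ι ℝ}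
    (h : JData (Real.pi / 2) A) {l : ℕ}
    (hl : Module.finrank ℝ (LinearMap.ker (A 0 (Real.pi / 2)).mulVecLin) ≤ l)
    (hdet : ∀ s t, s < t → t < s + Real.pi / 2 →
      |(A s t).det| = Real.cos (t - s) ^ l * Real.sin (t - s) ^ Fintype.card ι) :
    Module.finrank ℝ (LinearMap.ker (A 0 (Real.pi / 2)).mulVecLin) = l := by
  refine le_antisymm hl ?_
  have hpi := Real.pi_pos
  obtain ⟨k, hk⟩ : ∃ k, Module.finrank ℝ (LinearMap.ker (A 0 (Real.pi / 2)).mulVecLin) = k :=
    ⟨_, rfl⟩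
  rw [hk]
  have hr : Real.pi / 4 ∈ Ioo 0 (Real.pi / 2) := ⟨by linarith only [hpi], by linarith only [hpi]⟩
  have h1 := core_ineq h hk.le hr
  have hcos : 0 < Real.cos (Real.pi / 4) := Real.cos_pos_of_mem_Ioo ⟨by linarith only [hpi], by linarith only [hpi]⟩
  have hsin : 0 < Real.sin (Real.pi / 4) := Real.sin_pos_of_pos_of_lt_pi (by linarith only [hpi]) (by linarith only [hpi])
  have h2 : ∫ s in (0 : ℝ)..Real.pi, Real.log |(A s (s + Real.pi / 4)).det| =
      ∫ s in (0 : ℝ)..Real.pi, (l * Real.log (Real.cos (Real.pi / 4)) +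
        Fintype.card ι * Real.log (Real.sin (Real.pi / 4))) := by
    refine intervalIntegral.integral_congr fun s _ => ?_
    show Real.log |(A s (s + Real.pi / 4)).det| = _
    rw [hdet s (s + Real.pi / 4) (by linarith only [hpi]) (by linarith only [hpi]), add_sub_cancel_left,
      Real.log_mul (by (clear * - hcos; positivity)) (by positivity), Real.log_pow, Real.log_pow]
  rw [h2, intervalIntegral.integral_const, sub_zero, smul_eq_mul] at h1
  have h3 : (k : ℝ) * Real.log (Real.cos (Real.pi / 4)) ≤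
      l * Real.log (Real.cos (Real.pi / 4)) := by
    have := le_of_mul_le_mul_left h1 hpi
    linarith only [this]
  have h4 : Real.log (Real.cos (Real.pi / 4)) < 0 := by
    refine Real.log_neg hcos ?_
    rw [Real.cos_pi_div_four]
    have : Real.sqrt 2 < 2 := by
      rw [Real.sqrt_lt' (by norm_num)]; norm_num
    linarith only [this]
  have h5 : (l : ℝ) ≤ k := by
    by_contra hcon
    push Not at hcon
    nlinarith only [h3, h4, hcon]
  exact_mod_cast h5

variable {E : Type*} [NormedAddCommGroup E] [NormedSpace ℝ E] [FiniteDimensional ℝ E]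
  {M : Type*} [MetricSpace M] [ChartedSpace E M]
  [RiemannianBundle (fun x : M => TangentSpace 𝓘(ℝ, E) x)]
  [IsManifold 𝓘(ℝ, E) ∞ M]
  [IsContMDiffRiemannianBundle 𝓘(ℝ, E) ∞ E (fun x : M => TangentSpace 𝓘(ℝ, E) x)]
  {e : ∀ x : M, TangentSpace 𝓘(ℝ, E) x → M}

/-- the metric in normal coordinates along one geodesic, in terms of a projection matrix -/
theorem gram_claim [CompactSpace M] [ConnectedSpace M] [IsRiemannianManifold 𝓘(ℝ, E) M]
    (F : Facts e) {D : ℝ} (hD : 0 < D) (hB : InjGE e D)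
    (hcl : ∀ (x : M) (v : E), nm x v = 2 * D → e x v = x)
    {N : ℕ} (hN : finrank ℝ E = N + 1) {l : ℕ}
    (hl : ∀ (x : M) (v : E), nm x v = D → finrank ℝ (LinearMap.ker (dEl e x v)) ≤ l)
    (hj : ∀ (x : M) (v : E), 0 < nm x v → nm x v < D → jac e x v = mj D N l (nm x v))
    (x : M) (u : E) (hu : nm x u = 1) :
    ∃ (β : Fin N → E) (P : Matrix (Fin N) (Fin N) ℝ),
      (∀ i j, ip x (β i) (β j) = if i = j then 1 else 0) ∧ (∀ i, ip x (β i) u = 0) ∧
      Pᵀ = P ∧ P * P = P ∧
      (∀ c : Fin N → ℝ, jf e x u 0 D (∑ i, c i • β i) = 0 ↔ P *ᵥ c = c) ∧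
      (∃ K : Submodule ℝ (Fin N → ℝ), finrank ℝ K = l ∧ ∀ c, c ∈ K ↔ P *ᵥ c = c) ∧
      ∀ r ∈ Ioo 0 D, ∀ c : Fin N → ℝ,
        (Real.pi / (2 * D) * nm (gam e x u r) (jf e x u 0 r (∑ i, c i • β i))) ^ 2 =
        Real.sin (Real.pi / (2 * D) * r) ^ 2 *
          (c ⬝ᵥ c - Real.sin (Real.pi / (2 * D) * r) ^ 2 * (c ⬝ᵥ (P *ᵥ c))) := by
  obtain ⟨b, A, hJ, h1, h2, h3⟩ := exists_jdata F hD hB hcl hN x u hu
  have hπ := Real.pi_pos
  have hJ' := hJ.scale
  set c := Real.pi / (2 * D) with hc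
  set k := 2 * D / Real.pi with hk
  have hc0 : 0 < c := by positivity
  have hk0 : 0 < k := by positivity
  have hck : c * k = 1 := by rw [hc, hk]; field_simp
  have hkπ : Real.pi / 2 * k = D := by rw [hk]; field_simp
  have hker : ∀ s, finrank ℝ (LinearMap.ker
      ((fun s t => c • A (s * k) (t * k)) s (s + Real.pi / 2)).mulVecLin) ≤ l := by
    intro s
    show finrank ℝ (LinearMap.ker (c • A (s * k) ((s + Real.pi / 2) * k)).mulVecLin) ≤ l
    rw [geoAvg_ker_smul _ hc0.ne', add_mul, hkπ]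
    exact finrank_ker_le F hl hD x u hu h1 h3 (s * k)
  have hdet : ∀ s t, s < t → t < s + Real.pi / 2 →
      |((fun s t => c • A (s * k) (t * k)) s t).det| =
        Real.cos (t - s) ^ l * Real.sin (t - s) ^ Fintype.card (Fin N) := by
    intro s t hst hts
    show |(c • A (s * k) (t * k)).det| = _
    have e1 : t * k - s * k = (t - s) * k := by ring
    have h0 : 0 < (t - s) * k := mul_pos (by linarith only [hst]) hk0
    have hn : nm (gam e x u (s * k)) (((t - s) * k) • vel e x u (s * k)) = (t - s) * k := by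
      rw [nm_smul, nm_vel F, hu, mul_one, abs_of_pos h0]
    have hlt : (t - s) * k < D := by
      rw [← hkπ]; exact mul_lt_mul_of_pos_right (by linarith only [hts]) hk0
    rw [geoAvg_det_smul _ hc0.le, abs_det_jf F hN x u hu h1 h2 h3, e1, abs_of_pos h0,
      hj _ _ (by rw [hn]; exact h0) (by rw [hn]; exact hlt), hn, Fintype.card_fin]
    have e2 : Real.pi * ((t - s) * k) / (2 * D) = t - s := by
      have : Real.pi * ((t - s) * k) / (2 * D) = (t - s) * (c * k) := by rw [hc]; ring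
      rw [this, hck, mul_one]
    have e3 : t - s ≠ 0 := by linarith only [hst]
    unfold mj
    rw [e2, ← mul_assoc, ← mul_assoc, ← mul_pow, ← mul_pow]
    have e4 : c * ((t - s) * k) * (Real.sin (t - s) / (t - s)) = Real.sin (t - s) := by
      have : c * ((t - s) * k) = t - s := by rw [mul_left_comm, hck, mul_one]
      rw [this]; (clear * - e3; field_simp)
    rw [e4, mul_comm]
  obtain ⟨P, hP1, hP2, hP3, hP4⟩ := core_rigid hJ' hker hdet
  have hrank := gram_core_rank hJ' (by have := hker 0; rwa [zero_add] at this) hdet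
  have hgam0 : gam e x u 0 = x := gam_zero F.isExp x u
  have hvel0 : vel e x u 0 = u := vel_zero F.isExp x u
  have hb0 : ∀ i j, ip x (b 0 i) (b 0 j) = if i = j then 1 else 0 := by
    intro i j; have := h1 0 i j; rwa [hgam0] at this
  have hbu : ∀ i, ip x (b 0 i) u = 0 := by
    intro i; have := h2 0 i; rwa [hgam0, hvel0] at this
  have hjfn : ∀ (t : ℝ) (c : Fin N → ℝ), nm (gam e x u t) (jf e x u 0 t (∑ i, c i • b 0 i)) ^ 2
      = (A 0 t *ᵥ c) ⬝ᵥ (A 0 t *ᵥ c) := by
    intro t c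
    rw [geoAvg_jf x u h3 0 t c]
    exact geoAvg_nm_sum _ _ (h1 t) _
  have hP3' : ∀ v, A 0 D *ᵥ v = 0 ↔ P *ᵥ v = v := by
    intro v
    rw [← hP3 v]
    show _ ↔ (c • A (0 * k) (Real.pi / 2 * k)) *ᵥ v = 0
    rw [hkπ, zero_mul, Matrix.smul_mulVec]
    exact (smul_eq_zero_iff_right hc0.ne').symm
  have hK : ∀ c : Fin N → ℝ, jf e x u 0 D (∑ i, c i • b 0 i) = 0 ↔ P *ᵥ c = c := by
    intro c
    rw [← hP3']
    constructor
    · intro h
      have h5 := hjfn D c
      rw [h] at h5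
      have h6 : nm (gam e x u D) (0 : E) = 0 := norm_zero (E := TangentSpace 𝓘(ℝ, E) (gam e x u D))
      rw [h6] at h5
      have h7 : (A 0 D *ᵥ c) ⬝ᵥ (A 0 D *ᵥ c) = 0 := by rw [← h5]; ring
      exact dotProduct_self_eq_zero.mp h7
    · intro h
      rw [geoAvg_jf x u h3 0 D c, h]
      simp only [Pi.zero_apply, zero_smul, Finset.sum_const_zero]
  refine ⟨b 0, P, hb0, hbu, hP1, hP2, hK, ⟨_, hrank, fun v => ?_⟩, ?_⟩
  · rw [LinearMap.mem_ker, Matrix.mulVecLin_apply]
    exact hP3 v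
  · intro r hr v
    have hr0 := hr.1
    have hρ : c * r ∈ Ioo 0 (Real.pi / 2) := by
      refine ⟨by (clear * - hD hr0; positivity), ?_⟩
      have : c * r < c * D := mul_lt_mul_of_pos_left hr.2 hc0
      have e : c * D = Real.pi / 2 := by rw [hc]; field_simp
      linarith only [this, e]
    have h5 := hP4 (c * r) hρ
    have e1 : c * r * k = r := by rw [mul_right_comm, hck, one_mul]
    have h6 : Gm (fun s t => c • A (s * k) (t * k)) 0 (c * r) = (c ^ 2) • ((A 0 r)ᵀ * A 0 r) := by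
      show (c • A (0 * k) (c * r * k))ᵀ * (c • A (0 * k) (c * r * k)) = _
      rw [zero_mul, e1, Matrix.transpose_smul, Matrix.smul_mul, Matrix.mul_smul, smul_smul, pow_two]
    rw [h6] at h5
    have h7 := hjfn r v
    have h8 : (A 0 r *ᵥ v) ⬝ᵥ (A 0 r *ᵥ v) = v ⬝ᵥ (((A 0 r)ᵀ * A 0 r) *ᵥ v) := by
      rw [← Matrix.mulVec_mulVec, Matrix.dotProduct_mulVec v, Matrix.vecMul_transpose]
    have h9 : c ^ 2 * (v ⬝ᵥ (((A 0 r)ᵀ * A 0 r) *ᵥ v))
        = Real.sin (c * r) ^ 2 * (v ⬝ᵥ v
          - Real.sin (c * r) ^ 2 * (v ⬝ᵥ (P *ᵥ v))) := by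
      have h10 := congrArg (fun B => v ⬝ᵥ (B *ᵥ v)) h5
      simp only [Matrix.smul_mulVec, dotProduct_smul, Matrix.sub_mulVec, Matrix.one_mulVec,
        dotProduct_sub, smul_eq_mul] at h10
      exact h10
    rw [mul_pow, h7, h8, h9]

/-- the linear map version at one unit vector -/
theorem gram_one [CompactSpace M] [ConnectedSpace M] [IsRiemannianManifold 𝓘(ℝ, E) M]
    (F : Facts e) {D : ℝ} (hD : 0 < D) (hB : InjGE e D)
    (hcl : ∀ (x : M) (v : E), nm x v = 2 * D → e x v = x)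
    {N : ℕ} (hN : finrank ℝ E = N + 1) {l : ℕ}
    (hl : ∀ (x : M) (v : E), nm x v = D → finrank ℝ (LinearMap.ker (dEl e x v)) ≤ l)
    (hj : ∀ (x : M) (v : E), 0 < nm x v → nm x v < D → jac e x v = mj D N l (nm x v))
    (x : M) (u : E) (hu : nm x u = 1) :
    ∃ P : E →ₗ[ℝ] E, (∀ w, P (P w) = P w) ∧ (∀ a b, ip x (P a) b = ip x a (P b)) ∧
      (∀ w, ip x (P w) u = 0) ∧ (∀ w, dE e x (D • u) w = 0 ↔ P w = w) ∧
      finrank ℝ (LinearMap.range P) = l ∧
      ∀ w, ip x u w = 0 → ∀ r ∈ Ioo 0 D,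
        nm (e x (r • u : E)) (dE e x (r • u) w) ^ 2 =
          (Real.sin (Real.pi * r / (2 * D)) / (Real.pi * r / (2 * D))) ^ 2 *
            (nm x w ^ 2 - Real.sin (Real.pi * r / (2 * D)) ^ 2 * nm x (P w) ^ 2) := by
  obtain ⟨β, Q, hβ, hβu, hQ1, hQ2, hK, ⟨K, hKr, hKm⟩, hG⟩ :=
    gram_claim F hD hB hcl hN hl hj x u hu
  let co : E →ₗ[ℝ] (Fin N → ℝ) :=
    { toFun := fun w i => ip x (β i) w
      map_add' := fun a b => by funext i; exact asm_ip_add_right x _ _ _
      map_smul' := fun r a => by funext i; exact asm_ip_smul_right x r _ _ }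
  let Φ : (Fin N → ℝ) →ₗ[ℝ] E := Fintype.linearCombination ℝ β
  have hΦ : ∀ c, Φ c = ∑ j, c j • β j := fun c => Fintype.linearCombination_apply ℝ β c
  have hcoΦ : ∀ c, co (Φ c) = c := by
    intro c
    funext i
    show ip x (β i) (Φ c) = c i
    rw [hΦ, asm_ip_sum_right]
    simp only [asm_ip_smul_right, hβ]
    simp only [mul_ite, mul_one, mul_zero, Finset.sum_ite_eq, Finset.mem_univ, ↓reduceIte]
  have hΦco : ∀ w, ip x w u = 0 → Φ (co w) = w := by
    intro w hw
    rw [hΦ]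
    exact (geoAvg_frame hN x u hu β hβ hβu w hw).symm
  have hΦu : ∀ c, ip x (Φ c) u = 0 := by
    intro c
    rw [hΦ, asm_ip_sum_left]
    refine Finset.sum_eq_zero fun i _ => ?_
    rw [asm_ip_smul_left, hβu, mul_zero]
  have hipΦ : ∀ c w, ip x (Φ c) w = c ⬝ᵥ co w := by
    intro c w
    rw [hΦ, asm_ip_sum_left]
    refine Finset.sum_congr rfl fun i _ => ?_
    rw [asm_ip_smul_left]
    rfl
  have hnmΦ : ∀ c, nm x (Φ c) ^ 2 = c ⬝ᵥ c := by
    intro c
    rw [← ip_self, hipΦ, hcoΦ]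
  have hQQ : ∀ c, Q *ᵥ (Q *ᵥ c) = Q *ᵥ c := fun c => by rw [Matrix.mulVec_mulVec, hQ2]
  have hQs : ∀ a b, (Q *ᵥ a) ⬝ᵥ b = a ⬝ᵥ (Q *ᵥ b) := fun a b => by
    rw [Matrix.dotProduct_mulVec, ← Matrix.mulVec_transpose, hQ1]
  have hinj : Function.Injective Φ := fun a b hab => by
    rw [← hcoΦ a, hab, hcoΦ]
  refine ⟨Φ ∘ₗ Q.mulVecLin ∘ₗ co, ?_, ?_, ?_, ?_, ?_, ?_⟩
  · intro w
    simp only [LinearMap.comp_apply, Matrix.mulVecLin_apply, hcoΦ, hQQ]
  · intro a b
    simp only [LinearMap.comp_apply, Matrix.mulVecLin_apply]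
    rw [hipΦ, asm_ip_comm x a, hipΦ, hQs, dotProduct_comm (Q *ᵥ co b)]
  · intro w
    exact hΦu _
  · intro w
    simp only [LinearMap.comp_apply, Matrix.mulVecLin_apply]
    constructor
    · intro hw
      set a := ip x w u with ha
      set w' : E := w - a • u with hw'
      have hw'u : ip x w' u = 0 := by
        have e1 : w = w' + a • u := by rw [hw']; abel
        have e2 : ip x w u = ip x w' u + ip x (a • u) u := by
          conv_lhs => rw [e1]
          exact asm_ip_add_left x w' (a • u) u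
        rw [asm_ip_smul_left, ip_self, hu, ← ha] at e2
        linarith only [e2]
      have s1 := geoAvg_split F x u hu hD a w' hw'u
      have e1 : a • u + w' = w := by rw [hw']; abel
      rw [e1, hw] at s1
      have h6 : nm (gam e x u D) (0 : E) = 0 :=
        norm_zero (E := TangentSpace 𝓘(ℝ, E) (gam e x u D))
      rw [h6] at s1
      have ha0 : a = 0 := by
        have := sq_nonneg (nm (gam e x u D) (dE e x (D • u) w'))
        have h7 : a ^ 2 = 0 := le_antisymm (by linarith only [s1, this]) (sq_nonneg a)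
        exact pow_eq_zero_iff (two_ne_zero) |>.1 h7
      have hwu : ip x w u = 0 := ha.symm.trans ha0
      have h8 := hΦco w hwu
      have h9 : jf e x u 0 D (∑ i, co w i • β i) = 0 := by
        rw [← hΦ, h8, geoAvg_jf_zero F, hw, smul_zero]
      rw [(hK _).1 h9, h8]
    · intro hw
      have h8 : co w = Q *ᵥ co w := by
        conv_lhs => rw [← hw, hcoΦ]
      have h9 := (hK (co w)).2 h8.symm
      rw [← hΦ] at h9
      have h10 : Φ (co w) = w := by
        rw [← hw, hcoΦ]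
      rw [h10, geoAvg_jf_zero F] at h9
      exact (smul_eq_zero.1 h9).resolve_left hD.ne'
  · have hr : LinearMap.range (Φ ∘ₗ Q.mulVecLin ∘ₗ co) = K.map Φ := by
      ext z
      rw [LinearMap.mem_range, Submodule.mem_map]
      constructor
      · rintro ⟨w, rfl⟩
        exact ⟨Q *ᵥ co w, (hKm _).2 (hQQ _), rfl⟩
      · rintro ⟨c, hc, rfl⟩
        refine ⟨Φ c, ?_⟩
        simp only [LinearMap.comp_apply, Matrix.mulVecLin_apply, hcoΦ]
        rw [(hKm c).1 hc]
    rw [hr, ← hKr]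
    exact (LinearEquiv.finrank_eq (Submodule.equivMapOfInjective Φ hinj K)).symm
  · intro w hw r hr
    have hwu : ip x w u = 0 := by rw [asm_ip_comm]; exact hw
    have h8 := hΦco w hwu
    have h9 := hG r hr (co w)
    rw [← hΦ, h8, geoAvg_jf_zero F, nm_smul, abs_of_pos hr.1] at h9
    have h10 : nm x w ^ 2 = co w ⬝ᵥ co w := by
      conv_lhs => rw [← h8]
      exact hnmΦ _
    have h11 : nm x ((Φ ∘ₗ Q.mulVecLin ∘ₗ co) w) ^ 2 = co w ⬝ᵥ (Q *ᵥ co w) := by
      simp only [LinearMap.comp_apply, Matrix.mulVecLin_apply]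
      rw [hnmΦ, hQs, hQQ]
    rw [h10, h11]
    have hπ := Real.pi_pos
    have e1 : Real.pi * r / (2 * D) = Real.pi / (2 * D) * r := by ring
    rw [e1]
    have hr0 := hr.1
    have hcr : (Real.pi / (2 * D) * r) ^ 2 ≠ 0 := by (clear * - hD hr0; positivity)
    have hcr' : Real.pi / (2 * D) * r ≠ 0 := by (clear * - hD hr0; positivity)
    apply mul_left_cancel₀ hcr
    have h12 : (Real.pi / (2 * D) * r) ^ 2 * ((Real.sin (Real.pi / (2 * D) * r) /
        (Real.pi / (2 * D) * r)) ^ 2) = Real.sin (Real.pi / (2 * D) * r) ^ 2 := by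
      rw [← mul_pow]
      congr 1
      (clear * - hD hr0; field_simp)
    rw [← mul_assoc, h12, ← h9]
    show (Real.pi / (2 * D) * r) ^ 2 * nm (gam e x u r) (dE e x (r • u) w) ^ 2 = _
    ring

theorem exists_PData [CompactSpace M] [ConnectedSpace M] [IsRiemannianManifold 𝓘(ℝ, E) M]
    (F : Facts e) {D : ℝ} (hD : 0 < D) (hB : InjGE e D)
    (hcl : ∀ (x : M) (v : E), nm x v = 2 * D → e x v = x)
    {N : ℕ} (hN : finrank ℝ E = N + 1) {l : ℕ}
    (hl : ∀ (x : M) (v : E), nm x v = D → finrank ℝ (LinearMap.ker (dEl e x v)) ≤ l)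
    (hj : ∀ (x : M) (v : E), 0 < nm x v → nm x v < D → jac e x v = mj D N l (nm x v))
    (x : M) : ∃ P : E → E →ₗ[ℝ] E, PData e D l x P := by
  classical
  have h := gram_one F hD hB hcl hN hl hj x
  refine ⟨fun u => if hu : nm x u = 1 then (h u hu).choose else 0, ?_⟩
  refine ⟨fun u w hu => ?_, fun u a b hu => ?_, fun u w hu => ?_, fun u w hu => ?_,
    fun u hu => ?_, fun u w hu hw r hr => ?_⟩
  · simp only [dif_pos hu]
    exact (h u hu).choose_spec.1 w
  · simp only [dif_pos hu]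
    exact (h u hu).choose_spec.2.1 a b
  · simp only [dif_pos hu]
    exact (h u hu).choose_spec.2.2.1 w
  · simp only [dif_pos hu]
    exact (h u hu).choose_spec.2.2.2.1 w
  · rw [dif_pos hu]
    exact (h u hu).choose_spec.2.2.2.2.1
  · simp only [dif_pos hu]
    exact (h u hu).choose_spec.2.2.2.2.2 w hw r hr

end

end Vale.Agent.P231
end
end

section

section

/-! P231, homogeneity part, file HC: pure linear algebra. -/

set_option maxSynthPendingDepth 3

open Bundle Manifold Set Filter MeasureTheory Module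
open scoped ContDiff Manifold Topology ENNReal

namespace Vale.Agent.P231

noncomputable section

open Vale.Agent.P234

section Abstract

variable {V : Type*} [NormedAddCommGroup V] [InnerProductSpace ℝ V]
  {P : V → V →ₗ[ℝ] V} {B : V →ₗ[ℝ] V →ₗ[ℝ] V →ₗ[ℝ] V →ₗ[ℝ] ℝ}

theorem Srefl_apply (P : V → V →ₗ[ℝ] V) (u v : V) :
    Srefl P u v = -v + (2 : ℝ) • (inner ℝ u v • u + P u v) := by
  simp only [Srefl, smul_add, LinearMap.add_apply, LinearMap.neg_apply, LinearMap.id_coe, id_eq, LinearMap.smul_apply, LinearMap.coe_comp, coe_innerₛₗ_apply, Function.comp_apply, LinearMap.toSpanSingleton_apply]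

theorem Alg_polar (h : QData P B) (v w b : V) : B w w v b + 2 * B v w w b = 0 := by
  have h1 := h.gauss (v + w) b
  have h2 := h.gauss (v - w) b
  have h3 := h.gauss v b
  have h4 := h.sym1 w v w b
  simp only [map_add, map_sub, LinearMap.add_apply, LinearMap.sub_apply] at h1 h2
  linarith

theorem Alg_three (h : QData P B) (v w : V) : B v w w w = 0 := by
  have h1 := Alg_polar h v w w
  have h2 := h.sym2 w w v w
  have h3 := h.gauss w v
  linarith

theorem Alg_mixed (h : QData P B) (v w : V) : B v w v w = -B v v w w / 2 := by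
  have h1 := Alg_polar h w v w
  have h2 := h.sym1 v w v w
  linarith

theorem QData.pair (h : QData P B) (v w : V) : B v v w w = B w w v v := by
  have h1 := Alg_polar h v w v
  have h2 := Alg_polar h w v w
  have h3 := h.sym1 v w w v
  have h4 := h.sym2 w v w v
  linarith

theorem QData.rot (h : QData P B) (u k : V) {c s : ℝ} (hcs : c ^ 2 + s ^ 2 = 1) :
    B (c • u + s • k) (c • u + s • k) (-s • u + c • k) (-s • u + c • k) = B u u k k := by
  have a1 := h.gauss u u
  have a2 := h.gauss k k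
  have a3 := h.gauss u k
  have a4 : B u u k u = 0 := by rw [h.sym2, a3]
  have a5 := h.gauss k u
  have a6 : B k k u k = 0 := by rw [h.sym2, a5]
  have a7 := Alg_three h u k
  have a8 : B k u k k = 0 := by rw [h.sym1, a7]
  have a9 := Alg_three h k u
  have a10 : B u k u u = 0 := by rw [h.sym1, a9]
  have b1 := Alg_mixed h u k
  have b2 : B u k k u = -B u u k k / 2 := by rw [h.sym2, b1]
  have b3 : B k u u k = -B u u k k / 2 := by rw [h.sym1, b1]
  have b4 : B k u k u = -B u u k k / 2 := by rw [h.sym1, b2]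
  have b5 := h.pair k u
  have e : B (c • u + s • k) (c • u + s • k) (-s • u + c • k) (-s • u + c • k) =
      (c ^ 2 + s ^ 2) ^ 2 * B u u k k := by
    simp only [map_add, map_smul, LinearMap.add_apply, LinearMap.smul_apply, smul_eq_mul]
    simp only [a1, a2, a3, a4, a5, a6, a7, a8, a9, a10, b1, b2, b3, b4, b5]
    ring
  rw [e, hcs]
  ring

theorem Alg_norm {u k : V} (hu : ‖u‖ = 1) (hk : ‖k‖ = 1)
    (huk : inner ℝ u k = 0) {c s : ℝ} (hcs : c ^ 2 + s ^ 2 = 1) :
    ‖c • u + s • k‖ = 1 := by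
  have huu : inner ℝ u u = (1 : ℝ) := by rw [real_inner_self_eq_norm_sq, hu]; norm_num
  have hkk : inner ℝ k k = (1 : ℝ) := by rw [real_inner_self_eq_norm_sq, hk]; norm_num
  have hku : inner ℝ k u = (0 : ℝ) := by rw [real_inner_comm]; exact huk
  have h : ‖c • u + s • k‖ ^ 2 = 1 := by
    rw [← real_inner_self_eq_norm_sq]
    simp only [inner_add_left, inner_add_right, inner_smul_left, inner_smul_right,
      huu, hkk, huk, hku, RCLike.conj_to_real]
    linear_combination hcs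
  have h0 := norm_nonneg (c • u + s • k)
  nlinarith only [h, h0]

theorem Alg_orth {u k : V} (hu : ‖u‖ = 1) (hk : ‖k‖ = 1)
    (huk : inner ℝ u k = 0) (c s : ℝ) :
    inner ℝ (c • u + s • k) (-s • u + c • k) = (0 : ℝ) := by
  have huu : inner ℝ u u = (1 : ℝ) := by rw [real_inner_self_eq_norm_sq, hu]; norm_num
  have hkk : inner ℝ k k = (1 : ℝ) := by rw [real_inner_self_eq_norm_sq, hk]; norm_num
  have hku : inner ℝ k u = (0 : ℝ) := by rw [real_inner_comm]; exact huk
  simp only [inner_add_left, inner_add_right, inner_smul_left, inner_smul_right,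
      huu, hkk, huk, hku, RCLike.conj_to_real]
  ring

theorem Alg_norm' {u k : V} (hu : ‖u‖ = 1) (hk : ‖k‖ = 1)
    (huk : inner ℝ u k = 0) {c s : ℝ} (hcs : c ^ 2 + s ^ 2 = 1) :
    ‖-s • u + c • k‖ = 1 :=
  Alg_norm hu hk huk (c := -s) (s := c) (by linarith [neg_sq s, hcs])

theorem Alg_proj (h : QData P B) {w : V} (hw : ‖w‖ = 1) (a : V) :
    inner ℝ (P w a) a = ‖P w a‖ ^ 2 := by
  rw [← real_inner_self_eq_norm_sq, ← h.idem w a hw, h.symm w (P w a) a hw, h.idem w a hw]

theorem QData.rot_one (h : QData P B) {u k : V} (hu : ‖u‖ = 1) (hk : ‖k‖ = 1)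
    (huk : inner ℝ u k = 0) (hP : P u k = k) {c s : ℝ} (hcs : c ^ 2 + s ^ 2 = 1) :
    P (c • u + s • k) (-s • u + c • k) = -s • u + c • k := by
  have hw := Alg_norm hu hk huk hcs
  have hw' := Alg_norm' hu hk huk hcs
  have ho := Alg_orth hu hk huk c s
  have h1 := h.val _ _ hw ho
  have h2 := h.val u k hu huk
  rw [h.rot u k hcs, h2, hP, hk, hw'] at h1
  have h3 := Alg_proj h hw (-s • u + c • k)
  have h4 : ‖P (c • u + s • k) (-s • u + c • k) - (-s • u + c • k)‖ ^ 2 = 0 := by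
    rw [norm_sub_sq_real, h3, hw']
    linarith only [h1]
  have h5 := pow_eq_zero_iff (two_ne_zero) |>.1 h4
  exact sub_eq_zero.1 (norm_eq_zero.1 h5)

theorem QData.rot_zero (h : QData P B) {u k : V} (hu : ‖u‖ = 1) (hk : ‖k‖ = 1)
    (huk : inner ℝ u k = 0) (hP : P u k = 0) {c s : ℝ} (hcs : c ^ 2 + s ^ 2 = 1) :
    P (c • u + s • k) (-s • u + c • k) = 0 := by
  have hw := Alg_norm hu hk huk hcs
  have hw' := Alg_norm' hu hk huk hcs
  have ho := Alg_orth hu hk huk c s
  have h1 := h.val _ _ hw ho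
  have h2 := h.val u k hu huk
  rw [h.rot u k hcs, h2, hP, hk, hw', norm_zero] at h1
  have h4 : ‖P (c • u + s • k) (-s • u + c • k)‖ ^ 2 = 0 := by linarith only [h1]
  exact norm_eq_zero.1 (pow_eq_zero_iff (two_ne_zero) |>.1 h4)

theorem Alg_P_self (h : QData P B) {w : V} (hw : ‖w‖ = 1) : P w w = 0 := by
  have h1 : inner ℝ (P w w) (P w w) = (0 : ℝ) := by
    rw [h.symm w w (P w w) hw, real_inner_comm, h.perp w _ hw]
  exact inner_self_eq_zero.1 h1

/-- the reflection rotates -/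
theorem Alg_S (h : QData P B) {u z : V} (hu : ‖u‖ = 1) (hz : ‖z‖ = 1)
    (huz : inner ℝ u z = 0) (hP : P u z = 0) {c s : ℝ} (hcs : c ^ 2 + s ^ 2 = 1) :
    Srefl P (c • u + s • z) u = (c ^ 2 - s ^ 2) • u + (2 * c * s) • z ∧
    Srefl P (c • u + s • z) z = (2 * c * s) • u + (s ^ 2 - c ^ 2) • z := by
  have hw := Alg_norm hu hz huz hcs
  have ho := Alg_orth hu hz huz c s
  have h0 := h.rot_zero hu hz huz hP hcs
  have h1 := Alg_P_self h hw
  have s1 : Srefl P (c • u + s • z) (c • u + s • z) = c • u + s • z := by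
    rw [Srefl_apply, h1, real_inner_self_eq_norm_sq, hw]
    rw [one_pow, one_smul, add_zero, two_smul]
    abel
  have s2 : Srefl P (c • u + s • z) (-s • u + c • z) = -(-s • u + c • z) := by
    rw [Srefl_apply, h0, ho]
    rw [zero_smul, add_zero, smul_zero, add_zero]
  have eu : u = c • (c • u + s • z) - s • (-s • u + c • z) := by
    have : c • (c • u + s • z) - s • (-s • u + c • z) = (c ^ 2 + s ^ 2) • u := by module
    rw [this, hcs, one_smul]
  have ez : z = s • (c • u + s • z) + c • (-s • u + c • z) := by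
    have : s • (c • u + s • z) + c • (-s • u + c • z) = (c ^ 2 + s ^ 2) • z := by module
    rw [this, hcs, one_smul]
  constructor
  · calc Srefl P (c • u + s • z) u
        = Srefl P (c • u + s • z) (c • (c • u + s • z) - s • (-s • u + c • z)) := by rw [← eu]
      _ = c • (c • u + s • z) - s • (-(-s • u + c • z)) := by
          rw [map_sub, map_smul, map_smul, s1, s2]
      _ = _ := by module
  · calc Srefl P (c • u + s • z) z
        = Srefl P (c • u + s • z) (s • (c • u + s • z) + c • (-s • u + c • z)) := by rw [← ez]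
      _ = s • (c • u + s • z) + c • (-(-s • u + c • z)) := by
          rw [map_add, map_smul, map_smul, s1, s2]
      _ = _ := by module

theorem Alg_swap (h : QData P B) {G : Set (V →ₗ[ℝ] V)} (hG : ∀ w, ‖w‖ = 1 → Srefl P w ∈ G)
    {u z : V} (hu : ‖u‖ = 1) (hz : ‖z‖ = 1)
    (huz : inner ℝ u z = 0) (hP : P u z = 0) : ∃ A ∈ G, A u = z ∧ A z = u := by
  have h2 : (Real.sqrt 2 / 2) ^ 2 = 1 / 2 := by
    rw [div_pow, Real.sq_sqrt (by norm_num)]; norm_num
  have hcs : (Real.sqrt 2 / 2) ^ 2 + (Real.sqrt 2 / 2) ^ 2 = 1 := by rw [h2]; norm_num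
  obtain ⟨a, b⟩ := Alg_S h hu hz huz hP hcs
  have h3 : 2 * (Real.sqrt 2 / 2) * (Real.sqrt 2 / 2) = 1 := by nlinarith only [h2]
  rw [sub_self, h3, zero_smul, one_smul] at a b
  rw [zero_add] at a
  rw [add_zero] at b
  exact ⟨_, hG _ (Alg_norm hu hz huz hcs), a, b⟩

theorem Alg_rotate (h : QData P B) {G : Set (V →ₗ[ℝ] V)} (hG : ∀ w, ‖w‖ = 1 → Srefl P w ∈ G)
    {u z : V} (hu : ‖u‖ = 1) (hz : ‖z‖ = 1)
    (huz : inner ℝ u z = 0) (hP : P u z = 0) {α β : ℝ} (hα : 0 ≤ α) (hβ : 0 ≤ β)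
    (hαβ : α ^ 2 + β ^ 2 = 1) : ∃ A ∈ G, A u = α • u + β • z := by
  have hα1 : α ≤ 1 := by nlinarith only [hαβ]
  set c := Real.sqrt ((1 + α) / 2) with hc
  set s := Real.sqrt ((1 - α) / 2) with hs
  have hc2 : c ^ 2 = (1 + α) / 2 := Real.sq_sqrt (by linarith only [hα])
  have hs2 : s ^ 2 = (1 - α) / 2 := Real.sq_sqrt (by linarith only [hα1])
  have hcs : c ^ 2 + s ^ 2 = 1 := by rw [hc2, hs2]; ring
  have hc0 : 0 ≤ c := Real.sqrt_nonneg _
  have hs0 : 0 ≤ s := Real.sqrt_nonneg _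
  have h2 : 2 * c * s = β := by
    have h3 : (2 * c * s) ^ 2 = β ^ 2 := by
      rw [mul_pow, mul_pow, hc2, hs2]
      linear_combination -hαβ
    exact (sq_eq_sq₀ (by (clear * - hα; positivity)) hβ).1 h3
  obtain ⟨a, b⟩ := Alg_S h hu hz huz hP hcs
  refine ⟨_, hG _ (Alg_norm hu hz huz hcs), ?_⟩
  rw [a, h2]
  congr 2
  rw [hc2, hs2]; ring

theorem QData.transitive (h : QData P B)
    (hV : ∀ u u' z : V, ‖u‖ = 1 → ‖u'‖ = 1 → u' = inner ℝ u u' • u + P u u' →
      inner ℝ u z = 0 → P u z = 0 → inner ℝ u' z = 0 ∧ P u' z = 0)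
    (hz : ∀ u : V, ‖u‖ = 1 → ∃ z, ‖z‖ = 1 ∧ inner ℝ u z = 0 ∧ P u z = 0)
    {G : Set (V →ₗ[ℝ] V)} (hG : ∀ w, ‖w‖ = 1 → Srefl P w ∈ G)
    (hG2 : ∀ A ∈ G, ∀ A' ∈ G, A ∘ₗ A' ∈ G) {u u' : V} (hu : ‖u‖ = 1) (hu' : ‖u'‖ = 1) :
    ∃ A ∈ G, A u = u' := by
  -- step (ii)
  have step2 : ∀ u₁ : V, ‖u₁‖ = 1 → u₁ = inner ℝ u u₁ • u + P u u₁ → ∃ A ∈ G, A u = u₁ := by
    intro u₁ hu₁ hmem
    obtain ⟨z, hz1, hz2, hz3⟩ := hz u hu
    obtain ⟨hz4, hz5⟩ := hV u u₁ z hu hu₁ hmem hz2 hz3
    obtain ⟨A, hA, hA1, _⟩ := Alg_swap h hG hu hz1 hz2 hz3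
    obtain ⟨A', hA', _, hA2⟩ := Alg_swap h hG hu₁ hz1 hz4 hz5
    exact ⟨A' ∘ₗ A, hG2 _ hA' _ hA, by rw [LinearMap.comp_apply, hA1, hA2]⟩
  set p : V := inner ℝ u u' • u + P u u' with hp
  set q : V := u' - p with hq
  have huu : inner ℝ u u = (1 : ℝ) := by rw [real_inner_self_eq_norm_sq, hu]; norm_num
  have hPu : P u u = 0 := Alg_P_self h hu
  have hPuu : inner ℝ u (P u u') = (0 : ℝ) := by rw [real_inner_comm]; exact h.perp u u' hu
  have hup : inner ℝ u p = inner ℝ u u' := by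
    rw [hp, inner_add_right, inner_smul_right, huu, hPuu]; ring
  have hPp : P u p = P u u' := by
    rw [hp, map_add, map_smul, hPu, smul_zero, zero_add, h.idem u u' hu]
  have hpV : p = inner ℝ u p • u + P u p := by rw [hup, hPp]
  have huq : inner ℝ u q = (0 : ℝ) := by rw [hq, inner_sub_right, hup, sub_self]
  have hPq : P u q = 0 := by rw [hq, map_sub, hPp, sub_self]
  have hpq : inner ℝ p q = (0 : ℝ) := by
    rw [hp, inner_add_left, real_inner_smul_left, huq, h.symm u u' q hu, hPq, inner_zero_right]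
    ring
  have hu'pq : u' = p + q := by rw [hq]; abel
  have hnorm : ‖p‖ ^ 2 + ‖q‖ ^ 2 = 1 := by
    have : ‖p + q‖ ^ 2 = 1 := by rw [← hu'pq, hu']; norm_num
    rw [norm_add_sq_real, hpq] at this
    linarith only [this]
  by_cases hq0 : q = 0
  · refine step2 u' hu' ?_
    have : u' = p := by rw [hu'pq, hq0, add_zero]
    exact this
  by_cases hp0 : p = 0
  · have hqu : q = u' := by rw [hq, hp0, sub_zero]
    rw [hqu] at huq hPq
    obtain ⟨A, hA, hA1, _⟩ := Alg_swap h hG hu hu' huq hPq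
    exact ⟨A, hA, hA1⟩
  have hpn : ‖p‖ ≠ 0 := norm_ne_zero_iff.2 hp0
  have hqn : ‖q‖ ≠ 0 := norm_ne_zero_iff.2 hq0
  set p₁ : V := ‖p‖⁻¹ • p with hp₁
  set q₁ : V := ‖q‖⁻¹ • q with hq₁
  have hp₁n : ‖p₁‖ = 1 := by
    rw [hp₁, norm_smul, norm_inv, norm_norm, inv_mul_cancel₀ hpn]
  have hq₁n : ‖q₁‖ = 1 := by
    rw [hq₁, norm_smul, norm_inv, norm_norm, inv_mul_cancel₀ hqn]
  have hp₁V : p₁ = inner ℝ u p₁ • u + P u p₁ := by
    rw [hp₁, inner_smul_right, map_smul, mul_smul, ← smul_add, ← hpV]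
  obtain ⟨A, hA, hA1⟩ := step2 p₁ hp₁n hp₁V
  have hq1 : inner ℝ u q₁ = (0 : ℝ) := by rw [hq₁, inner_smul_right, huq, mul_zero]
  have hq2 : P u q₁ = 0 := by rw [hq₁, map_smul, hPq, smul_zero]
  obtain ⟨hq3, hq4⟩ := hV u p₁ q₁ hu hp₁n hp₁V hq1 hq2
  obtain ⟨A', hA', hA2⟩ := Alg_rotate h hG hp₁n hq₁n hq3 hq4 (norm_nonneg p) (norm_nonneg q) hnorm
  refine ⟨A' ∘ₗ A, hG2 _ hA' _ hA, ?_⟩
  rw [LinearMap.comp_apply, hA1, hA2, hp₁, hq₁, smul_smul, smul_smul, mul_inv_cancel₀ hpn,
    mul_inv_cancel₀ hqn, one_smul, one_smul, ← hu'pq]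

end Abstract

end

end Vale.Agent.P231
end
end

section

section

/-! P231 homogeneity part HB: second order Taylor expansion of the metric in normal
coordinates. -/

set_option maxSynthPendingDepth 3
set_option linter.unusedSectionVars false

open Bundle Manifold Set Filter MeasureTheory Module
open scoped ContDiff Manifold Topology ENNReal

namespace Vale.Agent.P231

noncomputable section

open Vale.Agent.P234

/-! ### one variable calculus -/

theorem taylor_deriv2_zero {g : ℝ → ℝ} (hg : ContDiff ℝ 2 g) {K δ : ℝ} (hδ : 0 < δ)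
    (h : ∀ r ∈ Ioo 0 δ, |g r| ≤ K * r ^ 3) : deriv (deriv g) 0 = 0 := by
  have hev : ∀ᶠ r in 𝓝[>] (0 : ℝ), r ∈ Ioo 0 δ := Ioo_mem_nhdsGT hδ
  have hg1 : ContDiff ℝ 1 (deriv g) := by
    have := hg
    rw [show (2 : WithTop ℕ∞) = 1 + 1 by norm_num, contDiff_succ_iff_deriv] at this
    exact this.2.2
  have hd : ∀ r, HasDerivAt g (deriv g r) r := fun r =>
    (hg.differentiable (by norm_num) r).hasDerivAt
  have hd2 : ∀ r, HasDerivAt (deriv g) (deriv (deriv g) r) r := fun r =>
    (hg1.differentiable (by norm_num) r).hasDerivAt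
  have hle : 𝓝[>] (0 : ℝ) ≤ 𝓝 0 := nhdsWithin_le_nhds
  -- `g 0 = 0`
  have t0 : Tendsto g (𝓝[>] 0) (𝓝 0) := by
    rw [tendsto_zero_iff_abs_tendsto_zero]
    refine tendsto_of_tendsto_of_tendsto_of_le_of_le' tendsto_const_nhds
      (?_ : Tendsto (fun r : ℝ => K * r ^ 3) (𝓝[>] 0) (𝓝 0))
      (Eventually.of_forall fun r => abs_nonneg _) ?_
    · have : Tendsto (fun r : ℝ => K * r ^ 3) (𝓝 0) (𝓝 (K * 0 ^ 3)) :=
        (continuous_const.mul (continuous_id.pow 3)).tendsto 0
      simpa only [ne_eq, OfNat.ofNat_ne_zero, not_false_eq_true, zero_pow, mul_zero] using this.mono_left hle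
    · filter_upwards [hev] with r hr
      exact h r hr
  have g0 : g 0 = 0 :=
    tendsto_nhds_unique ((hg.continuous.tendsto 0).mono_left hle) t0
  -- `g' 0 = 0`
  have t1 : Tendsto (fun r => g r / r) (𝓝[>] 0) (𝓝 0) := by
    rw [tendsto_zero_iff_abs_tendsto_zero]
    refine tendsto_of_tendsto_of_tendsto_of_le_of_le' tendsto_const_nhds
      (?_ : Tendsto (fun r : ℝ => K * r ^ 2) (𝓝[>] 0) (𝓝 0))
      (Eventually.of_forall fun r => abs_nonneg _) ?_
    · have : Tendsto (fun r : ℝ => K * r ^ 2) (𝓝 0) (𝓝 (K * 0 ^ 2)) :=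
        (continuous_const.mul (continuous_id.pow 2)).tendsto 0
      simpa only [ne_eq, OfNat.ofNat_ne_zero, not_false_eq_true, zero_pow, mul_zero] using this.mono_left hle
    · filter_upwards [hev] with r hr
      have hr0 : 0 < r := hr.1
      show |g r / r| ≤ K * r ^ 2
      rw [abs_div, abs_of_pos hr0, div_le_iff₀ hr0]
      calc |g r| ≤ K * r ^ 3 := h r hr
        _ = K * r ^ 2 * r := by ring
  have g1 : deriv g 0 = 0 := by
    have h1 := (hasDerivAt_iff_tendsto_slope.1 (hd 0)).mono_left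
      (nhdsWithin_mono 0 (show Ioi (0 : ℝ) ⊆ {0}ᶜ from fun r hr => ne_of_gt hr))
    refine tendsto_nhds_unique h1 (t1.congr fun r => ?_)
    rw [slope_def_field, g0, sub_zero, sub_zero]
  -- `g'' 0 = 0`
  have t2 : Tendsto (fun r => g r / r ^ 2) (𝓝[>] 0) (𝓝 0) := by
    rw [tendsto_zero_iff_abs_tendsto_zero]
    refine tendsto_of_tendsto_of_tendsto_of_le_of_le' tendsto_const_nhds
      (?_ : Tendsto (fun r : ℝ => K * r) (𝓝[>] 0) (𝓝 0))
      (Eventually.of_forall fun r => abs_nonneg _) ?_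
    · have : Tendsto (fun r : ℝ => K * r) (𝓝 0) (𝓝 (K * 0)) :=
        (continuous_const.mul continuous_id).tendsto 0
      simpa using this.mono_left hle
    · filter_upwards [hev] with r hr
      have hr0 : 0 < r := hr.1
      show |g r / r ^ 2| ≤ K * r
      rw [abs_div, abs_of_pos (by (clear * - hr0; positivity) : (0:ℝ) < r ^ 2), div_le_iff₀ (by positivity)]
      calc |g r| ≤ K * r ^ 3 := h r hr
        _ = K * r * r ^ 2 := by ring
  have t3 : Tendsto (fun r => g r / r ^ 2) (𝓝[>] 0) (𝓝 (deriv (deriv g) 0 / 2)) := by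
    refine HasDerivAt.lhopital_zero_nhdsGT (f' := deriv g) (g' := fun r => 2 * r)
      (Eventually.of_forall hd) (Eventually.of_forall fun r => ?_) ?_ t0 ?_ ?_
    · simpa only [Nat.cast_ofNat, Nat.add_one_sub_one, pow_one] using hasDerivAt_pow 2 r
    · filter_upwards [hev] with r hr
      exact mul_ne_zero two_ne_zero hr.1.ne'
    · have : Tendsto (fun r : ℝ => r ^ 2) (𝓝 0) (𝓝 (0 ^ 2)) :=
        (continuous_id.pow 2).tendsto 0
      simpa only [ne_eq, OfNat.ofNat_ne_zero, not_false_eq_true, zero_pow] using this.mono_left hle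
    · have h1 := (hasDerivAt_iff_tendsto_slope.1 (hd2 0)).mono_left
        (nhdsWithin_mono 0 (show Ioi (0 : ℝ) ⊆ {0}ᶜ from fun r hr => ne_of_gt hr))
      refine (h1.div_const 2).congr fun r => ?_
      rw [slope_def_field, g1, sub_zero, sub_zero]
      (clear * -; field_simp)
  have := tendsto_nhds_unique t3 t2
  linarith only [this]

theorem taylor_sinc_bound {ρ : ℝ} (h0 : 0 < ρ) (h1 : ρ ≤ 1) (a b : ℝ) :
    |(Real.sin ρ / ρ) ^ 2 * (a - Real.sin ρ ^ 2 * b) - (a - ρ ^ 2 * (a / 3 + b))| ≤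
      (|a| + |b|) * ρ ^ 3 := by
  have hb := Real.sin_bound (x := ρ) (by rw [abs_of_pos h0]; exact h1)
  rw [abs_of_pos h0] at hb
  set s : ℝ := Real.sin ρ / ρ with hs
  have hsin : Real.sin ρ = s * ρ := by rw [hs, div_mul_cancel₀ _ h0.ne']
  have hε : |s - (1 - ρ ^ 2 / 6)| ≤ ρ ^ 3 * (5 / 96) := by
    have h2 : Real.sin ρ - (ρ - ρ ^ 3 / 6) = (s - (1 - ρ ^ 2 / 6)) * ρ := by rw [hsin]; ring
    rw [h2, abs_mul, abs_of_pos h0] at hb
    have h3 : |s - (1 - ρ ^ 2 / 6)| * ρ ≤ (ρ ^ 3 * (5 / 96)) * ρ := by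
      refine hb.trans ?_
      have h4 : ρ ^ 5 ≤ ρ ^ 4 := pow_le_pow_of_le_one h0.le h1 (by norm_num)
      have h5 : 0 ≤ ρ ^ 4 := by positivity
      nlinarith only [h4, h5]
    exact le_of_mul_le_mul_right h3 h0
  have hε' := abs_le.1 hε
  set ε := s - (1 - ρ ^ 2 / 6) with hεd
  have hse : s = 1 - ρ ^ 2 / 6 + ε := by rw [hεd]; ring
  have hρ2 : ρ ^ 2 ≤ 1 := by nlinarith only [h1, h0]
  have hρ3 : ρ ^ 3 ≤ ρ ^ 2 := by nlinarith only [h1]
  have hρ30 : 0 < ρ ^ 3 := by positivity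
  have hρ4 : ρ ^ 4 ≤ ρ ^ 3 := by nlinarith only [h0, hρ3]
  have hs0 : 0 ≤ s := by nlinarith only [hε', hεd, hρ2, hρ3]
  have hs1 : s ≤ 1 := by nlinarith only [hε', hεd, hρ3]
  have e1 : |s ^ 2 - (1 - ρ ^ 2 / 3)| ≤ ρ ^ 3 := by
    have h2 : s ^ 2 - (1 - ρ ^ 2 / 3) = ρ ^ 4 / 36 + 2 * ε * (1 - ρ ^ 2 / 6) + ε ^ 2 := by
      rw [hse]; ring
    have h3 : ε ^ 2 ≤ ρ ^ 3 / 10 := by
      have h4 : ε ^ 2 ≤ (ρ ^ 3 * (5 / 96)) ^ 2 := sq_le_sq' hε'.1 hε'.2
      have h5 : (ρ ^ 3) ^ 2 ≤ ρ ^ 3 := by nlinarith only [hρ4, hρ3]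
      nlinarith only [h4, h5]
    have h4 : |2 * ε * (1 - ρ ^ 2 / 6)| ≤ ρ ^ 3 * (10 / 96) := by
      rw [abs_mul, abs_mul, abs_two]
      have h5 : |1 - ρ ^ 2 / 6| ≤ 1 := by
        rw [abs_le]
        constructor <;> nlinarith only [hρ2]
      calc 2 * |ε| * |1 - ρ ^ 2 / 6| ≤ 2 * |ε| * 1 :=
            mul_le_mul_of_nonneg_left h5 (by (clear * -; positivity))
        _ ≤ ρ ^ 3 * (10 / 96) := by linarith only [hε]
    rw [h2]
    have h5 := abs_le.1 h4
    rw [abs_le]
    constructor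
    · nlinarith only [h5]
    · nlinarith only [hρ4, h3, h5]
  have e2 : |s ^ 4 - 1| ≤ ρ ^ 2 := by
    have h2 : 1 - s ≤ ρ ^ 2 * (1 / 6 + 5 / 96) := by nlinarith only [hε', hεd, hρ3]
    have h3 : 1 - s ^ 4 = (1 - s) * ((1 + s) * (1 + s ^ 2)) := by ring
    have h4 : (1 + s) * (1 + s ^ 2) ≤ 4 := by nlinarith only [hε', hεd, hρ3, hρ4]
    have h5 : 0 ≤ (1 + s) * (1 + s ^ 2) := by (clear * - hs0; positivity)
    rw [abs_le]
    constructor
    · nlinarith only [hε', hεd, hρ3, h4]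
    · nlinarith only [pow_le_one₀ hs0 hs1 (n := 4)]
  have h2 : s ^ 2 * (a - Real.sin ρ ^ 2 * b) - (a - ρ ^ 2 * (a / 3 + b)) =
      a * (s ^ 2 - (1 - ρ ^ 2 / 3)) - b * (ρ ^ 2 * (s ^ 4 - 1)) := by
    rw [hsin]; ring
  rw [h2]
  calc |a * (s ^ 2 - (1 - ρ ^ 2 / 3)) - b * (ρ ^ 2 * (s ^ 4 - 1))|
      ≤ |a * (s ^ 2 - (1 - ρ ^ 2 / 3))| + |b * (ρ ^ 2 * (s ^ 4 - 1))| := abs_sub _ _
    _ = |a| * |s ^ 2 - (1 - ρ ^ 2 / 3)| + |b| * (ρ ^ 2 * |s ^ 4 - 1|) := by
        rw [abs_mul, abs_mul, abs_mul, abs_of_nonneg (sq_nonneg ρ)]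
    _ ≤ |a| * ρ ^ 3 + |b| * (ρ ^ 2 * ρ ^ 2) := by
        (clear * - e1 e2 h0; gcongr)
    _ ≤ |a| * ρ ^ 3 + |b| * ρ ^ 3 := by
        gcongr
        calc ρ ^ 2 * ρ ^ 2 = ρ ^ 4 := by ring
          _ ≤ ρ ^ 3 := hρ4
    _ = (|a| + |b|) * ρ ^ 3 := by ring

theorem taylor_deriv2_line {V : Type*} [NormedAddCommGroup V] [NormedSpace ℝ V] {G : V → ℝ}
    (hG : ContDiff ℝ 2 G) (v : V) :
    deriv (deriv fun t : ℝ => G (t • v)) 0 = fderiv ℝ (fderiv ℝ G) 0 v v := by
  have hl : ∀ t : ℝ, HasDerivAt (fun t : ℝ => t • v) v t := fun t => by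
    simpa using (hasDerivAt_id t).smul_const v
  have h1 : (deriv fun t : ℝ => G (t • v)) = fun t => fderiv ℝ G (t • v) v := by
    funext t
    have := ((hG.differentiable (by norm_num)) (t • v)).hasFDerivAt
    exact (this.comp_hasDerivAt t (hl t)).deriv
  have hG1 : ContDiff ℝ 1 (fderiv ℝ G) := hG.fderiv_right (by norm_num)
  rw [h1]
  have h2 := ((hG1.differentiable (by norm_num)) ((0 : ℝ) • v)).hasFDerivAt
  have h3 := h2.comp_hasDerivAt (0 : ℝ) (hl 0)
  have h4 : HasDerivAt (fun t : ℝ => fderiv ℝ G (t • v) v)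
      (fderiv ℝ (fderiv ℝ G) ((0 : ℝ) • v) v v) 0 := by
    have := (ContinuousLinearMap.apply ℝ ℝ v).hasFDerivAt.comp_hasDerivAt (0 : ℝ) h3
    exact this
  rw [h4.deriv, zero_smul]

/-! ### the metric in normal coordinates -/

section

variable {E : Type*} [NormedAddCommGroup E] [NormedSpace ℝ E] [FiniteDimensional ℝ E]
  {M : Type*} [MetricSpace M] [ChartedSpace E M]
  [RiemannianBundle (fun x : M => TangentSpace 𝓘(ℝ, E) x)]
  [IsManifold 𝓘(ℝ, E) ∞ M]
  [IsContMDiffRiemannianBundle 𝓘(ℝ, E) ∞ E (fun x : M => TangentSpace 𝓘(ℝ, E) x)]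
  {e : ∀ x : M, TangentSpace 𝓘(ℝ, E) x → M}

theorem taylor_contMDiff_const {V : Type*} [NormedAddCommGroup V] [NormedSpace ℝ V] (a : V) :
    ContMDiff 𝓘(ℝ, V) 𝓘(ℝ, V).tangent ∞ (fun v : V => (⟨v, a⟩ : TangentBundle 𝓘(ℝ, V) V)) := by
  have h2 : ContDiff ℝ ∞ (fun _ : V => a) := contDiff_const
  exact contMDiff_vectorSpace_iff_contDiff.2 h2

theorem taylor_contMDiff_dE (he : IsExp e) (y : M) (a : TangentSpace 𝓘(ℝ, E) y) :
    ContMDiff 𝓘(ℝ, TangentSpace 𝓘(ℝ, E) y) 𝓘(ℝ, E).tangent ∞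
      (fun v : TangentSpace 𝓘(ℝ, E) y => tb (e y v) (dE (E := E) e y v a)) := by
  have h1 := taylor_contMDiff_const a
  have h2 : ContMDiff 𝓘(ℝ, TangentSpace 𝓘(ℝ, E) y).tangent 𝓘(ℝ, E).tangent ∞
      (tangentMap 𝓘(ℝ, TangentSpace 𝓘(ℝ, E) y) 𝓘(ℝ, E) (e y)) :=
    (contMDiff_exp_fiber he y).contMDiff_tangentMap (by simp)
  exact h2.comp h1

theorem taylor_ip_smooth (he : IsExp e) (y : M) (a b : TangentSpace 𝓘(ℝ, E) y) :
    ContDiff ℝ ∞ (fun v : TangentSpace 𝓘(ℝ, E) y =>
      ip (E := E) (e y v) (dE (E := E) e y v a) (dE (E := E) e y v b)) := by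
  have h := ContMDiff.inner_bundle (E := fun x : M => TangentSpace 𝓘(ℝ, E) x)
    (b := fun v : TangentSpace 𝓘(ℝ, E) y => e y v)
    (v := fun v : TangentSpace 𝓘(ℝ, E) y => dE (E := E) e y v a)
    (w := fun v : TangentSpace 𝓘(ℝ, E) y => dE (E := E) e y v b)
    (taylor_contMDiff_dE he y a) (taylor_contMDiff_dE he y b)
  exact h.contDiff

/-- `fr x` as a linear isometry -/
def frI (x : M) : Eu E →ₗᵢ[ℝ] TangentSpace 𝓘(ℝ, E) x where
  toFun := fun a => (fr x a : E)
  map_add' a b := (fr x).map_add a b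
  map_smul' c a := (fr x).map_smul c a
  norm_map' a := nm_fr x a

/-- metric coefficients in normal coordinates -/
def GG (e : ∀ x : M, TangentSpace 𝓘(ℝ, E) x → M) (x : M) (a b v : Eu E) : ℝ :=
  ip (e x (fr x v : E)) (dE e x (fr x v) (fr x a)) (dE e x (fr x v) (fr x b))

theorem contDiff_GG (he : IsExp e) (x : M) (a b : Eu E) : ContDiff ℝ ∞ (GG e x a b) :=
  (taylor_ip_smooth he x (fr x a : E) (fr x b : E)).comp (frI x).contDiff

theorem GG_comm (x : M) (a b : Eu E) : GG e x a b = GG e x b a := by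
  funext v
  exact asm_ip_comm _ _ _

theorem GG_add (x : M) (a a' b : Eu E) :
    GG e x (a + a') b = fun v => GG e x a b v + GG e x a' b v := by
  funext v
  unfold GG
  rw [map_add, dE_add, asm_ip_add_left]

theorem GG_smul (x : M) (c : ℝ) (a b : Eu E) :
    GG e x (c • a) b = fun v => c * GG e x a b v := by
  funext v
  unfold GG
  rw [map_smul, dE_smul, asm_ip_smul_left]

/-- second derivative at the origin -/
def QQ (e : ∀ x : M, TangentSpace 𝓘(ℝ, E) x → M) (x : M) (a b : Eu E) :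
    Eu E →L[ℝ] Eu E →L[ℝ] ℝ :=
  fderiv ℝ (fderiv ℝ (GG e x a b)) 0

theorem QQ_comm (x : M) (a b : Eu E) : QQ e x a b = QQ e x b a := by
  unfold QQ
  rw [GG_comm]

theorem QQ_add (he : IsExp e) (x : M) (a a' b : Eu E) :
    QQ e x (a + a') b = QQ e x a b + QQ e x a' b := by
  unfold QQ
  rw [GG_add]
  have hs := contDiff_GG he x a b
  have hs' := contDiff_GG he x a' b
  have h1 : fderiv ℝ (fun v => GG e x a b v + GG e x a' b v) =
      fun v => fderiv ℝ (GG e x a b) v + fderiv ℝ (GG e x a' b) v := by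
    funext v
    exact fderiv_fun_add (hs.differentiable (by simp) v) (hs'.differentiable (by simp) v)
  rw [h1]
  exact fderiv_fun_add (((hs.fderiv_right (m := ∞) (by simp)).differentiable (by simp)) 0)
    (((hs'.fderiv_right (m := ∞) (by simp)).differentiable (by simp)) 0)

theorem QQ_smul (he : IsExp e) (x : M) (c : ℝ) (a b : Eu E) :
    QQ e x (c • a) b = c • QQ e x a b := by
  unfold QQ
  rw [GG_smul]
  have hs := contDiff_GG he x a b
  have h1 : fderiv ℝ (fun v => c * GG e x a b v) = fun v => c • fderiv ℝ (GG e x a b) v := by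
    funext v
    exact fderiv_const_mul (hs.differentiable (by simp) v) c
  rw [h1]
  exact fderiv_fun_const_smul (((hs.fderiv_right (m := ∞) (by simp)).differentiable (by simp)) 0) c

theorem QQ_symm (he : IsExp e) (x : M) (a b v w : Eu E) :
    QQ e x a b v w = QQ e x a b w v := by
  have hs := contDiff_GG he x a b
  have h1 : IsSymmSndFDerivAt ℝ (GG e x a b) 0 :=
    (hs.contDiffAt).isSymmSndFDerivAt (by
      rw [minSmoothness_of_isRCLikeNormedField]
      exact ENat.LEInfty.out)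
  exact h1.eq v w

theorem QQ_line (he : IsExp e) (x : M) (a b v : Eu E) :
    QQ e x a b v v = deriv (deriv fun t : ℝ => GG e x a b (t • v)) 0 :=
  (taylor_deriv2_line (contDiff_infty.1 (contDiff_GG he x a b) 2) v).symm

/-- the four linear form -/
def formB (he : IsExp e) (x : M) (κ : ℝ) :
    Eu E →ₗ[ℝ] Eu E →ₗ[ℝ] Eu E →ₗ[ℝ] Eu E →ₗ[ℝ] ℝ :=
  LinearMap.mk₂ ℝ (fun v v' => LinearMap.mk₂ ℝ (fun a b => κ * QQ e x a b v v')
      (fun a a' b => by
        rw [QQ_add he]
        simp only [_root_.add_apply]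
        ring)
      (fun c a b => by
        rw [QQ_smul he]
        simp only [_root_.smul_apply, smul_eq_mul]
        ring)
      (fun a b b' => by
        rw [QQ_comm x a (b + b'), QQ_add he, QQ_comm x b a, QQ_comm x b' a]
        simp only [_root_.add_apply]
        ring)
      (fun c a b => by
        rw [QQ_comm x a (c • b), QQ_smul he, QQ_comm x b a]
        simp only [_root_.smul_apply, smul_eq_mul]
        ring))
    (fun v v' w => by
      ext a b
      simp only [LinearMap.mk₂_apply, LinearMap.add_apply, map_add,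
        _root_.add_apply]
      ring)
    (fun c v w => by
      ext a b
      simp only [LinearMap.mk₂_apply, LinearMap.smul_apply, map_smul,
        _root_.smul_apply, smul_eq_mul]
      ring)
    (fun v w w' => by
      ext a b
      simp only [LinearMap.mk₂_apply, LinearMap.add_apply, map_add]
      ring)
    (fun c v w => by
      ext a b
      simp only [LinearMap.mk₂_apply, LinearMap.smul_apply, map_smul, smul_eq_mul]
      ring)

theorem formB_apply (he : IsExp e) (x : M) (κ : ℝ) (v v' a b : Eu E) :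
    formB he x κ v v' a b = κ * QQ e x a b v v' := rfl

/-- Gauss lemma in product form -/
theorem taylor_gauss [CompactSpace M] (F : Facts e) (x : M) (u : E) (hu : nm x u = 1) (w : E)
    (τ : ℝ) :
    ip (e x (τ • u : E)) (dE e x (τ • u) w) (dE e x (τ • u) u) = ip x w u := by
  by_cases hτ : τ = 0
  · subst hτ
    have h0 : e x ((0 : ℝ) • u : E) = x := gam_zero F.isExp x u
    rw [h0, zero_smul, dE_zero_base F.isExp, dE_zero_base F.isExp]
  · have h1 := gauss F x u hu 0 τ w
    rw [gam_zero F.isExp, vel_zero F.isExp, sub_zero] at h1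
    have h2 : jf e x u 0 τ w = τ • dE e x (τ • u) w := by
      unfold jf
      rw [gam_zero F.isExp, vel_zero F.isExp, sub_zero]
    rw [h2, asm_ip_smul_left] at h1
    exact mul_left_cancel₀ hτ h1

theorem taylor_GG_radial [CompactSpace M] (F : Facts e) (x : M) (v b : Eu E) (t : ℝ) :
    GG e x v b (t • v) = ip x (fr x v) (fr x b) := by
  by_cases hv : v = 0
  · subst hv
    have h0 : ∀ y (z : E), dE e y z 0 = 0 := fun y z => by
      have := dE_smul e y z (0 : E) 0
      simpa using this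
    unfold GG
    rw [map_zero, h0, asm_ip_comm, asm_ip_zero_right, asm_ip_comm, asm_ip_zero_right]
  · set r := nm x (fr x v) with hr
    have hr0 : 0 < r := by
      rw [hr, nm_fr]
      exact norm_pos_iff.2 hv
    set U : E := r⁻¹ • fr x v with hU
    have hU1 : nm x U = 1 := by
      rw [hU, nm_smul, ← hr, abs_of_pos (inv_pos.2 hr0), inv_mul_cancel₀ hr0.ne']
    have hV : fr x v = r • U := by
      rw [hU, smul_smul, mul_inv_cancel₀ hr0.ne', one_smul]
    have h1 := taylor_gauss F x U hU1 (fr x b) (t * r)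
    have h2 : fr x (t • v) = (t * r) • U := by
      rw [map_smul, hV, smul_smul]
    have h3 : GG e x v b (t • v) = ip (e x ((t * r) • U : E)) (dE e x ((t * r) • U) (r • U))
        (dE e x ((t * r) • U) (fr x b)) := by
      unfold GG
      rw [h2, ← hV]
    rw [h3, dE_smul, asm_ip_smul_left, asm_ip_comm, h1, hV, asm_ip_smul_left, asm_ip_comm]

theorem taylor_trP_apply (x : M) (P : E → E →ₗ[ℝ] E) (u w : Eu E) :
    fr x (trP x P u w) = P (fr x u) (fr x w) := by
  show fr x ((fr x).symm (P (fr x u) (fr x w))) = _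
  exact (fr x).apply_symm_apply _

theorem exists_form [CompactSpace M] (F : Facts e) {D : ℝ} (hD : 0 < D) {l : ℕ} {x : M}
    {P : E → E →ₗ[ℝ] E} (hP : PData e D l x P) :
    ∃ B : Eu E →ₗ[ℝ] Eu E →ₗ[ℝ] Eu E →ₗ[ℝ] Eu E →ₗ[ℝ] ℝ, QData (trP x P) B := by
  have hpi := Real.pi_pos
  set k : ℝ := Real.pi / (2 * D) with hk
  have hk0 : 0 < k := by positivity
  refine ⟨formB F.isExp x (-(3 / (2 * k ^ 2))), ?_, ?_, ?_, ?_, ?_, ?_, ?_⟩
  · intro u w hu
    apply (fr x).injective
    rw [taylor_trP_apply, taylor_trP_apply]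
    exact hP.idem _ _ (by rw [nm_fr, hu])
  · intro u a b hu
    rw [← ip_fr x, ← ip_fr x, taylor_trP_apply, taylor_trP_apply]
    exact hP.symm _ _ _ (by rw [nm_fr, hu])
  · intro u w hu
    rw [← ip_fr x, taylor_trP_apply]
    exact hP.perp _ _ (by rw [nm_fr, hu])
  · intro a b c d
    rw [formB_apply, formB_apply, QQ_symm F.isExp]
  · intro a b c d
    rw [formB_apply, formB_apply, QQ_comm]
  · intro v b
    rw [formB_apply, QQ_line F.isExp]
    have h1 : (fun t : ℝ => GG e x v b (t • v)) = fun _ => ip x (fr x v) (fr x b) :=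
      funext fun t => taylor_GG_radial F x v b t
    rw [h1]
    simp
  · intro u w hu huw
    rw [formB_apply, QQ_line F.isExp]
    set f : ℝ → ℝ := fun t : ℝ => GG e x w w (t • u) with hf
    set a : ℝ := ‖w‖ ^ 2 with ha
    set b : ℝ := ‖trP x P u w‖ ^ 2 with hb
    have hU1 : nm x (fr x u) = 1 := by rw [nm_fr, hu]
    have hUW : ip x (fr x u) (fr x w) = 0 := by rw [ip_fr, huw]
    have hfs : ContDiff ℝ 2 f := by
      have h1 : ContDiff ℝ 2 (GG e x w w) := contDiff_infty.1 (contDiff_GG F.isExp x w w) 2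
      exact h1.comp (contDiff_id.smul contDiff_const)
    set c : ℝ := k ^ 2 * (a / 3 + b) with hc
    set q : ℝ → ℝ := fun t => a - c * t ^ 2 with hq
    have hqs : ContDiff ℝ 2 q := contDiff_const.sub (contDiff_const.mul (contDiff_id.pow 2))
    have hgs : ContDiff ℝ 2 fun t => f t - q t := hfs.sub hqs
    have hbound : ∀ r ∈ Ioo 0 (min D k⁻¹), |f r - q r| ≤ ((|a| + |b|) * k ^ 3) * r ^ 3 := by
      intro r hr
      have hr0 : 0 < r := hr.1
      have hrD : r < D := hr.2.trans_le (min_le_left _ _)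
      have hrk : r < k⁻¹ := hr.2.trans_le (min_le_right _ _)
      have hρ : Real.pi * r / (2 * D) = k * r := by rw [hk]; ring
      have hρ1 : k * r ≤ 1 := by
        have := mul_le_mul_of_nonneg_left hrk.le hk0.le
        rwa [mul_inv_cancel₀ hk0.ne'] at this
      have h1 : f r = (Real.sin (k * r) / (k * r)) ^ 2 * (a - Real.sin (k * r) ^ 2 * b) := by
        have h2 := hP.gram (fr x u) (fr x w) hU1 hUW r ⟨hr0, hrD⟩
        have h3 : f r = nm (e x (r • fr x u : E)) (dE e x (r • fr x u) (fr x w)) ^ 2 := by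
          rw [hf]
          simp only [GG]
          rw [asm_ip_self, map_smul]
        rw [h3, h2, hρ, nm_fr, ← taylor_trP_apply, nm_fr]
      have h2 := taylor_sinc_bound (mul_pos hk0 hr0) hρ1 a b
      rw [h1]
      have h3 : q r = a - (k * r) ^ 2 * (a / 3 + b) := by
        rw [hq]
        simp only [hc]
        ring
      rw [h3]
      refine h2.trans (le_of_eq ?_)
      ring
    have h1 := taylor_deriv2_zero hgs (lt_min hD (inv_pos.2 hk0)) hbound
    have hfd : ∀ t, DifferentiableAt ℝ f t := fun t => hfs.differentiable (by norm_num) t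
    have hqd : ∀ t, HasDerivAt q (-(c * (2 * t))) t := by
      intro t
      have h2 := (((hasDerivAt_pow 2 t).const_mul c).const_sub a)
      simpa only [Nat.cast_ofNat, Nat.add_one_sub_one, pow_one] using h2
    have h2 : deriv (fun t => f t - q t) = fun t => deriv f t + c * (2 * t) := by
      funext t
      refine ((hfd t).hasDerivAt.sub (hqd t)).deriv.trans ?_
      ring
    have hf1 : ContDiff ℝ 1 (deriv f) := by
      have := hfs
      rw [show (2 : WithTop ℕ∞) = 1 + 1 by norm_num, contDiff_succ_iff_deriv] at this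
      exact this.2.2
    have h3 : HasDerivAt (fun t : ℝ => c * (2 * t)) (c * 2) 0 := by
      have := ((hasDerivAt_id (0 : ℝ)).const_mul 2).const_mul c
      simpa using this
    have h4 : deriv (fun t => deriv f t + c * (2 * t)) 0 = deriv (deriv f) 0 + c * 2 :=
      ((hf1.differentiable (by norm_num) 0).hasDerivAt.add h3).deriv
    rw [h2, h4] at h1
    have h5 : deriv (deriv f) 0 = -(2 * c) := by (clear F hD l hP hpi hk hk0 hu huw hf ha hb hU1 hUW hfs hc q hq hqs hgs hbound hfd hqd h2 hf1 h3 h4; linarith)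
    rw [h5, hc]
    (clear * - hk0; field_simp)

end

end

end Vale.Agent.P231
end
end
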