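import Mathlib
import Vale.Agent.P231.Bdl.B2
import Vale.Agent.P234.Bd3.B3
import Vale.Agent.P231.Bdl.B1
import Vale.Agent.P231.Ode.Defs
import Vale.Agent.P231.Final.Defs

set_option linter.all false

section

section

/-! P231, HD: isometries act linearly in normal coordinates. -/

set_option maxSynthPendingDepth 3
set_option linter.unusedSectionVars false

open Bundle Manifold Set Filter MeasureTheory Module
open scoped ContDiff Manifold Topology ENNReal

namespace Vale.Agent.P231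

noncomputable section

open Vale.Agent.P234

variable {E : Type*} [NormedAddCommGroup E] [NormedSpace ℝ E] [FiniteDimensional ℝ E]
  {M : Type*} [MetricSpace M] [ChartedSpace E M]
  [RiemannianBundle (fun x : M => TangentSpace 𝓘(ℝ, E) x)]
  [IsManifold 𝓘(ℝ, E) ∞ M]
  [IsContMDiffRiemannianBundle 𝓘(ℝ, E) ∞ E (fun x : M => TangentSpace 𝓘(ℝ, E) x)]
  {e : ∀ x : M, TangentSpace 𝓘(ℝ, E) x → M}

/-- A curve which is locally minimizing at a uniform scale is locally a geodesic. -/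
theorem linear_local [CompactSpace M] (he : IsExp e) {ρ : ℝ}
    (hm : ∀ (x : M) (v : TangentSpace 𝓘(ℝ, E) x) (s t : ℝ),
      ‖v‖ * |t - s| ≤ ρ → dist (e x (s • v)) (e x (t • v)) = ‖v‖ * |t - s|)
    (hn : ∀ x y : M, dist x y < ρ → SmoothAt E x y ∧
      ∃ v : TangentSpace 𝓘(ℝ, E) x, v ∈ segMin e x ∧ e x v = y)
    {c : ℝ → M} {κ : ℝ} (hκ : 0 < κ)
    (hc : ∀ s t : ℝ, κ * |t - s| ≤ ρ → dist (c s) (c t) = κ * |t - s|)
    {δ : ℝ} (hδ : 0 < δ) (hvδ : κ * δ < ρ / 2) (r : ℝ) (z : M) (hz : c r = z) :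
    ∃ w : TangentSpace 𝓘(ℝ, E) z, ‖w‖ = κ ∧
      ∀ t : ℝ, |t| ≤ δ → e z (t • w) = c (r + t) := by
  have hvδ0 : 0 < κ * δ := by positivity
  set y := c (r + δ) with hy
  set y' := c (r - δ) with hy'
  have d1 : dist z y = κ * δ := by
    have h1 : |r + δ - r| = δ := by rw [add_sub_cancel_left, abs_of_pos hδ]
    have := hc r (r + δ) (by rw [h1]; linarith only [hvδ, hvδ0])
    rwa [hz, h1] at this
  have d2 : dist z y' = κ * δ := by
    have h1 : |r - δ - r| = δ := by
      rw [show r - δ - r = -δ by ring, abs_neg, abs_of_pos hδ]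
    have := hc r (r - δ) (by rw [h1]; linarith only [hvδ, hvδ0])
    rwa [hz, h1] at this
  have d3 : dist y y' = κ * δ + κ * δ := by
    have h1 : |r - δ - (r + δ)| = 2 * δ := by
      rw [show r - δ - (r + δ) = -(2 * δ) by ring, abs_neg, abs_of_pos (by linarith only [hδ])]
    have := hc (r + δ) (r - δ) (by rw [h1]; linarith only [hvδ])
    rw [h1] at this
    rw [this]; ring
  obtain ⟨hs1, p, hp, hpy⟩ := hn z y (by linarith only [hvδ, hvδ0, d1])
  obtain ⟨hs2, p', hp', hpy'⟩ := hn z y' (by linarith only [hvδ, hvδ0, d2])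
  have c1 := sh_corner he hvδ0 hvδ0 hp hpy hp' hpy' d1 d2 d3 hs1 hs2
  rw [div_self hvδ0.ne', one_smul] at c1
  have hpn : ‖p‖ = κ * δ := by
    have h1 : dist z (e z p) = ‖p‖ := hp
    rw [← h1, hpy, d1]
  refine ⟨δ⁻¹ • p, ?_, ?_⟩
  · rw [norm_smul, norm_inv, Real.norm_eq_abs, abs_of_pos hδ, hpn]
    (clear * - hδ hκ; field_simp)
  · -- a common argument for both signs
    have key : ∀ (P : TangentSpace 𝓘(ℝ, E) z) (Y : M) (t : ℝ), ‖P‖ = κ * δ → e z P = Y →
        dist z Y = κ * δ → |t| ≤ δ → dist (c (r + t)) Y = κ * (δ - |t|) →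
        e z ((|t| * δ⁻¹) • P) = c (r + t) := by
      intro P Y t hP hPY hzY ht hd
      have h1 : |r + t - r| = |t| := by rw [add_sub_cancel_left]
      have h2 := hc r (r + t) (by rw [h1]; nlinarith only [hvδ, hvδ0, hκ, ht])
      rw [hz, h1] at h2
      obtain ⟨τ, hτ0, hτ1, hτ⟩ := sh_between_aux he hm hn z P (by rw [hP]; exact hvδ)
        (c (r + t)) (by rw [hPY, hzY, h2, hd]; ring)
      have h3 := hm z P 0 τ (by
        rw [sub_zero, abs_of_nonneg hτ0, hP]
        nlinarith only [hvδ, hvδ0, hτ1])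
      rw [zero_smul, he.map_zero, hτ, h2, sub_zero, abs_of_nonneg hτ0, hP] at h3
      have h4 : |t| = τ * δ := by
        have h5 : κ * |t| = κ * (τ * δ) := by rw [h3]; ring
        exact mul_left_cancel₀ hκ.ne' h5
      rw [h4, mul_assoc, mul_inv_cancel₀ hδ.ne', mul_one, hτ]
    intro t ht
    rcases le_total 0 t with h0 | h0
    · have h1 := key p y t hpn hpy d1 ht (by
        have h2 : |r + δ - (r + t)| = δ - |t| := by
          rw [abs_of_nonneg h0] at ht ⊢
          rw [show r + δ - (r + t) = δ - t by ring, abs_of_nonneg (by linarith only [ht])]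
        have h3 := hc (r + t) (r + δ) (by rw [h2]; nlinarith only [hvδ, hvδ0, hκ, abs_nonneg t])
        rw [h2] at h3
        exact h3)
      rw [abs_of_nonneg h0] at h1
      rw [smul_smul]
      exact h1
    · have h1 := key p' y' t (by rw [c1, norm_neg, hpn]) hpy' d2 ht (by
        have h2 : |r - δ - (r + t)| = δ - |t| := by
          rw [abs_of_nonpos h0] at ht ⊢
          rw [show r - δ - (r + t) = -(δ - -t) by ring, abs_neg, abs_of_nonneg (by linarith only [ht])]
        have h3 := hc (r + t) (r - δ) (by rw [h2]; nlinarith only [hvδ, hvδ0, hκ, abs_nonneg t])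
        rw [h2] at h3
        exact h3)
      rw [abs_of_nonpos h0, c1, smul_neg, ← neg_smul] at h1
      rw [smul_smul, ← h1]
      congr 2
      ring

/-- A curve which is minimizing at a uniform scale is a geodesic. -/
theorem linear_curve [CompactSpace M] (he : IsExp e) {ρ₀ : ℝ} (hρ₀ : 0 < ρ₀)
    {c : ℝ → M} {κ : ℝ} (hκ : 0 ≤ κ)
    (hc : ∀ s t : ℝ, κ * |t - s| ≤ ρ₀ → dist (c s) (c t) = κ * |t - s|) (x : M)
    (hx : c 0 = x) :
    ∃ w : TangentSpace 𝓘(ℝ, E) x, ‖w‖ = κ ∧ ∀ t : ℝ, e x (t • w) = c t := by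
  obtain ⟨ρ₁, hρ₁, hm₁, hn₁⟩ := sh_scale he
  set ρ := min ρ₀ ρ₁ with hρdef
  have hρ : 0 < ρ := lt_min hρ₀ hρ₁
  have hl0 : ρ ≤ ρ₀ := min_le_left _ _
  have hl1 : ρ ≤ ρ₁ := min_le_right _ _
  have hm : ∀ (x : M) (v : TangentSpace 𝓘(ℝ, E) x) (s t : ℝ),
      ‖v‖ * |t - s| ≤ ρ → dist (e x (s • v)) (e x (t • v)) = ‖v‖ * |t - s| :=
    fun x v s t h => hm₁ x v s t (h.trans hl1)
  have hn : ∀ x y : M, dist x y < ρ → SmoothAt E x y ∧
      ∃ v : TangentSpace 𝓘(ℝ, E) x, v ∈ segMin e x ∧ e x v = y :=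
    fun x y h => hn₁ x y (h.trans_le hl1)
  have hc' : ∀ s t : ℝ, κ * |t - s| ≤ ρ → dist (c s) (c t) = κ * |t - s| :=
    fun s t h => hc s t (h.trans hl0)
  rcases eq_or_lt_of_le hκ with h0 | hκ0
  · subst h0
    refine ⟨0, norm_zero, fun t => ?_⟩
    rw [smul_zero, he.map_zero]
    have h1 := hc' 0 t (by simpa only [sub_zero, zero_mul] using hρ.le)
    rw [zero_mul, dist_eq_zero] at h1
    rw [← h1, hx]
  set δ := ρ / (4 * κ) with hδdef
  have hδ : 0 < δ := by (clear * - hρ₀ hρ₁ hκ0; positivity)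
  have hvδ : κ * δ < ρ / 2 := by
    have : κ * δ = ρ / 4 := by rw [hδdef]; (clear * - hκ0 hρ; field_simp)
    rw [this]; linarith only [hρ]
  obtain ⟨w, hw, hloc⟩ := linear_local he hm hn hκ0 hc' hδ hvδ 0 x hx
  refine ⟨w, hw, ?_⟩
  have hw0 : 0 < ‖w‖ := by rw [hw]; exact hκ0
  have main : ∀ n : ℕ, ∀ t : ℝ, |t| ≤ (n + 1) * δ → e x (t • w) = c t := by
    intro n
    induction n with
    | zero =>
      intro t ht
      have h1 := hloc t (by simpa only [CharP.cast_eq_zero, zero_add, one_mul] using ht)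
      rwa [zero_add] at h1
    | succ n ih =>
      -- one step in the direction σ
      have step : ∀ σ : ℝ, |σ| = 1 → ∀ u : ℝ, |u| ≤ δ →
          e x ((σ * ((n + 1) * δ) + u) • w) = c (σ * ((n + 1) * δ) + u) := by
        intro σ hσ u hu
        have hn0 : (0 : ℝ) ≤ (n : ℝ) := Nat.cast_nonneg n
        set t0 := σ * ((n + 1) * δ) with ht0
        have ht0abs : |t0| ≤ (n + 1) * δ := by
          rw [ht0, abs_mul, hσ, one_mul, abs_of_nonneg (by (clear * - hρ₀ hρ₁ hκ0; positivity))]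
        have hz := ih t0 ht0abs
        obtain ⟨w1, hw1, hl1⟩ := sh_local he hm hn hδ x w hw0 (by rw [hw]; exact hvδ)
          t0 _ hz
        obtain ⟨w2, hw2, hl2⟩ := linear_local he hm hn hκ0 hc' hδ hvδ t0 _ rfl
        have hσδ : |-σ * δ| ≤ δ := by
          rw [abs_mul, abs_neg, hσ, one_mul, abs_of_pos hδ]
        have e1 := hl1 (-σ * δ) hσδ
        have e2 := hl2 (-σ * δ) hσδ
        have e3 : |t0 + -σ * δ| ≤ (n + 1) * δ := by
          have : t0 + -σ * δ = σ * (n * δ) := by rw [ht0]; ring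
          rw [this, abs_mul, hσ, one_mul, abs_of_nonneg (by positivity)]
          nlinarith only [hδ]
        have e4 := ih (t0 + -σ * δ) e3
        have e5 : e (c t0) ((-σ * δ) • w1) = e (c t0) ((-σ * δ) • w2) := by
          rw [e1, e2, e4]
        have hseg : ∀ W : TangentSpace 𝓘(ℝ, E) (c t0), ‖W‖ = κ →
            (-σ * δ) • W ∈ segMin e (c t0) ∧
            dist (c t0) (e (c t0) ((-σ * δ) • W)) < ρ := by
          intro W hW
          have h1 := hm (c t0) W 0 (-σ * δ) (by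
            rw [sub_zero, hW]
            nlinarith only [hρ, hvδ, hκ, hσδ])
          rw [zero_smul, he.map_zero, sub_zero] at h1
          constructor
          · change dist _ _ = ‖_‖
            rw [h1, norm_smul, Real.norm_eq_abs, mul_comm]
          · rw [h1, hW]
            nlinarith only [hρ, hvδ, hκ, hσδ]
        have g1 := hseg w1 (by rw [hw1, hw])
        have g2 := hseg w2 hw2
        have e6 := sh_unique he g2.1 g1.1 (hn _ _ g2.2).1 e5
        have hne : -σ * δ ≠ 0 := by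
          intro h
          have : σ = 0 := by
            rcases mul_eq_zero.1 h with h | h
            · linarith only [h]
            · exact absurd h hδ.ne'
          rw [this] at hσ
          simp at hσ
        have e7 : w1 = w2 := smul_right_injective _ hne e6
        rw [← hl1 u hu, e7, hl2 u hu]
      intro t ht
      push_cast at ht
      rcases le_total 0 t with h0 | h0
      · rcases le_total t ((n + 1) * δ) with h1 | h1
        · exact ih t (by rw [abs_of_nonneg h0]; exact h1)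
        · have h2 := step 1 (by norm_num) (t - (n + 1) * δ) (by
            rw [abs_of_nonneg h0] at ht
            rw [abs_of_nonneg (by linarith only [h1])]
            linarith only [ht])
          have h3 : 1 * ((n + 1) * δ) + (t - (n + 1) * δ) = t := by ring
          rw [h3] at h2
          exact h2
      · rcases le_total (-((n + 1) * δ)) t with h1 | h1
        · exact ih t (by rw [abs_of_nonpos h0]; linarith only [h1])
        · have h2 := step (-1) (by norm_num) (t + (n + 1) * δ) (by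
            rw [abs_of_nonpos h0] at ht
            rw [abs_of_nonpos (by linarith only [h1])]
            linarith only [ht])
          have h3 : -1 * ((n + 1) * δ) + (t + (n + 1) * δ) = t := by ring
          rw [h3] at h2
          exact h2
  intro t
  obtain ⟨n, hn'⟩ := exists_nat_gt (|t| / δ)
  apply main n t
  rw [div_lt_iff₀ hδ] at hn'
  nlinarith only [hδ, hn']

theorem linear_nm_smul (x : M) (t : ℝ) (v : E) : nm x (t • v) = |t| * nm x v :=
  norm_smul (α := ℝ) (β := TangentSpace 𝓘(ℝ, E) x) t v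

/-- the image of a geodesic by an isometry is a geodesic -/
theorem linear_exists [CompactSpace M] (he : IsExp e) (σ : M ≃ᵢ M) (x : M) (v : E) :
    ∃ w : E, nm (σ x) w = nm x v ∧
      ∀ t : ℝ, e (σ x) (t • w : E) = σ (e x (t • v : E)) := by
  obtain ⟨ρ, hρ, hm⟩ := he.minimizing
  obtain ⟨w, hw, hw'⟩ := linear_curve he hρ (c := fun t : ℝ => σ (e x (t • v : E)))
    (κ := nm x v) (nm_nonneg x v) (fun s t h => by
      rw [σ.isometry.dist_eq]
      exact hm x v s t h) (σ x) (by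
      have h : ((0 : ℝ) • (v : TangentSpace 𝓘(ℝ, E) x)) = 0 := zero_smul ℝ _
      exact congrArg σ ((congrArg (e x) h).trans (he.map_zero x)))
  exact ⟨w, hw, hw'⟩

theorem linear_unique (he : IsExp e) {x : M} {v w : E}
    (h : ∀ t : ℝ, e x (t • v : E) = e x (t • w : E)) : v = w := by
  have h0 : (fun t : ℝ => e x (t • v : E)) = fun t : ℝ => e x (t • w : E) := funext h
  have key : ∀ f g : ℝ → M, f = g →
      (mfderiv 𝓘(ℝ, ℝ) 𝓘(ℝ, E) f 0 (1 : ℝ) : E) = mfderiv 𝓘(ℝ, ℝ) 𝓘(ℝ, E) g 0 (1 : ℝ) := by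
    rintro f g rfl
    rfl
  have h1 := he.velocity x v
  have h2 := he.velocity x w
  have h3 := key _ _ h0
  exact h1.symm.trans (h3.trans h2)

/-- the infinitesimal comparison -/
theorem linear_nm_le [CompactSpace M] (F : Facts e) (σ : M ≃ᵢ M) (x : M) {v w v' w' : E}
    (hv : nm (σ x) v' = nm x v) (hw : nm (σ x) w' = nm x w)
    (hv' : ∀ t : ℝ, e (σ x) (t • v' : E) = σ (e x (t • v : E)))
    (hw' : ∀ t : ℝ, e (σ x) (t • w' : E) = σ (e x (t • w : E))) :
    nm (σ x) (v' - w') = nm x (v - w) := by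
  have key : ∀ ε : ℝ, 0 < ε → (1 - ε) * nm x (v - w) ≤ (1 + ε) * nm (σ x) (v' - w') ∧
      (1 - ε) * nm (σ x) (v' - w') ≤ (1 + ε) * nm x (v - w) := by
    intro ε hε
    obtain ⟨δ₁, hδ₁, h1⟩ := exp_almost_isometry F x hε
    obtain ⟨δ₂, hδ₂, h2⟩ := exp_almost_isometry F (σ x) hε
    obtain ⟨t, ht, ht1⟩ : ∃ t : ℝ, 0 < t ∧
        t * (nm x v + nm x w + 1) < min δ₁ δ₂ := by
      have h3 : 0 < nm x v + nm x w + 1 := by
        have := nm_nonneg x v
        have := nm_nonneg x w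
        linarith
      refine ⟨min δ₁ δ₂ / (2 * (nm x v + nm x w + 1)), by (clear * - hδ₁ hδ₂ h3; positivity), ?_⟩
      have h4 : min δ₁ δ₂ / (2 * (nm x v + nm x w + 1)) * (nm x v + nm x w + 1) =
          min δ₁ δ₂ / 2 := by (clear * - h3 hδ₁ hδ₂; field_simp)
      rw [h4]
      have : 0 < min δ₁ δ₂ := lt_min hδ₁ hδ₂
      linarith only [this]
    have hb1 : min δ₁ δ₂ ≤ δ₁ := min_le_left _ _
    have hb2 : min δ₁ δ₂ ≤ δ₂ := min_le_right _ _
    have hnv := nm_nonneg x v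
    have hnw := nm_nonneg x w
    have ntv : nm x (t • v) = t * nm x v := by rw [linear_nm_smul, abs_of_pos ht]
    have ntw : nm x (t • w) = t * nm x w := by rw [linear_nm_smul, abs_of_pos ht]
    have ntv' : nm (σ x) (t • v') = t * nm x v := by rw [linear_nm_smul, abs_of_pos ht, hv]
    have ntw' : nm (σ x) (t • w') = t * nm x w := by rw [linear_nm_smul, abs_of_pos ht, hw]
    have bv : t * nm x v < min δ₁ δ₂ := by nlinarith only [ht, ht1, hnw]
    have bw : t * nm x w < min δ₁ δ₂ := by nlinarith only [ht, ht1, hnv]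
    have h3 := h1 (t • v) (t • w) (by rw [ntv]; linarith only [hb1, bv]) (by rw [ntw]; linarith only [hb1, bw])
    have h4 := h2 (t • v') (t • w') (by rw [ntv']; linarith only [hb2, bv]) (by rw [ntw']; linarith only [hb2, bw])
    rw [hv' t, hw' t, σ.isometry.dist_eq, ← smul_sub, linear_nm_smul, abs_of_pos ht] at h4
    rw [← smul_sub, linear_nm_smul, abs_of_pos ht] at h3
    obtain ⟨h5, h6⟩ := h3
    obtain ⟨h7, h8⟩ := h4
    constructor
    · have h9 : t * ((1 - ε) * nm x (v - w)) ≤ t * ((1 + ε) * nm (σ x) (v' - w')) := by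
        have := h5.trans h8
        linarith only [h5, h8]
      exact le_of_mul_le_mul_left h9 ht
    · have h9 : t * ((1 - ε) * nm (σ x) (v' - w')) ≤ t * ((1 + ε) * nm x (v - w)) := by
        have := h7.trans h6
        linarith only [h6, h7]
      exact le_of_mul_le_mul_left h9 ht
  have hlim : ∀ a b : ℝ, (∀ ε : ℝ, 0 < ε → (1 - ε) * a ≤ (1 + ε) * b) → a ≤ b := by
    intro a b h
    have h1 : Tendsto (fun ε : ℝ => (1 - ε) * a) (𝓝[>] 0) (𝓝 ((1 - 0) * a)) :=
      ((continuous_const.sub continuous_id).mul continuous_const).continuousWithinAt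
    have h2 : Tendsto (fun ε : ℝ => (1 + ε) * b) (𝓝[>] 0) (𝓝 ((1 + 0) * b)) :=
      ((continuous_const.add continuous_id).mul continuous_const).continuousWithinAt
    have h3 := le_of_tendsto_of_tendsto h1 h2 (by
      filter_upwards [self_mem_nhdsWithin] with ε hε
      exact h ε hε)
    linarith only [h3]
  exact le_antisymm (hlim _ _ fun ε hε => (key ε hε).2) (hlim _ _ fun ε hε => (key ε hε).1)

/-- isometries act linearly in normal coordinates -/
theorem isometry_linear [CompactSpace M] [ConnectedSpace M] [IsRiemannianManifold 𝓘(ℝ, E) M]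
    (F : Facts e) (σ : M ≃ᵢ M) (x : M) :
    ∃ L : E ≃ₗ[ℝ] E, (∀ v w, ip (σ x) (L v) (L w) = ip x v w) ∧
      ∀ v : E, σ (e x v) = e (σ x) (L v : E) := by
  have he := F.isExp
  choose f hf1 hf2 using fun v : E => linear_exists he σ x v
  choose g hg1 hg2 using fun v : E => linear_exists he σ.symm (σ x) v
  have hσx : σ.symm (σ x) = x := σ.symm_apply_apply x
  rw [hσx] at hg1 hg2
  have hgf : ∀ v, g (f v) = v := by
    intro v
    refine linear_unique he (x := x) fun t => ?_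
    rw [hg2, hf2, σ.symm_apply_apply]
  have hfg : ∀ v, f (g v) = v := by
    intro v
    refine linear_unique he (x := σ x) fun t => ?_
    rw [hf2, hg2, σ.apply_symm_apply]
  have hf0 : f 0 = 0 := by
    refine linear_unique he (x := σ x) fun t => ?_
    rw [hf2, smul_zero]
    exact (congrArg σ (he.map_zero x)).trans (he.map_zero (σ x)).symm
  have hfd : ∀ v w, nm (σ x) (f v - f w) = nm x (v - w) := fun v w =>
    linear_nm_le F σ x (hf1 v) (hf1 w) (hf2 v) (hf2 w)
  let A : Eu E ≃ᵢ Eu E := IsometryEquiv.mk'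
    (fun a => (fr (σ x)).symm (f (fr x a))) (fun b => (fr x).symm (g (fr (σ x) b)))
    (fun b => by
      simp only [ContinuousLinearEquiv.apply_symm_apply, hfg,
        ContinuousLinearEquiv.symm_apply_apply])
    (by
      refine Isometry.of_dist_eq fun a b => ?_
      rw [dist_eq_norm, dist_eq_norm, ← map_sub, ← nm_fr (σ x),
        ContinuousLinearEquiv.apply_symm_apply, hfd, ← map_sub, nm_fr])
  have hA0 : A 0 = 0 := by
    change (fr (σ x)).symm (f (fr x 0)) = 0
    rw [map_zero, hf0, map_zero]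
  let B : Eu E ≃ₗᵢ[ℝ] Eu E := A.toRealLinearIsometryEquivOfMapZero hA0
  have hB : ∀ a, B a = (fr (σ x)).symm (f (fr x a)) := fun a => rfl
  let L : E ≃ₗ[ℝ] E := ((fr x).symm.toLinearEquiv.trans B.toLinearEquiv).trans
    (fr (σ x)).toLinearEquiv
  have hL : ∀ v, L v = fr (σ x) (B ((fr x).symm v)) := fun v => rfl
  have hLf : ∀ v, L v = f v := by
    intro v
    rw [hL, hB]
    simp only [ContinuousLinearEquiv.apply_symm_apply]
  refine ⟨L, ?_, ?_⟩
  · intro v w
    rw [hL, hL, ip_fr, B.inner_map_map, ← ip_fr x, ContinuousLinearEquiv.apply_symm_apply,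
      ContinuousLinearEquiv.apply_symm_apply]
  · intro v
    rw [hLf]
    have h1 := hf2 v 1
    rw [one_smul, one_smul] at h1
    exact h1.symm

end

end Vale.Agent.P231
end
end

section

section

/-! P231, homogeneity part, file HE: reflections. -/

set_option maxSynthPendingDepth 3
set_option linter.unusedSectionVars false
set_option linter.unusedVariables false

open Bundle Manifold Set Filter MeasureTheory Module
open scoped ContDiff Manifold Topology ENNReal

namespace Vale.Agent.P231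

noncomputable section

open Vale.Agent.P234

/-! ### linear algebra -/

section Abstract

variable {V : Type*} [NormedAddCommGroup V] [InnerProductSpace ℝ V] [FiniteDimensional ℝ V]

theorem refl_alg (u : V) (P L : V →ₗ[ℝ] V) (hu : ‖u‖ = 1)
    (hid : ∀ w, P (P w) = P w) (hsy : ∀ a b, inner ℝ (P a) b = inner ℝ a (P b))
    (hpe : ∀ w, inner ℝ (P w) u = (0 : ℝ))
    (hL : ∀ v w, inner ℝ (L v) (L w) = (inner ℝ v w : ℝ))
    (hLu : L u = -u) (hLP : ∀ k, P k = k → L k = -k)
    (Z : Submodule ℝ V) (hZ : ∀ z ∈ Z, L z = z) {l : ℕ}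
    (hl : finrank ℝ (LinearMap.range P) = l)
    (hZd : finrank ℝ V ≤ finrank ℝ Z + (l + 1)) (v : V) :
    L v = v - (2 : ℝ) • (inner ℝ u v • u + P v) := by
  have huu : inner ℝ u u = (1 : ℝ) := by rw [real_inner_self_eq_norm_sq, hu]; norm_num
  have hPu : P u = 0 := by
    have h1 : inner ℝ (P u) (P u) = (0 : ℝ) := by
      rw [hsy, hid, real_inner_comm, hpe]
    exact inner_self_eq_zero.1 h1
  set Q : V →ₗ[ℝ] V := LinearMap.toSpanSingleton ℝ V u ∘ₗ innerₛₗ ℝ u + P with hQ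
  have hQv : ∀ v, Q v = inner ℝ u v • u + P v := fun v => by
    simp only [hQ, LinearMap.add_apply, LinearMap.coe_comp, coe_innerₛₗ_apply, Function.comp_apply, LinearMap.toSpanSingleton_apply]
  have huP : ∀ w, inner ℝ u (P w) = (0 : ℝ) := fun w => by rw [real_inner_comm, hpe]
  have hQQ : ∀ v, Q (Q v) = Q v := fun v => by
    rw [hQv (Q v), hQv v, inner_add_right, inner_smul_right, huu, huP, map_add, map_smul, hPu,
      hid, smul_zero, zero_add, mul_one, add_zero]
  have hLQ : ∀ v, L (Q v) = -Q v := fun v => by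
    rw [hQv, map_add, map_smul, hLu, hLP (P v) (hid v), smul_neg, neg_add]
  -- `Z ≤ ker Q`
  have hZQ : Z ≤ LinearMap.ker Q := by
    intro z hz
    have h1 : ∀ a, L a = -a → inner ℝ z a = (0 : ℝ) := by
      intro a ha
      have h2 := hL z a
      rw [hZ z hz, ha, inner_neg_right] at h2
      linarith only [h2]
    have h3 : inner ℝ u z = (0 : ℝ) := by rw [real_inner_comm]; exact h1 u hLu
    have h4 : P z = 0 := by
      have h5 : inner ℝ (P z) (P z) = (0 : ℝ) := by
        rw [hsy, hid]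
        exact h1 _ (hLP _ (hid z))
      exact inner_self_eq_zero.1 h5
    rw [LinearMap.mem_ker, hQv, h3, h4, zero_smul, add_zero]
  -- rank of `Q`
  have hrk : l + 1 ≤ finrank ℝ (LinearMap.range Q) := by
    have h1 : Submodule.span ℝ {u} ⊓ LinearMap.range P = ⊥ := by
      rw [Submodule.eq_bot_iff]
      rintro a ⟨ha1, b, hb⟩
      obtain ⟨c, rfl⟩ := Submodule.mem_span_singleton.1 ha1
      have h2 : inner ℝ (P b) u = (0 : ℝ) := hpe b
      rw [hb, real_inner_smul_left, huu, mul_one] at h2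
      rw [h2, zero_smul]
    have h2 : Submodule.span ℝ {u} ⊔ LinearMap.range P ≤ LinearMap.range Q := by
      refine sup_le ?_ ?_
      · rw [Submodule.span_singleton_le_iff_mem]
        refine ⟨u, ?_⟩
        rw [hQv, huu, hPu, one_smul, add_zero]
      · rintro _ ⟨b, rfl⟩
        refine ⟨P b, ?_⟩
        rw [hQv, huP, hid, zero_smul, zero_add]
    have h3 := Submodule.finrank_sup_add_finrank_inf_eq (Submodule.span ℝ {u}) (LinearMap.range P)
    have hu0 : u ≠ 0 := by
      rintro rfl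
      simp at hu
    rw [h1, finrank_bot, add_zero, finrank_span_singleton hu0, hl] at h3
    have h4 := Submodule.finrank_mono h2
    (clear * - h3 h4; omega)
  have hker : Z = LinearMap.ker Q := by
    refine Submodule.eq_of_le_of_finrank_le hZQ ?_
    have h1 := LinearMap.finrank_range_add_finrank_ker Q
    omega
  have h5 : v - Q v ∈ Z := by
    rw [hker, LinearMap.mem_ker, map_sub, hQQ, sub_self]
  have h6 := hZ _ h5
  rw [map_sub, hLQ] at h6
  rw [← hQv]
  have h7 : L v = v - Q v + -Q v := by rw [← h6]; abel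
  rw [h7]
  module

end Abstract

variable {E : Type*} [NormedAddCommGroup E] [NormedSpace ℝ E] [FiniteDimensional ℝ E]
  {M : Type*} [MetricSpace M] [ChartedSpace E M]
  [RiemannianBundle (fun x : M => TangentSpace 𝓘(ℝ, E) x)]
  [IsManifold 𝓘(ℝ, E) ∞ M]
  [IsContMDiffRiemannianBundle 𝓘(ℝ, E) ∞ E (fun x : M => TangentSpace 𝓘(ℝ, E) x)]
  {e : ∀ x : M, TangentSpace 𝓘(ℝ, E) x → M}

/-- a curve with zero velocity is constant -/
theorem refl_const {c : ℝ → M} (hc : MDifferentiable 𝓘(ℝ, ℝ) 𝓘(ℝ, E) c)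
    (h0 : ∀ t, (mfderiv 𝓘(ℝ, ℝ) 𝓘(ℝ, E) c t (1 : ℝ) : E) = 0) (s t : ℝ) : c s = c t := by
  have hloc : IsLocallyConstant c := by
    rw [IsLocallyConstant.iff_eventually_eq]
    intro s
    have h1 : ∀ᶠ t in 𝓝 s, c t ∈ (chartAt E (c s)).source :=
      hc.continuous.continuousAt (
        (chartAt E (c s)).open_source.mem_nhds (mem_chart_source E (c s)))
    obtain ⟨ε, hε, hball⟩ := Metric.eventually_nhds_iff_ball.1 h1
    set f : ℝ → E := fun t => extChartAt 𝓘(ℝ, E) (c s) (c t) with hf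
    have hfd : ∀ t ∈ Metric.ball s ε, HasDerivAt f 0 t := by
      intro t ht
      have h2 : MDifferentiableAt 𝓘(ℝ, E) 𝓘(ℝ, E) (extChartAt 𝓘(ℝ, E) (c s)) (c t) :=
        mdifferentiableAt_extChartAt (hball t ht)
      have h3 := mfderiv_comp_apply t h2 (hc t) (1 : ℝ)
      have h4 : MDifferentiableAt 𝓘(ℝ, ℝ) 𝓘(ℝ, E) f t := h2.comp t (hc t)
      have h5 : DifferentiableAt ℝ f t := mdifferentiableAt_iff_differentiableAt.1 h4
      have h6 : fderiv ℝ f t 1 = 0 := by
        have h7 : (mfderiv 𝓘(ℝ, ℝ) 𝓘(ℝ, E) f t (1 : ℝ) : E) = 0 := by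
          refine Eq.trans h3 ?_
          have h8 : (mfderiv 𝓘(ℝ, ℝ) 𝓘(ℝ, E) c t) (1 : ℝ) = 0 := h0 t
          rw [h8]
          exact map_zero _
        rw [mfderiv_eq_fderiv] at h7
        exact h7
      have h9 := h5.hasDerivAt
      have h10 : deriv f t = 0 := by
        rw [← h6]
        exact (fderiv_apply_one_eq_deriv).symm
      rwa [h10] at h9
    filter_upwards [Metric.ball_mem_nhds s hε] with t ht
    have h2 : f t = f s := by
      have h3 : DifferentiableOn ℝ f (Metric.ball s ε) := fun t ht =>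
        (hfd t ht).differentiableAt.differentiableWithinAt
      have h4 := (convex_ball s ε).is_const_of_fderivWithin_eq_zero h3 (𝕜 := ℝ) (fun t ht => by
        rw [fderivWithin_of_isOpen Metric.isOpen_ball ht]
        ext
        have := (hfd t ht).deriv
        simpa only [fderiv_eq_smul_deriv, one_smul, zero_apply] using this) ht (Metric.mem_ball_self hε)
      exact h4
    have h5 := (extChartAt 𝓘(ℝ, E) (c s)).injOn
    refine h5 ?_ ?_ h2
    · rw [extChartAt_source]; exact hball t ht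
    · rw [extChartAt_source]; exact mem_chart_source E (c s)
  exact hloc.apply_eq_of_isPreconnected isPreconnected_univ (mem_univ s) (mem_univ t)

/-! ### raw inner products -/

theorem refl_ip_comm (x : M) (a b : E) : ip x a b = ip x b a :=
  real_inner_comm (F := TangentSpace 𝓘(ℝ, E) x) _ _

theorem refl_ip_smul_left (x : M) (c : ℝ) (a b : E) : ip x (c • a) b = c * ip x a b :=
  real_inner_smul_left (F := TangentSpace 𝓘(ℝ, E) x) _ _ _

theorem refl_ip_add_right (x : M) (a b c : E) : ip x a (b + c) = ip x a b + ip x a c := by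
  rw [refl_ip_comm, ip_add_left, refl_ip_comm x b, refl_ip_comm x c]

theorem refl_ip_eq_zero (x : M) {a : E} (h : ip x a a = 0) : a = 0 :=
  (inner_self_eq_zero (𝕜 := ℝ) (E := TangentSpace 𝓘(ℝ, E) x)).1 h

theorem refl_nm_one (x : M) {a : E} (h : ip x a a = 1) : nm x a = 1 := by
  rw [ip_self] at h
  have h0 := nm_nonneg x a
  nlinarith

theorem refl_dE_zero (x : M) (v : E) : dE e x v 0 = 0 := by
  have h2 := dE_smul e x v 0 (0 : ℝ)
  rwa [zero_smul, zero_smul] at h2

/-- a circle in the tangent space -/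
theorem refl_circle (x : M) {u k : E} (hu : nm x u = 1) (hk : nm x k = 1)
    (huk : ip x u k = 0) (θ : ℝ) : nm x (Real.cos θ • u + Real.sin θ • k) = 1 := by
  have huu : ip x u u = 1 := by rw [ip_self, hu]; norm_num
  have hkk : ip x k k = 1 := by rw [ip_self, hk]; norm_num
  have hku : ip x k u = 0 := by rw [refl_ip_comm, huk]
  refine refl_nm_one x ?_
  simp only [ip_add_left, refl_ip_add_right, refl_ip_smul_left, ip_smul_right, huu, hkk, huk, hku]
  linear_combination Real.cos_sq_add_sin_sq θ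

theorem refl_circle_deriv (x : M) (u k : E) (θ R : ℝ) :
    HasDerivAt (fun θ => R • (Real.cos θ • (u : TangentSpace 𝓘(ℝ, E) x) + Real.sin θ • k))
      (R • (-Real.sin θ • (u : TangentSpace 𝓘(ℝ, E) x) + Real.cos θ • k)) θ :=
  (((Real.hasDerivAt_cos θ).smul_const _).add ((Real.hasDerivAt_sin θ).smul_const _)).const_smul R

theorem refl_exp_curve_mdiff (he : IsExp e) (y : M) {c : ℝ → TangentSpace 𝓘(ℝ, E) y}
    {c' : TangentSpace 𝓘(ℝ, E) y} {ε : ℝ} (hc : HasDerivAt c c' ε) :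
    MDifferentiableAt 𝓘(ℝ, ℝ) 𝓘(ℝ, E) (fun s => e y (c s)) ε := by
  have hEd : MDifferentiableAt 𝓘(ℝ, TangentSpace 𝓘(ℝ, E) y) 𝓘(ℝ, E) (e y) (c ε) :=
    (contMDiff_exp_fiber he y).mdifferentiableAt (by simp)
  have hcd : MDifferentiableAt 𝓘(ℝ, ℝ) 𝓘(ℝ, TangentSpace 𝓘(ℝ, E) y) c ε :=
    hc.differentiableAt.mdifferentiableAt
  exact hEd.comp ε hcd

/-- all of `V u ∩ sphere` is sent to the same point -/
theorem PData.exp_const [CompactSpace M] (F : Facts e) {D : ℝ} (hD : 0 < D) {l : ℕ} {x : M}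
    {P : E → E →ₗ[ℝ] E} (hP : PData e D l x P) {u k : E} (hu : nm x u = 1) (hk : nm x k = 1)
    (huk : ip x u k = 0) (hPk : P u k = k) (θ : ℝ) :
    e x (D • (Real.cos θ • u + Real.sin θ • k) : E) = e x (D • u : E) := by
  obtain ⟨B, hB⟩ := exists_form F hD hP
  have hfs : ∀ a : E, fr x ((fr x).symm a) = a := fun a => (fr x).apply_symm_apply a
  have hsf : ∀ a, (fr x).symm (fr (E := E) x a) = a := fun a => (fr x).symm_apply_apply a
  have htr : ∀ a b : Eu E, trP x P a b = (fr x).symm (P (fr x a) (fr x b)) := fun a b => rfl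
  -- derivative
  have hrot : ∀ θ : ℝ, P (Real.cos θ • u + Real.sin θ • k) (-Real.sin θ • u + Real.cos θ • k) =
      -Real.sin θ • u + Real.cos θ • k := by
    intro θ
    have h1 := hB.rot_one (u := (fr x).symm u) (k := (fr x).symm k)
      (by rw [← nm_fr x, hfs, hu]) (by rw [← nm_fr x, hfs, hk])
      (by rw [← ip_fr x, hfs, hfs, huk]) (by rw [htr, hfs, hfs, hPk])
      (Real.cos_sq_add_sin_sq θ)
    rw [htr] at h1
    have h2 := congrArg (fr x) h1
    rw [hfs] at h2
    simpa only [map_add, map_smul, hfs] using h2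
  have hder : ∀ t, dE e x (D • (Real.cos t • u + Real.sin t • k))
      (D • (-Real.sin t • u + Real.cos t • k)) = 0 := by
    intro t
    rw [dE_smul, (hP.ker _ _ (refl_circle x hu hk huk t)).2 (hrot t), smul_zero]
  have hc : ∀ t, MDifferentiableAt 𝓘(ℝ, ℝ) 𝓘(ℝ, E)
      (fun θ : ℝ => e x (D • (Real.cos θ • u + Real.sin θ • k) : E)) t := fun t =>
    refl_exp_curve_mdiff F.isExp x (refl_circle_deriv x u k t D)
  have h := refl_const hc (fun t => by
    refine Eq.trans (mfderiv_exp_curve F.isExp x (refl_circle_deriv x u k t D)) ?_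
    exact hder t) θ 0
  refine h.trans ?_
  have h2 : (D • (Real.cos 0 • u + Real.sin 0 • k) : E) = D • u := by simp
  exact congrArg (e x) h2

/-- if a map given in normal coordinates by `L` fixes a curve through `x` pointwise, `L` fixes the
velocity of the curve -/
theorem refl_fix (F : Facts e) {x : M} {τ : M → M} {L : E →ₗ[ℝ] E}
    (hL : ∀ v : E, τ (e x v) = e x (L v : E)) {c : ℝ → M}
    (hc : MDifferentiableAt 𝓘(ℝ, ℝ) 𝓘(ℝ, E) c 0) (hc0 : c 0 = x) (hτ : ∀ s, τ (c s) = c s) :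
    L (mfderiv 𝓘(ℝ, ℝ) 𝓘(ℝ, E) c 0 (1 : ℝ) : E) = (mfderiv 𝓘(ℝ, ℝ) 𝓘(ℝ, E) c 0 (1 : ℝ) : E) := by
  have he := F.isExp
  have : FiniteDimensional ℝ (TangentSpace 𝓘(ℝ, E) x) := inferInstanceAs (FiniteDimensional ℝ E)
  have h0I : (0 : TangentSpace 𝓘(ℝ, E) x) ∈ injDomain e x :=
    ⟨2, one_lt_two, by simp [he.map_zero]⟩
  obtain ⟨Lg, hLs, hL0, hL1, hL2⟩ := F.smoothLog h0I
  rw [he.map_zero] at hL0 hL1 hLs
  have hLs' : ContMDiffAt 𝓘(ℝ, E) 𝓘(ℝ, TangentSpace 𝓘(ℝ, E) x) ∞ Lg (c 0) := by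
    rw [hc0]
    exact hLs
  set η : ℝ → TangentSpace 𝓘(ℝ, E) x := fun s => Lg (c s) with hη
  have hη0 : η 0 = 0 := by rw [hη]; simp only; rw [hc0, hL0]
  have hηd : DifferentiableAt ℝ η 0 := by
    have h1 : MDifferentiableAt 𝓘(ℝ, E) 𝓘(ℝ, TangentSpace 𝓘(ℝ, E) x) Lg (c 0) :=
      hLs'.mdifferentiableAt (by simp)
    exact (h1.comp 0 hc).differentiableAt
  have hηc : ContinuousAt η 0 := hηd.continuousAt
  have hd := hηd.hasDerivAt
  set η' := deriv η 0 with hη'
  let L' : TangentSpace 𝓘(ℝ, E) x →ₗ[ℝ] TangentSpace 𝓘(ℝ, E) x := L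
  let Lc : TangentSpace 𝓘(ℝ, E) x →L[ℝ] TangentSpace 𝓘(ℝ, E) x := LinearMap.toContinuousLinearMap L'
  have hcc : Tendsto c (𝓝 0) (𝓝 x) := by
    have := hc.continuousAt
    rwa [ContinuousAt, hc0] at this
  have ev1 : ∀ᶠ s in 𝓝 (0 : ℝ), c s = e x (η s) := by
    filter_upwards [hcc.eventually hL1] with s hs
    exact hs.2.symm
  have hLη : Tendsto (fun s => Lc (η s)) (𝓝 0) (𝓝 0) := by
    have h1 : ContinuousAt (fun s => Lc (η s)) 0 := Lc.continuous.continuousAt.comp hηc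
    rw [ContinuousAt, hη0, map_zero] at h1
    exact h1
  have ev2 : ∀ᶠ s in 𝓝 (0 : ℝ), Lc (η s) = η s := by
    filter_upwards [ev1, hLη.eventually hL2] with s hs1 hs2
    have h1 : e x (Lc (η s)) = c s := by
      have h2 := hL (η s)
      rw [← hs1, hτ] at h2
      exact h2.symm
    rw [h1] at hs2
    exact hs2.symm
  have h3 : HasDerivAt (fun s => Lc (η s)) (Lc η') 0 := Lc.hasFDerivAt.comp_hasDerivAt 0 hd
  have h4 : HasDerivAt η (Lc η') 0 := h3.congr_of_eventuallyEq (by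
    filter_upwards [ev2] with s hs
    exact hs.symm)
  have h5 : Lc η' = η' := h4.unique hd
  have h6 : (mfderiv 𝓘(ℝ, ℝ) 𝓘(ℝ, E) c 0 (1 : ℝ) : E) = η' := by
    have h7 := mfderiv_exp_curve he x hd
    rw [hη0] at h7
    have h8 : dE e x (0 : E) (η' : E) = η' := dE_zero_base he x η'
    have h9 : (mfderiv 𝓘(ℝ, ℝ) 𝓘(ℝ, E) c 0 : ℝ →L[ℝ] E) =
        mfderiv 𝓘(ℝ, ℝ) 𝓘(ℝ, E) (fun s => e x (η s)) 0 := Filter.EventuallyEq.mfderiv_eq ev1
    exact (congrArg (fun T : ℝ →L[ℝ] E => T 1) h9).trans (h7.trans h8)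
  rw [h6]
  exact h5

theorem refl_neg (F : Facts e) {D : ℝ} (hD : 0 < D)
    (hcl : ∀ (x : M) (v : E), nm x v = 2 * D → e x v = x) {x y : M} {u : E}
    (hu : nm x u = 1) (hy : e x (D • u : E) = y) {τ : M → M}
    (hτ : ∀ w : E, τ (e y w) = e y (-w : E)) {L : E →ₗ[ℝ] E}
    (hL : ∀ v : E, τ (e x v) = e x (L v : E)) : L u = -u := by
  have he := F.isExp
  have h : ∀ t, gam e x (L u) t = gam e x (-u) t := by
    intro t
    have h1 : gam e x (L u) t = τ (gam e x u t) := by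
      have h2 := hL (t • u)
      rw [map_smul] at h2
      exact h2.symm
    have h3 : gam e x u t = gam e y (vel e x u D) (t - D) := by
      have h4 := gam_flow F x u D (t - D)
      rw [add_sub_cancel] at h4
      rw [← h4]
      subst hy
      rfl
    have h5 : τ (gam e y (vel e x u D) (t - D)) = gam e y (vel e x u D) (D - t) := by
      refine (hτ _).trans ?_
      have h6 : (-((t - D) • vel e x u D) : E) = (D - t) • vel e x u D := by
        rw [← neg_smul, neg_sub]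
      exact congrArg (e y) h6
    have h7 : gam e y (vel e x u D) (D - t) = gam e x u (-t) := by
      have h8 := gam_flow F x u D (D - t)
      rw [show D + (D - t) = -t + 2 * D by ring, gam_per F hD.le hcl x u hu] at h8
      rw [← h8]
      subst hy
      rfl
    rw [h1, h3, h5, h7]
    have h9 : (-t • u : E) = t • (-u) := by rw [neg_smul, smul_neg]
    exact congrArg (e x) h9
  have h2 := mfderiv_curve_congr (E := E) (funext h) 0 (1 : ℝ)
  have h3 := mfderiv_gam he x (L u) 0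
  have h4 := mfderiv_gam he x (-u) 0
  rw [vel_zero he] at h3 h4
  exact (h3.symm.trans h2).trans h4

theorem refl_exp_neg (F : Facts e) {D : ℝ} (hD : 0 < D)
    (hcl : ∀ (x : M) (v : E), nm x v = 2 * D → e x v = x) {x : M} {u : E}
    (hu : nm x u = 1) : e x (-(D • u) : E) = e x (D • u : E) := by
  have h := gam_per F hD.le hcl x u hu (-D)
  rw [show -D + 2 * D = D by ring] at h
  have h2 : (-(D • u) : E) = -D • u := by rw [neg_smul]
  exact (congrArg (e x) h2).trans h.symm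

theorem refl_pos (F : Facts e) {D : ℝ} (hD : 0 < D)
    (hcl : ∀ (x : M) (v : E), nm x v = 2 * D → e x v = x) {x y : M} {w₀ : E}
    (hw₀ : nm y w₀ = 1) (hx : e y (D • w₀ : E) = x) {τ : M → M}
    (hτ : ∀ w : E, τ (e y w) = e y (-w : E)) {L : E →ₗ[ℝ] E}
    (hL : ∀ v : E, τ (e x v) = e x (L v : E)) {a : E} (ha : ip y w₀ a = 0) :
    L (dE e y (D • w₀) a) = dE e y (D • w₀) a := by
  have he := F.isExp
  -- unit vectors
  have key : ∀ b : E, nm y b = 1 → ip y w₀ b = 0 →
      L (dE e y (D • w₀) b) = dE e y (D • w₀) b := by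
    intro b hb hb0
    have hcd := refl_circle_deriv y w₀ b 0 D
    have hc := refl_exp_curve_mdiff he y hcd
    have h1 := refl_fix F hL hc (by
      have h2 : (D • (Real.cos 0 • w₀ + Real.sin 0 • b) : E) = D • w₀ := by simp
      exact (congrArg (e y) h2).trans hx) (fun s => by
      refine (hτ _).trans ?_
      exact refl_exp_neg F hD hcl (refl_circle y hw₀ hb hb0 s))
    have h3 : (mfderiv 𝓘(ℝ, ℝ) 𝓘(ℝ, E) (fun θ : ℝ => e y (D • (Real.cos θ •
        (w₀ : TangentSpace 𝓘(ℝ, E) y) + Real.sin θ • (b : TangentSpace 𝓘(ℝ, E) y)))) 0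
        (1 : ℝ) : E) = D • dE e y (D • w₀) b := by
      refine (mfderiv_exp_curve he y hcd).trans ?_
      have h4 : (D • (-Real.sin 0 • w₀ + Real.cos 0 • b) : E) = D • b := by simp only [Real.sin_zero, neg_zero, zero_smul, Real.cos_zero, one_smul, zero_add]
      have h5 : (D • (Real.cos 0 • w₀ + Real.sin 0 • b) : E) = D • w₀ := by simp
      refine (congrArg₂ (dE e y) h5 h4).trans ?_
      exact dE_smul e y _ _ D
    have h6 : L (D • dE e y (D • w₀) b) = D • dE e y (D • w₀) b := by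
      rw [← h3]
      exact h1
    rw [map_smul] at h6
    exact smul_right_injective E hD.ne' h6
  rcases eq_or_ne (nm y a) 0 with h0 | h0
  · have : a = 0 := refl_ip_eq_zero y (by rw [ip_self, h0]; norm_num)
    rw [this, refl_dE_zero, map_zero]
  · have h1 := key ((nm y a)⁻¹ • a) (by
      rw [nm_smul, abs_of_nonneg (inv_nonneg.2 (nm_nonneg y a)), inv_mul_cancel₀ h0]) (by
      rw [ip_smul_right, ha, mul_zero])
    rw [dE_smul, map_smul] at h1
    exact smul_right_injective E (inv_ne_zero h0) h1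

/-- The linear part at `x` of the geodesic symmetry at `y = e x (D u)`. -/
theorem refl_core [CompactSpace M] (F : Facts e) {D : ℝ} (hD : 0 < D)
    (hcl : ∀ (x : M) (v : E), nm x v = 2 * D → e x v = x) {l : ℕ}
    {P : ∀ _ : M, E → E →ₗ[ℝ] E} (hP : ∀ x, PData e D l x (P x)) {x y : M} {u : E}
    (hu : nm x u = 1) (hy : e x (D • u : E) = y) {τ : M → M}
    (hτ : ∀ w : E, τ (e y w) = e y (-w : E)) {L : E →ₗ[ℝ] E}
    (hL : ∀ v : E, τ (e x v) = e x (L v : E)) (hLi : ∀ v w, ip x (L v) (L w) = ip x v w) (v : E) :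
    L v = v - (2 : ℝ) • (ip x u v • u + P x u v) := by
  have he := F.isExp
  have : FiniteDimensional ℝ (TangentSpace 𝓘(ℝ, E) x) := inferInstanceAs (FiniteDimensional ℝ E)
  have hLu : L u = -u := refl_neg F hD hcl hu hy hτ hL
  have hLk1 : ∀ k : E, nm x k = 1 → P x u k = k → L k = -k := by
    intro k hk hPk
    have huk : ip x u k = 0 := by
      rw [refl_ip_comm, ← hPk]
      exact (hP x).perp u k hu
    refine refl_neg F hD hcl hk ?_ hτ hL
    have h := (hP x).exp_const F hD hu hk huk hPk (Real.pi / 2)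
    have h2 : (D • (Real.cos (Real.pi / 2) • u + Real.sin (Real.pi / 2) • k) : E) = D • k := by
      simp
    rw [← hy, ← h]
    exact (congrArg (e x) h2).symm
  have hLk : ∀ k : E, P x u k = k → L k = -k := by
    intro k hPk
    rcases eq_or_ne (nm x k) 0 with h0 | h0
    · have : k = 0 := refl_ip_eq_zero x (by rw [ip_self, h0]; norm_num)
      rw [this, map_zero, neg_zero]
    · have h1 := hLk1 ((nm x k)⁻¹ • k) (by
        rw [nm_smul, abs_of_nonneg (inv_nonneg.2 (nm_nonneg x k)), inv_mul_cancel₀ h0]) (by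
        rw [map_smul, hPk])
      rw [map_smul, ← smul_neg] at h1
      exact smul_right_injective E (inv_ne_zero h0) h1
  -- the vector at `y`
  set w₀ : E := -vel e x u D with hw₀d
  have hw₀ : nm y w₀ = 1 := by
    have h1 := nm_vel F x u D
    have h2 : nm y (vel e x u D) = 1 := by
      rw [← hu, ← h1]
      subst hy
      rfl
    rw [hw₀d, ← neg_one_smul ℝ, nm_smul, h2]
    norm_num
  have hx : e y (D • w₀ : E) = x := by
    have h1 := gam_flow F x u D (-D)
    rw [add_neg_cancel, gam_zero he] at h1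
    have h2 : (D • w₀ : E) = -D • vel e x u D := by rw [hw₀d, smul_neg, neg_smul]
    refine (congrArg (e y) h2).trans ?_
    rw [← hy]
    exact h1
  have hww : ip y w₀ w₀ = 1 := by rw [ip_self, hw₀]; norm_num
  -- the fixed space
  let A : E →ₗ[ℝ] E :=
    { toFun := fun a => a - ip y w₀ a • w₀
      map_add' := fun a b => by rw [refl_ip_add_right, add_smul]; abel
      map_smul' := fun c a => by
        rw [ip_smul_right, RingHom.id_apply, smul_sub, smul_smul] }
  have hA : ∀ a, A a = a - ip y w₀ a • w₀ := fun a => rfl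
  have hAw : ∀ a, ip y w₀ (A a) = 0 := by
    intro a
    rw [hA, sub_eq_add_neg, ← neg_smul, refl_ip_add_right, ip_smul_right, hww]
    ring
  let T : E →ₗ[ℝ] E := dEl e y (D • w₀) ∘ₗ A
  have hT : ∀ a, T a = dE e y (D • w₀) (A a) := fun a => rfl
  have hTk : LinearMap.ker T ≤ Submodule.span ℝ {w₀} ⊔ LinearMap.range (P y w₀) := by
    intro a ha
    rw [LinearMap.mem_ker, hT] at ha
    have h1 := ((hP y).ker w₀ (A a) hw₀).1 ha
    have h2 : a = ip y w₀ a • w₀ + P y w₀ (A a) := by rw [h1, hA]; abel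
    rw [h2]
    exact Submodule.add_mem_sup (Submodule.smul_mem _ _ (Submodule.mem_span_singleton_self w₀))
      ⟨_, rfl⟩
  have hTd : finrank ℝ E ≤ finrank ℝ (LinearMap.range T) + (l + 1) := by
    have h1 := Submodule.finrank_mono hTk
    have h2 := Submodule.finrank_add_le_finrank_add_finrank (Submodule.span ℝ {w₀})
      (LinearMap.range (P y w₀))
    have h3 := (hP y).rank w₀ hw₀
    have h4 := LinearMap.finrank_range_add_finrank_ker T
    have h5 : finrank ℝ (Submodule.span ℝ {w₀}) ≤ 1 := by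
      have := finrank_span_le_card (R := ℝ) ({w₀} : Set E)
      simpa only [ge_iff_le, toFinset_singleton, Finset.card_singleton] using this
    omega
  exact refl_alg (V := TangentSpace 𝓘(ℝ, E) x) u (P x u) L hu (fun w => (hP x).idem u w hu)
    (fun a b => (hP x).symm u a b hu) (fun w => (hP x).perp u w hu) hLi hLu hLk
    (LinearMap.range T) (by
      rintro z ⟨a, rfl⟩
      exact refl_pos F hD hcl hw₀ hx hτ hL (hAw a)) ((hP x).rank u hu) hTd v

theorem refl_same_point [CompactSpace M] (F : Facts e) {D : ℝ} (hD : 0 < D)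
    (hcl : ∀ (x : M) (v : E), nm x v = 2 * D → e x v = x) {l : ℕ} {x : M}
    {P : E → E →ₗ[ℝ] E} (hP : PData e D l x P) {u u' : E} (hu : nm x u = 1) (hu' : nm x u' = 1)
    (huu' : u' = ip x u u' • u + P u u') : e x (D • u' : E) = e x (D • u : E) := by
  set α : ℝ := ip x u u' with hα
  set k₀ : E := P u u' with hk₀
  have huu : ip x u u = 1 := by rw [ip_self, hu]; norm_num
  have huk₀ : ip x u k₀ = 0 := by rw [refl_ip_comm]; exact hP.perp u u' hu
  have hk₀u : ip x k₀ u = 0 := hP.perp u u' hu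
  have hPk₀ : P u k₀ = k₀ := hP.idem u u' hu
  have hsq : α ^ 2 + nm x k₀ ^ 2 = 1 := by
    have h1 : ip x u' u' = 1 := by rw [ip_self, hu']; norm_num
    rw [huu'] at h1
    simp only [ip_add_left, refl_ip_add_right, refl_ip_smul_left, ip_smul_right, huu, huk₀, hk₀u,
      ip_self x k₀] at h1
    linear_combination h1
  rcases eq_or_ne (nm x k₀) 0 with h0 | h0
  · have hk0 : k₀ = 0 := refl_ip_eq_zero x (by rw [ip_self, h0]; norm_num)
    rw [h0] at hsq
    have h1 : (α - 1) * (α + 1) = 0 := by linear_combination hsq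
    rcases mul_eq_zero.1 h1 with h2 | h2
    · have h3 : u' = u := by
        rw [huu', hk0, sub_eq_zero.1 h2, one_smul, add_zero]
      rw [h3]
    · have h3 : u' = -u := by
        rw [huu', hk0, eq_neg_of_add_eq_zero_left h2, neg_smul, one_smul, add_zero]
      rw [h3, smul_neg]
      exact refl_exp_neg F hD hcl hu
  · set k : E := (nm x k₀)⁻¹ • k₀ with hk
    have hkn : nm x k = 1 := by
      rw [hk, nm_smul, abs_of_nonneg (inv_nonneg.2 (nm_nonneg x k₀)), inv_mul_cancel₀ h0]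
    have huk : ip x u k = 0 := by rw [hk, ip_smul_right, huk₀, mul_zero]
    have hPk : P u k = k := by rw [hk, map_smul, hPk₀]
    obtain ⟨θ, hθ1, hθ2⟩ : ∃ θ : ℝ, Real.cos θ = α ∧ Real.sin θ = nm x k₀ := by
      have h1 : ‖(⟨α, nm x k₀⟩ : ℂ)‖ = 1 := by
        have h2 : ‖(⟨α, nm x k₀⟩ : ℂ)‖ ^ 2 = 1 := by
          rw [Complex.sq_norm, Complex.normSq_mk]
          linear_combination hsq
        have h3 := norm_nonneg (⟨α, nm x k₀⟩ : ℂ)
        nlinarith only [h2, h3]
      have h4 : (⟨α, nm x k₀⟩ : ℂ) ≠ 0 := by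
        intro h5
        rw [h5] at h1
        simp at h1
      refine ⟨Complex.arg ⟨α, nm x k₀⟩, ?_, ?_⟩
      · rw [Complex.cos_arg h4, h1, div_one]
      · rw [Complex.sin_arg, h1, div_one]
    have h := hP.exp_const F hD hu hkn huk hPk θ
    rw [← h]
    have h2 : u' = Real.cos θ • u + Real.sin θ • k := by
      rw [hθ1, hθ2, hk, smul_smul, mul_inv_cancel₀ h0, one_smul]
      exact huu'
    rw [← h2]

/-- the geodesic symmetry at `y = e x (D u)` and its linear part at `x` -/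
theorem refl_exists [CompactSpace M] [ConnectedSpace M] [IsRiemannianManifold 𝓘(ℝ, E) M]
    (F : Facts e) {D : ℝ} (hD : 0 < D)
    (hcl : ∀ (x : M) (v : E), nm x v = 2 * D → e x v = x)
    (hσ : ∀ p : M, ∃ σ : M ≃ᵢ M, ∀ v : E, σ (e p v) = e p (-v : E)) (x : M) {u : E}
    (hu : nm x u = 1) :
    ∃ (τ : M ≃ᵢ M) (L : E ≃ₗ[ℝ] E), (∀ w : E, τ (e (e x (D • u : E)) w) =
      e (e x (D • u : E)) (-w : E)) ∧ (∀ v w, ip x (L v) (L w) = ip x v w) ∧
      ∀ v : E, τ (e x v) = e x (L v : E) := by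
  have he := F.isExp
  obtain ⟨τ, hτ⟩ := hσ (e x (D • u : E))
  have hx : τ x = x := by
    have h1 := gam_flow F x u D (-D)
    rw [add_neg_cancel, gam_zero he] at h1
    have h2 := gam_flow F x u D D
    have h3 : gam e x u (D + D) = x := by
      have h4 := gam_per F hD.le hcl x u hu 0
      rw [zero_add, gam_zero he] at h4
      rwa [← two_mul]
    rw [h3] at h2
    have h5 := hτ (-D • vel e x u D)
    have h6 : (-(-D • vel e x u D) : E) = D • vel e x u D := by rw [neg_smul, neg_neg]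
    have h7 : e (e x (D • u : E)) (-(-D • vel e x u D) : E) = x :=
      (congrArg (e (e x (D • u : E))) h6).trans h2
    have h8 : e (e x (D • u : E)) (-D • vel e x u D : E) = x := h1
    rw [h7, h8] at h5
    exact h5
  obtain ⟨L, hL1, hL2⟩ := isometry_linear F τ x
  refine ⟨τ, L, hτ, ?_, ?_⟩
  · intro v w
    have h1 := hL1 v w
    rwa [hx] at h1
  · intro v
    have h1 := hL2 v
    rwa [hx] at h1

theorem PData.reflection [CompactSpace M] [ConnectedSpace M] [IsRiemannianManifold 𝓘(ℝ, E) M]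
    (F : Facts e) {D : ℝ} (hD : 0 < D) (hB : InjGE e D)
    (hcl : ∀ (x : M) (v : E), nm x v = 2 * D → e x v = x) {N l : ℕ}
    (hN : finrank ℝ E = N + 1) {P : ∀ _ : M, E → E →ₗ[ℝ] E} (hP : ∀ x, PData e D l x (P x))
    (hσ : ∀ p : M, ∃ σ : M ≃ᵢ M, ∀ v : E, σ (e p v) = e p (-v)) (x : M) {u : E}
    (hu : nm x u = 1) :
    ∃ σ : M ≃ᵢ M, ∀ v : E, σ (e x v) = e x (-v + (2 : ℝ) • (ip x u v • u + P x u v) : E) := by
  obtain ⟨τ, L, hτ, hLi, hL⟩ := refl_exists F hD hcl hσ x hu
  obtain ⟨s, hs⟩ := hσ x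
  refine ⟨τ.trans s, fun v => ?_⟩
  have h1 := refl_core F hD hcl hP hu rfl (τ := τ) hτ (L := L.toLinearMap) hL hLi v
  have h2 : (τ.trans s) (e x v) = s (τ (e x v)) := rfl
  rw [h2, hL v, hs]
  have h3 : (-(L v) : E) = -v + (2 : ℝ) • (ip x u v • u + P x u v) := by
    have h4 : L v = v - (2 : ℝ) • (ip x u v • u + P x u v) := h1
    rw [h4]
    abel
  exact congrArg (e x) h3

theorem PData.same [CompactSpace M] [ConnectedSpace M] [IsRiemannianManifold 𝓘(ℝ, E) M]
    (F : Facts e) {D : ℝ} (hD : 0 < D) (hB : InjGE e D)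
    (hcl : ∀ (x : M) (v : E), nm x v = 2 * D → e x v = x) {N l : ℕ}
    (hN : finrank ℝ E = N + 1) {P : ∀ _ : M, E → E →ₗ[ℝ] E} (hP : ∀ x, PData e D l x (P x))
    (hσ : ∀ p : M, ∃ σ : M ≃ᵢ M, ∀ v : E, σ (e p v) = e p (-v)) (x : M) {u u' z : E}
    (hu : nm x u = 1) (hu' : nm x u' = 1) (huu' : u' = ip x u u' • u + P x u u')
    (hz : ip x u z = 0) (hz' : P x u z = 0) : ip x u' z = 0 ∧ P x u' z = 0 := by
  obtain ⟨τ, L, hτ, hLi, hL⟩ := refl_exists F hD hcl hσ x hu
  have h1 := refl_core F hD hcl hP hu rfl (τ := τ) hτ (L := L.toLinearMap) hL hLi z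
  have h2 := refl_core F hD hcl hP hu' (refl_same_point F hD hcl (hP x) hu hu' huu')
    (τ := τ) hτ (L := L.toLinearMap) hL hLi z
  rw [h1, hz, hz', zero_smul, add_zero, smul_zero, sub_zero] at h2
  have h3 : ip x u' z • u' + P x u' z = 0 := by
    have h4 : (2 : ℝ) • (ip x u' z • u' + P x u' z) = 0 := by
      have h5 := sub_eq_self.1 h2.symm
      exact h5
    exact (smul_eq_zero.1 h4).resolve_left (by norm_num)
  have h6 : ip x u' z = 0 := by
    have h7 : ip x u' (ip x u' z • u' + P x u' z) = ip x u' z := by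
      rw [refl_ip_add_right, ip_smul_right, ip_self, hu', refl_ip_comm x u' (P x u' z),
        (hP x).perp u' z hu']
      ring
    rw [h3] at h7
    have h8 : ip x u' (0 : E) = 0 := by
      have := ip_smul_right x 0 u' (0 : E)
      rwa [zero_smul, zero_mul] at this
    rw [← h7, h8]
  refine ⟨h6, ?_⟩
  rwa [h6, zero_smul, zero_add] at h3

end

end Vale.Agent.P231
end
end

section

section

/-! P231, homogeneity: the case `l = N` (the isometry group is transitive on the unit spheres). -/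

set_option maxSynthPendingDepth 3
set_option linter.unusedSectionVars false

open Bundle Manifold Set Filter MeasureTheory Module
open scoped ContDiff Manifold Topology ENNReal

namespace Vale.Agent.P231

noncomputable section

open Vale.Agent.P234

/-! ### abstract projections -/

section Abstract

variable {V : Type*} [NormedAddCommGroup V] [InnerProductSpace ℝ V] [FiniteDimensional ℝ V]

theorem sph_rank_le {N : ℕ} (hV : finrank ℝ V = N + 1) {p : V →ₗ[ℝ] V} {u : V} (hu : ‖u‖ = 1)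
    (hperp : ∀ w, inner ℝ (p w) u = 0) :
    LinearMap.range p ≤ (ℝ ∙ u)ᗮ ∧ finrank ℝ ((ℝ ∙ u)ᗮ : Submodule ℝ V) = N := by
  have : Fact (finrank ℝ V = N + 1) := ⟨hV⟩
  have hu0 : u ≠ 0 := by
    rintro rfl
    rw [norm_zero] at hu
    exact zero_ne_one hu
  refine ⟨?_, Submodule.finrank_orthogonal_span_singleton hu0⟩
  rintro _ ⟨w, rfl⟩
  rw [Submodule.mem_orthogonal_singleton_iff_inner_left]
  exact hperp w

theorem sph_full {N : ℕ} (hV : finrank ℝ V = N + 1) {p : V →ₗ[ℝ] V} {u : V} (hu : ‖u‖ = 1)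
    (hidem : ∀ w, p (p w) = p w) (hperp : ∀ w, inner ℝ (p w) u = 0)
    (hrank : finrank ℝ (LinearMap.range p) = N) {w : V} (hw : inner ℝ u w = 0) : p w = w := by
  obtain ⟨h1, h2⟩ := sph_rank_le hV hu hperp
  have h3 : LinearMap.range p = (ℝ ∙ u)ᗮ :=
    Submodule.eq_of_le_of_finrank_eq h1 (by rw [hrank, h2])
  have h4 : w ∈ LinearMap.range p := by
    rw [h3, Submodule.mem_orthogonal_singleton_iff_inner_right]
    exact hw
  obtain ⟨z, rfl⟩ := h4
  exact hidem z

theorem sph_exists {N l : ℕ} (hV : finrank ℝ V = N + 1) {p : V →ₗ[ℝ] V} {u : V}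
    (hidem : ∀ w, p (p w) = p w) (hsymm : ∀ a b, inner ℝ (p a) b = inner ℝ a (p b))
    (hrank : finrank ℝ (LinearMap.range p) = l) (hl : l < N) :
    ∃ z, ‖z‖ = 1 ∧ inner ℝ u z = 0 ∧ p z = 0 := by
  set W : Submodule ℝ V := (ℝ ∙ u) ⊔ LinearMap.range p with hW
  have h1 : finrank ℝ W ≤ 1 + l := by
    refine (Submodule.finrank_add_le_finrank_add_finrank _ _).trans ?_
    rw [hrank]
    refine Nat.add_le_add_right ?_ l
    exact (finrank_span_le_card ({u} : Set V)).trans (by simp)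
  have h2 : finrank ℝ W + finrank ℝ Wᗮ = finrank ℝ V := Submodule.finrank_add_finrank_orthogonal W
  have h3 : 0 < finrank ℝ Wᗮ := by omega
  obtain ⟨z, hz⟩ := Module.finrank_pos_iff_exists_ne_zero.1 h3
  have hz0 : (z : V) ≠ 0 := fun h => hz (Subtype.ext h)
  have hzW : ∀ w ∈ W, inner ℝ w (z : V) = 0 := fun w hw =>
    (Submodule.mem_orthogonal W (z : V)).1 z.2 w hw
  have hu : inner ℝ u (z : V) = 0 :=
    hzW u (Submodule.mem_sup_left (Submodule.mem_span_singleton_self u))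
  have hp : p (z : V) = 0 := by
    have h4 : inner ℝ (p (z : V)) (p (z : V)) = 0 := by
      rw [← hsymm, hidem]
      exact hzW _ (Submodule.mem_sup_right ⟨_, rfl⟩)
    exact inner_self_eq_zero.1 h4
  refine ⟨(‖(z : V)‖)⁻¹ • (z : V), ?_, ?_, ?_⟩
  · rw [norm_smul, norm_inv, norm_norm, inv_mul_cancel₀ (norm_ne_zero_iff.2 hz0)]
  · rw [inner_smul_right, hu, mul_zero]
  · rw [map_smul, hp, smul_zero]

end Abstract

variable {E : Type*} [NormedAddCommGroup E] [NormedSpace ℝ E] [FiniteDimensional ℝ E]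
  {M : Type*} [MetricSpace M] [ChartedSpace E M]
  [RiemannianBundle (fun x : M => TangentSpace 𝓘(ℝ, E) x)]
  [IsManifold 𝓘(ℝ, E) ∞ M]
  [IsContMDiffRiemannianBundle 𝓘(ℝ, E) ∞ E (fun x : M => TangentSpace 𝓘(ℝ, E) x)]
  {e : ∀ x : M, TangentSpace 𝓘(ℝ, E) x → M}

/-! ### transfer to Euclidean coordinates -/

omit [IsManifold 𝓘(ℝ, E) ∞ M]
  [IsContMDiffRiemannianBundle 𝓘(ℝ, E) ∞ E (fun x : M => TangentSpace 𝓘(ℝ, E) x)] in
theorem sph_fr_trP (x : M) (P : E → E →ₗ[ℝ] E) (a b : Eu E) :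
    fr x (trP x P a b) = P (fr x a) (fr x b) := by
  unfold trP
  simp only [ContinuousLinearEquiv.toLinearEquiv_symm, LinearMap.coe_comp, LinearEquiv.coe_coe, ContinuousLinearEquiv.coe_symm_toLinearEquiv, ContinuousLinearEquiv.coe_toLinearEquiv, Function.comp_apply, ContinuousLinearEquiv.apply_symm_apply]

omit [IsManifold 𝓘(ℝ, E) ∞ M]
  [IsContMDiffRiemannianBundle 𝓘(ℝ, E) ∞ E (fun x : M => TangentSpace 𝓘(ℝ, E) x)] in
theorem sph_ip_symm (x : M) (v w : E) :
    ip x v w = inner ℝ ((fr x).symm v) ((fr x).symm w : Eu E) := by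
  rw [← ip_fr x, ContinuousLinearEquiv.apply_symm_apply, ContinuousLinearEquiv.apply_symm_apply]

omit [IsManifold 𝓘(ℝ, E) ∞ M]
  [IsContMDiffRiemannianBundle 𝓘(ℝ, E) ∞ E (fun x : M => TangentSpace 𝓘(ℝ, E) x)] in
theorem sph_nm_symm (x : M) (v : E) : nm x v = ‖((fr x).symm v : Eu E)‖ := by
  rw [← nm_fr x, ContinuousLinearEquiv.apply_symm_apply]

omit [IsManifold 𝓘(ℝ, E) ∞ M]
  [IsContMDiffRiemannianBundle 𝓘(ℝ, E) ∞ E (fun x : M => TangentSpace 𝓘(ℝ, E) x)] in
theorem sph_rank_trP (x : M) (P : E → E →ₗ[ℝ] E) (a : Eu E) :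
    finrank ℝ (LinearMap.range (trP x P a)) = finrank ℝ (LinearMap.range (P (fr x a))) := by
  unfold trP
  rw [← LinearMap.comp_assoc, LinearMap.range_comp_of_range_eq_top _
    (LinearEquiv.range _), LinearMap.range_comp]
  exact LinearEquiv.finrank_map_eq _ _

section Data

variable {D : ℝ} {l : ℕ} {x : M} {P : E → E →ₗ[ℝ] E}

theorem PData.sph_idem (hP : PData e D l x P) {a : Eu E} (ha : ‖a‖ = 1) (b : Eu E) :
    trP x P a (trP x P a b) = trP x P a b := by
  apply (fr x).injective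
  rw [sph_fr_trP, sph_fr_trP]
  exact hP.idem _ _ (by rw [nm_fr, ha])

theorem PData.sph_symm (hP : PData e D l x P) {a : Eu E} (ha : ‖a‖ = 1) (b c : Eu E) :
    inner ℝ (trP x P a b) c = inner ℝ b (trP x P a c) := by
  rw [← ip_fr x, ← ip_fr x, sph_fr_trP, sph_fr_trP]
  exact hP.symm _ _ _ (by rw [nm_fr, ha])

theorem PData.sph_perp (hP : PData e D l x P) {a : Eu E} (ha : ‖a‖ = 1) (b : Eu E) :
    inner ℝ (trP x P a b) a = 0 := by
  rw [← ip_fr x, sph_fr_trP]
  exact hP.perp _ _ (by rw [nm_fr, ha])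

theorem PData.sph_rank (hP : PData e D l x P) {a : Eu E} (ha : ‖a‖ = 1) :
    finrank ℝ (LinearMap.range (trP x P a)) = l := by
  rw [sph_rank_trP]
  exact hP.rank _ (by rw [nm_fr, ha])

/-- if `l = N` the projections are the orthogonal projections along `u` -/
theorem PData.sph_full {N : ℕ} (hN : finrank ℝ E = N + 1) (hP : PData e D N x P) {u w : E}
    (hu : nm x u = 1) (huw : ip x u w = 0) : P u w = w := by
  have hV : finrank ℝ (Eu E) = N + 1 := by rw [finrank_euclideanSpace_fin, hN]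
  have ha : ‖((fr x).symm u : Eu E)‖ = 1 := by rw [← sph_nm_symm, hu]
  have h := Vale.Agent.P231.sph_full hV ha (fun w => hP.sph_idem ha w)
    (fun w => hP.sph_perp ha w) (hP.sph_rank ha) (w := (fr x).symm w)
    (by rw [← sph_ip_symm, huw])
  have h2 := congrArg (fr x) h
  rw [sph_fr_trP, ContinuousLinearEquiv.apply_symm_apply,
    ContinuousLinearEquiv.apply_symm_apply] at h2
  exact h2

end Data

/-! ### the metric in normal coordinates, `l = N` -/

section Metric

theorem sph_jf_zero (F : Facts e) (x : M) (u : E) (r : ℝ) (w : E) :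
    jf e x u 0 r w = r • dE e x (r • u) w := by
  unfold jf
  rw [gam_zero F.isExp, vel_zero F.isExp, sub_zero]

theorem sph_ip_smul_left (x : M) (r : ℝ) (a b : E) : ip x (r • a) b = r * ip x a b :=
  real_inner_smul_left (F := TangentSpace 𝓘(ℝ, E) x) a b r

theorem sph_ip_smul_right (x : M) (r : ℝ) (a b : E) : ip x a (r • b) = r * ip x a b :=
  real_inner_smul_right (F := TangentSpace 𝓘(ℝ, E) x) a b r

theorem sph_ip_add_left (x : M) (a b c : E) : ip x (a + b) c = ip x a c + ip x b c :=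
  inner_add_left (E := TangentSpace 𝓘(ℝ, E) x) (𝕜 := ℝ) a b c

theorem sph_ip_add_right (x : M) (a b c : E) : ip x a (b + c) = ip x a b + ip x a c :=
  inner_add_right (E := TangentSpace 𝓘(ℝ, E) x) (𝕜 := ℝ) a b c

theorem sph_ip_sub_right (x : M) (a b c : E) : ip x a (b - c) = ip x a b - ip x a c :=
  inner_sub_right (E := TangentSpace 𝓘(ℝ, E) x) (𝕜 := ℝ) a b c

theorem sph_ip_comm (x : M) (a b : E) : ip x a b = ip x b a :=
  real_inner_comm (F := TangentSpace 𝓘(ℝ, E) x) _ _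

theorem sph_split [CompactSpace M] (F : Facts e) (x : M) (u : E) (hu : nm x u = 1) {r : ℝ}
    (hr : 0 < r) (a : ℝ) (w : E) (hw : ip x w u = 0) :
    nm (gam e x u r) (dE e x (r • u) (a • u + w)) ^ 2 =
      a ^ 2 + nm (gam e x u r) (dE e x (r • u) w) ^ 2 := by
  have hg := gauss F x u hu 0 r w
  rw [gam_zero F.isExp, vel_zero F.isExp, hw, mul_zero, sph_jf_zero F, sph_ip_smul_left] at hg
  have hg' : ip (gam e x u r) (dE e x (r • u) w) (vel e x u r) = 0 :=
    (mul_eq_zero.mp hg).resolve_left hr.ne'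
  have e1 : dE e x (r • u) (a • u + w) = a • vel e x u r + dE e x (r • u) w := by
    rw [dE_add, dE_smul]
    rfl
  have hv : nm (gam e x u r) (vel e x u r) = 1 := (nm_vel F x u r).trans hu
  rw [e1, ← ip_self, sph_ip_add_left, sph_ip_add_right, sph_ip_add_right, sph_ip_smul_left,
    sph_ip_smul_right, ip_self, hv, sph_ip_smul_left, sph_ip_smul_right,
    sph_ip_comm _ (vel e x u r), hg', ip_self]
  ring

/-- the model formula -/
def sphG (D r a q : ℝ) : ℝ :=
  a ^ 2 + (Real.sin (Real.pi * r / (2 * D)) / (Real.pi * r / (2 * D))) ^ 2 *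
    (1 - Real.sin (Real.pi * r / (2 * D)) ^ 2) * (q ^ 2 - a ^ 2)

theorem sph_metric [CompactSpace M] (F : Facts e) {D : ℝ} {N : ℕ}
    (hN : finrank ℝ E = N + 1) {x : M} {P : E → E →ₗ[ℝ] E} (hP : PData e D N x P) {v : E}
    (hv0 : 0 < nm x v) (hvD : nm x v < D) (w : E) :
    nm (e x v) (dE e x v w) ^ 2 = sphG D (nm x v) ((nm x v)⁻¹ * ip x v w) (nm x w) := by
  set r := nm x v with hr
  set u : E := r⁻¹ • v with hu_def
  have hu : nm x u = 1 := by
    rw [hu_def, nm_smul, abs_of_pos (inv_pos.mpr hv0), ← hr]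
    exact inv_mul_cancel₀ hv0.ne'
  have hv1 : r • u = v := by rw [hu_def, smul_smul, mul_inv_cancel₀ hv0.ne', one_smul]
  set a := ip x u w with ha
  have ha' : r⁻¹ * ip x v w = a := by rw [ha, hu_def, sph_ip_smul_left]
  set w' : E := w - a • u with hw'
  have hw'u : ip x u w' = 0 := by
    rw [hw', sph_ip_sub_right, sph_ip_smul_right, ip_self, hu, ← ha]
    ring
  have hw : w = a • u + w' := by rw [hw']; abel
  have h1 := sph_split F x u hu hv0 a w' (by rw [sph_ip_comm, hw'u])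
  rw [← hw] at h1
  have h2 := hP.gram u w' hu hw'u r ⟨hv0, hvD⟩
  rw [hP.sph_full hN hu hw'u] at h2
  have h3 : nm x w ^ 2 = a ^ 2 + nm x w' ^ 2 := by
    rw [← ip_self, hw, sph_ip_add_left, sph_ip_add_right, sph_ip_add_right, sph_ip_smul_left,
      sph_ip_smul_right, ip_self, hu, sph_ip_smul_left, sph_ip_smul_right,
      sph_ip_comm x w' u, hw'u, ip_self]
    ring
  have h4 : gam e x u r = e x (r • u : E) := rfl
  rw [h4] at h1
  have hφ : ∀ z z' : E, z = z' → nm (e x z) (dE e x z w) = nm (e x z') (dE e x z' w) := by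
    rintro z z' rfl
    rfl
  rw [← hφ _ _ hv1, h1, h2, ha']
  unfold sphG
  rw [h3]
  ring

/-- all unit vectors have the same endpoint at distance `D` -/
theorem sph_const [CompactSpace M] [ConnectedSpace M] [IsRiemannianManifold 𝓘(ℝ, E) M]
    (F : Facts e) {D : ℝ} (hD : 0 < D)
    (hcl : ∀ (x : M) (v : E), nm x v = 2 * D → e x v = x) {N : ℕ}
    (hN : finrank ℝ E = N + 1) {x : M} {P : E → E →ₗ[ℝ] E} (hP : PData e D N x P)
    {u u' : E} (hu : nm x u = 1) (hu' : nm x u' = 1) :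
    e x (D • u' : E) = e x (D • u : E) := by
  set c := ip x u u' with hc
  set w : E := u' - c • u with hw
  have hwu : ip x u w = 0 := by
    rw [hw, sph_ip_sub_right, sph_ip_smul_right, ip_self, hu, ← hc]
    ring
  have hu'w : u' = c • u + w := by rw [hw]; abel
  have hnorm : c ^ 2 + nm x w ^ 2 = 1 := by
    have h1 : nm x u' ^ 2 = c ^ 2 + nm x w ^ 2 := by
      rw [← ip_self, hu'w, sph_ip_add_left, sph_ip_add_right, sph_ip_add_right, sph_ip_smul_left,
        sph_ip_smul_right, ip_self, hu, sph_ip_smul_left, sph_ip_smul_right,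
        sph_ip_comm x w u, hwu, ip_self]
      ring
    rw [← h1, hu', one_pow]
  by_cases h0 : nm x w = 0
  · have hw0 : w = 0 := norm_eq_zero (E := TangentSpace 𝓘(ℝ, E) x) |>.mp h0
    rw [h0, zero_pow two_ne_zero, add_zero] at hnorm
    rw [hw0, add_zero] at hu'w
    have hmul : (c - 1) * (c + 1) = 0 := by linarith
    rcases mul_eq_zero.1 hmul with h | h
    · have hc1 : c = 1 := by linarith only [h]
      rw [hc1, one_smul] at hu'w
      rw [hu'w]
    · have hc1 : c = -1 := by linarith only [h]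
      rw [hc1, neg_one_smul] at hu'w
      have h1 : nm x (D • u) = D := by rw [nm_smul, hu, mul_one, abs_of_pos hD]
      have h2 := symm_antipode F hD hcl x (D • u) h1
      rw [hu'w, smul_neg]
      exact h2
  · have hpos : 0 < nm x w := lt_of_le_of_ne (nm_nonneg x w) (Ne.symm h0)
    set k : E := (nm x w)⁻¹ • w with hk_def
    have hk : nm x k = 1 := by
      rw [hk_def, nm_smul, abs_of_pos (inv_pos.mpr hpos)]
      exact inv_mul_cancel₀ h0
    have huk : ip x u k = 0 := by rw [hk_def, sph_ip_smul_right, hwu, mul_zero]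
    have hPk : P u k = k := hP.sph_full hN hu huk
    have hwk : w = nm x w • k := by rw [hk_def, smul_smul, mul_inv_cancel₀ h0, one_smul]
    have hcos : Real.cos (Real.arccos c) = c :=
      Real.cos_arccos (by nlinarith only [hnorm]) (by nlinarith only [hnorm])
    have hsin : Real.sin (Real.arccos c) = nm x w := by
      rw [Real.sin_arccos]
      have : 1 - c ^ 2 = nm x w ^ 2 := by linarith only [hnorm]
      rw [this, Real.sqrt_sq hpos.le]
    have h := hP.exp_const F hD hu hk huk hPk (Real.arccos c)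
    rw [hcos, hsin, ← hwk, ← hu'w] at h
    exact h

end Metric

/-! ### transitivity -/

/-- a linear map, given in orthonormal coordinates -/
def sphL (x : M) (R : Eu E ≃ₗᵢ[ℝ] Eu E) : E →ₗ[ℝ] E :=
  (fr x : Eu E ≃L[ℝ] E).toLinearEquiv.toLinearMap ∘ₗ R.toLinearEquiv.toLinearMap ∘ₗ
    (fr x : Eu E ≃L[ℝ] E).symm.toLinearEquiv.toLinearMap

theorem sphL_apply (x : M) (R : Eu E ≃ₗᵢ[ℝ] Eu E) (v : E) :
    sphL x R v = fr x (R ((fr x).symm v)) := rfl

theorem sphL_ip (x : M) (R : Eu E ≃ₗᵢ[ℝ] Eu E) (v w : E) :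
    ip x (sphL x R v) (sphL x R w) = ip x v w := by
  rw [sphL_apply, sphL_apply, ip_fr, LinearIsometryEquiv.inner_map_map, ← sph_ip_symm]

theorem sphL_nm (x : M) (R : Eu E ≃ₗᵢ[ℝ] Eu E) (v : E) : nm x (sphL x R v) = nm x v := by
  rw [sphL_apply, nm_fr, LinearIsometryEquiv.norm_map, ← sph_nm_symm]

theorem sphere_transitive [CompactSpace M] [ConnectedSpace M] [IsRiemannianManifold 𝓘(ℝ, E) M]
    (F : Facts e) {D : ℝ} (hD : 0 < D) (hB : InjGE e D) (hd : ∀ x y : M, dist x y ≤ D)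
    (hcl : ∀ (x : M) (v : E), nm x v = 2 * D → e x v = x) {N : ℕ}
    (hN : finrank ℝ E = N + 1) {x : M} {P : E → E →ₗ[ℝ] E} (hP : PData e D N x P)
    {u u' : E} (hu : nm x u = 1) (hu' : nm x u' = 1) :
    ∃ σ : M ≃ᵢ M, ∀ r : ℝ, σ (e x (r • u : E)) = e x (r • u' : E) := by
  set a : Eu E := (fr x).symm u with ha
  set a' : Eu E := (fr x).symm u' with ha'
  have hna : ‖a‖ = ‖a'‖ := by rw [ha, ha', ← sph_nm_symm, ← sph_nm_symm, hu, hu']
  set R : Eu E ≃ₗᵢ[ℝ] Eu E := (ℝ ∙ (a - a'))ᗮ.reflection with hR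
  have hRa : R a = a' := Submodule.reflection_sub hna
  have hRR : ∀ b, R (R b) = b := fun b => Submodule.reflection_reflection _ b
  set L := sphL x R with hL
  have hLL : ∀ v, L (L v) = v := by
    intro v
    rw [hL, sphL_apply, sphL_apply, ContinuousLinearEquiv.symm_apply_apply, hRR,
      ContinuousLinearEquiv.apply_symm_apply]
  have hLu : L u = u' := by
    rw [hL, sphL_apply, ← ha, hRa, ha', ContinuousLinearEquiv.apply_symm_apply]
  have hconst : ∀ v v' : E, nm x v = D → nm x v' = D → e x v = e x v' := by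
    intro v v' hv hv'
    have h1 : ∀ v : E, nm x v = D → nm x (D⁻¹ • v) = 1 ∧ D • (D⁻¹ • v) = v := fun v hv => by
      refine ⟨?_, ?_⟩
      · rw [nm_smul, hv, abs_of_pos (inv_pos.2 hD), inv_mul_cancel₀ hD.ne']
      · rw [smul_smul, mul_inv_cancel₀ hD.ne', one_smul]
    have h2 := sph_const F hD hcl hN hP (h1 v' hv').1 (h1 v hv).1
    rw [(h1 v hv).2, (h1 v' hv').2] at h2
    exact h2
  obtain ⟨σ, h1, h2⟩ := exists_lipschitz_map F hD hB hd hcl x x L (fun v => sphL_nm x R v)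
    (fun v hv w => by
      rcases (nm_nonneg x v).eq_or_lt with h0 | h0
      · have hv0 : v = 0 := norm_eq_zero (E := TangentSpace 𝓘(ℝ, E) x) |>.mp h0.symm
        subst hv0
        have h3 : L 0 = 0 := map_zero L
        rw [h3, dE_zero_base F.isExp, dE_zero_base F.isExp]
        have h4 : e x (0 : E) = x := F.isExp.map_zero x
        have h5 : nm (e x (0 : E)) (L w) = nm x (L w) := by rw [h4]
        have h6 : nm (e x (0 : E)) w = nm x w := by rw [h4]
        rw [h5, h6]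
        exact sphL_nm x R w
      · have h3 := sph_metric F hN hP h0 hv w
        have h4 := sph_metric F hN hP (v := L v) (by rw [hL, sphL_nm]; exact h0)
          (by rw [hL, sphL_nm]; exact hv) (L w)
        rw [hL, sphL_nm, sphL_nm, sphL_ip, ← h3] at h4
        exact (sq_eq_sq₀ (nm_nonneg _ _) (nm_nonneg _ _)).1 h4)
    (fun v v' hv hv' => by
      have h3 : e x (L v) = e x (L v') := hconst _ _ ((sphL_nm x R v).trans hv)
        ((sphL_nm x R v').trans hv')
      have h4 : e x v = e x v' := hconst _ _ hv hv'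
      rw [h3, h4, dist_self, dist_self])
  have h2' : ∀ v : TangentSpace 𝓘(ℝ, E) x, σ (e x v) = e x (L v) := fun v => h2 v
  have hinv : ∀ y, σ (σ y) = y := by
    intro y
    obtain ⟨v, hv, -⟩ := F.hopfRinow x y
    have h3 : σ (e x (L v)) = e x (L (L v)) := h2 (L v)
    have h4 : e x (L (L v) : E) = e x (v : E) := congrArg (e x) (hLL v)
    rw [← hv, h2', h3, h4]
  refine ⟨IsometryEquiv.mk' σ σ hinv ?_, fun r => ?_⟩
  · refine Isometry.of_dist_eq fun y z => le_antisymm (h1 y z) ?_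
    have h3 := h1 (σ y) (σ z)
    rwa [hinv, hinv] at h3
  · have h3 : σ (e x (r • u : E)) = e x (L (r • u)) := h2 (r • u)
    have h4 : L (r • u) = r • u' := by rw [map_smul, hLu]
    rw [h4] at h3
    exact h3

end

end Vale.Agent.P231
end
end

section

section

/-! P231, homogeneity: two-point homogeneity. -/

set_option maxSynthPendingDepth 3
set_option linter.unusedSectionVars false

open Bundle Manifold Set Filter MeasureTheory Module
open scoped ContDiff Manifold Topology ENNReal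

namespace Vale.Agent.P231

noncomputable section

open Vale.Agent.P234

variable {E : Type*} [NormedAddCommGroup E] [NormedSpace ℝ E] [FiniteDimensional ℝ E]
  {M : Type*} [MetricSpace M] [ChartedSpace E M]
  [RiemannianBundle (fun x : M => TangentSpace 𝓘(ℝ, E) x)]
  [IsManifold 𝓘(ℝ, E) ∞ M]
  [IsContMDiffRiemannianBundle 𝓘(ℝ, E) ∞ E (fun x : M => TangentSpace 𝓘(ℝ, E) x)]
  {e : ∀ x : M, TangentSpace 𝓘(ℝ, E) x → M}

/-- Hopf-Rinow for raw vectors -/
theorem twoPoint_hopfRinow (F : Facts e) (x y : M) :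
    ∃ v : E, gam e x v 1 = y ∧ nm x v = dist x y := by
  obtain ⟨v, hv, hd⟩ := F.hopfRinow x y
  refine ⟨(v : E), ?_, hd.symm⟩
  rw [← hv]
  exact congrArg (e x) (one_smul ℝ v)

/-- geodesic symmetries act transitively -/
theorem twoPoint_transitive (F : Facts e)
    (hσ : ∀ p : M, ∃ σ : M ≃ᵢ M, ∀ v : E, σ (e p v) = e p (-v)) (x x' : M) :
    ∃ σ : M ≃ᵢ M, σ x = x' := by
  obtain ⟨v, hv, -⟩ := twoPoint_hopfRinow F x x'
  set y : M := gam e x v (1 / 2) with hy
  set w : E := vel e x v (1 / 2) with hw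
  obtain ⟨σ, hσ'⟩ := hσ y
  refine ⟨σ, ?_⟩
  have h1 : gam e y w (-(1 / 2)) = x := by
    rw [hy, hw, gam_flow F, add_neg_cancel, gam_zero F.isExp]
  have h2 : gam e y w (1 / 2) = x' := by
    rw [hy, hw, gam_flow F]
    have h3 : (1 / 2 + 1 / 2 : ℝ) = 1 := by norm_num
    rw [h3, hv]
  have h5 : σ (gam e y w (-(1 / 2))) = e y (-((-(1 / 2 : ℝ)) • w) : E) := hσ' _
  have h6 : (-((-(1 / 2 : ℝ)) • w) : E) = (1 / 2 : ℝ) • w := by rw [neg_smul, neg_neg]
  rw [h6, h1] at h5
  rw [h5]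
  exact h2

/-- a unit vector in the direction of `v` -/
theorem twoPoint_unit {N : ℕ} (hN : finrank ℝ E = N + 1) (x : M) (v : E) :
    ∃ u : E, nm x u = 1 ∧ v = nm x v • u := by
  rcases (nm_nonneg x v).eq_or_lt with h0 | h0
  · have hv0 : v = 0 := norm_eq_zero (E := TangentSpace 𝓘(ℝ, E) x) |>.mp h0.symm
    have h1 : 0 < finrank ℝ (Eu E) := by rw [finrank_euclideanSpace_fin, hN]; omega
    have : Nontrivial (Eu E) := Module.finrank_pos_iff.1 h1
    obtain ⟨a, ha⟩ := exists_norm_eq (Eu E) (zero_le_one (α := ℝ))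
    refine ⟨fr x a, by rw [nm_fr, ha], ?_⟩
    rw [← h0, zero_smul, hv0]
  · refine ⟨(nm x v)⁻¹ • v, ?_, ?_⟩
    · rw [nm_smul, abs_of_pos (inv_pos.mpr h0), inv_mul_cancel₀ h0.ne']
    · rw [smul_smul, mul_inv_cancel₀ h0.ne', one_smul]

/-- transitivity on unit vectors at a point -/
theorem twoPoint_sphere [CompactSpace M] [ConnectedSpace M] [IsRiemannianManifold 𝓘(ℝ, E) M]
    (F : Facts e) {D : ℝ} (hD : 0 < D) (hB : InjGE e D) (hd : ∀ x y : M, dist x y ≤ D)
    (hcl : ∀ (x : M) (v : E), nm x v = 2 * D → e x v = x) {N l : ℕ}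
    (hN : finrank ℝ E = N + 1) {P : ∀ _ : M, E → E →ₗ[ℝ] E} (hP : ∀ x, PData e D l x (P x))
    (hσ : ∀ p : M, ∃ σ : M ≃ᵢ M, ∀ v : E, σ (e p v) = e p (-v)) (x : M)
    {u u' : E} (hu : nm x u = 1) (hu' : nm x u' = 1) :
    ∃ σ : M ≃ᵢ M, ∀ r : ℝ, σ (e x (r • u : E)) = e x (r • u' : E) := by
  have hV : finrank ℝ (Eu E) = N + 1 := by rw [finrank_euclideanSpace_fin, hN]
  have ha : ‖((fr x).symm u : Eu E)‖ = 1 := by rw [← sph_nm_symm, hu]
  have ha' : ‖((fr x).symm u' : Eu E)‖ = 1 := by rw [← sph_nm_symm, hu']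
  have hlN : l ≤ N := by
    obtain ⟨h1, h2⟩ := sph_rank_le hV ha (fun w => (hP x).sph_perp ha w)
    rw [← (hP x).sph_rank ha, ← h2]
    exact Submodule.finrank_mono h1
  rcases hlN.eq_or_lt with rfl | hlt
  · exact sphere_transitive F hD hB hd hcl hN (hP x) hu hu'
  · obtain ⟨B, hQ⟩ := exists_form F hD (hP x)
    obtain ⟨A, ⟨σ, hA⟩, hAu⟩ := hQ.transitive
      (G := {A : Eu E →ₗ[ℝ] Eu E | ∃ σ : M ≃ᵢ M, ∀ v : Eu E,
        σ (e x (fr x v : E)) = e x (fr x (A v) : E)})
      (fun a b z h1 h2 h3 h4 h5 => by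
        have h6 := PData.same F hD hB hcl hN hP hσ x (u := fr x a) (u' := fr x b)
          (z := fr x z) (by rw [nm_fr, h1]) (by rw [nm_fr, h2])
          (by
            rw [ip_fr, ← sph_fr_trP, ← map_smul, ← map_add, ← h3])
          (by rw [ip_fr, h4]) (by rw [← sph_fr_trP, h5, map_zero])
        rw [ip_fr, ← sph_fr_trP] at h6
        refine ⟨h6.1, (fr x).injective ?_⟩
        rw [h6.2, map_zero])
      (fun a h1 => sph_exists hV (fun w => (hP x).sph_idem h1 w)
        (fun b c => (hP x).sph_symm h1 b c) ((hP x).sph_rank h1) hlt)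
      (fun a h1 => by
        obtain ⟨σ, h2⟩ := PData.reflection F hD hB hcl hN hP hσ x (u := fr x a)
          (by rw [nm_fr, h1])
        refine ⟨σ, fun v => ?_⟩
        rw [h2 (fr x v), Srefl_apply, ip_fr, ← sph_fr_trP]
        congr 1
        rw [map_add, map_neg, map_smul, map_add, map_smul])
      (fun A hA A' hA' => by
        obtain ⟨σ, h1⟩ := hA
        obtain ⟨σ', h2⟩ := hA'
        refine ⟨σ'.trans σ, fun v => ?_⟩
        rw [IsometryEquiv.trans_apply, h2, h1]
        rfl) ha ha'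
    refine ⟨σ, fun r => ?_⟩
    have h1 := hA (r • (fr x).symm u)
    rw [map_smul, map_smul, map_smul, hAu, ContinuousLinearEquiv.apply_symm_apply,
      ContinuousLinearEquiv.apply_symm_apply] at h1
    exact h1

/-- Two-point homogeneity. -/
theorem two_point_homogeneous [CompactSpace M] [ConnectedSpace M]
    [IsRiemannianManifold 𝓘(ℝ, E) M]
    (F : Facts e) {D : ℝ} (hD : 0 < D) (hB : InjGE e D) (hd : ∀ x y : M, dist x y ≤ D)
    (hcl : ∀ (x : M) (v : E), nm x v = 2 * D → e x v = x) {N l : ℕ}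
    (hN : finrank ℝ E = N + 1) {P : ∀ _ : M, E → E →ₗ[ℝ] E} (hP : ∀ x, PData e D l x (P x))
    (hσ : ∀ p : M, ∃ σ : M ≃ᵢ M, ∀ v : E, σ (e p v) = e p (-v))
    {x y x' y' : M} (h : dist x y = dist x' y') :
    ∃ σ : M ≃ᵢ M, σ x = x' ∧ σ y = y' := by
  obtain ⟨σ₁, h1⟩ := twoPoint_transitive F hσ x x'
  have h2 : dist x' (σ₁ y) = dist x' y' := by
    rw [← h, ← h1, σ₁.dist_eq]
  obtain ⟨v, hv1, hv2⟩ := twoPoint_hopfRinow F x' (σ₁ y)
  obtain ⟨v', hv1', hnv'⟩ := twoPoint_hopfRinow F x' y'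
  have hnv : nm x' v = dist x' y' := by rw [← h2, hv2]
  obtain ⟨u, hu, hvu⟩ := twoPoint_unit hN x' v
  obtain ⟨u', hu', hvu'⟩ := twoPoint_unit hN x' v'
  obtain ⟨σ₂, hσ₂⟩ := twoPoint_sphere F hD hB hd hcl hN hP hσ x' hu hu'
  refine ⟨σ₁.trans σ₂, ?_, ?_⟩
  · rw [IsometryEquiv.trans_apply, h1]
    have h3 := hσ₂ 0
    rw [zero_smul, zero_smul] at h3
    have h4 : e x' (0 : E) = x' := F.isExp.map_zero x'
    rw [h4] at h3
    exact h3
  · rw [IsometryEquiv.trans_apply]
    have h3 := hσ₂ (dist x' y')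
    have h4 : e x' (dist x' y' • u : E) = σ₁ y := by
      rw [← hv1, ← hnv, ← hvu]
      exact (congrArg (e x') (one_smul ℝ v)).symm
    have h5 : e x' (dist x' y' • u' : E) = y' := by
      rw [← hnv', ← hvu']
      exact (congrArg (e x') (one_smul ℝ v')).symm.trans hv1'
    rw [h4, h5] at h3
    exact h3

end

end Vale.Agent.P231
end
end

section

section

namespace Vale.Agent.P231

theorem per_la_surj {X Y : Type*} [NormedAddCommGroup X] [InnerProductSpace ℝ X]
    [FiniteDimensional ℝ X] [NormedAddCommGroup Y] [InnerProductSpace ℝ Y]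
    [FiniteDimensional ℝ Y] (hXY : Module.finrank ℝ X = Module.finrank ℝ Y)
    {v : X} (hv : ‖v‖ = 1) {b : Y} (hb : ‖b‖ = 1) {B : X →L[ℝ] Y}
    (hB : ∀ ζ, inner ℝ v ζ = 0 → inner ℝ b (B ζ) = 0)
    (hinj : ∀ ζ, B ζ = 0 → ζ = 0) (w : Y) (hw : inner ℝ b w = 0) :
    ∃ ζ, inner ℝ v ζ = 0 ∧ B ζ = w := by
  have hv0 : v ≠ 0 := by
    rintro rfl
    simp at hv
  have hb0 : b ≠ 0 := by
    rintro rfl
    simp only [norm_zero, zero_ne_one] at hb
  have h1 : Module.finrank ℝ (ℝ ∙ v)ᗮ = Module.finrank ℝ (ℝ ∙ b)ᗮ := by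
    have h2 := Submodule.finrank_add_finrank_orthogonal (ℝ ∙ v)
    have h3 := Submodule.finrank_add_finrank_orthogonal (ℝ ∙ b)
    rw [finrank_span_singleton hv0] at h2
    rw [finrank_span_singleton hb0] at h3
    omega
  let f : (ℝ ∙ v)ᗮ →ₗ[ℝ] (ℝ ∙ b)ᗮ :=
    (B.toLinearMap.domRestrict (ℝ ∙ v)ᗮ).codRestrict (ℝ ∙ b)ᗮ (by
      intro c
      rw [Submodule.mem_orthogonal_singleton_iff_inner_right]
      exact hB _ (Submodule.mem_orthogonal_singleton_iff_inner_right.1 c.2))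
  have hf : Function.Injective f := by
    rw [injective_iff_map_eq_zero]
    intro a ha
    have h4 : B (a : X) = 0 := congrArg Subtype.val ha
    exact Subtype.ext (hinj _ h4)
  have hs : Function.Surjective f :=
    (LinearMap.injective_iff_surjective_of_finrank_eq_finrank h1).1 hf
  obtain ⟨z, hz⟩ := hs ⟨w, Submodule.mem_orthogonal_singleton_iff_inner_right.2 hw⟩
  exact ⟨z, Submodule.mem_orthogonal_singleton_iff_inner_right.1 z.2, congrArg Subtype.val hz⟩

theorem lin_alg {X Y : Type*} [NormedAddCommGroup X] [InnerProductSpace ℝ X]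
    [FiniteDimensional ℝ X] [NormedAddCommGroup Y] [InnerProductSpace ℝ Y]
    [FiniteDimensional ℝ Y] (hXY : Module.finrank ℝ X = Module.finrank ℝ Y)
    {v : X} (hv : ‖v‖ = 1) {b : Y} (hb : ‖b‖ = 1) {A B : X →L[ℝ] Y}
    (hsym : ∀ ζ η : X, inner ℝ v ζ = 0 → inner ℝ v η = 0 →
      inner ℝ (B ζ) (A η) = inner ℝ (B η) (A ζ))
    (hB : ∀ ζ, inner ℝ v ζ = 0 → inner ℝ b (B ζ) = 0)
    (hA : ∀ ζ, inner ℝ v ζ = 0 → inner ℝ b (A ζ) = 0)
    (hinj : ∀ ζ, B ζ = 0 → ζ = 0) {u : Y} (hu : ∀ ζ, inner ℝ v ζ = 0 → inner ℝ u (A ζ) = 0) :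
    ∃ ζ, inner ℝ v ζ = 0 ∧ A ζ = 0 ∧ u = (inner ℝ u b : ℝ) • b + B ζ := by
  have hbb : inner ℝ b b = (1 : ℝ) := by
    rw [real_inner_self_eq_norm_sq, hb]
    norm_num
  obtain ⟨z, hz1, hz2⟩ := per_la_surj hXY hv hb hB hinj (u - (inner ℝ u b : ℝ) • b) (by
    rw [inner_sub_right, inner_smul_right, hbb, real_inner_comm]
    ring)
  obtain ⟨y, hy1, hy2⟩ := per_la_surj hXY hv hb hB hinj (A z) (hA z hz1)
  refine ⟨z, hz1, ?_, ?_⟩
  · have h1 : inner ℝ (A z) (A z) = (0 : ℝ) := by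
      calc inner ℝ (A z) (A z) = inner ℝ (B y) (A z) := by rw [hy2]
        _ = inner ℝ (B z) (A y) := hsym y z hy1 hz1
        _ = 0 := by
          rw [hz2, inner_sub_left, inner_smul_left, hu y hy1, hA y hy1]
          simp
    exact inner_self_eq_zero.1 h1
  · rw [hz2]
    abel

/-- abstract version of the existence of an antipodal pair -/
theorem exists_antipodal_abs {Y : Type*} [NormedAddCommGroup Y] [InnerProductSpace ℝ Y]
    [FiniteDimensional ℝ Y] {L T : Set Y} (hL : ∀ u ∈ L, ‖u‖ = 1)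
    (h1 : ∀ u ∈ L, ∀ τ ∈ T, inner ℝ u τ ≤ 0)
    (h2 : ∀ w : Y, ∃ ρ : ℝ, 0 ≤ ρ ∧ ∃ u ∈ L, ∃ τ ∈ T, w = ρ • u + τ ∧ ρ = inner ℝ u w) :
    ∃ b ∈ L, -b ∈ L := by
  obtain ⟨f, hf1, hf2, -⟩ := Submodule.exists_fun_fin_finrank_span_eq ℝ {w : Y | ∀ u ∈ L, 0 ≤ inner ℝ u w}
  obtain ⟨ρ, hρ, u0, hu0, -, -, -, hρ'⟩ := h2 (-(∑ i, f i))
  have h3 : ∀ i, inner ℝ u0 (f i) = (0 : ℝ) := by
    have h4 : ∑ i, inner ℝ u0 (f i) ≤ (0 : ℝ) := by
      rw [← inner_sum]
      rw [hρ', inner_neg_right] at hρ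
      linarith only [hρ]
    have h5 : ∀ i, (0 : ℝ) ≤ inner ℝ u0 (f i) := fun i => hf1 i u0 hu0
    intro i
    refine le_antisymm ((Finset.single_le_sum (fun j _ => h5 j) (Finset.mem_univ i)).trans h4)
      (h5 i)
  have h6 : ∀ w ∈ Submodule.span ℝ {w : Y | ∀ u ∈ L, 0 ≤ inner ℝ u w}, inner ℝ u0 w = (0 : ℝ) := by
    rw [← hf2]
    intro w hw
    induction hw using Submodule.span_induction with
    | mem x hx =>
      obtain ⟨i, rfl⟩ := hx
      exact h3 i
    | zero => simp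
    | add x y _ _ hx hy => rw [inner_add_right, hx, hy, add_zero]
    | smul a x _ hx => rw [inner_smul_right, hx, mul_zero]
  obtain ⟨ρ1, hρ1, u1, hu1, τ, hτ, heq, hρ1'⟩ := h2 (-u0)
  have h7 : inner ℝ u0 τ = (0 : ℝ) := by
    have h8 : -τ ∈ Submodule.span ℝ {w : Y | ∀ u ∈ L, 0 ≤ inner ℝ u w} := by
      apply Submodule.subset_span
      intro u hu
      rw [inner_neg_right]
      linarith only [h1 u hu τ hτ]
    have := h6 _ h8
    rw [inner_neg_right] at this
    linarith only [this]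
  have h9 : inner ℝ u0 u0 = (1 : ℝ) := by
    rw [real_inner_self_eq_norm_sq, hL u0 hu0]
    norm_num
  have h10 : (-1 : ℝ) = ρ1 * inner ℝ u0 u1 := by
    have := congrArg (fun z => (inner ℝ u0 z : ℝ)) heq
    simp only [inner_neg_right, inner_add_right, inner_smul_right, h9, h7] at this
    linarith only [this]
  have h11 : ρ1 = -inner ℝ u0 u1 := by
    rw [hρ1', inner_neg_right, real_inner_comm]
  have h12 : inner ℝ u0 u1 = (-1 : ℝ) := by
    rw [h11] at h10
    rw [h11] at hρ1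
    nlinarith only [h10, hρ1]
  refine ⟨u0, hu0, ?_⟩
  have h13 : u1 = -u0 := by
    have h14 : ‖u1 + u0‖ ^ 2 = 0 := by
      rw [← real_inner_self_eq_norm_sq, inner_add_left, inner_add_right, inner_add_right, h9,
        real_inner_comm u0 u1, h12, real_inner_self_eq_norm_sq, hL u1 hu1]
      norm_num
    have h15 : u1 + u0 = 0 := by
      simpa only [ne_eq, OfNat.ofNat_ne_zero, not_false_eq_true, pow_eq_zero_iff, norm_eq_zero] using h14
    exact eq_neg_of_add_eq_zero_left h15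
  rw [← h13]
  exact hu1

end Vale.Agent.P231
end
end

section

section

/-! P231: closedness of the geodesics of a Blaschke manifold. Definitions. -/

set_option maxSynthPendingDepth 3

open Bundle Manifold Set Filter
open scoped ContDiff Manifold Topology

namespace Vale.Agent.P231

noncomputable section

open Vale.Agent.P234

set_option linter.unusedSectionVars false

variable {E : Type*} [NormedAddCommGroup E] [NormedSpace ℝ E] [FiniteDimensional ℝ E]
  {M : Type*} [MetricSpace M] [ChartedSpace E M]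
  [RiemannianBundle (fun x : M => TangentSpace 𝓘(ℝ, E) x)]

/-- Link: unit vectors `u` at `y` with `exp_y (D u) = x`. -/
def Lk (e : ∀ x : M, TangentSpace 𝓘(ℝ, E) x → M) (D : ℝ) (x y : M) :
    Set (TangentSpace 𝓘(ℝ, E) y) :=
  {u | ‖u‖ = 1 ∧ e y (D • u) = x}

/-- Tangent directions at `y` of the sphere of radius `D` around `x`
(in exponential coordinates at `y`). -/
def Tn (e : ∀ x : M, TangentSpace 𝓘(ℝ, E) x → M) (D : ℝ) (x y : M) :
    Set (TangentSpace 𝓘(ℝ, E) y) :=
  {τ | ∃ (t : ℕ → ℝ) (c : ℕ → TangentSpace 𝓘(ℝ, E) y), (∀ j, 0 < t j) ∧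
    Tendsto t atTop (𝓝 0) ∧ (∀ j, dist x (e y (c j)) = D) ∧
    Tendsto (fun j => (t j)⁻¹ • c j) atTop (𝓝 τ)}

/-- Exponential coordinates at `y` of `exp_x (T v')`, as a function of `v'`. -/
def kap (e : ∀ x : M, TangentSpace 𝓘(ℝ, E) x → M) (T : ℝ) (x y : M)
    (v' : TangentSpace 𝓘(ℝ, E) x) : TangentSpace 𝓘(ℝ, E) y :=
  logMap e y (e x (T • v'))

end

end Vale.Agent.P231
end
end

section

section

/-! P231: first order facts about links. -/

set_option maxSynthPendingDepth 3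
set_option linter.unusedSectionVars false

open Bundle Manifold Set Filter
open scoped ContDiff Manifold Topology

namespace Vale.Agent.P231

noncomputable section

open Vale.Agent.P234

variable {E : Type*} [NormedAddCommGroup E] [NormedSpace ℝ E] [FiniteDimensional ℝ E]
  {M : Type*} [MetricSpace M] [ChartedSpace E M]
  [RiemannianBundle (fun x : M => TangentSpace 𝓘(ℝ, E) x)]
  [IsManifold 𝓘(ℝ, E) ∞ M]
  [IsContMDiffRiemannianBundle 𝓘(ℝ, E) ∞ E (fun x : M => TangentSpace 𝓘(ℝ, E) x)]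
  {e : ∀ x : M, TangentSpace 𝓘(ℝ, E) x → M}

theorem link_reverse (F : Facts e) {D : ℝ} {x y : M} {u : TangentSpace 𝓘(ℝ, E) y}
    (hu : u ∈ Lk e D x y) : ∃ v : TangentSpace 𝓘(ℝ, E) x, ‖v‖ = 1 ∧
      ∀ s : ℝ, e x (s • v) = e y ((D - s) • u) := by
  obtain ⟨hu1, hx⟩ := hu
  subst hx
  obtain ⟨w, hw, hfl⟩ := F.flow y u D
  refine ⟨-w, by rw [norm_neg, hw, hu1], fun s => ?_⟩
  have h1 : s • (-w) = (-s) • w := by rw [smul_neg, neg_smul]
  rw [h1, hfl, sub_eq_add_neg]

theorem link_of_dir (F : Facts e) {D : ℝ} {x y : M} {v : TangentSpace 𝓘(ℝ, E) x}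
    (hv : ‖v‖ = 1) (hy : e x (D • v) = y) : ∃ u ∈ Lk e D x y,
      ∀ s : ℝ, e x (s • v) = e y ((D - s) • u) := by
  subst hy
  obtain ⟨w, hw, hfl⟩ := F.flow x v D
  have h1 : ∀ r : ℝ, e (e x (D • v)) (r • (-w)) = e x ((D - r) • v) := by
    intro r
    have h2 : r • (-w) = (-r) • w := by rw [smul_neg, neg_smul]
    rw [h2, hfl, sub_eq_add_neg]
  refine ⟨-w, ⟨by rw [norm_neg, hw, hv], ?_⟩, fun s => ?_⟩
  · rw [h1, sub_self, zero_smul, F.isExp.map_zero]
  · rw [h1, sub_sub_cancel]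

/-- first variation: link vectors have nonpositive product with tangent directions -/
theorem link_tn_nonpos (F : Facts e) {D : ℝ} (hD : 0 < D) (hB : InjGE e D) {x y : M}
    {u τ : TangentSpace 𝓘(ℝ, E) y} (hu : u ∈ Lk e D x y) (hτ : τ ∈ Tn e D x y) :
    inner ℝ u τ ≤ 0 := by
  obtain ⟨hu1, hx⟩ := hu
  obtain ⟨t, c, ht, ht0, hc, hcτ⟩ := hτ
  set w : TangentSpace 𝓘(ℝ, E) y := (D / 2) • u with hw
  have hwn : ‖w‖ = D / 2 := by
    rw [hw, norm_smul, hu1, mul_one, Real.norm_of_nonneg (by positivity)]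
  have hmem : w ∈ injDomain e y := hB.mem_injDomain (by rw [hwn]; linarith only [hD])
  have hs := F.smooth_cost y w hmem
  have hm := injDomain_subset_segMin F.isExp y hmem
  have hder := hasFDerivAt_cost_zero F.isExp y w hm hs
  have hDu : D • u ∈ segMin e y := by
    change dist y (e y (D • u)) = ‖D • u‖
    refine hB y _ ?_
    rw [norm_smul, hu1, mul_one, Real.norm_of_nonneg hD.le]
  have hdist : dist (e y w) x = D / 2 := by
    have h1 := segMin_dist F.isExp hDu (s := 1 / 2) (t := 1) (by norm_num) (by norm_num) le_rfl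
    rw [one_smul, hx, smul_smul, norm_smul, hu1, mul_one, Real.norm_of_nonneg hD.le] at h1
    have h2 : (1 / 2 : ℝ) * D = D / 2 := by ring
    rw [h2] at h1
    rw [h1]
    ring
  have hf0 : cost (e y 0) (e y w) = (D / 2) ^ 2 / 2 := by
    rw [F.isExp.map_zero]
    unfold cost
    have : dist y (e y w) = ‖w‖ := hm
    rw [this, hwn]
  have hfc : ∀ j, (D / 2) ^ 2 / 2 ≤ cost (e y (c j)) (e y w) := by
    intro j
    have h1 := dist_triangle x (e y w) (e y (c j))
    rw [hc j, dist_comm x (e y w), hdist] at h1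
    have h2 : D / 2 ≤ dist (e y (c j)) (e y w) := by
      rw [dist_comm]; linarith only [h1]
    unfold cost
    have h3 := pow_le_pow_left₀ (by positivity : (0 : ℝ) ≤ D / 2) h2 2
    linarith only [h3]
  have hc0 : Tendsto c atTop (𝓝 0) := by
    have h1 := ht0.smul hcτ
    rw [zero_smul] at h1
    refine h1.congr fun j => ?_
    rw [smul_smul, mul_inv_cancel₀ (ht j).ne', one_smul]
  have hlim := (hder.hasFDerivWithinAt (s := Set.univ)).lim (l := atTop) (c := fun j => (t j)⁻¹)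
    (d := c) (v := τ) hc0 (Eventually.of_forall fun _ => Set.mem_univ _) hcτ
  have hge : 0 ≤ (-(innerSL ℝ w) : TangentSpace 𝓘(ℝ, E) y →L[ℝ] ℝ) τ := by
    refine ge_of_tendsto' hlim fun j => ?_
    rw [zero_add, hf0, smul_eq_mul]
    exact mul_nonneg (inv_nonneg.2 (ht j).le) (by linarith only [hfc j])
  rw [_root_.neg_apply, innerSL_apply_apply, hw, inner_smul_left] at hge
  simp only [conj_trivial] at hge
  nlinarith only [hge, hD]

end

end Vale.Agent.P231
end
end

section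

section

/-! P231: decomposition of tangent vectors at a point at maximal distance. -/

set_option maxSynthPendingDepth 3

open Bundle Manifold Set Filter
open scoped ContDiff Manifold Topology

namespace Vale.Agent.P231

noncomputable section

open Vale.Agent.P234

/-- sequential form of strict differentiability -/
lemma per_de_strict {X Y : Type*} [NormedAddCommGroup X] [NormedSpace ℝ X]
    [NormedAddCommGroup Y] [NormedSpace ℝ Y] {f : X → Y} {f' : X →L[ℝ] Y} {x0 : X}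
    (hf : HasStrictFDerivAt f f' x0) {a b : ℕ → X} {t : ℕ → ℝ} {h : X}
    (ha : Tendsto a atTop (𝓝 x0)) (hb : Tendsto b atTop (𝓝 x0)) (ht : ∀ j, 0 < t j)
    (hlim : Tendsto (fun j => (t j)⁻¹ • (a j - b j)) atTop (𝓝 h)) :
    Tendsto (fun j => (t j)⁻¹ • (f (a j) - f (b j))) atTop (𝓝 (f' h)) := by
  have h1 := hf.isLittleO.comp_tendsto (ha.prodMk_nhds hb)
  have hO : (fun j => a j - b j) =O[atTop] t := by
    have h2 : (fun j => (t j)⁻¹ • (a j - b j)) =O[atTop] (fun _ => (1 : ℝ)) := hlim.isBigO_one ℝ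
    have h3 := (Asymptotics.isBigO_refl t atTop).smul h2
    refine (h3.congr_left fun j => ?_).trans (Asymptotics.IsBigO.of_bound 1 ?_)
    · rw [smul_smul, mul_inv_cancel₀ (ht j).ne', one_smul]
    · refine Eventually.of_forall fun j => ?_
      simp
  have h4 : (fun j => f (a j) - f (b j) - f' (a j - b j)) =o[atTop] t := h1.trans_isBigO hO
  have h5 := h4.tendsto_inv_smul_nhds_zero
  have h6 : Tendsto (fun j => f' ((t j)⁻¹ • (a j - b j))) atTop (𝓝 (f' h)) :=
    (f'.continuous.tendsto h).comp hlim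
  have h7 := h5.add h6
  rw [zero_add] at h7
  refine h7.congr fun j => ?_
  rw [map_smul, ← smul_add, sub_add_cancel]

variable {E : Type*} [NormedAddCommGroup E] [NormedSpace ℝ E] [FiniteDimensional ℝ E]
  {M : Type*} [MetricSpace M] [ChartedSpace E M]
  [RiemannianBundle (fun x : M => TangentSpace 𝓘(ℝ, E) x)]
  [IsManifold 𝓘(ℝ, E) ∞ M]
  [IsContMDiffRiemannianBundle 𝓘(ℝ, E) ∞ E (fun x : M => TangentSpace 𝓘(ℝ, E) x)]
  {e : ∀ x : M, TangentSpace 𝓘(ℝ, E) x → M}

lemma per_de_link [CompactSpace M] (F : Facts e) {D : ℝ} {x y : M} {v : TangentSpace 𝓘(ℝ, E) x}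
    (hv : ‖v‖ = 1) (hy : e x (D • v) = y) : ∃ u ∈ Lk e D x y,
      ∀ s : ℝ, e x (s • v) = e y ((D - s) • u) := by
  obtain ⟨w, hw, hfl⟩ := F.flow' v D hy
  have h1 : ∀ s : ℝ, e x (s • v) = e y ((D - s) • (-w)) := by
    intro s
    rw [smul_neg, ← neg_smul, hfl]
    congr 2
    ring
  refine ⟨-w, ⟨by rw [norm_neg, hw, hv], ?_⟩, h1⟩
  have h2 := h1 0
  rw [zero_smul, F.isExp.map_zero, sub_zero] at h2
  exact h2.symm

lemma per_de_smooth_zero [CompactSpace M] (F : Facts e) (y : M) : SmoothAt E y y := by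
  have := F.smooth_cost y 0 (zero_mem_injDomain F.isExp y)
  rwa [F.isExp.map_zero] at this

/-- the core: the sequences -/
lemma per_de_core [CompactSpace M] (F : Facts e) {D : ℝ} (hD : 0 < D) (hB : InjGE e D)
    {x y : M} (hxy : dist x y = D) (w : TangentSpace 𝓘(ℝ, E) y)
    {t r : ℕ → ℝ} (ht : ∀ j, 0 < t j) (ht0 : Tendsto t atTop (𝓝 0))
    (hr0 : ∀ j, 0 ≤ r j) (hr1 : ∀ j, r j ≤ D / 2) (hrt : ∀ j, r j ≤ t j * ‖w‖)
    {v : ℕ → TangentSpace 𝓘(ℝ, E) x} {v0 : TangentSpace 𝓘(ℝ, E) x}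
    (hv : ∀ j, ‖v j‖ = 1) (hvlim : Tendsto v atTop (𝓝 v0))
    (hp : ∀ j, e x ((D - r j) • v j) = e y (t j • w))
    (hdist : ∀ j, dist x (e y (t j • w)) = D - r j) :
    ∃ ρ : ℝ, 0 ≤ ρ ∧ ∃ u ∈ Lk e D x y, ∃ τ ∈ Tn e D x y,
      w = ρ • u + τ ∧ ρ = inner ℝ u w := by
  have he := F.isExp
  have hcx : Continuous (e x) := (contMDiff_exp_fiber he x).continuous
  have hcy : Continuous (e y) := (contMDiff_exp_fiber he y).continuous
  have hr : Tendsto r atTop (𝓝 0) := by
    refine squeeze_zero hr0 hrt ?_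
    have := ht0.mul_const ‖w‖
    rwa [zero_mul] at this
  have hv0 : ‖v0‖ = 1 := by
    have h1 : Tendsto (fun j => ‖v j‖) atTop (𝓝 ‖v0‖) := hvlim.norm
    have h2 : Tendsto (fun j => ‖v j‖) atTop (𝓝 1) := by
      simp only [hv]; exact tendsto_const_nhds
    exact tendsto_nhds_unique h1 h2
  have hy : e x (D • v0) = y := by
    have h1 : Tendsto (fun j => e x ((D - r j) • v j)) atTop (𝓝 (e x (D • v0))) := by
      have h2 : Tendsto (fun j => (D - r j) • v j) atTop (𝓝 ((D - 0) • v0)) :=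
        (tendsto_const_nhds.sub hr).smul hvlim
      rw [sub_zero] at h2
      exact (hcx.tendsto _).comp h2
    have h2 : Tendsto (fun j => e y (t j • w)) atTop (𝓝 (e y 0)) := by
      have h3 : Tendsto (fun j => t j • w) atTop (𝓝 ((0 : ℝ) • w)) := ht0.smul_const w
      rw [zero_smul] at h3
      exact (hcy.tendsto _).comp h3
    rw [he.map_zero] at h2
    exact tendsto_nhds_unique h1 (h2.congr fun j => (hp j).symm)
  obtain ⟨u, hu, hus⟩ := per_de_link F hv0 hy
  have hu1 : ‖u‖ = 1 := hu.1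
  have hux : e y (D • u) = x := hu.2
  set δ : ℝ := D / 2 with hδ
  have hδ0 : 0 < δ := by rw [hδ]; linarith only [hD]
  have hδD : D - δ = δ := by rw [hδ]; ring
  have hnδ : ‖δ • u‖ = δ := by
    rw [norm_smul, hu1, mul_one, Real.norm_eq_abs, abs_of_pos hδ0]
  have hmem : δ • u ∈ injDomain e y := hB.mem_injDomain (by rw [hnδ, hδ]; linarith only [hD])
  have hseg : δ • u ∈ segMin e y := injDomain_subset_segMin he y hmem
  have hsm := F.smooth_cost y _ hmem
  have hbase : e x (δ • v0) = e y (δ • u) := by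
    have := hus δ
    rwa [hδD] at this
  -- the cost in coordinates
  have hsm' : SmoothAt E (e x (δ • v0)) (e y 0) := by
    rw [he.map_zero, hbase]
    exact hsm.symm
  have hΦ := SmoothAt.coord he hsm'
  set Φ : TangentSpace 𝓘(ℝ, E) x × TangentSpace 𝓘(ℝ, E) y → ℝ :=
    fun p => cost (e x p.1) (e y p.2) with hΦdef
  have hΦs : HasStrictFDerivAt Φ (fderiv ℝ Φ (δ • v0, 0)) (δ • v0, 0) :=
    hΦ.hasStrictFDerivAt (by simp)
  have hval : fderiv ℝ Φ (δ • v0, 0) (0, w) = -(δ * inner ℝ u w) := by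
    have h1 : HasFDerivAt (fun c : TangentSpace 𝓘(ℝ, E) y => Φ (δ • v0, c))
        ((fderiv ℝ Φ (δ • v0, 0)).comp (ContinuousLinearMap.inr ℝ _ _)) 0 :=
      hΦs.hasFDerivAt.comp (0 : TangentSpace 𝓘(ℝ, E) y) (hasFDerivAt_prodMk_right _ _)
    have h2 := hasFDerivAt_cost_zero he y (δ • u) hseg hsm
    have h3 : (fun c : TangentSpace 𝓘(ℝ, E) y => Φ (δ • v0, c)) =
        fun a => cost (e y a) (e y (δ • u)) := by
      funext c
      simp only [hΦdef]
      rw [hbase, cost_comm]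
    rw [h3] at h1
    have h4 := congrArg (fun L => L w) (h1.unique h2)
    simpa only [ContinuousLinearMap.comp_apply, ContinuousLinearMap.inr_apply, map_smul, neg_apply, smul_apply,     coe_innerSL_apply, smul_eq_mul] using h4
  have hlimw : Tendsto (fun j => (t j)⁻¹ •
      (((δ • v j, t j • w) : TangentSpace 𝓘(ℝ, E) x × TangentSpace 𝓘(ℝ, E) y) - (δ • v j, 0)))
      atTop (𝓝 (0, w)) := by
    refine tendsto_const_nhds.congr fun j => ?_
    rw [Prod.mk_sub_mk, sub_self, sub_zero, Prod.smul_mk, smul_zero, smul_smul,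
      inv_mul_cancel₀ (ht j).ne', one_smul]
  have hvδ : Tendsto (fun j => δ • v j) atTop (𝓝 (δ • v0)) := hvlim.const_smul δ
  have htw : Tendsto (fun j => t j • w) atTop (𝓝 0) := by
    have := ht0.smul_const w
    rwa [zero_smul] at this
  have hb := per_de_strict hΦs (a := fun j => (δ • v j, t j • w)) (b := fun j => (δ • v j, 0))
    (hvδ.prodMk_nhds htw) (hvδ.prodMk_nhds tendsto_const_nhds) ht hlimw
  have hlimw2 : Tendsto (fun j => (t j)⁻¹ •
      (((δ • v0, t j • w) : TangentSpace 𝓘(ℝ, E) x × TangentSpace 𝓘(ℝ, E) y) - (δ • v0, 0)))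
      atTop (𝓝 (0, w)) := by
    refine tendsto_const_nhds.congr fun j => ?_
    rw [Prod.mk_sub_mk, sub_self, sub_zero, Prod.smul_mk, smul_zero, smul_smul,
      inv_mul_cancel₀ (ht j).ne', one_smul]
  have ha := per_de_strict hΦs (a := fun j => (δ • v0, t j • w)) (b := fun j => (δ • v0, 0))
    (tendsto_const_nhds.prodMk_nhds htw) tendsto_const_nhds ht hlimw2
  rw [hval] at ha hb
  -- the limit of r / t
  have hrdiv : Tendsto (fun j => (t j)⁻¹ * r j) atTop (𝓝 (inner ℝ u w)) := by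
    have hcancel : -(δ⁻¹ * -(δ * inner ℝ u w)) = (inner ℝ u w : ℝ) := by
      rw [mul_neg, neg_neg, ← mul_assoc, inv_mul_cancel₀ hδ0.ne', one_mul]
    have hlow : Tendsto (fun j => -(δ⁻¹ * ((t j)⁻¹ • (Φ (δ • v0, t j • w) - Φ (δ • v0, 0)))))
        atTop (𝓝 (inner ℝ u w)) := by
      have := (ha.const_mul δ⁻¹).neg
      rwa [hcancel] at this
    have hupp : Tendsto (fun j => -(δ⁻¹ * ((t j)⁻¹ • (Φ (δ • v j, t j • w) - Φ (δ • v j, 0)))) +
        δ⁻¹ * (r j * ‖w‖ / 2)) atTop (𝓝 (inner ℝ u w)) := by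
      have h1 := (hb.const_mul δ⁻¹).neg
      have h2 : Tendsto (fun j => δ⁻¹ * (r j * ‖w‖ / 2)) atTop (𝓝 (δ⁻¹ * (0 * ‖w‖ / 2))) :=
        ((hr.mul_const _).div_const 2).const_mul _
      have h3 := h1.add h2
      rw [hcancel] at h3
      simpa only [smul_eq_mul, zero_mul, zero_div, mul_zero, add_zero] using h3
    refine tendsto_of_tendsto_of_tendsto_of_le_of_le hlow hupp ?_ ?_
    · intro j
      have htj := ht j
      have h1 : δ - r j ≤ dist (e x (δ • v0)) (e y (t j • w)) := by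
        have h2 : dist x (e x (δ • v0)) ≤ δ := by
          have := dist_exp_le' he x (δ • v0)
          rwa [norm_smul, hv0, mul_one, Real.norm_eq_abs, abs_of_pos hδ0] at this
        have h3 := dist_triangle x (e x (δ • v0)) (e y (t j • w))
        rw [hdist j] at h3
        linarith only [hδ, h2, h3]
      have h4 : (δ - r j) ^ 2 / 2 ≤ Φ (δ • v0, t j • w) := by
        simp only [hΦdef, cost]
        have := pow_le_pow_left₀ (by linarith only [hr1 j]) h1 2
        linarith only [this]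
      have h5 : Φ (δ • v0, 0) = δ ^ 2 / 2 := by
        simp only [hΦdef, cost]
        rw [hbase, he.map_zero, dist_comm]
        have h6 : dist y (e y (δ • u)) = ‖δ • u‖ := hseg
        rw [h6, hnδ]
      have h7 : -(δ * r j) ≤ Φ (δ • v0, t j • w) - Φ (δ • v0, 0) := by
        rw [h5]
        nlinarith only [h4, sq_nonneg (r j)]
      have h8 : (t j)⁻¹ * -(δ * r j) ≤ (t j)⁻¹ * (Φ (δ • v0, t j • w) - Φ (δ • v0, 0)) :=
        mul_le_mul_of_nonneg_left h7 (by (clear * - htj; positivity))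
      have h9 : δ⁻¹ * ((t j)⁻¹ * -(δ * r j)) ≤
          δ⁻¹ * ((t j)⁻¹ * (Φ (δ • v0, t j • w) - Φ (δ • v0, 0))) :=
        mul_le_mul_of_nonneg_left h8 (by positivity)
      have h10 : δ⁻¹ * ((t j)⁻¹ * -(δ * r j)) = -((t j)⁻¹ * r j) := by
        (clear * - hδ0 htj; field_simp)
      rw [h10] at h9
      simp only [smul_eq_mul]
      linarith only [h9]
    · intro j
      have htj := ht j
      have h1 : dist (e x (δ • v j)) (e y (t j • w)) ≤ δ - r j := by
        rw [← hp j]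
        have := dist_exp_le he x (v j) δ (D - r j)
        rw [hv j, mul_one, abs_of_nonneg (by linarith only [hδ, hr1 j])] at this
        linarith only [hδ, this]
      have h2 : Φ (δ • v j, t j • w) ≤ (δ - r j) ^ 2 / 2 := by
        simp only [hΦdef, cost]
        have := pow_le_pow_left₀ dist_nonneg h1 2
        linarith only [this]
      have h3 : δ ≤ dist (e x (δ • v j)) y := by
        have h4 : dist x (e x (δ • v j)) ≤ δ := by
          have := dist_exp_le' he x (δ • v j)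
          rwa [norm_smul, hv j, mul_one, Real.norm_eq_abs, abs_of_pos hδ0] at this
        have h5 := dist_triangle x (e x (δ • v j)) y
        rw [hxy] at h5
        linarith only [hδ, h4, h5]
      have h4 : δ ^ 2 / 2 ≤ Φ (δ • v j, 0) := by
        simp only [hΦdef, cost]
        rw [he.map_zero]
        have := pow_le_pow_left₀ hδ0.le h3 2
        linarith only [this]
      have h5 : Φ (δ • v j, t j • w) - Φ (δ • v j, 0) ≤ -(δ * r j) + r j ^ 2 / 2 := by
        linarith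
      have h6 : (t j)⁻¹ * (Φ (δ • v j, t j • w) - Φ (δ • v j, 0)) ≤
          (t j)⁻¹ * (-(δ * r j) + r j ^ 2 / 2) :=
        mul_le_mul_of_nonneg_left h5 (by (clear * - htj; positivity))
      have h7 : (t j)⁻¹ * (-(δ * r j) + r j ^ 2 / 2) ≤ -(δ * ((t j)⁻¹ * r j)) + r j * ‖w‖ / 2 := by
        have h8 : (t j)⁻¹ * r j ≤ ‖w‖ := by
          rw [inv_mul_le_iff₀ htj]
          exact hrt j
        have h9 : ((t j)⁻¹ * r j) * r j ≤ ‖w‖ * r j := mul_le_mul_of_nonneg_right h8 (hr0 j)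
        have h10 : (t j)⁻¹ * (-(δ * r j) + r j ^ 2 / 2) =
            -(δ * ((t j)⁻¹ * r j)) + ((t j)⁻¹ * r j) * r j / 2 := by ring
        rw [h10]
        linarith only [h9]
      have h11 := mul_le_mul_of_nonneg_left (h6.trans h7) (inv_nonneg.2 hδ0.le)
      have h12 : δ⁻¹ * (-(δ * ((t j)⁻¹ * r j)) + r j * ‖w‖ / 2) =
          -((t j)⁻¹ * r j) + δ⁻¹ * (r j * ‖w‖ / 2) := by
        (clear * - htj hδ0; field_simp)
      rw [h12] at h11
      simp only [smul_eq_mul]
      linarith only [h11]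
  have hρ0 : 0 ≤ (inner ℝ u w : ℝ) := by
    refine ge_of_tendsto' hrdiv fun j => ?_
    have := ht j
    have := hr0 j
    positivity
  -- the map in exponential coordinates at `y`
  have hsy := per_de_smooth_zero F y
  have hrr := F.hopfRinow
  have hlog : ContMDiffAt 𝓘(ℝ, E) 𝓘(ℝ, TangentSpace 𝓘(ℝ, E) y) ∞ (logMap e y) y :=
    contMDiffAt_logMap he hsy
  have hlog1 : ∀ᶠ q in 𝓝 y, e y (logMap e y q) = q :=
    (eventually_logMap he hrr hsy).mono fun q hq => hq.2
  have hlog2 : ∀ᶠ b in 𝓝 (0 : TangentSpace 𝓘(ℝ, E) y), logMap e y (e y b) = b := by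
    have h0 : (0 : TangentSpace 𝓘(ℝ, E) y) ∈ segMin e y :=
      injDomain_subset_segMin he y (zero_mem_injDomain he y)
    exact eventually_logMap_exp he hrr h0 (by rw [he.map_zero]; exact hsy)
  set Ψ : ℝ × TangentSpace 𝓘(ℝ, E) x → TangentSpace 𝓘(ℝ, E) y :=
    fun p => logMap e y (e x (p.1 • p.2)) with hΨdef
  have hΨ : ContDiffAt ℝ ∞ Ψ (D, v0) := by
    rw [← contMDiffAt_iff_contDiffAt]
    have h1 : ContMDiffAt 𝓘(ℝ, ℝ × TangentSpace 𝓘(ℝ, E) x) 𝓘(ℝ, TangentSpace 𝓘(ℝ, E) x) ∞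
        (fun p : ℝ × TangentSpace 𝓘(ℝ, E) x => p.1 • p.2) (D, v0) :=
      (contDiff_fst.smul contDiff_snd).contMDiff.contMDiffAt
    have h2 : ContMDiffAt 𝓘(ℝ, ℝ × TangentSpace 𝓘(ℝ, E) x) 𝓘(ℝ, E) ∞
        (fun p : ℝ × TangentSpace 𝓘(ℝ, E) x => e x (p.1 • p.2)) (D, v0) :=
      ContMDiffAt.comp (D, v0) (contMDiff_exp_fiber he x).contMDiffAt h1
    refine ContMDiffAt.comp (D, v0) (g := logMap e y) ?_ h2
    have h3 : e x ((D, v0).1 • (D, v0).2) = y := hy
    rw [h3]
    exact hlog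
  have hΨs : HasStrictFDerivAt Ψ (fderiv ℝ Ψ (D, v0)) (D, v0) :=
    hΨ.hasStrictFDerivAt (by simp)
  have hΨv : fderiv ℝ Ψ (D, v0) (1, 0) = -u := by
    have h1 : HasFDerivAt (fun s : ℝ => Ψ (s, v0))
        ((fderiv ℝ Ψ (D, v0)).comp (ContinuousLinearMap.inl ℝ ℝ (TangentSpace 𝓘(ℝ, E) x))) D := by
      have h0 : HasFDerivAt (fun s : ℝ => (s, v0))
          (ContinuousLinearMap.inl ℝ ℝ (TangentSpace 𝓘(ℝ, E) x)) D :=
        hasFDerivAt_prodMk_left D v0
      have h00 : HasFDerivAt Ψ (fderiv ℝ Ψ (D, v0)) ((fun s : ℝ => (s, v0)) D) :=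
        hΨs.hasFDerivAt
      exact h00.comp D h0
    have h2 : (fun s : ℝ => Ψ (s, v0)) =ᶠ[𝓝 D] fun s => (D - s) • u := by
      have h3 : Tendsto (fun s : ℝ => (D - s) • u) (𝓝 D) (𝓝 ((D - D) • u)) :=
        (tendsto_const_nhds.sub tendsto_id).smul_const u
      rw [sub_self, zero_smul] at h3
      filter_upwards [h3.eventually hlog2] with s hs
      simp only [hΨdef]
      rw [hus s]
      exact hs
    have h4 : HasDerivAt (fun s : ℝ => (D - s) • u) (-u) D := by
      have := ((hasDerivAt_id D).const_sub D).smul_const u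
      simpa using this
    have h5 := h1.hasDerivAt.unique (h4.congr_of_eventuallyEq h2)
    simpa only [ContinuousLinearMap.comp_apply, ContinuousLinearMap.inl_apply] using h5
  have hrv : Tendsto (fun j => (D - r j, v j)) atTop (𝓝 (D, v0)) := by
    have h1 : Tendsto (fun j => D - r j) atTop (𝓝 (D - 0)) := tendsto_const_nhds.sub hr
    rw [sub_zero] at h1
    exact h1.prodMk_nhds hvlim
  have hlim3 : Tendsto (fun j => (t j)⁻¹ •
      (((D, v j) : ℝ × TangentSpace 𝓘(ℝ, E) x) - (D - r j, v j))) atTop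
      (𝓝 ((inner ℝ u w : ℝ), (0 : TangentSpace 𝓘(ℝ, E) x))) := by
    have h1 : Tendsto (fun j => ((t j)⁻¹ * r j, (0 : TangentSpace 𝓘(ℝ, E) x))) atTop
      (𝓝 ((inner ℝ u w : ℝ), (0 : TangentSpace 𝓘(ℝ, E) x))) := hrdiv.prodMk_nhds tendsto_const_nhds
    refine h1.congr fun j => ?_
    rw [Prod.mk_sub_mk, sub_self, Prod.smul_mk, smul_zero, sub_sub_cancel, smul_eq_mul]
  have hc := per_de_strict hΨs (a := fun j => (D, v j)) (b := fun j => (D - r j, v j))
    (tendsto_const_nhds.prodMk_nhds hvlim) hrv ht hlim3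
  have hval2 : fderiv ℝ Ψ (D, v0) ((inner ℝ u w : ℝ), 0) = -((inner ℝ u w : ℝ) • u) := by
    have h1 : ((inner ℝ u w : ℝ), (0 : TangentSpace 𝓘(ℝ, E) x)) =
        (inner ℝ u w : ℝ) • ((1 : ℝ), (0 : TangentSpace 𝓘(ℝ, E) x)) := by
      rw [Prod.smul_mk, smul_zero, smul_eq_mul, mul_one]
    rw [h1, map_smul, hΨv, smul_neg]
  rw [hval2] at hc
  have hev2 : ∀ᶠ j in atTop, Ψ (D - r j, v j) = t j • w := by
    filter_upwards [htw.eventually hlog2] with j hj
    simp only [hΨdef]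
    rw [hp j]
    exact hj
  have hev1 : ∀ᶠ j in atTop, e y (Ψ (D, v j)) = e x (D • v j) := by
    have h1 : Tendsto (fun j => e x (D • v j)) atTop (𝓝 y) := by
      have h2 : Tendsto (fun j => D • v j) atTop (𝓝 (D • v0)) := hvlim.const_smul D
      have h3 := (hcx.tendsto _).comp h2
      rwa [hy] at h3
    filter_upwards [h1.eventually hlog1] with j hj
    exact hj
  obtain ⟨N, hN⟩ := eventually_atTop.1 hev1
  refine ⟨inner ℝ u w, hρ0, u, hu, w - (inner ℝ u w : ℝ) • u, ?_, by abel, rfl⟩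
  refine ⟨fun j => t (j + N), fun j => Ψ (D, v (j + N)), fun j => ht _,
    ht0.comp (tendsto_add_atTop_nat N), ?_, ?_⟩
  · intro j
    rw [hN (j + N) (by omega)]
    have h1 := hB x (D • v (j + N)) (by
      rw [norm_smul, hv, mul_one, Real.norm_eq_abs, abs_of_pos hD])
    rw [h1, norm_smul, hv, mul_one, Real.norm_eq_abs, abs_of_pos hD]
  · have h1 : Tendsto (fun j => (t j)⁻¹ • Ψ (D, v j)) atTop
        (𝓝 (w - (inner ℝ u w : ℝ) • u)) := by
      have h2 : Tendsto (fun j => (t j)⁻¹ • (Ψ (D, v j) - Ψ (D - r j, v j)) + w) atTop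
          (𝓝 (-((inner ℝ u w : ℝ) • u) + w)) := hc.add tendsto_const_nhds
      rw [neg_add_eq_sub] at h2
      refine h2.congr' ?_
      filter_upwards [hev2] with j hj
      rw [hj, smul_sub, smul_smul, inv_mul_cancel₀ (ht j).ne', one_smul, sub_add_cancel]
    exact h1.comp (tendsto_add_atTop_nat N)

theorem decomp [CompactSpace M] (F : Facts e) {D : ℝ} (hD : 0 < D) (hB : InjGE e D)
    (hdiam : ∀ p q : M, dist p q ≤ D) {x y : M} (hxy : dist x y = D)
    (w : TangentSpace 𝓘(ℝ, E) y) : ∃ ρ : ℝ, 0 ≤ ρ ∧ ∃ u ∈ Lk e D x y, ∃ τ ∈ Tn e D x y,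
      w = ρ • u + τ ∧ ρ = inner ℝ u w := by
  have he := F.isExp
  -- the parameters
  set t : ℕ → ℝ := fun j => D / (2 * (‖w‖ + 1)) * (1 / ((j : ℝ) + 1)) with htdef
  have hwn : 0 ≤ ‖w‖ := norm_nonneg w
  have ht : ∀ j, 0 < t j := fun j => by
    simp only [htdef]; (clear * - hD; positivity)
  have ht0 : Tendsto t atTop (𝓝 0) := by
    have := tendsto_one_div_add_atTop_nhds_zero_nat (𝕜 := ℝ)
    have := this.const_mul (D / (2 * (‖w‖ + 1)))
    rwa [mul_zero] at this
  have htw : ∀ j, t j * ‖w‖ ≤ D / 2 := by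
    intro j
    simp only [htdef]
    have h1 : 1 / ((j : ℝ) + 1) ≤ 1 := by
      rw [div_le_one (by positivity)]
      have : (0 : ℝ) ≤ j := by (clear * -; positivity)
      linarith only []
    have h2 : D / (2 * (‖w‖ + 1)) * (1 / ((j : ℝ) + 1)) ≤ D / (2 * (‖w‖ + 1)) * 1 :=
      mul_le_mul_of_nonneg_left h1 (by positivity)
    have h3 : D / (2 * (‖w‖ + 1)) * 1 * ‖w‖ ≤ D / 2 := by
      rw [mul_one, div_mul_eq_mul_div, div_le_div_iff₀ (by positivity) two_pos]
      nlinarith only [hD]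
    exact (mul_le_mul_of_nonneg_right h2 hwn).trans h3
  have hex : ∀ j, ∃ v : TangentSpace 𝓘(ℝ, E) x, ‖v‖ = 1 ∧
      e x (dist x (e y (t j • w)) • v) = e y (t j • w) := by
    intro j
    obtain ⟨v', h1, h2⟩ := F.hopfRinow x (e y (t j • w))
    have h3 : D / 2 ≤ ‖v'‖ := by
      rw [← h2]
      have h4 := dist_triangle x (e y (t j • w)) y
      have h5 := dist_exp_le' he y (t j • w)
      rw [norm_smul, Real.norm_eq_abs, abs_of_pos (ht j)] at h5
      rw [hxy, dist_comm _ y] at h4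
      linarith only [h4, h5, htw j]
    have h4 : 0 < ‖v'‖ := by linarith only [hD, h3]
    refine ⟨‖v'‖⁻¹ • v', ?_, ?_⟩
    · rw [norm_smul, norm_inv, norm_norm, inv_mul_cancel₀ h4.ne']
    · rw [h2, smul_smul, mul_inv_cancel₀ h4.ne', one_smul, h1]
  choose v hv hp using hex
  have hfin : ProperSpace (TangentSpace 𝓘(ℝ, E) x) := FiniteDimensional.proper ℝ _
  obtain ⟨v0, -, φ, hφ, hlim⟩ := (isCompact_sphere (0 : TangentSpace 𝓘(ℝ, E) x) 1).tendsto_subseq
    (x := v) (fun j => by simp [hv j])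
  refine per_de_core F hD hB hxy w (t := fun j => t (φ j))
    (r := fun j => D - dist x (e y (t (φ j) • w))) (fun j => ht _)
    (ht0.comp hφ.tendsto_atTop) (fun j => by linarith only [hdiam x (e y (t (φ j) • w))]) ?_ ?_
    (fun j => hv (φ j)) hlim ?_ ?_
  · intro j
    have h4 := dist_triangle x (e y (t (φ j) • w)) y
    have h5 := dist_exp_le' he y (t (φ j) • w)
    rw [norm_smul, Real.norm_eq_abs, abs_of_pos (ht _)] at h5
    rw [hxy, dist_comm _ y] at h4
    linarith only [h4, h5, htw (φ j)]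
  · intro j
    have h4 := dist_triangle x (e y (t (φ j) • w)) y
    have h5 := dist_exp_le' he y (t (φ j) • w)
    rw [norm_smul, Real.norm_eq_abs, abs_of_pos (ht _)] at h5
    rw [hxy, dist_comm _ y] at h4
    linarith only [h4, h5]
  · intro j
    rw [sub_sub_cancel]
    exact hp (φ j)
  · intro j
    ring

end

end Vale.Agent.P231
end
end

section

section

open Set Filter
open scoped ContDiff Topology

namespace Vale.Agent.P231

/-- second order Taylor estimate -/
theorem per_qt_taylor {E F : Type*} [NormedAddCommGroup E] [NormedSpace ℝ E]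
    [NormedAddCommGroup F] [NormedSpace ℝ F] {f : E → F} {x0 : E} (hf : ContDiffAt ℝ 2 f x0) :
    ∃ C : ℝ, 0 ≤ C ∧ ∀ᶠ x in 𝓝 x0, ‖f x - f x0 - fderiv ℝ f x0 (x - x0)‖ ≤ C * ‖x - x0‖ ^ 2 := by
  have h1 : ContDiffAt ℝ 1 (fderiv ℝ f) x0 := hf.fderiv_right (by norm_num)
  obtain ⟨K, t, ht, hK⟩ := h1.exists_lipschitzOnWith
  have h2 : ∀ᶠ x in 𝓝 x0, DifferentiableAt ℝ f x := by
    have := hf.eventually (by simp)
    exact this.mono fun x hx => hx.differentiableAt (by norm_num)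
  obtain ⟨r, hr, hball⟩ := Metric.eventually_nhds_iff_ball.1 (h2.and ht)
  refine ⟨K, K.2, ?_⟩
  filter_upwards [Metric.ball_mem_nhds x0 hr] with x hx
  have hx' : ‖x - x0‖ < r := by rwa [← dist_eq_norm]
  have hsub : ∀ z ∈ Metric.closedBall x0 ‖x - x0‖, z ∈ Metric.ball x0 r := by
    intro z hz
    rw [Metric.mem_closedBall] at hz
    rw [Metric.mem_ball]
    exact hz.trans_lt hx'
  have h3 := (convex_closedBall x0 ‖x - x0‖).norm_image_sub_le_of_norm_hasFDerivWithin_le'
    (f := f) (f' := fderiv ℝ f) (φ := fderiv ℝ f x0) (C := K * ‖x - x0‖)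
    (x := x0) (y := x)
    (fun z hz => ((hball z (hsub z hz)).1.hasFDerivAt).hasFDerivWithinAt)
    (fun z hz => by
      have h4 := hK.dist_le_mul z (hball z (hsub z hz)).2 x0 (hball x0 (Metric.mem_ball_self hr)).2
      rw [dist_eq_norm, dist_eq_norm] at h4
      rw [Metric.mem_closedBall, dist_eq_norm] at hz
      exact h4.trans (mul_le_mul_of_nonneg_left hz K.2))
    (Metric.mem_closedBall_self (norm_nonneg _))
    (by rw [Metric.mem_closedBall, dist_eq_norm])
  calc _ ≤ K * ‖x - x0‖ * ‖x - x0‖ := h3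
    _ = K * ‖x - x0‖ ^ 2 := by ring

/-- expansion of `h` -/
theorem per_qt_expand {Y : Type*} [NormedAddCommGroup Y] [InnerProductSpace ℝ Y]
    {h : ℝ × Y → ℝ} (hh : ContDiffAt ℝ 3 h (0, 0))
    {l : ℝ → Y} {l' : Y} (hl : HasDerivAt l l' 0)
    (hdh : ∀ᶠ s in 𝓝 (0 : ℝ), HasFDerivAt (fun q => h (s, q)) (-(innerSL ℝ (l s))) 0) :
    ∃ C : ℝ, 0 ≤ C ∧ ∃ r : ℝ, 0 < r ∧ ∀ (s : ℝ) (c : Y), |s| < r → ‖c‖ < r →
      |h (s, c) - h (s, 0) + inner ℝ (l 0) c + s * inner ℝ l' c| ≤ C * (‖c‖ * (‖c‖ + s ^ 2)) := by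
  set Φ : ℝ × Y → (Y →L[ℝ] ℝ) := fun p =>
    (fderiv ℝ h p).comp (ContinuousLinearMap.inr ℝ ℝ Y) with hΦ
  have hΦc : ContDiffAt ℝ 2 Φ (0, 0) := by
    have h1 : ContDiffAt ℝ 2 (fderiv ℝ h) (0, 0) := hh.fderiv_right (by norm_num)
    exact h1.clm_comp contDiffAt_const
  have hd : ∀ᶠ p in 𝓝 ((0, 0) : ℝ × Y), DifferentiableAt ℝ h p := by
    have := hh.eventually (by simp)
    exact this.mono fun x hx => hx.differentiableAt (by norm_num)
  have hpart : ∀ p : ℝ × Y, DifferentiableAt ℝ h p →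
      HasFDerivAt (fun q => h (p.1, q)) (Φ p) p.2 := by
    intro p hp
    have h1 : HasFDerivAt (fun q : Y => (p.1, q)) (ContinuousLinearMap.inr ℝ ℝ Y) p.2 :=
      hasFDerivAt_prodMk_right p.1 p.2
    exact HasFDerivAt.comp p.2 (show HasFDerivAt h (fderiv ℝ h p) (p.1, p.2) from hp.hasFDerivAt) h1
  obtain ⟨K, t, ht, hK⟩ := (hΦc.of_le (by norm_num : (1 : WithTop ℕ∞) ≤ 2)).exists_lipschitzOnWith
  -- the curve `s ↦ Φ (s, 0)`
  have hcurve : ContDiffAt ℝ 2 (fun s : ℝ => Φ (s, 0)) 0 := by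
    have h1 : ContDiffAt ℝ 2 (fun s : ℝ => ((s, 0) : ℝ × Y)) 0 :=
      contDiffAt_id.prodMk contDiffAt_const
    exact ContDiffAt.comp (0 : ℝ) hΦc h1
  have hs0 : Tendsto (fun s : ℝ => ((s, 0) : ℝ × Y)) (𝓝 0) (𝓝 (0, 0)) := by
    have : Continuous (fun s : ℝ => ((s, 0) : ℝ × Y)) := by (clear * -; fun_prop)
    exact this.tendsto 0
  have hcurve' : (fun s : ℝ => Φ (s, 0)) =ᶠ[𝓝 0] fun s => -(innerSL ℝ (l s)) := by
    filter_upwards [hdh, hs0.eventually hd] with s h1 h2
    exact (hpart (s, 0) h2).unique h1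
  have hder : fderiv ℝ (fun s : ℝ => Φ (s, 0)) 0 =
      ContinuousLinearMap.toSpanSingleton ℝ (-(innerSL ℝ l')) := by
    rw [hcurve'.fderiv_eq]
    have h1 : HasDerivAt (fun s => -(innerSL ℝ (l s))) (-(innerSL ℝ l')) 0 := by
      have h2 : HasDerivAt (fun s => innerSL ℝ (l s)) (innerSL ℝ l') 0 :=
        (innerSL ℝ (E := Y)).hasFDerivAt.comp_hasDerivAt (0 : ℝ) hl
      exact h2.neg
    exact h1.hasFDerivAt.fderiv
  obtain ⟨C, hC, hT⟩ := per_qt_taylor hcurve
  have hΦ0 : Φ (0, 0) = -(innerSL ℝ (l 0)) := hcurve'.self_of_nhds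
  obtain ⟨r1, hr1, hb1⟩ := Metric.eventually_nhds_iff_ball.1 (hd.and ht)
  obtain ⟨r2, hr2, hb2⟩ := Metric.eventually_nhds_iff_ball.1 hT
  refine ⟨K + C, add_nonneg K.2 hC, min r1 r2, lt_min hr1 hr2, ?_⟩
  intro s c hs hc
  have hs1 : |s| < r1 := hs.trans_le (min_le_left _ _)
  have hs2 : |s| < r2 := hs.trans_le (min_le_right _ _)
  have hc1 : ‖c‖ < r1 := hc.trans_le (min_le_left _ _)
  have hmem : ∀ q : Y, ‖q‖ ≤ ‖c‖ → ((s, q) : ℝ × Y) ∈ Metric.ball ((0, 0) : ℝ × Y) r1 := by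
    intro q hq
    rw [Metric.mem_ball, Prod.dist_eq, max_lt_iff]
    refine ⟨by simpa [Real.dist_eq] using hs1, by simpa using hq.trans_lt hc1⟩
  set φ : Y →L[ℝ] ℝ := -(innerSL ℝ (l 0)) - s • innerSL ℝ l' with hφ
  have hT' : ‖Φ (s, 0) - φ‖ ≤ C * s ^ 2 := by
    have h1 := hb2 s (by simpa only [Metric.mem_ball, dist_zero_right, Real.norm_eq_abs] using hs2)
    rw [hder, hΦ0] at h1
    simp only [sub_zero, ContinuousLinearMap.toSpanSingleton_apply, Real.norm_eq_abs, sq_abs]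
      at h1
    have h2 : Φ (s, 0) - φ = Φ (s, 0) - -(innerSL ℝ (l 0)) - s • -(innerSL ℝ l') := by
      rw [hφ, smul_neg]
      abel
    rw [h2]
    exact h1
  have h3 := (convex_closedBall (0 : Y) ‖c‖).norm_image_sub_le_of_norm_hasFDerivWithin_le'
    (f := fun q => h (s, q)) (f' := fun q => Φ (s, q)) (φ := φ)
    (C := K * ‖c‖ + C * s ^ 2) (x := 0) (y := c)
    (fun q hq => by
      rw [mem_closedBall_zero_iff] at hq
      exact (hpart (s, q) (hb1 _ (hmem q hq)).1).hasFDerivWithinAt)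
    (fun q hq => by
      rw [mem_closedBall_zero_iff] at hq
      have h4 := hK.dist_le_mul (s, q) (hb1 _ (hmem q hq)).2 (s, 0)
        (hb1 _ (hmem 0 (by simp only [norm_zero, norm_nonneg]))).2
      rw [dist_eq_norm] at h4
      have h5 : dist ((s, q) : ℝ × Y) (s, 0) = ‖q‖ := by
        rw [Prod.dist_eq]
        simp only [dist_self, dist_zero_right, norm_nonneg, sup_of_le_right]
      rw [h5] at h4
      calc ‖Φ (s, q) - φ‖ = ‖(Φ (s, q) - Φ (s, 0)) + (Φ (s, 0) - φ)‖ := by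
            congr 1
            abel
        _ ≤ K * ‖q‖ + C * s ^ 2 := (norm_add_le _ _).trans (add_le_add h4 hT')
        _ ≤ K * ‖c‖ + C * s ^ 2 := by
            (clear * - hq; gcongr))
    (by simp only [Metric.mem_closedBall, dist_self, norm_nonneg]) (by simp only [Metric.mem_closedBall, dist_zero_right, Std.le_refl])
  have h6 : h (s, c) - h (s, 0) + inner ℝ (l 0) c + s * inner ℝ l' c =
      h (s, c) - h (s, 0) - φ (c - 0) := by
    rw [hφ]
    simp only [sub_zero, sub_apply, neg_apply,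
      smul_apply, innerSL_apply_apply, smul_eq_mul]
    ring
  rw [h6, ← Real.norm_eq_abs]
  refine h3.trans ?_
  rw [sub_zero]
  have hK0 : (0 : ℝ) ≤ K := K.2
  nlinarith only [mul_nonneg (mul_nonneg hC (norm_nonneg c)) (norm_nonneg c), mul_nonneg (mul_nonneg hK0 (norm_nonneg c)) (sq_nonneg s)]

theorem quad_trick {Y : Type*} [NormedAddCommGroup Y] [InnerProductSpace ℝ Y]
    [FiniteDimensional ℝ Y] {h : ℝ × Y → ℝ} (hh : ContDiffAt ℝ 3 h (0, 0)) {G : Y → ℝ}
    (hG : ContDiffAt ℝ 2 G 0) {κ : ℝ → Y} (hκ : ContDiffAt ℝ 2 κ 0) (hκ0 : κ 0 = 0)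
    (hκ1 : deriv κ 0 = 0) {K : Set Y}
    (h1 : ∀ᶠ s in 𝓝 (0 : ℝ), κ s ∈ K) (h2 : ∀ᶠ s in 𝓝 (0 : ℝ), h (s, κ s) = 0)
    (h3 : ∀ᶠ p in 𝓝 ((0, 0) : ℝ × Y), p.2 ∈ K → 0 ≤ h p)
    (h4 : ∀ᶠ q in 𝓝 (0 : Y), q ∈ K → 0 ≤ G q) (h0 : h (0, 0) = 0) (hG0 : G 0 = 0)
    {l : ℝ → Y} {l' : Y} (hl : HasDerivAt l l' 0)
    (hdh : ∀ᶠ s in 𝓝 (0 : ℝ), HasFDerivAt (fun q => h (s, q)) (-(innerSL ℝ (l s))) 0)
    (hdG : HasFDerivAt G (innerSL ℝ (l 0)) 0)
    {t : ℕ → ℝ} {c : ℕ → Y} {τ : Y} (ht : ∀ j, 0 < t j) (ht0 : Tendsto t atTop (𝓝 0))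
    (hc : ∀ j, c j ∈ K) (hcτ : Tendsto (fun j => (t j)⁻¹ • c j) atTop (𝓝 τ)) :
    inner ℝ l' τ = 0 := by
  obtain ⟨A, hA, r, hr, hexp⟩ := per_qt_expand hh hl hdh
  obtain ⟨B, hB, hTG⟩ := per_qt_taylor hG
  obtain ⟨D, hD, hTκ⟩ := per_qt_taylor hκ
  have hκd : fderiv ℝ κ 0 = 0 := by
    ext
    rw [fderiv_eq_smul_deriv, hκ1]
    simp only [smul_zero, zero_apply]
  simp only [hdG.fderiv, hG0, sub_zero, innerSL_apply_apply] at hTG
  simp only [hκd, hκ0, sub_zero, zero_apply, Real.norm_eq_abs, sq_abs] at hTκ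
  -- cubic bound for `h (s, 0)`
  have hκt : Tendsto κ (𝓝 0) (𝓝 0) := by
    have := hκ.continuousAt.tendsto
    rwa [hκ0] at this
  have hcub : ∀ᶠ s in 𝓝 (0 : ℝ), h (s, 0) ≤
      (2 * A * D ^ 2 + ‖l'‖ * D + A * D) * |s| ^ 3 := by
    have e1 : ∀ᶠ s in 𝓝 (0 : ℝ), |s| < min r 1 := by
      have := Metric.ball_mem_nhds (0 : ℝ) (lt_min hr one_pos)
      filter_upwards [this] with s hs
      simpa only [lt_inf_iff, Metric.mem_ball, dist_zero_right, Real.norm_eq_abs] using hs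
    have e2 : ∀ᶠ s in 𝓝 (0 : ℝ), ‖κ s‖ < r := by
      have := hκt.eventually (Metric.ball_mem_nhds (0 : Y) hr)
      filter_upwards [this] with s hs
      simpa using hs
    have e3 : ∀ᶠ s in 𝓝 (0 : ℝ), κ s ∈ K → 0 ≤ h (0, κ s) := by
      have ht' : Tendsto (fun s => ((0, κ s) : ℝ × Y)) (𝓝 0) (𝓝 (0, 0)) :=
        tendsto_const_nhds.prodMk_nhds hκt
      exact ht'.eventually h3
    filter_upwards [e1, e2, e3, h1, h2, hTκ] with s f1 f2 f3 f4 f5 f6
    have g1 := hexp s (κ s) (f1.trans_le (min_le_left _ _)) f2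
    have g2 := hexp 0 (κ s) (by simpa only [abs_zero] using hr) f2
    have g3 := f3 f4
    rw [f5] at g1
    rw [h0] at g2
    have k1 := (abs_le.1 g1).1
    have k2 := (abs_le.1 g2).2
    have k3 : s * inner ℝ l' (κ s) ≤ |s| * (‖l'‖ * ‖κ s‖) := by
      calc s * inner ℝ l' (κ s) ≤ |s * inner ℝ l' (κ s)| := le_abs_self _
        _ = |s| * |inner ℝ l' (κ s)| := abs_mul _ _
        _ ≤ |s| * (‖l'‖ * ‖κ s‖) := by
          gcongr
          exact abs_real_inner_le_norm _ _
    have hs1 : |s| ≤ 1 := (f1.trans_le (min_le_right _ _)).le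
    have hs0 : 0 ≤ |s| := abs_nonneg s
    have hn0 : 0 ≤ ‖κ s‖ := norm_nonneg _
    have hsq : s ^ 2 = |s| ^ 2 := (sq_abs s).symm
    rw [hsq] at f6 k1
    -- h (s,0) ≤ <l0,κ> + s <l', κ> + A |κ| (|κ| + s²)
    have m1 : h (s, 0) ≤ A * (‖κ s‖ * (‖κ s‖ + 0 ^ 2)) + |s| * (‖l'‖ * ‖κ s‖) +
        A * (‖κ s‖ * (‖κ s‖ + |s| ^ 2)) := by linarith only [g3, k1, k2, k3]
    have m2 : ‖κ s‖ ^ 2 ≤ D ^ 2 * |s| ^ 3 := by
      calc ‖κ s‖ ^ 2 ≤ (D * |s| ^ 2) ^ 2 := by (clear * - f6; gcongr)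
        _ = D ^ 2 * |s| ^ 3 * |s| := by ring
        _ ≤ D ^ 2 * |s| ^ 3 * 1 := by (clear * - hs1; gcongr)
        _ = _ := mul_one _
    have m3 : |s| * ‖κ s‖ ≤ D * |s| ^ 3 := by
      calc |s| * ‖κ s‖ ≤ |s| * (D * |s| ^ 2) := by (clear * - f6; gcongr)
        _ = _ := by ring
    have m4 : ‖κ s‖ * |s| ^ 2 ≤ D * |s| ^ 3 := by
      calc ‖κ s‖ * |s| ^ 2 ≤ (D * |s| ^ 2) * |s| ^ 2 := by (clear * - f6; gcongr)
        _ = D * |s| ^ 3 * |s| := by ring
        _ ≤ D * |s| ^ 3 * 1 := by (clear * - hs1 hD; gcongr)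
        _ = _ := mul_one _
    calc h (s, 0) ≤ 2 * A * ‖κ s‖ ^ 2 + ‖l'‖ * (|s| * ‖κ s‖) + A * (‖κ s‖ * |s| ^ 2) := by
          linarith
      _ ≤ 2 * A * (D ^ 2 * |s| ^ 3) + ‖l'‖ * (D * |s| ^ 3) + A * (D * |s| ^ 3) := by (clear * - m2 hA m3 m4; gcongr)
      _ = _ := by ring
  set C' : ℝ := 2 * A * D ^ 2 + ‖l'‖ * D + A * D with hC'
  have hC'0 : 0 ≤ C' := by (clear * - hA hD; positivity)
  -- the key inequality
  have hkey : ∀ᶠ p in 𝓝 ((0, 0) : ℝ × Y), p.2 ∈ K →
      p.1 * inner ℝ l' p.2 ≤ C' * |p.1| ^ 3 + (A + B) * ‖p.2‖ ^ 2 + A * (p.1 ^ 2 * ‖p.2‖) := by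
    have e1 : ∀ᶠ p in 𝓝 ((0, 0) : ℝ × Y), |p.1| < r ∧ ‖p.2‖ < r := by
      filter_upwards [Metric.ball_mem_nhds ((0, 0) : ℝ × Y) hr] with p hp
      rw [Metric.mem_ball, Prod.dist_eq, max_lt_iff] at hp
      simpa only [dist_zero_right, Real.norm_eq_abs] using hp
    have e2 : ∀ᶠ p in 𝓝 ((0, 0) : ℝ × Y), h (p.1, 0) ≤ C' * |p.1| ^ 3 :=
      (continuous_fst.tendsto ((0, 0) : ℝ × Y)).eventually hcub
    have e3 := (continuous_snd.tendsto ((0, 0) : ℝ × Y)).eventually hTG
    have e4 := (continuous_snd.tendsto ((0, 0) : ℝ × Y)).eventually h4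
    filter_upwards [e1, e2, e3, e4, h3] with p f1 f2 f3 f4 f5 hp
    have g1 := (abs_le.1 (hexp p.1 p.2 f1.1 f1.2)).2
    have g2 := f5 hp
    have g3 := f4 hp
    rw [Real.norm_eq_abs] at f3
    have g4 := (abs_le.1 f3).2
    have g5 : h (p.1, p.2) = h p := rfl
    rw [g5] at g1
    linarith
  -- conclusion
  have hct : Tendsto c atTop (𝓝 0) := by
    have h5 : Tendsto (fun j => t j • ((t j)⁻¹ • c j)) atTop (𝓝 ((0 : ℝ) • τ)) := ht0.smul hcτ
    rw [zero_smul] at h5
    refine h5.congr fun j => ?_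
    rw [smul_smul, mul_inv_cancel₀ (ht j).ne', one_smul]
  have hlam : ∀ lam : ℝ, lam * inner ℝ l' τ ≤ (A + B) * ‖τ‖ ^ 2 := by
    intro lam
    have h6 : Tendsto (fun j => ((lam * t j, c j) : ℝ × Y)) atTop (𝓝 (0, 0)) := by
      have : Tendsto (fun j => lam * t j) atTop (𝓝 (lam * 0)) := ht0.const_mul lam
      rw [mul_zero] at this
      exact this.prodMk_nhds hct
    have h7 := h6.eventually hkey
    have h8 : ∀ᶠ j in atTop, lam * inner ℝ l' ((t j)⁻¹ • c j) ≤
        C' * |lam| ^ 3 * t j + (A + B) * ‖(t j)⁻¹ • c j‖ ^ 2 +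
          A * lam ^ 2 * t j * ‖(t j)⁻¹ • c j‖ := by
      filter_upwards [h7] with j hj
      have h9 := hj (hc j)
      have htj := ht j
      set w := (t j)⁻¹ • c j with hw
      have hcw : c j = t j • w := by
        rw [hw, smul_smul, mul_inv_cancel₀ htj.ne', one_smul]
      rw [hcw, inner_smul_right, norm_smul, Real.norm_eq_abs, abs_mul, abs_of_pos htj] at h9
      have h10 : (t j) ^ 2 * (lam * inner ℝ l' w) ≤
          (t j) ^ 2 * (C' * |lam| ^ 3 * t j + (A + B) * ‖w‖ ^ 2 + A * lam ^ 2 * t j * ‖w‖) := by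
        linarith
      exact le_of_mul_le_mul_left h10 (by (clear * - htj; positivity))
    have h11 : Tendsto (fun j => lam * inner ℝ l' ((t j)⁻¹ • c j)) atTop
        (𝓝 (lam * inner ℝ l' τ)) := (tendsto_const_nhds.inner hcτ).const_mul lam
    have h12 : Tendsto (fun j => C' * |lam| ^ 3 * t j + (A + B) * ‖(t j)⁻¹ • c j‖ ^ 2 +
          A * lam ^ 2 * t j * ‖(t j)⁻¹ • c j‖) atTop
        (𝓝 (C' * |lam| ^ 3 * 0 + (A + B) * ‖τ‖ ^ 2 + A * lam ^ 2 * 0 * ‖τ‖)) := by
      refine ((ht0.const_mul _).add ((hcτ.norm.pow 2).const_mul _)).add ?_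
      exact (ht0.const_mul _).mul hcτ.norm
    have h13 := le_of_tendsto_of_tendsto h11 h12 h8
    simpa only [ge_iff_le, mul_zero, zero_add, zero_mul, add_zero] using h13
  by_contra hne
  have h14 := hlam (((A + B) * ‖τ‖ ^ 2 + 1) / inner ℝ l' τ)
  rw [div_mul_cancel₀ _ hne] at h14
  linarith only [h14]

end Vale.Agent.P231
end
end

section

section

/-! P231: the second order comparison at an antipodal pair. -/

set_option maxSynthPendingDepth 3
set_option linter.unusedSectionVars false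

open Bundle Manifold Set Filter
open scoped ContDiff Manifold Topology

namespace Vale.Agent.P231

noncomputable section

open Vale.Agent.P234

variable {E : Type*} [NormedAddCommGroup E] [NormedSpace ℝ E] [FiniteDimensional ℝ E]
  {M : Type*} [MetricSpace M] [ChartedSpace E M]
  [RiemannianBundle (fun x : M => TangentSpace 𝓘(ℝ, E) x)]
  [IsManifold 𝓘(ℝ, E) ∞ M]
  [IsContMDiffRiemannianBundle 𝓘(ℝ, E) ∞ E (fun x : M => TangentSpace 𝓘(ℝ, E) x)]
  {e : ∀ x : M, TangentSpace 𝓘(ℝ, E) x → M}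

lemma per_se_segMin {D : ℝ} (hB : InjGE e D) {x : M} {w : TangentSpace 𝓘(ℝ, E) x}
    (hw : ‖w‖ ≤ D) : w ∈ segMin e x := hB x w hw

lemma per_se_smooth (F : Facts e) {D : ℝ} (hB : InjGE e D) {y : M}
    {w : TangentSpace 𝓘(ℝ, E) y} (hw : ‖w‖ < D) : SmoothAt E y (e y w) :=
  F.smooth_cost y w (hB.mem_injDomain hw)

/-- distance between points of a radial geodesic inside the injectivity radius -/
lemma per_se_dist (F : Facts e) {D : ℝ} (hB : InjGE e D) (hD : 0 < D) {x : M}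
    {v : TangentSpace 𝓘(ℝ, E) x} (hv : ‖v‖ = 1) {s : ℝ} (hs : 0 ≤ s) (hsD : s ≤ D) :
    dist (e x (s • v)) (e x (D • v)) = D - s := by
  have hw : D • v ∈ segMin e x := per_se_segMin hB (by
    rw [norm_smul, hv, Real.norm_eq_abs, abs_of_pos hD, mul_one])
  have h := segMin_dist F.isExp hw (s := s / D) (t := 1) (by positivity)
    ((div_le_one hD).2 hsD) le_rfl
  rw [smul_smul, div_mul_cancel₀ _ hD.ne', one_smul, norm_smul, hv, Real.norm_eq_abs,
    abs_of_pos hD, mul_one] at h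
  rw [h]
  (clear * - hD; field_simp)

lemma per_se_kap_contDiffAt (F : Facts e) {D T : ℝ} (hT : 0 < T) (hTD : T ≤ D) (hB : InjGE e D)
    {x y : M} {b : TangentSpace 𝓘(ℝ, E) y} {v : TangentSpace 𝓘(ℝ, E) x}
    (hb : ‖b‖ = 1) (hvb : ∀ s : ℝ, e x (s • v) = e y ((D - s) • b)) :
    ContDiffAt ℝ ∞ (kap e T x y) v := by
  have hn : ‖(D - T) • b‖ < D := by
    rw [norm_smul, hb, mul_one, Real.norm_eq_abs, abs_of_nonneg (by linarith only [hTD])]
    linarith only [hT]
  have h1 := contMDiffAt_logMap F.isExp (per_se_smooth F hB hn)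
  rw [← hvb] at h1
  have h2 : ContMDiffAt 𝓘(ℝ, TangentSpace 𝓘(ℝ, E) x) 𝓘(ℝ, TangentSpace 𝓘(ℝ, E) x) ∞
      (fun w : TangentSpace 𝓘(ℝ, E) x => T • w) v :=
    (contDiff_const.smul contDiff_id).contMDiff.contMDiffAt
  have h3 := (contMDiff_exp_fiber F.isExp x).contMDiffAt (x := T • v)
  have h4 : ContMDiffAt 𝓘(ℝ, TangentSpace 𝓘(ℝ, E) x) 𝓘(ℝ, E) ∞
      (fun w : TangentSpace 𝓘(ℝ, E) x => e x (T • w)) v := ContMDiffAt.comp v h3 h2
  have h5 := ContMDiffAt.comp v h1 h4
  exact h5.contDiffAt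

theorem tn_orth_ker (F : Facts e) {D δ : ℝ} (hδ : 0 < δ) (hδD : δ < D) (hB : InjGE e D)
    {x y : M} {b : TangentSpace 𝓘(ℝ, E) y} (hb : b ∈ Lk e D x y) (hb' : -b ∈ Lk e D x y)
    {v : TangentSpace 𝓘(ℝ, E) x} (hv : ‖v‖ = 1)
    (hvb : ∀ s : ℝ, e x (s • v) = e y ((D - s) • b))
    {τ : TangentSpace 𝓘(ℝ, E) y} (hτ : τ ∈ Tn e D x y)
    {ζ : TangentSpace 𝓘(ℝ, E) x} (hζ : inner ℝ v ζ = 0)
    (hk : fderiv ℝ (kap e D x y) v ζ = 0) :
    inner ℝ (fderiv ℝ (kap e (D - δ) x y) v ζ) τ = 0 := by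
  have he := F.isExp
  have hD : 0 < D := hδ.trans hδD
  rcases eq_or_ne ζ 0 with rfl | hζ0
  · rw [map_zero, inner_zero_left]
  have hζn : 0 < ‖ζ‖ := norm_pos_iff.2 hζ0
  have hbn : ‖b‖ = 1 := hb.1
  set z : TangentSpace 𝓘(ℝ, E) x := ‖ζ‖⁻¹ • ζ with hz
  have hzn : ‖z‖ = 1 := by
    rw [hz, norm_smul, norm_inv, norm_norm, inv_mul_cancel₀ hζn.ne']
  have hvz : inner ℝ v z = 0 := by rw [hz, inner_smul_right, hζ, mul_zero]
  set w : ℝ → TangentSpace 𝓘(ℝ, E) x := fun s => Real.cos s • v + Real.sin s • z with hw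
  have hw0 : w 0 = v := by simp [hw]
  have hwn : ∀ s, ‖w s‖ = 1 := by
    intro s
    have h1 : ‖w s‖ ^ 2 = 1 := by
      rw [hw]
      simp only
      rw [norm_add_sq_real, norm_smul, norm_smul, hv, hzn, inner_smul_left, inner_smul_right,
        hvz]
      simp
    nlinarith only [h1, norm_nonneg (w s)]
  have hwd : HasDerivAt w z 0 := by
    have h1 := (Real.hasDerivAt_cos 0).smul_const v
    have h2 := (Real.hasDerivAt_sin 0).smul_const z
    have h3 : HasDerivAt w ((-Real.sin 0) • v + Real.cos 0 • z) 0 := h1.add h2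
    have h4 : (-Real.sin 0) • v + Real.cos 0 • z = z := by
      rw [Real.sin_zero, Real.cos_zero, neg_zero, zero_smul, one_smul, zero_add]
    rw [h4] at h3
    exact h3
  have hwc : ContDiff ℝ ∞ w :=
    (Real.contDiff_cos.smul contDiff_const).add (Real.contDiff_sin.smul contDiff_const)
  -- the map kappa
  have hkD := per_se_kap_contDiffAt F hD le_rfl hB hbn hvb
  have hkδ := per_se_kap_contDiffAt F (T := D - δ) (by linarith only [hδD]) (by linarith only [hδ]) hB hbn hvb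
  have hyD : e x (D • v) = e y 0 := by rw [hvb D, sub_self, zero_smul]
  have hδv : e x ((D - δ) • v) = e y (δ • b) := by
    rw [hvb (D - δ)]
    congr 2
    ring
  have hs0 : SmoothAt E y (e y (0 : TangentSpace 𝓘(ℝ, E) y)) :=
    per_se_smooth F hB (by rw [norm_zero]; exact hD)
  have hδn : ‖δ • b‖ < D := by
    rw [norm_smul, hbn, mul_one, Real.norm_eq_abs, abs_of_pos hδ]; exact hδD
  have hsδ : SmoothAt E y (e y (δ • b)) := per_se_smooth F hB hδn
  have hδn' : ‖-(δ • b)‖ < D := by rw [norm_neg]; exact hδn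
  have hsδ' : SmoothAt E y (e y (-(δ • b))) := per_se_smooth F hB hδn'
  have hTs : ∀ T : ℝ, Continuous fun s : ℝ => e x (T • w s) := fun T =>
    (contMDiff_exp_fiber he x).continuous.comp (continuous_const.smul hwc.continuous)
  have hevD : ∀ᶠ s in 𝓝 (0 : ℝ), logMap e y (e x (D • w s)) ∈ segMin e y ∧
      e y (logMap e y (e x (D • w s))) = e x (D • w s) := by
    have h1 := eventually_logMap he F.hopfRinow hs0
    have h2 : Tendsto (fun s : ℝ => e x (D • w s)) (𝓝 0) (𝓝 (e y 0)) := by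
      have h3 := (hTs D).tendsto 0
      rwa [hw0, hyD] at h3
    exact h2.eventually h1
  have hevδ : ∀ᶠ s in 𝓝 (0 : ℝ), logMap e y (e x ((D - δ) • w s)) ∈ segMin e y ∧
      e y (logMap e y (e x ((D - δ) • w s))) = e x ((D - δ) • w s) := by
    have h1 := eventually_logMap he F.hopfRinow hsδ
    have h2 : Tendsto (fun s : ℝ => e x ((D - δ) • w s)) (𝓝 0) (𝓝 (e y (δ • b))) := by
      have h3 := (hTs (D - δ)).tendsto 0
      rwa [hw0, hδv] at h3
    exact h2.eventually h1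
  have hevs : ∀ᶠ s in 𝓝 (0 : ℝ), SmoothAt E y (e x ((D - δ) • w s)) := by
    have h1 : ∀ᶠ q in 𝓝 (e y (δ • b)), SmoothAt E y q := by
      have := hsδ.eventually
      rw [nhds_prod_eq] at this
      exact this.curry.self_of_nhds
    have h2 : Tendsto (fun s : ℝ => e x ((D - δ) • w s)) (𝓝 0) (𝓝 (e y (δ • b))) := by
      have h3 := (hTs (D - δ)).tendsto 0
      rwa [hw0, hδv] at h3
    exact h2.eventually h1
  have hdistxD : ∀ s, dist x (e x (D • w s)) = D := by
    intro s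
    rw [hB x (D • w s) (by rw [norm_smul, hwn, Real.norm_eq_abs, abs_of_pos hD, mul_one]),
      norm_smul, hwn, Real.norm_eq_abs, abs_of_pos hD, mul_one]
  have hdistxδ : ∀ s, dist x (e x ((D - δ) • w s)) = D - δ := by
    intro s
    have h1 : ‖(D - δ) • w s‖ = D - δ := by
      rw [norm_smul, hwn, Real.norm_eq_abs, abs_of_pos (by linarith only [hδD]), mul_one]
    rw [hB x ((D - δ) • w s) (by rw [h1]; linarith only [hδ]), h1]
  -- application of the quadratic trick
  obtain ⟨t, c, ht, ht0, hc, hcτ⟩ := hτ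
  set K : Set (TangentSpace 𝓘(ℝ, E) y) := {q | dist x (e y q) = D} with hK
  have hcoord : ContDiffAt ℝ ∞ (fun p : TangentSpace 𝓘(ℝ, E) x × TangentSpace 𝓘(ℝ, E) y =>
      cost (e x p.1) (e y p.2)) ((D - δ) • v, 0) := by
    refine SmoothAt.coord he (SmoothAt.symm ?_)
    rw [he.map_zero, hδv]
    exact hsδ
  have hcoordG : ContDiffAt ℝ ∞ (fun p : TangentSpace 𝓘(ℝ, E) y × TangentSpace 𝓘(ℝ, E) y =>
      cost (e y p.1) (e y p.2)) (-(δ • b), 0) := by
    refine SmoothAt.coord he (SmoothAt.symm ?_)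
    rw [he.map_zero]
    exact hsδ'
  have hl0 : logMap e y (e x ((D - δ) • w 0)) = δ • b := by
    rw [hw0, hδv]
    exact logMap_eq he (per_se_segMin hB hδn.le) hsδ
  have key := quad_trick (Y := TangentSpace 𝓘(ℝ, E) y)
    (h := fun p : ℝ × TangentSpace 𝓘(ℝ, E) y =>
      cost (e x ((D - δ) • w p.1)) (e y p.2) - δ ^ 2 / 2)
    (G := fun q : TangentSpace 𝓘(ℝ, E) y => cost (e y (-(δ • b))) (e y q) - δ ^ 2 / 2)
    (κ := fun s => kap e D x y (w s)) (K := K)
    (l := fun s => kap e (D - δ) x y (w s)) (l' := fderiv ℝ (kap e (D - δ) x y) v z)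
    (t := t) (c := c) (τ := τ)
    ?qh ?qG ?qκ ?qκ0 ?qκ1 ?q1 ?q2 ?q3 ?q4 ?q0 ?qG0 ?ql ?qdh ?qdG ht ht0 hc hcτ
  · have h1 : fderiv ℝ (kap e (D - δ) x y) v z =
        ‖ζ‖⁻¹ • fderiv ℝ (kap e (D - δ) x y) v ζ := by
      rw [hz]
      exact map_smul (fderiv ℝ (kap e (D - δ) x y) v) ‖ζ‖⁻¹ ζ
    rw [h1, real_inner_smul_left] at key
    rcases mul_eq_zero.1 key with h2 | h2
    · exact absurd h2 (inv_ne_zero hζn.ne')
    · exact h2
  case qh =>
    have h1 : ContDiffAt ℝ ∞ (fun p : ℝ × TangentSpace 𝓘(ℝ, E) y => ((D - δ) • w p.1, p.2))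
        (0, 0) := by
      have h2 : ContDiffAt ℝ ∞ (fun p : ℝ × TangentSpace 𝓘(ℝ, E) y => w p.1) (0, 0) :=
        hwc.contDiffAt.comp ((0, 0) : ℝ × TangentSpace 𝓘(ℝ, E) y) contDiffAt_fst
      exact (contDiffAt_const.smul h2).prodMk contDiffAt_snd
    have h3 : ContDiffAt ℝ ∞ (fun p : TangentSpace 𝓘(ℝ, E) x × TangentSpace 𝓘(ℝ, E) y =>
        cost (e x p.1) (e y p.2))
        ((fun p : ℝ × TangentSpace 𝓘(ℝ, E) y => ((D - δ) • w p.1, p.2)) (0, 0)) := by
      change ContDiffAt ℝ ∞ (fun p : TangentSpace 𝓘(ℝ, E) x × TangentSpace 𝓘(ℝ, E) y =>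
        cost (e x p.1) (e y p.2)) ((D - δ) • w 0, 0)
      rw [hw0]
      exact hcoord
    have h4 := h3.comp ((0, 0) : ℝ × TangentSpace 𝓘(ℝ, E) y) h1
    exact (h4.sub contDiffAt_const).of_le ENat.LEInfty.out
  case qG =>
    have h1 : ContDiffAt ℝ ∞ (fun q : TangentSpace 𝓘(ℝ, E) y =>
        ((-(δ • b) : TangentSpace 𝓘(ℝ, E) y), q)) 0 := contDiffAt_const.prodMk contDiffAt_id
    have h4 := ContDiffAt.comp (0 : TangentSpace 𝓘(ℝ, E) y) hcoordG h1
    exact (h4.sub contDiffAt_const).of_le ENat.LEInfty.out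
  case qκ =>
    have h1 : ContDiffAt ℝ ∞ (kap e D x y) (w 0) := by rw [hw0]; exact hkD
    exact (h1.comp (0 : ℝ) hwc.contDiffAt).of_le ENat.LEInfty.out
  case qκ0 =>
    change logMap e y (e x (D • w 0)) = 0
    rw [hw0, hyD]
    exact logMap_eq he (per_se_segMin hB (by rw [norm_zero]; exact hD.le)) hs0
  case qκ1 =>
    have h1 : HasFDerivAt (kap e D x y) (fderiv ℝ (kap e D x y) v) (w 0) := by
      rw [hw0]
      exact (hkD.differentiableAt (by simp)).hasFDerivAt
    have h2 := h1.comp_hasDerivAt (0 : ℝ) hwd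
    have h3 : fderiv ℝ (kap e D x y) v z = 0 := by
      rw [hz]
      have h4 := map_smul (fderiv ℝ (kap e D x y) v) ‖ζ‖⁻¹ ζ
      rw [hk, smul_zero] at h4
      exact h4
    rw [h3] at h2
    exact h2.deriv
  case q1 =>
    filter_upwards [hevD] with s hs
    change dist x (e y (logMap e y (e x (D • w s)))) = D
    rw [hs.2]
    exact hdistxD s
  case q2 =>
    filter_upwards [hevD] with s hs
    change cost (e x ((D - δ) • w s)) (e y (logMap e y (e x (D • w s)))) - δ ^ 2 / 2 = 0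
    rw [hs.2, cost, per_se_dist F hB hD (hwn s) (by linarith only [hδD]) (by linarith only [hδ])]
    ring
  case q3 =>
    refine Filter.Eventually.of_forall fun p hp => ?_
    have hp' : dist x (e y p.2) = D := hp
    have h1 := dist_triangle x (e x ((D - δ) • w p.1)) (e y p.2)
    rw [hp', hdistxδ] at h1
    have h2 : δ ≤ dist (e x ((D - δ) • w p.1)) (e y p.2) := by linarith only [h1]
    simp only [cost]
    nlinarith only [hδ, h1]
  case q4 =>
    refine Filter.Eventually.of_forall fun q hq => ?_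
    have hq' : dist x (e y q) = D := hq
    have h1 := dist_triangle x (e y (-(δ • b))) (e y q)
    have h2 : dist x (e y (-(δ • b))) = D - δ := by
      have h3 := per_se_dist F hB hD hb'.1 hδ.le hδD.le
      rw [hb'.2, smul_neg, dist_comm] at h3
      exact h3
    rw [hq', h2] at h1
    have h2 : δ ≤ dist (e y (-(δ • b))) (e y q) := by linarith only [h1]
    simp only [cost]
    nlinarith only [hδ, h1]
  case q0 =>
    change cost (e x ((D - δ) • w 0)) (e y 0) - δ ^ 2 / 2 = 0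
    rw [hw0, hδv, he.map_zero, cost, dist_comm, hB y (δ • b) hδn.le, norm_smul, hbn,
      Real.norm_eq_abs, abs_of_pos hδ]
    ring
  case qG0 =>
    change cost (e y (-(δ • b))) (e y 0) - δ ^ 2 / 2 = 0
    rw [he.map_zero, cost, dist_comm, hB y (-(δ • b)) hδn'.le, norm_neg, norm_smul, hbn,
      Real.norm_eq_abs, abs_of_pos hδ]
    ring
  case ql =>
    have h1 : HasFDerivAt (kap e (D - δ) x y) (fderiv ℝ (kap e (D - δ) x y) v) (w 0) := by
      rw [hw0]
      exact (hkδ.differentiableAt (by simp)).hasFDerivAt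
    exact h1.comp_hasDerivAt (0 : ℝ) hwd
  case qdh =>
    filter_upwards [hevδ, hevs] with s hs hs'
    have h1 := hasFDerivAt_cost_zero he y (logMap e y (e x ((D - δ) • w s))) hs.1
      (by rw [hs.2]; exact hs')
    rw [hs.2] at h1
    have h2 : (fun a : TangentSpace 𝓘(ℝ, E) y => cost (e y a) (e x ((D - δ) • w s))) =
        fun a => cost (e x ((D - δ) • w s)) (e y a) := by
      funext a
      exact cost_comm _ _
    rw [h2] at h1
    exact h1.sub_const _
  case qdG =>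
    have h1 := hasFDerivAt_cost_zero he y (-(δ • b)) (per_se_segMin hB hδn'.le) hsδ'
    have h2 : (fun a : TangentSpace 𝓘(ℝ, E) y => cost (e y a) (e y (-(δ • b)))) =
        fun a => cost (e y (-(δ • b))) (e y a) := by
      funext a
      exact cost_comm _ _
    rw [h2] at h1
    have h3 : -(innerSL ℝ (-(δ • b))) = innerSL ℝ (kap e (D - δ) x y (w 0)) := by
      have h4 : kap e (D - δ) x y (w 0) = δ • b := hl0
      rw [h4]
      ext u
      simp
    rw [h3] at h1
    exact h1.sub_const _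

end

end Vale.Agent.P231
end
end

section

section

/-! P231, T7: differential of the map `v' ↦ log_y (exp_x (T v'))` at a minimizing direction. -/

set_option maxSynthPendingDepth 3
set_option linter.unusedSectionVars false

open Bundle Manifold Set Filter
open scoped ContDiff Manifold Topology

namespace Vale.Agent.P231

noncomputable section

open Vale.Agent.P234

/-- a curve in the unit sphere with given velocity -/
theorem per_ka_curve {V : Type*} [NormedAddCommGroup V] [InnerProductSpace ℝ V] {v ζ : V}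
    (hv : ‖v‖ = 1) (hζ : inner ℝ v ζ = 0) :
    ∃ c : ℝ → V, (∀ s, ‖c s‖ = 1) ∧ c 0 = v ∧ HasDerivAt c ζ 0 := by
  have hpos : ∀ s : ℝ, 0 < 1 + s ^ 2 * ‖ζ‖ ^ 2 := fun s => by (clear * -; positivity)
  refine ⟨fun s => (Real.sqrt (1 + s ^ 2 * ‖ζ‖ ^ 2))⁻¹ • (v + s • ζ), ?_, ?_, ?_⟩
  · intro s
    have h1 : ‖v + s • ζ‖ ^ 2 = 1 + s ^ 2 * ‖ζ‖ ^ 2 := by
      rw [norm_add_sq_real, real_inner_smul_right, hζ, hv, norm_smul, mul_pow,
        Real.norm_eq_abs, sq_abs]
      ring
    have h2 : ‖v + s • ζ‖ = Real.sqrt (1 + s ^ 2 * ‖ζ‖ ^ 2) := by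
      rw [← h1, Real.sqrt_sq (norm_nonneg _)]
    have h3 : 0 < Real.sqrt (1 + s ^ 2 * ‖ζ‖ ^ 2) := Real.sqrt_pos.2 (hpos s)
    change ‖(Real.sqrt (1 + s ^ 2 * ‖ζ‖ ^ 2))⁻¹ • (v + s • ζ)‖ = 1
    rw [norm_smul, norm_inv, Real.norm_of_nonneg h3.le, h2, inv_mul_cancel₀ h3.ne']
  · simp
  · have h1 : HasDerivAt (fun s : ℝ => 1 + s ^ 2 * ‖ζ‖ ^ 2) 0 0 := by
      have h := ((hasDerivAt_pow 2 (0 : ℝ)).mul_const (‖ζ‖ ^ 2)).const_add 1
      refine h.congr_deriv ?_
      simp only [Nat.cast_ofNat, Nat.add_one_sub_one, pow_one, mul_zero, zero_mul]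
    have h2 : HasDerivAt (fun s : ℝ => (Real.sqrt (1 + s ^ 2 * ‖ζ‖ ^ 2))⁻¹) 0 0 := by
      have h := (h1.sqrt (by norm_num)).inv (by norm_num)
      refine h.congr_deriv ?_
      simp
    have h3 : HasDerivAt (fun s : ℝ => v + s • ζ) ζ 0 := by
      have h := ((hasDerivAt_id (0 : ℝ)).smul_const ζ).const_add v
      refine h.congr_deriv ?_
      simp
    refine (h2.smul h3).congr_deriv ?_
    simp

variable {E : Type*} [NormedAddCommGroup E] [NormedSpace ℝ E] [FiniteDimensional ℝ E]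
  {M : Type*} [MetricSpace M] [ChartedSpace E M]
  [RiemannianBundle (fun x : M => TangentSpace 𝓘(ℝ, E) x)]
  [IsManifold 𝓘(ℝ, E) ∞ M]
  [IsContMDiffRiemannianBundle 𝓘(ℝ, E) ∞ E (fun x : M => TangentSpace 𝓘(ℝ, E) x)]
  {e : ∀ x : M, TangentSpace 𝓘(ℝ, E) x → M}

theorem per_ka_mem {D T : ℝ} (hT : 0 < T) (hTD : T ≤ D) (hB : InjGE e D)
    {y : M} {b : TangentSpace 𝓘(ℝ, E) y} (hb : ‖b‖ = 1) : (D - T) • b ∈ injDomain e y := by
  refine hB.mem_injDomain ?_
  rw [norm_smul, hb, Real.norm_of_nonneg (by linarith)]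
  linarith only [hT]

theorem per_ka_smooth (F : Facts e) {D T : ℝ} (hT : 0 < T) (hTD : T ≤ D) (hB : InjGE e D)
    {x y : M} {b : TangentSpace 𝓘(ℝ, E) y} {v : TangentSpace 𝓘(ℝ, E) x}
    (hb : ‖b‖ = 1) (hvb : ∀ s : ℝ, e x (s • v) = e y ((D - s) • b)) :
    SmoothAt E y (e x (T • v)) := by
  rw [hvb]
  exact F.smooth_cost y _ (per_ka_mem hT hTD hB hb)

theorem per_ka_val (F : Facts e) {D T : ℝ} (hT : 0 < T) (hTD : T ≤ D) (hB : InjGE e D)
    {x y : M} {b : TangentSpace 𝓘(ℝ, E) y} {v : TangentSpace 𝓘(ℝ, E) x}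
    (hb : ‖b‖ = 1) (hvb : ∀ s : ℝ, e x (s • v) = e y ((D - s) • b)) :
    kap e T x y v = (D - T) • b := by
  have hmem := per_ka_mem hT hTD hB hb
  unfold kap
  rw [hvb]
  exact logMap_eq F.isExp (injDomain_subset_segMin F.isExp y hmem) (F.smooth_cost y _ hmem)

theorem per_ka_event (F : Facts e) {D T : ℝ} (hT : 0 < T) (hTD : T ≤ D) (hB : InjGE e D)
    {x y : M} {b : TangentSpace 𝓘(ℝ, E) y} {v : TangentSpace 𝓘(ℝ, E) x}
    (hb : ‖b‖ = 1) (hvb : ∀ s : ℝ, e x (s • v) = e y ((D - s) • b)) :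
    ∀ᶠ v' in 𝓝 v, kap e T x y v' ∈ segMin e y ∧ e y (kap e T x y v') = e x (T • v') := by
  have h1 := eventually_logMap F.isExp F.hopfRinow (per_ka_smooth F hT hTD hB hb hvb)
  have h2 : Continuous (fun v' : TangentSpace 𝓘(ℝ, E) x => e x (T • v')) :=
    (contMDiff_exp_fiber F.isExp x).continuous.comp (continuous_const_smul T)
  exact h2.continuousAt.eventually h1

theorem kap_contDiffAt (F : Facts e) {D T : ℝ} (hT : 0 < T) (hTD : T ≤ D) (hB : InjGE e D)
    {x y : M} {b : TangentSpace 𝓘(ℝ, E) y} {v : TangentSpace 𝓘(ℝ, E) x} (hv : ‖v‖ = 1)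
    (hb : ‖b‖ = 1) (hvb : ∀ s : ℝ, e x (s • v) = e y ((D - s) • b)) :
    ContDiffAt ℝ ∞ (kap e T x y) v := by
  have h1 := contMDiffAt_logMap F.isExp (per_ka_smooth F hT hTD hB hb hvb)
  have h2 : ContMDiffAt 𝓘(ℝ, TangentSpace 𝓘(ℝ, E) x) 𝓘(ℝ, TangentSpace 𝓘(ℝ, E) x) ∞
      (fun v' : TangentSpace 𝓘(ℝ, E) x => T • v') v :=
    (contDiff_const_smul T).contMDiff.contMDiffAt
  have h3 : ContMDiffAt 𝓘(ℝ, TangentSpace 𝓘(ℝ, E) x) 𝓘(ℝ, E) ∞
      (fun v' : TangentSpace 𝓘(ℝ, E) x => e x (T • v')) v :=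
    ContMDiffAt.comp v ((contMDiff_exp_fiber F.isExp x).contMDiffAt) h2
  exact (ContMDiffAt.comp v h1 h3).contDiffAt

theorem per_ka_dist (F : Facts e) {D : ℝ} (hD : 0 < D) (hB : InjGE e D)
    {x y : M} {b : TangentSpace 𝓘(ℝ, E) y} {v : TangentSpace 𝓘(ℝ, E) x} (hv : ‖v‖ = 1)
    (hvb : ∀ s : ℝ, e x (s • v) = e y ((D - s) • b)) : dist x y = D := by
  have h1 : e x (D • v) = y := by
    rw [hvb, sub_self, zero_smul, F.isExp.map_zero]
  have h2 := hB x (D • v) (by rw [norm_smul, hv, Real.norm_of_nonneg hD.le, mul_one])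
  rw [h1, norm_smul, hv, Real.norm_of_nonneg hD.le, mul_one] at h2
  exact h2

theorem kap_orth (F : Facts e) {D δ : ℝ} (hδ : 0 < δ) (hδD : δ < D) (hB : InjGE e D)
    {x y : M} {b : TangentSpace 𝓘(ℝ, E) y} {v : TangentSpace 𝓘(ℝ, E) x} (hv : ‖v‖ = 1)
    (hb : ‖b‖ = 1) (hvb : ∀ s : ℝ, e x (s • v) = e y ((D - s) • b))
    {ζ : TangentSpace 𝓘(ℝ, E) x} (hζ : inner ℝ v ζ = 0) :
    inner ℝ b (fderiv ℝ (kap e (D - δ) x y) v ζ) = 0 := by
  have hT : 0 < D - δ := by linarith only [hδD]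
  have hTD : D - δ ≤ D := by linarith only [hδ]
  obtain ⟨c, hc1, hc0, hcd⟩ := per_ka_curve hv hζ
  have hval := per_ka_val F hT hTD hB hb hvb
  have hsub : D - (D - δ) = δ := by ring
  rw [hsub] at hval
  have hdist := per_ka_dist F (by linarith only [hδ, hδD]) hB hv hvb
  have hK : HasFDerivAt (kap e (D - δ) x y) (fderiv ℝ (kap e (D - δ) x y) v) (c 0) := by
    rw [hc0]
    exact ((kap_contDiffAt F hT hTD hB hv hb hvb).differentiableAt (by simp)).hasFDerivAt
  have hcomp : HasDerivAt (fun s => kap e (D - δ) x y (c s))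
      (fderiv ℝ (kap e (D - δ) x y) v ζ) 0 := hK.comp_hasDerivAt 0 hcd
  have hsq := hcomp.norm_sq
  have hmin : IsLocalMin (fun s => ‖kap e (D - δ) x y (c s)‖ ^ 2) 0 := by
    have h1 : ∀ᶠ s in 𝓝 (0 : ℝ), kap e (D - δ) x y (c s) ∈ segMin e y ∧
        e y (kap e (D - δ) x y (c s)) = e x ((D - δ) • c s) := by
      have h2 : Tendsto c (𝓝 0) (𝓝 v) := by
        have := hcd.continuousAt.tendsto
        rwa [hc0] at this
      exact h2.eventually (per_ka_event F hT hTD hB hb hvb)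
    filter_upwards [h1] with s hs
    have h3 : dist y (e x ((D - δ) • c s)) = ‖kap e (D - δ) x y (c s)‖ := by
      rw [← hs.2]
      exact hs.1
    have h4 : dist x (e x ((D - δ) • c s)) = D - δ := by
      have h5 : ‖(D - δ) • c s‖ = D - δ := by
        rw [norm_smul, hc1, Real.norm_of_nonneg hT.le, mul_one]
      rw [hB x _ (by rw [h5]; exact hTD), h5]
    have h6 : δ ≤ ‖kap e (D - δ) x y (c s)‖ := by
      have h7 := dist_triangle x (e x ((D - δ) • c s)) y
      rw [h4, hdist, dist_comm _ y, h3] at h7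
      (clear F hδ hδD hB b v hv hb hvb ζ hζ hT hTD hc1 hc0 hcd hval hsub hdist hK hcomp hsq h1 hs h3 h4; linarith)
    have h8 : ‖kap e (D - δ) x y (c 0)‖ = δ := by
      rw [hc0, hval, norm_smul, hb, Real.norm_of_nonneg hδ.le, mul_one]
    simp only [h8]
    exact pow_le_pow_left₀ hδ.le h6 2
  have h9 := hmin.hasDerivAt_eq_zero hsq
  rw [hc0, hval, real_inner_smul_left] at h9
  have h10 : (2 : ℝ) * δ ≠ 0 := by positivity
  have h11 : (2 * δ) * inner ℝ b (fderiv ℝ (kap e (D - δ) x y) v ζ) = 0 := by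
    rw [← h9]; ring
  exact (mul_eq_zero.1 h11).resolve_left h10

theorem kap_orth_link (F : Facts e) {D : ℝ} (hD : 0 < D) (hB : InjGE e D)
    {x y : M} {b : TangentSpace 𝓘(ℝ, E) y} {v : TangentSpace 𝓘(ℝ, E) x} (hv : ‖v‖ = 1)
    (hb : ‖b‖ = 1) (hvb : ∀ s : ℝ, e x (s • v) = e y ((D - s) • b))
    {u : TangentSpace 𝓘(ℝ, E) y} (hu : u ∈ Lk e D x y)
    {ζ : TangentSpace 𝓘(ℝ, E) x} (hζ : inner ℝ v ζ = 0) :
    inner ℝ u (fderiv ℝ (kap e D x y) v ζ) = 0 := by
  obtain ⟨hu1, hux⟩ := hu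
  obtain ⟨c, hc1, hc0, hcd⟩ := per_ka_curve hv hζ
  have hval := per_ka_val F hD le_rfl hB hb hvb
  rw [sub_self, zero_smul] at hval
  -- the point `p` at distance `D / 2` from `y` and from `x`
  set w : TangentSpace 𝓘(ℝ, E) y := (D / 2) • u with hw
  have hwn : ‖w‖ = D / 2 := by
    rw [hw, norm_smul, hu1, Real.norm_of_nonneg (by linarith only [hD]), mul_one]
  have hwmem : w ∈ injDomain e y := hB.mem_injDomain (by rw [hwn]; linarith only [hD])
  have hwseg : w ∈ segMin e y := injDomain_subset_segMin F.isExp y hwmem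
  have hws : SmoothAt E y (e y w) := F.smooth_cost y w hwmem
  have hyp : dist y (e y w) = D / 2 := by
    rw [← hwn]
    exact hwseg
  have hxp : dist x (e y w) = D / 2 := by
    have h1 : D • u ∈ segMin e y := by
      change dist y (e y (D • u)) = ‖D • u‖
      exact hB y _ (by rw [norm_smul, hu1, Real.norm_of_nonneg hD.le, mul_one])
    have h2 := segMin_dist F.isExp h1 (s := 1 / 2) (t := 1) (by norm_num) (by norm_num) le_rfl
    rw [one_smul, hux, smul_smul, norm_smul, hu1, Real.norm_of_nonneg hD.le] at h2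
    rw [dist_comm, hw, show D / 2 = 1 / 2 * D by ring, h2]
    ring
  have hg := hasFDerivAt_cost_zero F.isExp y w hwseg hws
  have hK : HasFDerivAt (kap e D x y) (fderiv ℝ (kap e D x y) v) (c 0) := by
    rw [hc0]
    exact ((kap_contDiffAt F hD le_rfl hB hv hb hvb).differentiableAt (by simp)).hasFDerivAt
  have hcomp : HasDerivAt (fun s => kap e D x y (c s))
      (fderiv ℝ (kap e D x y) v ζ) 0 := hK.comp_hasDerivAt 0 hcd
  have hg' : HasFDerivAt (fun a : TangentSpace 𝓘(ℝ, E) y => cost (e y a) (e y w))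
      (-(innerSL ℝ w)) (kap e D x y (c 0)) := by
    rw [hc0, hval]
    exact hg
  have hcomp2 : HasDerivAt (fun s => cost (e y (kap e D x y (c s))) (e y w))
      ((-(innerSL ℝ w)) (fderiv ℝ (kap e D x y) v ζ)) 0 :=
    HasFDerivAt.comp_hasDerivAt (l := fun a : TangentSpace 𝓘(ℝ, E) y => cost (e y a) (e y w))
      (f := fun s => kap e D x y (c s)) 0 hg' hcomp
  have hmin : IsLocalMin (fun s => cost (e y (kap e D x y (c s))) (e y w)) 0 := by
    have h1 : ∀ᶠ s in 𝓝 (0 : ℝ), kap e D x y (c s) ∈ segMin e y ∧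
        e y (kap e D x y (c s)) = e x (D • c s) := by
      have h2 : Tendsto c (𝓝 0) (𝓝 v) := by
        have := hcd.continuousAt.tendsto
        rwa [hc0] at this
      exact h2.eventually (per_ka_event F hD le_rfl hB hb hvb)
    filter_upwards [h1] with s hs
    have h4 : dist x (e x (D • c s)) = D := by
      have h5 : ‖D • c s‖ = D := by
        rw [norm_smul, hc1, Real.norm_of_nonneg hD.le, mul_one]
      rw [hB x _ (by rw [h5]), h5]
    have h6 : D / 2 ≤ dist (e x (D • c s)) (e y w) := by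
      have h7 := dist_triangle x (e y w) (e x (D • c s))
      rw [h4, hxp, dist_comm (e y w)] at h7
      linarith only [h7]
    have h8 : cost (e y (kap e D x y (c 0))) (e y w) = (D / 2) ^ 2 / 2 := by
      rw [hc0, hval, F.isExp.map_zero, cost, hyp]
    simp only [h8]
    rw [hs.2, cost]
    have h9 : (D / 2) ^ 2 ≤ dist (e x (D • c s)) (e y w) ^ 2 :=
      pow_le_pow_left₀ (by linarith only [hD]) h6 2
    linarith only [h9]
  have h9 := hmin.hasDerivAt_eq_zero hcomp2
  rw [neg_apply, innerSL_apply_apply, hw, real_inner_smul_left] at h9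
  have h10 : (D / 2 : ℝ) ≠ 0 := by positivity
  have h11 : (D / 2) * inner ℝ u (fderiv ℝ (kap e D x y) v ζ) = 0 := by (clear F hD hB b hv hb hvb hζ hu1 hux c hc1 hc0 hcd hval w hw hwn hwmem hwseg hws hyp hxp hg hK hcomp hg' hcomp2 hmin h10; linarith)
  exact (mul_eq_zero.1 h11).resolve_left h10

theorem kap_inj [CompactSpace M] [ConnectedSpace M] [IsRiemannianManifold 𝓘(ℝ, E) M]
    (F : Facts e) {D δ : ℝ} (hδ : 0 < δ) (hδD : δ < D) (hB : InjGE e D)
    {x y : M} {b : TangentSpace 𝓘(ℝ, E) y} {v : TangentSpace 𝓘(ℝ, E) x} (hv : ‖v‖ = 1)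
    (hb : ‖b‖ = 1) (hvb : ∀ s : ℝ, e x (s • v) = e y ((D - s) • b))
    {ζ : TangentSpace 𝓘(ℝ, E) x} (h0 : fderiv ℝ (kap e (D - δ) x y) v ζ = 0) : ζ = 0 := by
  have hT : 0 < D - δ := by linarith only [hδD]
  have hTD : D - δ ≤ D := by linarith only [hδ]
  have hval := per_ka_val F hT hTD hB hb hvb
  have hTn : ‖(D - δ) • v‖ = D - δ := by
    rw [norm_smul, hv, Real.norm_of_nonneg hT.le, mul_one]
  have hmem : (D - δ) • v ∈ injDomain e x := hB.mem_injDomain (by rw [hTn]; linarith only [hδ])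
  have hseg := injDomain_subset_segMin F.isExp x hmem
  have hs := F.smooth_cost x _ hmem
  -- the logarithm at `x`
  have hL : ∀ᶠ a in 𝓝 ((D - δ) • v), logMap e x (e x a) = a :=
    eventually_logMap_exp F.isExp F.hopfRinow hseg hs
  have hL1 : ∀ᶠ v' in 𝓝 v, logMap e x (e x ((D - δ) • v')) = (D - δ) • v' :=
    (continuous_const_smul (D - δ)).continuousAt.eventually hL
  have hL2 := per_ka_event F hT hTD hB hb hvb
  have hL3 : (fun v' => logMap e x (e y (kap e (D - δ) x y v'))) =ᶠ[𝓝 v]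
      fun v' => (D - δ) • v' := by
    filter_upwards [hL1, hL2] with v' h1 h2
    rw [h2.2, h1]
  -- differentiability
  have hG : DifferentiableAt ℝ (fun a : TangentSpace 𝓘(ℝ, E) y => logMap e x (e y a))
      (kap e (D - δ) x y v) := by
    have h1 : ContMDiffAt 𝓘(ℝ, E) 𝓘(ℝ, TangentSpace 𝓘(ℝ, E) x) ∞ (logMap e x)
        (e y (kap e (D - δ) x y v)) := by
      rw [hval, ← hvb]
      exact contMDiffAt_logMap F.isExp hs
    have h2 := ContMDiffAt.comp (kap e (D - δ) x y v) h1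
      ((contMDiff_exp_fiber F.isExp y).contMDiffAt)
    exact h2.contDiffAt.differentiableAt (by simp)
  have hK : DifferentiableAt ℝ (kap e (D - δ) x y) v :=
    (kap_contDiffAt F hT hTD hB hv hb hvb).differentiableAt (by simp)
  have hcomp := hG.hasFDerivAt.comp v hK.hasFDerivAt
  have hlin : HasFDerivAt (fun v' : TangentSpace 𝓘(ℝ, E) x => (D - δ) • v')
      ((D - δ) • ContinuousLinearMap.id ℝ (TangentSpace 𝓘(ℝ, E) x)) v :=
    (hasFDerivAt_id v).const_smul (D - δ)
  have heq := (hlin.congr_of_eventuallyEq hL3).unique hcomp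
  have h1 := congrArg (fun A : TangentSpace 𝓘(ℝ, E) x →L[ℝ] TangentSpace 𝓘(ℝ, E) x => A ζ) heq
  simp only [ContinuousLinearMap.comp_apply, h0, map_zero, _root_.smul_apply,
    ContinuousLinearMap.id_apply] at h1
  exact (smul_eq_zero.1 h1).resolve_left hT.ne'

end

end Vale.Agent.P231
end
end

section

section

/-! P231 closedness of geodesics: a symmetry of the differential of `kap`. -/

set_option maxSynthPendingDepth 3
set_option linter.unusedSectionVars false

open Bundle Manifold Set Filter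
open scoped ContDiff Manifold Topology

namespace Vale.Agent.P231

noncomputable section

open Vale.Agent.P234

/-! ### pure calculus -/

/-- mixed second derivatives at a degenerate minimum along the diagonal are symmetric -/
theorem per_sy_abs {X : Type*} [NormedAddCommGroup X] [NormedSpace ℝ X] {H : X × X → ℝ} {c : ℝ}
    (hH : ContDiffAt ℝ 2 H (0, 0)) (h1 : ∀ᶠ p in 𝓝 ((0, 0) : X × X), c ≤ H p)
    (h2 : ∀ᶠ p in 𝓝 (0 : X), H (p, p) = c) (w z : X) :
    hess H (0, 0) (0, w) (z, 0) = hess H (0, 0) (0, z) (w, 0) := by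
  have hd : Tendsto (fun p : X => (p, p)) (𝓝 0) (𝓝 ((0, 0) : X × X)) := by
    have : Continuous (fun p : X => (p, p)) := by fun_prop
    exact this.tendsto 0
  have h3 : (fun p : X => fderiv ℝ H (p, p)) =ᶠ[𝓝 0] fun _ => 0 := by
    have h4 := hd.eventually (eventually_eventually_nhds.2 h1)
    filter_upwards [h4, h2] with p hp hp2
    have h5 : IsLocalMin H (p, p) := by
      filter_upwards [hp] with q hq
      rw [hp2]
      exact hq
    exact h5.fderiv_eq_zero
  have key : ∀ u : X, hess H (0, 0) (u, u) = 0 := by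
    intro u
    have h4 : HasFDerivAt (fun p : X => (p, p))
        ((ContinuousLinearMap.id ℝ X).prod (ContinuousLinearMap.id ℝ X)) (0 : X) :=
      (hasFDerivAt_id (0 : X)).prodMk (hasFDerivAt_id (0 : X))
    have h5 : HasFDerivAt (fderiv ℝ H) (hess H (0, 0)) ((fun p : X => (p, p)) 0) :=
      hasFDerivAt_fderiv hH
    have h6 := HasFDerivAt.comp (g := fderiv ℝ H) (f := fun p : X => (p, p)) (0 : X) h5 h4
    have h7 : HasFDerivAt (fun p : X => fderiv ℝ H (p, p)) (0 : X →L[ℝ] X × X →L[ℝ] ℝ) 0 :=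
      (hasFDerivAt_const (0 : X × X →L[ℝ] ℝ) (0 : X)).congr_of_eventuallyEq h3
    have h8 := h6.unique h7
    have h9 := congrArg (fun L => L u) h8
    simpa only [ContinuousLinearMap.comp_apply, ContinuousLinearMap.prod_apply, ContinuousLinearMap.id_apply,     zero_apply] using h9
  have e1 : ∀ u u' : X, hess H (0, 0) (0, u) (u', 0) = - hess H (0, 0) (0, u) (0, u') := by
    intro u u'
    have h4 : hess H (0, 0) (0, u) (u', u') = 0 := by
      rw [hess_symm hH, key]
      rfl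
    have h5 : ((u', u') : X × X) = (u', 0) + (0, u') := by simp
    rw [h5, map_add] at h4
    linarith only [h4]
  rw [e1, e1, hess_symm hH]

/-- derivative of the normalisation map at a unit vector -/
theorem per_sy_norm {X : Type*} [NormedAddCommGroup X] [InnerProductSpace ℝ X] {v : X}
    (hv : ‖v‖ = 1) : HasFDerivAt (fun p : X => ‖v + p‖⁻¹ • (v + p))
      (ContinuousLinearMap.id ℝ X - (innerSL ℝ v).smulRight v) 0 := by
  have hv0 : v ≠ 0 := by
    intro h
    rw [h, norm_zero] at hv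
    exact zero_ne_one hv
  have h1 : HasFDerivAt (fun p : X => v + p) (ContinuousLinearMap.id ℝ X) 0 :=
    (hasFDerivAt_id (0 : X)).const_add v
  have h2 : HasFDerivAt (fun x : X => ‖x‖) (‖v‖⁻¹ • innerSL ℝ v) (v + 0) := by
    rw [add_zero]
    exact hasFDerivAt_norm' hv0
  have h3 : HasFDerivAt (fun p : X => ‖v + p‖) (innerSL ℝ v) 0 := by
    have h4 := h2.comp (0 : X) h1
    rw [hv, inv_one, one_smul] at h4
    exact h4
  have h5 : HasDerivAt (fun r : ℝ => r⁻¹) (-1) ‖v + 0‖ := by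
    have h6 := hasDerivAt_inv (x := ‖v + 0‖) (by rw [add_zero, hv]; exact one_ne_zero)
    rw [add_zero, hv] at h6 ⊢
    simpa using h6
  have h7 := h5.comp_hasFDerivAt (0 : X) h3
  have h8 := h7.smul h1
  refine h8.congr_fderiv ?_
  ext w
  simp only [Function.comp, add_zero, hv, inv_one, one_smul, neg_smul, add_apply, ContinuousLinearMap.id_apply, ContinuousLinearMap.smulRight_apply, neg_apply, coe_innerSL_apply, sub_eq_add_neg]

theorem per_sy_smooth {X : Type*} [NormedAddCommGroup X] [InnerProductSpace ℝ X] {v : X}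
    (hv : ‖v‖ = 1) : ContDiffAt ℝ ∞ (fun p : X => ‖v + p‖⁻¹ • (v + p)) 0 := by
  have hv0 : v + 0 ≠ 0 := by
    intro h
    rw [add_zero] at h
    rw [h, norm_zero] at hv
    exact zero_ne_one hv
  have h1 : ContDiffAt ℝ ∞ (fun p : X => v + p) 0 := contDiffAt_const.add contDiffAt_id
  have h2 : ContDiffAt ℝ ∞ (fun p : X => ‖v + p‖) 0 := h1.norm ℝ hv0
  exact (h2.inv (norm_ne_zero_iff.2 hv0)).smul h1

variable {E : Type*} [NormedAddCommGroup E] [NormedSpace ℝ E] [FiniteDimensional ℝ E]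
  {M : Type*} [MetricSpace M] [ChartedSpace E M]
  [RiemannianBundle (fun x : M => TangentSpace 𝓘(ℝ, E) x)]
  [IsManifold 𝓘(ℝ, E) ∞ M]
  [IsContMDiffRiemannianBundle 𝓘(ℝ, E) ∞ E (fun x : M => TangentSpace 𝓘(ℝ, E) x)]
  {e : ∀ x : M, TangentSpace 𝓘(ℝ, E) x → M}

/-- smoothness of the cost from `y` at distance less than `D` -/
theorem per_sy_smoothAt (F : Facts e) {D : ℝ} (hB : InjGE e D) {y : M}
    {b : TangentSpace 𝓘(ℝ, E) y} (hb : ‖b‖ < D) : SmoothAt E y (e y b) :=
  F.smooth_cost y b (hB.mem_injDomain hb)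

/-- smoothness of `kap` when the cost is smooth -/
theorem per_sy_kap (he : IsExp e) {T : ℝ} {x y : M} {v : TangentSpace 𝓘(ℝ, E) x}
    (hs : SmoothAt E y (e x (T • v))) : ContDiffAt ℝ ∞ (kap e T x y) v := by
  have h1 := contMDiffAt_logMap he hs
  have h2 : ContMDiffAt 𝓘(ℝ, TangentSpace 𝓘(ℝ, E) x) 𝓘(ℝ, TangentSpace 𝓘(ℝ, E) x) ∞
      (fun v' : TangentSpace 𝓘(ℝ, E) x => T • v') v :=
    (contDiff_const.smul contDiff_id).contMDiff.contMDiffAt
  have h3 : ContMDiffAt 𝓘(ℝ, TangentSpace 𝓘(ℝ, E) x) 𝓘(ℝ, E) ∞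
      (fun v' : TangentSpace 𝓘(ℝ, E) x => e x (T • v')) v :=
    ContMDiffAt.comp v ((contMDiff_exp_fiber he x).contMDiffAt) h2
  exact (ContMDiffAt.comp v h1 h3).contDiffAt

/-- the defining property of `logMap` -/
theorem per_sy_grad (y q : M) (ξ : TangentSpace 𝓘(ℝ, E) y) :
    fderiv ℝ (fun a : TangentSpace 𝓘(ℝ, E) y => cost (e y a) q) 0 ξ =
      -inner ℝ (logMap e y q) ξ := by
  have : CompleteSpace (TangentSpace 𝓘(ℝ, E) y) := FiniteDimensional.complete ℝ _
  unfold logMap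
  rw [InnerProductSpace.toDual_symm_apply]
  simp

/-- the distance between two points of a minimizing ray -/
theorem per_sy_dist (F : Facts e) {D δ : ℝ} (hδ : 0 < δ) (hδD : δ < D) (hB : InjGE e D)
    {x : M} {u : TangentSpace 𝓘(ℝ, E) x} (hu : ‖u‖ = 1) :
    dist (e x (D • u)) (e x ((D - δ) • u)) = δ := by
  have hD : 0 < D := hδ.trans hδD
  have hn : ‖D • u‖ = D := by rw [norm_smul, hu, mul_one, Real.norm_of_nonneg hD.le]
  have hm : D • u ∈ segMin e x := hB x (D • u) hn.le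
  have h1 := segMin_dist F.isExp hm (s := (D - δ) / D) (t := 1) (by
    apply div_nonneg <;> linarith only [hδ, hδD]) (by rw [div_le_one hD]; linarith only [hδ]) le_rfl
  rw [one_smul, smul_smul, div_mul_cancel₀ _ hD.ne', hn, dist_comm] at h1
  rw [h1]
  field_simp
  ring

theorem kap_sym (F : Facts e) {D δ : ℝ} (hδ : 0 < δ) (hδD : δ < D) (hB : InjGE e D)
    {x y : M} {b : TangentSpace 𝓘(ℝ, E) y} {v : TangentSpace 𝓘(ℝ, E) x} (hv : ‖v‖ = 1)
    (hb : ‖b‖ = 1) (hvb : ∀ s : ℝ, e x (s • v) = e y ((D - s) • b))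
    {ζ η : TangentSpace 𝓘(ℝ, E) x} (hζ : inner ℝ v ζ = 0) (hη : inner ℝ v η = 0) :
    inner ℝ (fderiv ℝ (kap e (D - δ) x y) v ζ) (fderiv ℝ (kap e D x y) v η) =
      inner ℝ (fderiv ℝ (kap e (D - δ) x y) v η) (fderiv ℝ (kap e D x y) v ζ) := by
  have he := F.isExp
  have hD : 0 < D := hδ.trans hδD
  have hy : e x (D • v) = y := by
    rw [hvb, sub_self, zero_smul, he.map_zero]
  have hyδ : e x ((D - δ) • v) = e y (δ • b) := by
    rw [hvb, sub_sub_cancel]
  have hs0 : SmoothAt E y y := by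
    have h1 := per_sy_smoothAt F hB (y := y) (b := 0) (by rwa [norm_zero])
    rwa [he.map_zero] at h1
  have hsδ : SmoothAt E y (e x ((D - δ) • v)) := by
    rw [hyδ]
    refine per_sy_smoothAt F hB ?_
    rw [norm_smul, hb, mul_one, Real.norm_of_nonneg hδ.le]
    exact hδD
  have hA : ContDiffAt ℝ ∞ (kap e D x y) v := per_sy_kap he (by rw [hy]; exact hs0)
  have hBd : ContDiffAt ℝ ∞ (kap e (D - δ) x y) v := per_sy_kap he hsδ
  have hA' := (hA.differentiableAt (by simp)).hasFDerivAt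
  have hB' := (hBd.differentiableAt (by simp)).hasFDerivAt
  set V : TangentSpace 𝓘(ℝ, E) x → TangentSpace 𝓘(ℝ, E) x := fun p => ‖v + p‖⁻¹ • (v + p)
    with hVdef
  have hV0 : V 0 = v := by simp [hVdef, hv]
  have hVd : HasFDerivAt V (ContinuousLinearMap.id ℝ _ - (innerSL ℝ v).smulRight v) 0 :=
    per_sy_norm hv
  have hVs : ContDiffAt ℝ ∞ V 0 := per_sy_smooth hv
  have hVc : Tendsto V (𝓝 0) (𝓝 v) := by
    have := hVs.continuousAt.tendsto
    rwa [hV0] at this
  have hVn : ∀ᶠ p in 𝓝 (0 : TangentSpace 𝓘(ℝ, E) x), ‖V p‖ = 1 := by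
    have h1 : ContinuousAt (fun p : TangentSpace 𝓘(ℝ, E) x => v + p) 0 := by fun_prop
    have h2 : v + 0 ≠ 0 := by
      intro h
      rw [add_zero] at h
      rw [h, norm_zero] at hv
      exact zero_ne_one hv
    filter_upwards [h1.eventually_ne h2] with p hp
    rw [hVdef]
    simp only
    rw [norm_smul, norm_inv, norm_norm, inv_mul_cancel₀ (norm_ne_zero_iff.2 hp)]
  set H : TangentSpace 𝓘(ℝ, E) x × TangentSpace 𝓘(ℝ, E) x → ℝ := fun p =>
    cost (e x (D • V p.1)) (e x ((D - δ) • V p.2)) with hHdef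
  have hHs : ContDiffAt ℝ ∞ H (0, 0) := by
    have h1 : ContDiffAt ℝ ∞ (fun p : TangentSpace 𝓘(ℝ, E) x × TangentSpace 𝓘(ℝ, E) x =>
        cost (e x p.1) (e x p.2)) (D • V 0, (D - δ) • V 0) := by
      apply SmoothAt.coord he
      rw [hV0, hy]
      exact hsδ
    have h2 : ContDiffAt ℝ ∞ (fun p : TangentSpace 𝓘(ℝ, E) x × TangentSpace 𝓘(ℝ, E) x =>
        (D • V p.1, (D - δ) • V p.2)) (0, 0) := by
      have h3 : ContDiffAt ℝ ∞ (fun p : TangentSpace 𝓘(ℝ, E) x × TangentSpace 𝓘(ℝ, E) x =>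
          V p.1) (0, 0) := ContDiffAt.comp (g := V) (0, 0) hVs contDiffAt_fst
      have h4 : ContDiffAt ℝ ∞ (fun p : TangentSpace 𝓘(ℝ, E) x × TangentSpace 𝓘(ℝ, E) x =>
          V p.2) (0, 0) := ContDiffAt.comp (g := V) (0, 0) hVs contDiffAt_snd
      exact (contDiffAt_const.smul h3).prodMk (contDiffAt_const.smul h4)
    exact ContDiffAt.comp (0, 0) h1 h2
  have hlow : ∀ᶠ p in 𝓝 ((0, 0) : TangentSpace 𝓘(ℝ, E) x × TangentSpace 𝓘(ℝ, E) x),
      δ ^ 2 / 2 ≤ H p := by
    have h1 : ∀ᶠ p in 𝓝 ((0, 0) : TangentSpace 𝓘(ℝ, E) x × TangentSpace 𝓘(ℝ, E) x),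
        ‖V p.1‖ = 1 := (continuous_fst.tendsto ((0, 0) : TangentSpace 𝓘(ℝ, E) x ×
          TangentSpace 𝓘(ℝ, E) x)).eventually hVn
    have h2 : ∀ᶠ p in 𝓝 ((0, 0) : TangentSpace 𝓘(ℝ, E) x × TangentSpace 𝓘(ℝ, E) x),
        ‖V p.2‖ = 1 := (continuous_snd.tendsto ((0, 0) : TangentSpace 𝓘(ℝ, E) x ×
          TangentSpace 𝓘(ℝ, E) x)).eventually hVn
    filter_upwards [h1, h2] with p hp1 hp2
    have h3 : dist x (e x (D • V p.1)) = D := by
      have hn : ‖D • V p.1‖ = D := by rw [norm_smul, hp1, mul_one, Real.norm_of_nonneg hD.le]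
      rw [hB x _ hn.le, hn]
    have h4 : dist x (e x ((D - δ) • V p.2)) = D - δ := by
      have hn : ‖(D - δ) • V p.2‖ = D - δ := by
        rw [norm_smul, hp2, mul_one, Real.norm_of_nonneg (by linarith only [hδD])]
      rw [hB x _ (by rw [hn]; linarith only [hδ]), hn]
    have h5 : δ ≤ dist (e x (D • V p.1)) (e x ((D - δ) • V p.2)) := by
      have h6 := dist_triangle x (e x ((D - δ) • V p.2)) (e x (D • V p.1))
      rw [h3, h4, dist_comm (e x ((D - δ) • V p.2))] at h6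
      linarith only [h6]
    have h6 : δ ^ 2 ≤ dist (e x (D • V p.1)) (e x ((D - δ) • V p.2)) ^ 2 :=
      pow_le_pow_left₀ hδ.le h5 2
    have h7 : H p = dist (e x (D • V p.1)) (e x ((D - δ) • V p.2)) ^ 2 / 2 := rfl
    rw [h7]
    linarith only [h6]
  have hdiag : ∀ᶠ p in 𝓝 (0 : TangentSpace 𝓘(ℝ, E) x), H (p, p) = δ ^ 2 / 2 := by
    filter_upwards [hVn] with p hp
    have h7 : H (p, p) = dist (e x (D • V p)) (e x ((D - δ) • V p)) ^ 2 / 2 := rfl
    rw [h7, per_sy_dist F hδ hδD hB hp]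
  -- the mixed second derivative
  have hκ0 : kap e D x y (V 0) = 0 := by
    have h1 := logMap_eq he (z := y) (w := 0)
      (injDomain_subset_segMin he y (hB.mem_injDomain (by rwa [norm_zero])))
      (by rw [he.map_zero]; exact hs0)
    rw [he.map_zero] at h1
    rw [kap, hV0, hy, h1]
  have hmix : ∀ w z : TangentSpace 𝓘(ℝ, E) x, inner ℝ v w = 0 → inner ℝ v z = 0 →
      hess H (0, 0) (0, w) (z, 0) =
        -inner ℝ (fderiv ℝ (kap e (D - δ) x y) v w) (fderiv ℝ (kap e D x y) v z) := by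
    intro w z hw hz
    refine hess_mixed hHs z w ?_
    have hline : HasDerivAt (fun s : ℝ => (0 : TangentSpace 𝓘(ℝ, E) x) + s • w) w 0 := by
      simpa only [zero_add, id_eq, one_smul] using     ((hasDerivAt_id (0 : ℝ)).smul_const w).const_add (0 : TangentSpace 𝓘(ℝ, E) x)
    have hline0 : (0 : TangentSpace 𝓘(ℝ, E) x) + (0 : ℝ) • w = 0 := by simp only [zero_smul, add_zero]
    have hcont : Tendsto (fun s : ℝ => (0 : TangentSpace 𝓘(ℝ, E) x) + s • w) (𝓝 0) (𝓝 0) := by
      have := hline.continuousAt.tendsto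
      rwa [hline0] at this
    have hev : (fun s : ℝ => fderiv ℝ (fun a' : TangentSpace 𝓘(ℝ, E) x =>
        H (a', 0 + s • w)) 0 z) =ᶠ[𝓝 0]
        fun s : ℝ => -inner ℝ (kap e (D - δ) x y (V (0 + s • w)))
          (fderiv ℝ (kap e D x y) v z) := by
      have hsm : ∀ᶠ p in 𝓝 (0 : TangentSpace 𝓘(ℝ, E) x), SmoothAt E y (e x ((D - δ) • V p)) := by
        have h5 := hsδ.eventually
        have h6 : Tendsto (fun p : TangentSpace 𝓘(ℝ, E) x => (y, e x ((D - δ) • V p))) (𝓝 0)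
            (𝓝 (y, e x ((D - δ) • v))) := by
          have h7 : Continuous (fun u : TangentSpace 𝓘(ℝ, E) x => (y, e x ((D - δ) • u))) :=
            continuous_const.prodMk ((contMDiff_exp_fiber he x).continuous.comp
              (continuous_const_smul (D - δ)))
          exact (h7.tendsto v).comp hVc
        exact h6.eventually h5
      filter_upwards [hcont.eventually hsm] with s hs
      set p : TangentSpace 𝓘(ℝ, E) x := 0 + s • w with hp
      set q : M := e x ((D - δ) • V p) with hq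
      have hg : DifferentiableAt ℝ (fun a : TangentSpace 𝓘(ℝ, E) y => cost (e y a) q) 0 := by
        have h1 : ContDiffAt ℝ ∞ (fun p' : TangentSpace 𝓘(ℝ, E) y × TangentSpace 𝓘(ℝ, E) x =>
            cost (e y p'.1) (e x p'.2)) (0, (D - δ) • V p) := by
          apply SmoothAt.coord he
          rw [he.map_zero]
          exact hs
        have h2 := ContDiffAt.comp (0 : TangentSpace 𝓘(ℝ, E) y)
          (f := fun a : TangentSpace 𝓘(ℝ, E) y => (a, (D - δ) • V p)) h1
          (contDiffAt_id.prodMk contDiffAt_const)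
        exact h2.differentiableAt (by simp)
      have hκ : HasFDerivAt (fun p' => kap e D x y (V p'))
          ((fderiv ℝ (kap e D x y) v).comp
            (ContinuousLinearMap.id ℝ _ - (innerSL ℝ v).smulRight v)) 0 := by
        have h1 : HasFDerivAt (kap e D x y) (fderiv ℝ (kap e D x y) v) (V 0) := by
          rw [hV0]
          exact hA'
        exact h1.comp 0 hVd
      have hcomp : HasFDerivAt (fun p' => cost (e y (kap e D x y (V p'))) q)
          ((fderiv ℝ (fun a : TangentSpace 𝓘(ℝ, E) y => cost (e y a) q) 0).comp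
          ((fderiv ℝ (kap e D x y) v).comp
            (ContinuousLinearMap.id ℝ _ - (innerSL ℝ v).smulRight v))) 0 := by
        have h1 : HasFDerivAt (fun a : TangentSpace 𝓘(ℝ, E) y => cost (e y a) q)
            (fderiv ℝ (fun a : TangentSpace 𝓘(ℝ, E) y => cost (e y a) q) 0)
            (kap e D x y (V 0)) := by
          rw [hκ0]
          exact hg.hasFDerivAt
        exact h1.comp 0 hκ
      have hloc : (fun a' : TangentSpace 𝓘(ℝ, E) x => H (a', p)) =ᶠ[𝓝 0]
          fun p' => cost (e y (kap e D x y (V p'))) q := by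
        have h1 := eventually_logMap he F.hopfRinow hs0
        have h2 : Tendsto (fun p' : TangentSpace 𝓘(ℝ, E) x => e x (D • V p')) (𝓝 0) (𝓝 y) := by
          have h7 : Continuous (fun u : TangentSpace 𝓘(ℝ, E) x => e x (D • u)) :=
            (contMDiff_exp_fiber he x).continuous.comp (continuous_const_smul D)
          have h8 := (h7.tendsto v).comp hVc
          rw [hy] at h8
          exact h8
        filter_upwards [h2.eventually h1] with p' hp'
        change cost (e x (D • V p')) q = cost (e y (logMap e y (e x (D • V p')))) q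
        rw [hp'.2]
      rw [hloc.fderiv_eq, hcomp.fderiv]
      have hz' : (ContinuousLinearMap.id ℝ (TangentSpace 𝓘(ℝ, E) x) -
          (innerSL ℝ v).smulRight v) z = z := by
        simp [hz]
      rw [ContinuousLinearMap.comp_apply, ContinuousLinearMap.comp_apply, hz', per_sy_grad]
      rfl
    have hder : HasDerivAt (fun s : ℝ => kap e (D - δ) x y (V (0 + s • w)))
        (fderiv ℝ (kap e (D - δ) x y) v w) 0 := by
      have h1 : HasFDerivAt (kap e (D - δ) x y) (fderiv ℝ (kap e (D - δ) x y) v)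
          (V (0 + (0 : ℝ) • w)) := by
        rw [hline0, hV0]
        exact hB'
      have h2 : HasFDerivAt V (ContinuousLinearMap.id ℝ _ - (innerSL ℝ v).smulRight v)
          (0 + (0 : ℝ) • w) := by
        rw [hline0]
        exact hVd
      have h3 := h2.comp_hasDerivAt (0 : ℝ) hline
      have h4 := h1.comp_hasDerivAt (0 : ℝ) h3
      have hw' : (ContinuousLinearMap.id ℝ (TangentSpace 𝓘(ℝ, E) x) -
          (innerSL ℝ v).smulRight v) w = w := by
        simp only [sub_apply, ContinuousLinearMap.id_apply, ContinuousLinearMap.smulRight_apply, coe_innerSL_apply, hw, zero_smul, sub_zero]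
      rw [hw'] at h4
      exact h4
    have h10 : HasDerivAt (fun s : ℝ => -inner ℝ (kap e (D - δ) x y (V (0 + s • w)))
          (fderiv ℝ (kap e D x y) v z))
        (-inner ℝ (fderiv ℝ (kap e (D - δ) x y) v w) (fderiv ℝ (kap e D x y) v z)) 0 := by
      have h11 := (hder.inner ℝ (hasDerivAt_const (0 : ℝ) (fderiv ℝ (kap e D x y) v z))).fun_neg
      simpa only [zero_add, zero_smul, add_zero, inner_zero_right] using h11
    exact h10.congr_of_eventuallyEq hev
  have h1 := per_sy_abs (hHs.of_le two_le_infty) hlow hdiag ζ η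
  rw [hmix ζ η hζ hη, hmix η ζ hη hζ] at h1
  exact neg_injective h1

end

end Vale.Agent.P231
end
end

section

section

/-! P231: closedness of the geodesics of a Blaschke manifold. Final step: links are symmetric,
all geodesics close up at time `2 D`. -/

set_option maxSynthPendingDepth 3
set_option linter.unusedSectionVars false

open Bundle Manifold Set Filter
open scoped ContDiff Manifold Topology

namespace Vale.Agent.P231

noncomputable section

open Vale.Agent.P234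

variable {E : Type*} [NormedAddCommGroup E] [NormedSpace ℝ E] [FiniteDimensional ℝ E]
  {M : Type*} [MetricSpace M] [ChartedSpace E M]
  [RiemannianBundle (fun x : M => TangentSpace 𝓘(ℝ, E) x)]
  [IsManifold 𝓘(ℝ, E) ∞ M]
  [IsContMDiffRiemannianBundle 𝓘(ℝ, E) ∞ E (fun x : M => TangentSpace 𝓘(ℝ, E) x)]
  {e : ∀ x : M, TangentSpace 𝓘(ℝ, E) x → M}

theorem link_neg [CompactSpace M] [ConnectedSpace M] [IsRiemannianManifold 𝓘(ℝ, E) M]
    (F : Facts e) {D : ℝ} (hD : 0 < D) (hB : InjGE e D) (hdiam : ∀ p q : M, dist p q ≤ D)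
    {x y : M} {u : TangentSpace 𝓘(ℝ, E) y} (hu : u ∈ Lk e D x y) : -u ∈ Lk e D x y := by
  have : FiniteDimensional ℝ (TangentSpace 𝓘(ℝ, E) y) := inferInstanceAs (FiniteDimensional ℝ E)
  have : FiniteDimensional ℝ (TangentSpace 𝓘(ℝ, E) x) := inferInstanceAs (FiniteDimensional ℝ E)
  have hxy : dist x y = D := by
    have h1 := hB y (D • u) (by rw [norm_smul, hu.1, mul_one, Real.norm_of_nonneg hD.le])
    rw [hu.2, norm_smul, hu.1, mul_one, Real.norm_of_nonneg hD.le] at h1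
    rw [dist_comm, h1]
  obtain ⟨b, hb, hb'⟩ := exists_antipodal_abs (L := Lk e D x y) (T := Tn e D x y)
    (fun u hu => hu.1) (fun u hu τ hτ => link_tn_nonpos F hD hB hu hτ)
    (fun w => decomp F hD hB hdiam hxy w)
  obtain ⟨v, hv, hvb⟩ := link_reverse F hb
  have hδ : 0 < D / 2 := by linarith
  have hδD : D / 2 < D := by linarith
  have hfr : Module.finrank ℝ (TangentSpace 𝓘(ℝ, E) x) =
      Module.finrank ℝ (TangentSpace 𝓘(ℝ, E) y) := rfl
  obtain ⟨ζ, hζ, hAζ, huζ⟩ := lin_alg hfr hv hb.1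
    (A := fderiv ℝ (kap e D x y) v) (B := fderiv ℝ (kap e (D - D / 2) x y) v)
    (fun ζ η hζ hη => kap_sym F hδ hδD hB hv hb.1 hvb hζ hη)
    (fun ζ hζ => kap_orth F hδ hδD hB hv hb.1 hvb hζ)
    (fun ζ hζ => kap_orth_link F hD hB hv hb.1 hvb hb hζ)
    (fun ζ h0 => kap_inj F hδ hδD hB hv hb.1 hvb h0)
    (fun ζ hζ => kap_orth_link F hD hB hv hb.1 hvb hu hζ)
  have horth : ∀ τ ∈ Tn e D x y, (inner ℝ u τ : ℝ) = 0 := by
    intro τ hτ
    have h1 : (inner ℝ b τ : ℝ) = 0 := by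
      have h2 := link_tn_nonpos F hD hB hb hτ
      have h3 := link_tn_nonpos F hD hB hb' hτ
      rw [inner_neg_left] at h3
      linarith only [h3, h2]
    have h4 := tn_orth_ker F hδ hδD hB hb hb' hv hvb hτ hζ hAζ
    conv_lhs => rw [huζ]
    rw [inner_add_left, inner_smul_left, h1, h4]
    simp
  obtain ⟨ρ, hρ, u0, hu0, τ, hτ, hw, hρ'⟩ := decomp F hD hB hdiam hxy (-u)
  have h5 : (inner ℝ u (-u) : ℝ) = -1 := by
    rw [inner_neg_right, real_inner_self_eq_norm_sq, hu.1]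
    norm_num
  have h6 : ρ = -(inner ℝ u0 u : ℝ) := by rw [hρ', inner_neg_right]
  have h7 : (-1 : ℝ) = ρ * inner ℝ u0 u := by
    rw [← h5, hw, inner_add_right, inner_smul_right, horth τ hτ, real_inner_comm, add_zero]
  have h8 : ρ = 1 := by
    have : (inner ℝ u0 u : ℝ) = -ρ := by linarith only [h6]
    rw [this] at h7
    nlinarith only [h7, hρ]
  have h9 : (inner ℝ u0 u : ℝ) = -1 := by linarith only [h6, h8]
  have h10 : u0 = -u := by
    have h11 : ‖u0 + u‖ ^ 2 = 0 := by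
      rw [norm_add_sq_real, hu0.1, hu.1, h9]
      norm_num
    have h12 : u0 + u = 0 := by
      rw [← norm_eq_zero]
      exact pow_eq_zero_iff (two_ne_zero) |>.mp h11
    exact eq_neg_of_add_eq_zero_left h12
  rw [← h10]
  exact hu0

theorem closed_of_inj_diam [CompactSpace M] [ConnectedSpace M]
    [IsRiemannianManifold 𝓘(ℝ, E) M]
    (F : Facts e) {D : ℝ} (hD : 0 < D) (hB : InjGE e D) (hdiam : ∀ p q : M, dist p q ≤ D)
    (x : M) (v : E) (hv : nm x v = 2 * D) : e x v = x := by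
  set v0 : TangentSpace 𝓘(ℝ, E) x := v with hv0
  have hn : ‖v0‖ = 2 * D := hv
  set v1 : TangentSpace 𝓘(ℝ, E) x := (2 * D)⁻¹ • v0 with hv1
  have hv1n : ‖v1‖ = 1 := by
    rw [hv1, norm_smul, hn, Real.norm_of_nonneg (by positivity)]
    field_simp
  have hvv : (2 * D) • v1 = v0 := by
    rw [hv1, smul_smul, mul_inv_cancel₀ (by (clear * - hD; positivity)), one_smul]
  obtain ⟨u, hu, hs⟩ := link_of_dir F (D := D) (y := e x (D • v1)) hv1n rfl
  have h1 := link_neg F hD hB hdiam hu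
  have h2 := hs (2 * D)
  rw [hvv] at h2
  have h3 : (D - 2 * D) • u = D • (-u) := by
    rw [smul_neg, ← neg_smul]
    congr 1
    ring
  rw [h3, h1.2] at h2
  exact h2

end

end Vale.Agent.P231
end
end

section

section

open Matrix Finset Real
open scoped ContDiff

namespace Vale.Agent.P231.Ode

open Kazdan

variable {N : ℕ} (X : JSys N)

namespace JSys

theorem eC (t : ℝ) : ED X.C (X.C1 t) t := X.dC t
theorem eC1 (t : ℝ) : ED X.C1 (-(X.R t * X.C t)) t := X.dC1 t
theorem eS (t : ℝ) : ED X.S (X.S1 t) t := X.dS t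
theorem eS1 (t : ℝ) : ED X.S1 (-(X.R t * X.S t)) t := X.dS1 t

/-- `∂ₜ A`. -/
def At (s t : ℝ) : Matrix (Fin N) (Fin N) ℝ := X.S1 t * (X.C s)ᵀ - X.C1 t * (X.S s)ᵀ

theorem const_of_ED {ι κ : Type*} {M : ℝ → Matrix ι κ ℝ} (h : ∀ t, ED M 0 t) (s t : ℝ) :
    M s = M t := by
  ext i j
  exact is_const_of_deriv_eq_zero (fun x => (h x i j).differentiableAt)
    (fun x => by simpa only [Matrix.zero_apply] using (h x i j).deriv) s t

theorem wCC (t : ℝ) : (X.C t)ᵀ * X.C1 t - (X.C1 t)ᵀ * X.C t = 0 := by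
  have h : ∀ t, ED (fun t => (X.C t)ᵀ * X.C1 t - (X.C1 t)ᵀ * X.C t) 0 t := by
    intro t
    refine ED.congr_deriv (((X.eC t).transpose.mul (X.eC1 t)).sub
      ((X.eC1 t).transpose.mul (X.eC t))) ?_
    rw [Matrix.transpose_neg, Matrix.transpose_mul, X.symR]
    simp only [Matrix.mul_neg, Matrix.neg_mul, Matrix.mul_assoc]
    abel
  have := const_of_ED h t 0
  simpa only [X.C_zero, transpose_one, X.C1_zero, mul_zero, transpose_zero, mul_one, sub_self] using this

theorem wSS (t : ℝ) : (X.S t)ᵀ * X.S1 t - (X.S1 t)ᵀ * X.S t = 0 := by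
  have h : ∀ t, ED (fun t => (X.S t)ᵀ * X.S1 t - (X.S1 t)ᵀ * X.S t) 0 t := by
    intro t
    refine ED.congr_deriv (((X.eS t).transpose.mul (X.eS1 t)).sub
      ((X.eS1 t).transpose.mul (X.eS t))) ?_
    rw [Matrix.transpose_neg, Matrix.transpose_mul, X.symR]
    simp only [Matrix.mul_neg, Matrix.neg_mul, Matrix.mul_assoc]
    abel
  have := const_of_ED h t 0
  simpa only [X.S_zero, transpose_zero, X.S1_zero, mul_one, transpose_one, mul_zero, sub_self] using this

theorem wCS (t : ℝ) : (X.C t)ᵀ * X.S1 t - (X.C1 t)ᵀ * X.S t = 1 := by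
  have h : ∀ t, ED (fun t => (X.C t)ᵀ * X.S1 t - (X.C1 t)ᵀ * X.S t) 0 t := by
    intro t
    refine ED.congr_deriv (((X.eC t).transpose.mul (X.eS1 t)).sub
      ((X.eC1 t).transpose.mul (X.eS t))) ?_
    rw [Matrix.transpose_neg, Matrix.transpose_mul, X.symR]
    simp only [Matrix.mul_neg, Matrix.neg_mul, Matrix.mul_assoc]
    abel
  have := const_of_ED h t 0
  simpa [X.S_zero, X.S1_zero, X.C_zero, X.C1_zero] using this

theorem wSC (t : ℝ) : (X.S1 t)ᵀ * X.C t - (X.S t)ᵀ * X.C1 t = 1 := by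
  have := congrArg Matrix.transpose (X.wCS t)
  simpa only [transpose_sub, transpose_mul, transpose_transpose, transpose_one] using this

/-- the inverse of the fundamental matrix -/
theorem block (t : ℝ) :
    fromBlocks (X.C t) (X.S t) (X.C1 t) (X.S1 t) *
      fromBlocks ((X.S1 t)ᵀ) (-(X.S t)ᵀ) (-(X.C1 t)ᵀ) ((X.C t)ᵀ) = 1 := by
  rw [mul_eq_one_comm, fromBlocks_multiply, ← fromBlocks_one]
  have h1 := X.wCC t
  have h2 := X.wSS t
  have h3 := X.wCS t
  have h4 := X.wSC t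
  congr 1
  · rw [← h4, Matrix.neg_mul]; abel
  · rw [← neg_eq_zero, ← h2, Matrix.neg_mul]; abel
  · rw [← h1, Matrix.neg_mul]; abel
  · rw [← h3, Matrix.neg_mul]; abel

theorem rSS (t : ℝ) : X.S t * (X.C t)ᵀ - X.C t * (X.S t)ᵀ = 0 := by
  have h := X.block t
  rw [fromBlocks_multiply, ← fromBlocks_one, fromBlocks_inj] at h
  rw [← h.2.1, Matrix.mul_neg]; abel

theorem rSC (t : ℝ) : X.S1 t * (X.C t)ᵀ - X.C1 t * (X.S t)ᵀ = 1 := by
  have h := X.block t
  rw [fromBlocks_multiply, ← fromBlocks_one, fromBlocks_inj] at h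
  rw [← h.2.2.2, Matrix.mul_neg]; abel

theorem A_diag (s : ℝ) : X.A s s = 0 := X.rSS s

theorem At_diag (s : ℝ) : X.At s s = 1 := X.rSC s

theorem A_anti (s t : ℝ) : X.A t s = -(X.A s t)ᵀ := by
  simp only [A, Matrix.transpose_sub, Matrix.transpose_mul, Matrix.transpose_transpose]
  abel

theorem dA (s t : ℝ) : ED (fun t => X.A s t) (X.At s t) t :=
  ((X.eS t).mul_const).sub ((X.eC t).mul_const)

theorem dAt (s t : ℝ) : ED (fun t => X.At s t) (-(X.R t * X.A s t)) t := by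
  refine ED.congr_deriv (((X.eS1 t).mul_const).sub ((X.eC1 t).mul_const)) ?_
  simp only [Matrix.neg_mul, Matrix.mul_assoc, A, Matrix.mul_sub]
  abel

/-- A solution of the Jacobi equation that vanishes at `a` is `A a t` times its derivative. -/
theorem rep {κ : Type*} (x y : Matrix (Fin N) κ ℝ) (a : ℝ) (h : X.C a * x + X.S a * y = 0)
    (t : ℝ) : X.C t * x + X.S t * y = X.A a t * (X.C1 a * x + X.S1 a * y) := by
  have h1 := X.wCC a
  have h2 := X.wSS a
  have h3 := X.wCS a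
  have h4 := X.wSC a
  have hC : X.C a * x = -(X.S a * y) := eq_neg_of_add_eq_zero_left h
  have hS : X.S a * y = -(X.C a * x) := by rw [hC, neg_neg]
  have hx : (X.S a)ᵀ * (X.C1 a * x + X.S1 a * y) = -x := by
    have e1 : (X.S a)ᵀ * (X.S1 a * y) = (X.S1 a)ᵀ * (X.S a * y) := by
      rw [← Matrix.mul_assoc, ← Matrix.mul_assoc, sub_eq_zero.mp h2]
    rw [Matrix.mul_add, e1, hS, Matrix.mul_neg, ← Matrix.mul_assoc, ← Matrix.mul_assoc,
      ← sub_eq_add_neg, ← Matrix.sub_mul]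
    have e2 : (X.S a)ᵀ * X.C1 a - (X.S1 a)ᵀ * X.C a = -1 := by rw [← h4]; abel
    rw [e2, Matrix.neg_mul, Matrix.one_mul]
  have hy : (X.C a)ᵀ * (X.C1 a * x + X.S1 a * y) = y := by
    have e1 : (X.C a)ᵀ * (X.C1 a * x) = (X.C1 a)ᵀ * (X.C a * x) := by
      rw [← Matrix.mul_assoc, ← Matrix.mul_assoc, sub_eq_zero.mp h1]
    rw [Matrix.mul_add, e1, hC, Matrix.mul_neg, ← Matrix.mul_assoc, ← Matrix.mul_assoc,
      neg_add_eq_sub, ← Matrix.sub_mul, h3, Matrix.one_mul]
  rw [A, Matrix.sub_mul, Matrix.mul_assoc, Matrix.mul_assoc, hx, hy, Matrix.mul_neg]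
  abel

/-- the values at two non-conjugate times determine the Jacobi tensor -/
theorem A_rel (s t a b : ℝ) (hab : IsUnit (X.A a b)) :
    X.A s t = X.A a t * (X.A a b)⁻¹ * X.A s b + X.A b t * (X.A b a)⁻¹ * X.A s a := by
  have hab' : IsUnit (X.A a b).det := (Matrix.isUnit_iff_isUnit_det _).mp hab
  have hba' : IsUnit (X.A b a).det := by
    rw [X.A_anti a b, ← neg_one_smul ℝ, Matrix.det_smul, Matrix.det_transpose]
    exact IsUnit.mul (IsUnit.pow _ (by norm_num)) hab'
  -- the difference is a solution `D t = C t * x + S t * y`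
  set P : Matrix (Fin N) (Fin N) ℝ := (X.A a b)⁻¹ * X.A s b with hP
  set Q : Matrix (Fin N) (Fin N) ℝ := (X.A b a)⁻¹ * X.A s a with hQ
  set x : Matrix (Fin N) (Fin N) ℝ := -(X.S s)ᵀ + (X.S a)ᵀ * P + (X.S b)ᵀ * Q with hx
  set y : Matrix (Fin N) (Fin N) ℝ := (X.C s)ᵀ - (X.C a)ᵀ * P - (X.C b)ᵀ * Q with hy
  have key : ∀ t, X.C t * x + X.S t * y = X.A s t - X.A a t * P - X.A b t * Q := by
    intro t
    simp only [hx, Matrix.mul_add, Matrix.mul_neg, hy, Matrix.mul_sub, A, Matrix.sub_mul, Matrix.mul_assoc]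
    abel
  have ha : X.C a * x + X.S a * y = 0 := by
    rw [key, X.A_diag, Matrix.zero_mul, sub_zero, hQ, ← Matrix.mul_assoc,
      Matrix.mul_nonsing_inv _ hba', Matrix.one_mul, sub_self]
  have hb : X.C b * x + X.S b * y = 0 := by
    rw [key, X.A_diag, Matrix.zero_mul, sub_zero, hP, ← Matrix.mul_assoc,
      Matrix.mul_nonsing_inv _ hab', Matrix.one_mul, sub_self]
  have hz : X.C1 a * x + X.S1 a * y = 0 := by
    have h1 := X.rep x y a ha b
    rw [hb] at h1
    have h2 : (X.A a b)⁻¹ * (X.A a b * (X.C1 a * x + X.S1 a * y)) = 0 := by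
      rw [← h1, Matrix.mul_zero]
    rwa [← Matrix.mul_assoc, Matrix.nonsing_inv_mul _ hab', Matrix.one_mul] at h2
  have h3 := X.rep x y a ha t
  rw [hz, Matrix.mul_zero, key] at h3
  rw [Matrix.mul_assoc, Matrix.mul_assoc, ← hP, ← hQ]
  rw [sub_sub, sub_eq_zero] at h3
  exact h3

end JSys

end Vale.Agent.P231.Ode
end
end

section

section

open Matrix Finset Real
open scoped ContDiff

namespace Vale.Agent.P231.Ode

open Kazdan

theorem contDiff_nat_of_hasDerivAt {f f' : ℝ → ℝ} {n : ℕ} (h : ∀ t, HasDerivAt f (f' t) t)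
    (h' : ContDiff ℝ n f') : ContDiff ℝ (n + 1 : ℕ) f := by
  have e : deriv f = f' := funext fun t => (h t).deriv
  rw [Nat.cast_add, Nat.cast_one, contDiff_succ_iff_deriv]
  refine ⟨fun t => (h t).differentiableAt, fun hn => ?_, ?_⟩
  · exact absurd hn (by exact_mod_cast WithTop.coe_ne_top)
  · rw [e]; exact h'

/-- bootstrapping for a linear second order equation -/
theorem smooth_of_ED {N : ℕ} {κ : Type*} {R : ℝ → Matrix (Fin N) (Fin N) ℝ}
    {Z Z1 : ℝ → Matrix (Fin N) κ ℝ} (hR : ∀ i j, ContDiff ℝ ∞ fun t => R t i j)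
    (h : ∀ t, ED Z (Z1 t) t) (h1 : ∀ t, ED Z1 (-(R t * Z t)) t) :
    (∀ i j, ContDiff ℝ ∞ fun t => Z t i j) ∧ ∀ i j, ContDiff ℝ ∞ fun t => Z1 t i j := by
  have key : ∀ n : ℕ, (∀ i j, ContDiff ℝ n fun t => Z t i j) ∧
      ∀ i j, ContDiff ℝ n fun t => Z1 t i j := by
    intro n
    induction n with
    | zero =>
      refine ⟨fun i j => ?_, fun i j => ?_⟩
      · rw [Nat.cast_zero, contDiff_zero]
        exact continuous_iff_continuousAt.2 fun t => (h t i j).continuousAt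
      · rw [Nat.cast_zero, contDiff_zero]
        exact continuous_iff_continuousAt.2 fun t => (h1 t i j).continuousAt
    | succ n ih =>
      refine ⟨fun i j => ?_, fun i j => ?_⟩
      · exact contDiff_nat_of_hasDerivAt (fun t => h t i j) (ih.2 i j)
      · refine contDiff_nat_of_hasDerivAt (fun t => h1 t i j) ?_
        have : (fun t => (-(R t * Z t)) i j) = fun t => -∑ k, R t i k * Z t k j := by
          funext t
          simp only [Matrix.neg_apply, Matrix.mul_apply]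
        rw [this]
        exact (ContDiff.sum fun k _ => ((hR i k).of_le (by exact_mod_cast le_top)).mul
          (ih.1 k j)).neg
  exact ⟨fun i j => contDiff_infty.2 fun n => (key n).1 i j,
    fun i j => contDiff_infty.2 fun n => (key n).2 i j⟩

variable {N : ℕ} (X : JSys N)

theorem JSys.smoothA (a : ℝ) (i j : Fin N) : ContDiff ℝ ∞ fun t => X.A a t i j := by
  have h1 := (smooth_of_ED X.smoothR X.eC X.eC1).1
  have h2 := (smooth_of_ED X.smoothR X.eS X.eS1).1
  have : (fun t => X.A a t i j) =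
      fun t => (∑ k, X.S t i k * X.C a j k) - ∑ k, X.C t i k * X.S a j k := by
    funext t
    simp only [A, Matrix.sub_apply, Matrix.mul_apply, transpose_apply]
  rw [this]
  exact (ContDiff.sum fun k _ => (h2 i k).mul contDiff_const).sub
    (ContDiff.sum fun k _ => (h1 i k).mul contDiff_const)

/-- frames: `q ^ ⌊t / π⌋` -/
noncomputable def frame (q : Matrix.orthogonalGroup (Fin N) ℝ) (t : ℝ) :
    Matrix (Fin N) (Fin N) ℝ :=
  ((q ^ ⌊t / π⌋ : Matrix.orthogonalGroup (Fin N) ℝ) : Matrix (Fin N) (Fin N) ℝ)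

theorem frame_mul (q : Matrix.orthogonalGroup (Fin N) ℝ) (t : ℝ) :
    frame q t * (frame q t)ᵀ = 1 := by
  have := (Matrix.mem_orthogonalGroup_iff (Fin N) ℝ).1 (q ^ ⌊t / π⌋).2
  exact this

theorem frame_mul' (q : Matrix.orthogonalGroup (Fin N) ℝ) (t : ℝ) :
    (frame q t)ᵀ * frame q t = 1 := mul_eq_one_comm.1 (frame_mul q t)

theorem frame_add (q : Matrix.orthogonalGroup (Fin N) ℝ) (t : ℝ) :
    frame q (t + π) = q.1 * frame q t := by
  have h : ⌊(t + π) / π⌋ = ⌊t / π⌋ + 1 := by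
    rw [add_div, div_self pi_ne_zero, Int.floor_add_one]
  rw [frame, h, add_comm, _root_.zpow_add, _root_.zpow_one]
  rfl

/-- The Jacobi tensor in the twisted frames. -/
noncomputable def JSys.B (q : Matrix.orthogonalGroup (Fin N) ℝ) (s t : ℝ) :
    Matrix (Fin N) (Fin N) ℝ :=
  (frame q t)ᵀ * X.A s t * frame q s

theorem isUnit_conj {U V M : Matrix (Fin N) (Fin N) ℝ} (hU : U * Uᵀ = 1) (hV : V * Vᵀ = 1) :
    IsUnit (Uᵀ * M * V) ↔ IsUnit M := by
  have hU' : IsUnit Uᵀ := ⟨⟨Uᵀ, U, mul_eq_one_comm.1 hU, hU⟩, rfl⟩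
  have hV' : IsUnit V := ⟨⟨V, Vᵀ, hV, mul_eq_one_comm.1 hV⟩, rfl⟩
  constructor
  · intro h
    have : M = U * (Uᵀ * M * V) * Vᵀ := by
      rw [Matrix.mul_assoc Uᵀ, ← Matrix.mul_assoc U, hU, Matrix.one_mul, Matrix.mul_assoc, hV,
        Matrix.mul_one]
    rw [this]
    exact (IsUnit.mul ⟨⟨U, Uᵀ, hU, mul_eq_one_comm.1 hU⟩, rfl⟩ h).mul
      ⟨⟨Vᵀ, V, mul_eq_one_comm.1 hV, hV⟩, rfl⟩
  · intro h
    exact (hU'.mul h).mul hV'

theorem inv_conj {U V M : Matrix (Fin N) (Fin N) ℝ} (hU : U * Uᵀ = 1) (hV : V * Vᵀ = 1) :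
    (Uᵀ * M * V)⁻¹ = Vᵀ * M⁻¹ * U := by
  rw [Matrix.mul_inv_rev, Matrix.mul_inv_rev, Matrix.inv_eq_right_inv hV,
    Matrix.inv_eq_right_inv (mul_eq_one_comm.1 hU), Matrix.mul_assoc]

theorem JSys.jdata (q : Matrix.orthogonalGroup (Fin N) ℝ)
    (hC : ∀ t, X.C (t + π) = q.1 * X.C t) (hS : ∀ t, X.S (t + π) = q.1 * X.S t)
    (hinv : ∀ s t, s < t → t < s + π / 2 → (X.A s t).det ≠ 0) :
    JData (π / 2) (X.B q) where
  pos := by positivity
  diag s := by rw [JSys.B, X.A_diag, Matrix.mul_zero, Matrix.zero_mul]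
  anti s t := by
    rw [JSys.B, JSys.B, X.A_anti s t, Matrix.transpose_mul, Matrix.transpose_mul,
      Matrix.transpose_transpose, Matrix.mul_neg, Matrix.neg_mul, Matrix.mul_assoc]
  rel s t a b hab := by
    have hab' : IsUnit (X.A a b) := (isUnit_conj (frame_mul q b) (frame_mul q a)).1 hab
    have e1 : ∀ a b c d : ℝ, (frame q t)ᵀ * X.A a t * frame q a *
        ((frame q b)ᵀ * X.A a b * frame q a)⁻¹ * ((frame q b)ᵀ * X.A s b * frame q s) =
        (frame q t)ᵀ * (X.A a t * (X.A a b)⁻¹ * X.A s b) * frame q s := by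
      intro a b c d
      rw [inv_conj (frame_mul q b) (frame_mul q a)]
      simp only [Matrix.mul_assoc]
      rw [← Matrix.mul_assoc (frame q a) (frame q a)ᵀ, frame_mul, Matrix.one_mul,
        ← Matrix.mul_assoc (frame q b) (frame q b)ᵀ, frame_mul, Matrix.one_mul]
    simp only [JSys.B]
    rw [e1 a b 0 0, e1 b a 0 0, ← Matrix.add_mul, ← Matrix.mul_add, ← X.A_rel s t a b hab']
  smooth a b i j := by
    have e : ∀ t, (X.B q a t)ᵀ * X.B q b t =
        (frame q a)ᵀ * ((X.A a t)ᵀ * X.A b t) * frame q b := by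
      intro t
      simp only [B, Matrix.mul_assoc, transpose_mul, transpose_transpose]
      rw [← Matrix.mul_assoc (frame q t) (frame q t)ᵀ, frame_mul, Matrix.one_mul]
    simp_rw [e]
    simp only [Matrix.mul_apply, Matrix.transpose_apply]
    refine ContDiff.sum fun k _ => ContDiff.mul (ContDiff.sum fun l _ => ContDiff.mul
      contDiff_const (ContDiff.sum fun m _ => (X.smoothA a _ _).mul (X.smoothA b _ _)))
      contDiff_const
  der a b i j := by
    have e : ∀ t, (X.B q a t)ᵀ * X.B q b t =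
        (frame q a)ᵀ * ((X.A a t)ᵀ * X.A b t) * frame q b := by
      intro t
      simp only [JSys.B, Matrix.transpose_mul, Matrix.transpose_transpose, Matrix.mul_assoc]
      rw [← Matrix.mul_assoc (frame q t) (frame q t)ᵀ, frame_mul, Matrix.one_mul]
    have h : ED (fun t => (frame q a)ᵀ * ((X.A a t)ᵀ * X.A b t) * frame q b)
        ((X.B q a b)ᵀ) b := by
      refine ED.congr_deriv (((((X.dA a b).transpose.mul (X.dA b b)).const_mul)).mul_const) ?_
      rw [X.A_diag, Matrix.mul_zero, zero_add, X.At_diag, Matrix.mul_one, JSys.B,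
        Matrix.transpose_mul, Matrix.transpose_mul, Matrix.transpose_transpose, Matrix.mul_assoc]
    have h2 := h i j
    simp only [e]
    exact h2
  per s t := by
    have h2 : 2 * (π / 2) = π := by ring
    rw [h2, JSys.B, JSys.B, frame_add]
    have hq : q.1ᵀ * q.1 = 1 := mul_eq_one_comm.1 ((Matrix.mem_orthogonalGroup_iff (Fin N) ℝ).1 q.2)
    have : X.A s (t + π) = q.1 * X.A s t := by
      rw [JSys.A, hC, hS, JSys.A, Matrix.mul_sub, Matrix.mul_assoc, Matrix.mul_assoc]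
    rw [this, Matrix.transpose_mul]
    simp only [Matrix.mul_assoc]
    rw [← Matrix.mul_assoc q.1ᵀ, hq, Matrix.one_mul]
  unit s t h1 h2 := by
    rw [JSys.B, isUnit_conj (frame_mul q t) (frame_mul q s), Matrix.isUnit_iff_isUnit_det]
    exact isUnit_iff_ne_zero.2 (hinv s t h1 h2)

end Vale.Agent.P231.Ode
end
end

section

section

open Matrix Finset Real
open scoped ContDiff

namespace Vale.Agent.P231.Ode

open Kazdan

variable {N : ℕ} (X : JSys N)

/-- Hypotheses of closed geodesic type. -/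
structure Closed (q : Matrix.orthogonalGroup (Fin N) ℝ) : Prop where
  hC : ∀ t, X.C (t + π) = q.1 * X.C t
  hS : ∀ t, X.S (t + π) = q.1 * X.S t
  hinv : ∀ s t, s < t → t < s + π / 2 → (X.A s t).det ≠ 0

variable {X} {q : Matrix.orthogonalGroup (Fin N) ℝ}

theorem B_det (s t : ℝ) : |(X.B q s t).det| = |(X.A s t).det| := by
  have h1 : |(frame q t)ᵀ.det| = 1 := by
    have := congrArg Matrix.det (frame_mul q t)
    rw [Matrix.det_mul, Matrix.det_transpose, Matrix.det_one] at this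
    rw [Matrix.det_transpose]
    rcases mul_self_eq_one_iff.1 this with h | h <;> rw [h] <;> simp
  have h2 : |(frame q s).det| = 1 := by
    have := congrArg Matrix.det (frame_mul q s)
    rw [Matrix.det_mul, Matrix.det_transpose, Matrix.det_one] at this
    rcases mul_self_eq_one_iff.1 this with h | h <;> rw [h] <;> simp
  rw [JSys.B, Matrix.det_mul, Matrix.det_mul, abs_mul, abs_mul, h1, h2, one_mul, mul_one]

/-- Kernel of `B` and kernel of `A` are isomorphic. -/
theorem B_ker (s t : ℝ) :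
    Module.finrank ℝ (LinearMap.ker (X.B q s t).mulVecLin) =
      Module.finrank ℝ (LinearMap.ker (X.A s t).mulVecLin) := by
  have hU : ∀ t, IsUnit (frame q t) := fun t => ⟨⟨_, _, frame_mul q t, frame_mul' q t⟩, rfl⟩
  have hU' : ∀ t, IsUnit (frame q t)ᵀ := fun t => ⟨⟨_, _, frame_mul' q t, frame_mul q t⟩, rfl⟩
  have h1 : (X.B q s t).rank = (X.A s t).rank := by
    rw [JSys.B, Matrix.rank_mul_eq_left_of_isUnit_det _ _
      ((Matrix.isUnit_iff_isUnit_det _).1 (hU s)),
      Matrix.rank_mul_eq_right_of_isUnit_det _ _ ((Matrix.isUnit_iff_isUnit_det _).1 (hU' t))]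
  have h2 := (X.B q s t).mulVecLin.finrank_range_add_finrank_ker
  have h3 := (X.A s t).mulVecLin.finrank_range_add_finrank_ker
  have h4 : Module.finrank ℝ (LinearMap.range (X.B q s t).mulVecLin) =
      Module.finrank ℝ (LinearMap.range (X.A s t).mulVecLin) := h1
  omega

theorem Closed.jdata (h : Closed X q) : JData (π / 2) (X.B q) :=
  X.jdata q h.hC h.hS h.hinv

theorem Closed.ineq (h : Closed X q) {l : ℕ}
    (hl : Module.finrank ℝ (LinearMap.ker (X.A 0 (π / 2)).mulVecLin) ≤ l) {r : ℝ}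
    (hr : r ∈ Set.Ioo 0 (π / 2)) :
    π * (l * log (cos r) + N * log (sin r)) ≤
      ∫ s in (0 : ℝ)..π, log |(X.A s (s + r)).det| := by
  have := core_ineq (l := l) h.jdata (by rw [B_ker]; exact hl) hr
  simp only [B_det, Fintype.card_fin] at this
  exact this

theorem Closed.gram (h : Closed X q) {l : ℕ}
    (hl : ∀ s, Module.finrank ℝ (LinearMap.ker (X.A s (s + π / 2)).mulVecLin) ≤ l)
    (hdet : ∀ s t, s < t → t < s + π / 2 →
      |(X.A s t).det| = cos (t - s) ^ l * sin (t - s) ^ N) (c : ℝ) :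
    ∃ P : Matrix (Fin N) (Fin N) ℝ, Pᵀ = P ∧ P * P = P ∧
      (∀ v, X.A c (c + π / 2) *ᵥ v = 0 ↔ P *ᵥ v = v) ∧
      ∀ t ∈ Set.Ioo 0 (π / 2), (X.A c (c + t))ᵀ * X.A c (c + t) =
        (sin t) ^ 2 • (1 - (sin t) ^ 2 • P) := by
  obtain ⟨P, h1, h2, h3, h4⟩ := core_rigid (l := l) (h.jdata.shift c)
    (fun s => by
      have := B_ker (X := X) (q := q) (c + s) (c + (s + π / 2))
      rw [this, ← add_assoc]
      exact hl (c + s))
    (fun s t hs ht => by
      rw [B_det, hdet _ _ (by linarith only [hs]) (by (clear * - ht; linarith)), Fintype.card_fin, add_sub_add_left_eq_sub])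
  set O := frame q c with hO
  have hOO : O * Oᵀ = 1 := frame_mul q c
  have hOO' : Oᵀ * O = 1 := frame_mul' q c
  refine ⟨O * P * Oᵀ, ?_, ?_, ?_, ?_⟩
  · rw [Matrix.transpose_mul, Matrix.transpose_mul, Matrix.transpose_transpose, h1,
      Matrix.mul_assoc]
  · calc O * P * Oᵀ * (O * P * Oᵀ) = O * (P * (Oᵀ * O) * P) * Oᵀ := by
          simp only [Matrix.mul_assoc]
      _ = _ := by rw [hOO', Matrix.mul_one, h2]
  · intro v
    have e1 := h3 (Oᵀ *ᵥ v)
    simp only [add_zero] at e1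
    rw [JSys.B, Matrix.mulVec_mulVec, Matrix.mulVec_mulVec] at e1
    have e2 : (frame q (c + π / 2))ᵀ * X.A c (c + π / 2) * frame q c * Oᵀ =
        (frame q (c + π / 2))ᵀ * X.A c (c + π / 2) := by
      rw [Matrix.mul_assoc _ (frame q c), ← hO, hOO, Matrix.mul_one]
    rw [e2, ← Matrix.mulVec_mulVec] at e1
    have e3 : (frame q (c + π / 2))ᵀ *ᵥ (X.A c (c + π / 2) *ᵥ v) = 0 ↔
        X.A c (c + π / 2) *ᵥ v = 0 := by
      constructor
      · intro h5
        have := congrArg (fun w => frame q (c + π / 2) *ᵥ w) h5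
        simpa only [Matrix.mulVec_mulVec, ← Matrix.mul_assoc, frame_mul, Matrix.one_mul,
          Matrix.mulVec_zero] using this
      · intro h5
        rw [h5, Matrix.mulVec_zero]
    rw [e3] at e1
    rw [e1]
    constructor
    · intro h5
      have := congrArg (fun w => O *ᵥ w) h5
      simpa only [Matrix.mulVec_mulVec, ← Matrix.mul_assoc, hOO, Matrix.one_mulVec] using this
    · intro h5
      have := congrArg (fun w => Oᵀ *ᵥ w) h5
      simpa only [Matrix.mulVec_mulVec, ← Matrix.mul_assoc, hOO', Matrix.one_mul] using this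
  · intro t ht
    have e1 := h4 t ht
    simp only [Gm, add_zero, JSys.B, Matrix.transpose_mul, Matrix.transpose_transpose] at e1
    have e2 : (frame q c)ᵀ * ((X.A c (c + t))ᵀ * frame q (c + t)) *
        ((frame q (c + t))ᵀ * X.A c (c + t) * frame q c) =
        Oᵀ * ((X.A c (c + t))ᵀ * X.A c (c + t)) * O := by
      rw [← hO]
      simp only [Matrix.mul_assoc]
      rw [← Matrix.mul_assoc (frame q (c + t)) (frame q (c + t))ᵀ, frame_mul, Matrix.one_mul]
    rw [e2] at e1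
    have e3 := congrArg (fun Z => O * Z * Oᵀ) e1
    have e4 : O * (Oᵀ * ((X.A c (c + t))ᵀ * X.A c (c + t)) * O) * Oᵀ =
        (X.A c (c + t))ᵀ * X.A c (c + t) := by
      calc _ = (O * Oᵀ) * ((X.A c (c + t))ᵀ * X.A c (c + t)) * (O * Oᵀ) := by
            simp only [Matrix.mul_assoc]
        _ = _ := by rw [hOO, Matrix.one_mul, Matrix.mul_one]
    rw [e4] at e3
    rw [e3, Matrix.mul_smul, Matrix.smul_mul, Matrix.mul_sub, Matrix.sub_mul, Matrix.mul_one, hOO,
      Matrix.mul_smul, Matrix.smul_mul]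

end Vale.Agent.P231.Ode
end
end

section

section

open Matrix Finset Real
open scoped ContDiff Topology

namespace Vale.Agent.P231.Ode

open Kazdan

/-- iterated entrywise derivative -/
noncomputable def ID {ι κ : Type*} (n : ℕ) (A : ℝ → Matrix ι κ ℝ) (t : ℝ) : Matrix ι κ ℝ :=
  Matrix.of fun i j => iteratedDeriv n (fun x => A x i j) t

/-- entrywise smoothness -/
def ES {ι κ : Type*} (A : ℝ → Matrix ι κ ℝ) : Prop := ∀ i j, ContDiff ℝ ∞ fun x => A x i j

theorem ID_ED {ι κ : Type*} {A : ℝ → Matrix ι κ ℝ} (h : ES A) (n : ℕ) (t : ℝ) :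
    ED (ID n A) (ID (n + 1) A t) t := by
  intro i j
  have h1 : Differentiable ℝ (iteratedDeriv n fun x => A x i j) :=
    (h i j).differentiable_iteratedDeriv n (by exact_mod_cast WithTop.coe_lt_top _)
  have h2 := (h1 t).hasDerivAt
  have h3 : deriv (iteratedDeriv n fun x => A x i j) t = iteratedDeriv (n + 1) (fun x => A x i j) t := by
    rw [iteratedDeriv_succ]
  rw [h3] at h2
  exact h2

theorem ID_zero {ι κ : Type*} (A : ℝ → Matrix ι κ ℝ) (t : ℝ) : ID 0 A t = A t := by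
  ext i j
  simp only [ID, iteratedDeriv_zero, of_apply]

theorem ID_succ_eq {ι κ : Type*} {A : ℝ → Matrix ι κ ℝ} (h : ES A) {n : ℕ}
    {B C : ℝ → Matrix ι κ ℝ} (hB : ∀ t, ID n A t = B t) (hC : ∀ t, ED B (C t) t) (t : ℝ) :
    ID (n + 1) A t = C t := by
  have e : ID n A = B := funext hB
  have := ID_ED h n t
  rw [e] at this
  exact this.unique (hC t)

theorem ID_eq_of_eq_right {ι κ : Type*} {A B : ℝ → Matrix ι κ ℝ} (hA : ES A) (hB : ES B)
    {c d : ℝ} (hcd : c < d) (h : ∀ t ∈ Set.Ioo c d, A t = B t) (n : ℕ) :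
    ID n A c = ID n B c := by
  ext i j
  have h1 : ∀ t ∈ Set.Ioo c d, iteratedDeriv n (fun x => A x i j) t =
      iteratedDeriv n (fun x => B x i j) t := by
    intro t ht
    refine Filter.EventuallyEq.iteratedDeriv_eq n ?_
    filter_upwards [Ioo_mem_nhds ht.1 ht.2] with x hx
    rw [h x hx]
  have cA : Continuous (iteratedDeriv n (fun x => A x i j)) :=
    ((hA i j).continuous_iteratedDeriv n (by exact_mod_cast le_top))
  have cB : Continuous (iteratedDeriv n (fun x => B x i j)) :=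
    ((hB i j).continuous_iteratedDeriv n (by exact_mod_cast le_top))
  have tA := (cA.tendsto c).mono_left (nhdsWithin_le_nhds (s := Set.Ioi c))
  have tB := (cB.tendsto c).mono_left (nhdsWithin_le_nhds (s := Set.Ioi c))
  refine tendsto_nhds_unique tA (tB.congr' ?_)
  filter_upwards [Ioo_mem_nhdsGT hcd] with x hx
  exact (h1 x hx).symm

variable {N : ℕ} (X : JSys N) (c : ℝ)

theorem ES_A : ES (fun t => X.A c t) := fun i j => X.smoothA c i j

theorem ES_R : ES X.R := X.smoothR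

/-- the derivatives of the Jacobi tensor -/
theorem A_d1 (t : ℝ) : ID 1 (fun t => X.A c t) t = X.At c t :=
  ID_succ_eq (ES_A X c) (ID_zero _) (fun t => X.dA c t) t

theorem A_d2 (t : ℝ) : ID 2 (fun t => X.A c t) t = -(X.R t * X.A c t) :=
  ID_succ_eq (ES_A X c) (A_d1 X c) (fun t => X.dAt c t) t

theorem R_ED (t : ℝ) : ED X.R (ID 1 X.R t) t := by
  have := ID_ED (ES_R X) 0 t
  have e : ID 0 X.R = X.R := funext fun t => ID_zero _ t
  rw [e] at this
  exact this

theorem A_d3 (t : ℝ) : ID 3 (fun t => X.A c t) t =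
    -(ID 1 X.R t * X.A c t + X.R t * X.At c t) :=
  ID_succ_eq (ES_A X c) (A_d2 X c) (fun t => ((R_ED X t).mul (X.dA c t)).neg) t

theorem A_d4 (t : ℝ) : ID 4 (fun t => X.A c t) t =
    -(ID 2 X.R t * X.A c t + ID 1 X.R t * X.At c t +
      (ID 1 X.R t * X.At c t + X.R t * -(X.R t * X.A c t))) :=
  ID_succ_eq (ES_A X c) (A_d3 X c) (fun t => (((ID_ED (ES_R X) 1 t).mul (X.dA c t)).add
    ((R_ED X t).mul (X.dAt c t))).neg) t

theorem ES_gram : ES (fun t => (X.A c t)ᵀ * X.A c t) := by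
  intro i j
  simp only [Matrix.mul_apply, Matrix.transpose_apply]
  exact ContDiff.sum fun k _ => (X.smoothA c k i).mul (X.smoothA c k j)

theorem gram_d4 : ID 4 (fun t => (X.A c t)ᵀ * X.A c t) c = -(8 : ℝ) • X.R c ∧
    ID 5 (fun t => (X.A c t)ᵀ * X.A c t) c = -(20 : ℝ) • ID 1 X.R c := by
  set A : ℝ → Matrix (Fin N) (Fin N) ℝ := fun t => X.A c t with hA
  have hE : ∀ n t, ED (ID n A) (ID (n + 1) A t) t := fun n t => ID_ED (ES_A X c) n t
  have hp : ∀ i j t, ED (fun t => (ID i A t)ᵀ * ID j A t)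
      ((ID (i + 1) A t)ᵀ * ID j A t + (ID i A t)ᵀ * ID (j + 1) A t) t :=
    fun i j t => (hE i t).transpose.mul (hE j t)
  have hg := ES_gram X c
  have g0 : ∀ t, ID 0 (fun t => (A t)ᵀ * A t) t = (ID 0 A t)ᵀ * ID 0 A t := fun t => by
    rw [ID_zero, ID_zero]
  have g1 := ID_succ_eq hg g0 (fun t => hp 0 0 t)
  have g2 := ID_succ_eq hg g1 (fun t => (hp 1 0 t).add (hp 0 1 t))
  have g3 := ID_succ_eq hg g2 (fun t => ((hp 2 0 t).add (hp 1 1 t)).add
    ((hp 1 1 t).add (hp 0 2 t)))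
  have g4 := ID_succ_eq hg g3 (fun t => (((hp 3 0 t).add (hp 2 1 t)).add
    ((hp 2 1 t).add (hp 1 2 t))).add (((hp 2 1 t).add (hp 1 2 t)).add
    ((hp 1 2 t).add (hp 0 3 t))))
  have g5 := ID_succ_eq hg g4 (fun t => ((((hp 4 0 t).add (hp 3 1 t)).add
    ((hp 3 1 t).add (hp 2 2 t))).add (((hp 3 1 t).add (hp 2 2 t)).add
    ((hp 2 2 t).add (hp 1 3 t)))).add ((((hp 3 1 t).add (hp 2 2 t)).add
    ((hp 2 2 t).add (hp 1 3 t))).add (((hp 2 2 t).add (hp 1 3 t)).add
    ((hp 1 3 t).add (hp 0 4 t)))))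
  have a0 : ID 0 A c = 0 := by rw [ID_zero]; exact X.A_diag c
  have a1 : ID 1 A c = 1 := by rw [A_d1, X.At_diag]
  have a2 : ID 2 A c = 0 := by rw [A_d2, X.A_diag, Matrix.mul_zero, neg_zero]
  have a3 : ID 3 A c = -X.R c := by
    rw [A_d3, X.A_diag, X.At_diag, Matrix.mul_zero, Matrix.mul_one, zero_add]
  have a4 : ID 4 A c = -(2 : ℝ) • ID 1 X.R c := by
    rw [A_d4, X.A_diag, X.At_diag]
    simp only [Matrix.mul_zero, Matrix.mul_one, zero_add, neg_zero, add_zero]
    rw [neg_smul, two_smul]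
  have hRt : (ID 1 X.R c)ᵀ = ID 1 X.R c := by
    have h1 := (R_ED X c).transpose
    have e : (fun x => (X.R x)ᵀ) = X.R := funext fun x => X.symR x
    rw [e] at h1
    exact h1.unique (R_ED X c)
  constructor
  · rw [g4 c]
    simp only [Nat.reduceAdd, zero_add, a0, a1, a2, a3, Matrix.transpose_zero, Matrix.transpose_one,
      Matrix.transpose_neg, X.symR, Matrix.mul_zero, Matrix.zero_mul, Matrix.mul_one,
      Matrix.one_mul, add_zero]
    module
  · rw [g5 c]
    simp only [Nat.reduceAdd, a0, Matrix.mul_zero, a4, transpose_smul, hRt, zero_add, a1, Matrix.mul_one, a3, transpose_neg, X.symR, a2, add_zero, transpose_zero, Matrix.zero_mul, transpose_one, Matrix.one_mul]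
    module

end Vale.Agent.P231.Ode
end
end

section

section

open Matrix Finset Real
open scoped ContDiff Topology

namespace Vale.Agent.P231.Ode

open Kazdan

variable {N : ℕ}

theorem hd_cos (c p q r x : ℝ) :
    HasDerivAt (fun x => p + q * cos (2 * (x - c)) + r * cos (4 * (x - c)))
      ((-2 * q) * sin (2 * (x - c)) + (-4 * r) * sin (4 * (x - c))) x := by
  have h1 : HasDerivAt (fun x : ℝ => 2 * (x - c)) 2 x := by
    simpa using ((hasDerivAt_id x).sub_const c).const_mul (2 : ℝ)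
  have h2 : HasDerivAt (fun x : ℝ => 4 * (x - c)) 4 x := by
    simpa only [id_eq, mul_one] using ((hasDerivAt_id x).sub_const c).const_mul (4 : ℝ)
  have h3 := ((h1.cos.const_mul q).const_add p).fun_add (h2.cos.const_mul r)
  refine h3.congr_deriv ?_
  ring

theorem hd_sin (c q r x : ℝ) :
    HasDerivAt (fun x => q * sin (2 * (x - c)) + r * sin (4 * (x - c)))
      (0 + (2 * q) * cos (2 * (x - c)) + (4 * r) * cos (4 * (x - c))) x := by
  have h1 : HasDerivAt (fun x : ℝ => 2 * (x - c)) 2 x := by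
    simpa using ((hasDerivAt_id x).sub_const c).const_mul (2 : ℝ)
  have h2 : HasDerivAt (fun x : ℝ => 4 * (x - c)) 4 x := by
    simpa only [id_eq, mul_one] using ((hasDerivAt_id x).sub_const c).const_mul (4 : ℝ)
  have h3 := (h1.sin.const_mul q).fun_add (h2.sin.const_mul r)
  refine h3.congr_deriv ?_
  ring

/-- the model Gram matrix -/
noncomputable def W (P : Matrix (Fin N) (Fin N) ℝ) (c t : ℝ) : Matrix (Fin N) (Fin N) ℝ :=
  (sin (t - c)) ^ 2 • (1 - (sin (t - c)) ^ 2 • P)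

theorem W_eq (P : Matrix (Fin N) (Fin N) ℝ) (c t : ℝ) :
    W P c t = (1 / 2 + (-1 / 2) * cos (2 * (t - c)) + 0 * cos (4 * (t - c))) •
        (1 : Matrix (Fin N) (Fin N) ℝ) +
      (-3 / 8 + (1 / 2) * cos (2 * (t - c)) + (-1 / 8) * cos (4 * (t - c))) • P := by
  have h4 : cos (4 * (t - c)) = 2 * cos (2 * (t - c)) ^ 2 - 1 := by
    rw [← cos_two_mul]; ring_nf
  have h2 : cos (2 * (t - c)) = 1 - 2 * sin (t - c) ^ 2 := by
    rw [cos_two_mul, ← sin_sq_add_cos_sq (t - c)]; ring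
  rw [W, smul_sub, smul_smul, h4, h2, sub_eq_add_neg, ← neg_smul]
  congr 2 <;> ring

theorem W_ED {α β : ℝ → ℝ} {α' β' t : ℝ} (P : Matrix (Fin N) (Fin N) ℝ)
    (hα : HasDerivAt α α' t) (hβ : HasDerivAt β β' t) :
    ED (fun t => α t • (1 : Matrix (Fin N) (Fin N) ℝ) + β t • P)
      (α' • (1 : Matrix (Fin N) (Fin N) ℝ) + β' • P) t := by
  refine ED.congr_deriv ((ED.smul hα (ED.const 1 t)).add (ED.smul hβ (ED.const P t))) ?_
  simp only [smul_zero, add_zero]

theorem W_d (P : Matrix (Fin N) (Fin N) ℝ) (c : ℝ) :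
    ID 4 (W P c) c = -(8 : ℝ) • (1 : Matrix (Fin N) (Fin N) ℝ) - (24 : ℝ) • P ∧
      ID 5 (W P c) c = 0 := by
  have hW : ES (W P c) := by
    intro i j
    simp only [W_eq, Matrix.add_apply, Matrix.smul_apply, smul_eq_mul]
    (clear * -; fun_prop)
  have g0 : ∀ t, ID 0 (W P c) t = _ := fun t => (ID_zero _ t).trans (W_eq P c t)
  have g1 := ID_succ_eq hW g0 (fun t => W_ED P (hd_cos c _ _ _ t) (hd_cos c _ _ _ t))
  have g2 := ID_succ_eq hW g1 (fun t => W_ED P (hd_sin c _ _ t) (hd_sin c _ _ t))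
  have g3 := ID_succ_eq hW g2 (fun t => W_ED P (hd_cos c _ _ _ t) (hd_cos c _ _ _ t))
  have g4 := ID_succ_eq hW g3 (fun t => W_ED P (hd_sin c _ _ t) (hd_sin c _ _ t))
  have g5 := ID_succ_eq hW g4 (fun t => W_ED P (hd_cos c _ _ _ t) (hd_cos c _ _ _ t))
  constructor
  · rw [g4 c]
    simp only [sub_self, mul_zero, cos_zero]
    norm_num
    module
  · rw [g5 c]
    simp only [sub_self, mul_zero, sin_zero]
    norm_num

variable {X : JSys N} {q : Matrix.orthogonalGroup (Fin N) ℝ}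

theorem Closed.curv (h : Closed X q) {l : ℕ}
    (hl : ∀ s, Module.finrank ℝ (LinearMap.ker (X.A s (s + π / 2)).mulVecLin) ≤ l)
    (hdet : ∀ s t, s < t → t < s + π / 2 →
      |(X.A s t).det| = cos (t - s) ^ l * sin (t - s) ^ N) (c : ℝ) :
    (∃ P : Matrix (Fin N) (Fin N) ℝ, Pᵀ = P ∧ P * P = P ∧
      (∀ v, X.A c (c + π / 2) *ᵥ v = 0 ↔ P *ᵥ v = v) ∧ X.R c = 1 + (3 : ℝ) • P) ∧
      ID 1 X.R c = 0 := by
  obtain ⟨P, h1, h2, h3, h4⟩ := h.gram hl hdet c
  have hW : ES (W P c) := by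
    intro i j
    simp only [W_eq, Matrix.add_apply, Matrix.smul_apply, smul_eq_mul]
    (clear * -; fun_prop)
  have key : ∀ n, ID n (fun t => (X.A c t)ᵀ * X.A c t) c = ID n (W P c) c := by
    intro n
    refine ID_eq_of_eq_right (ES_gram X c) hW (d := c + π / 2)
      (by linarith [pi_pos]) (fun t ht => ?_) n
    have := h4 (t - c) ⟨by linarith only [ht.1], by linarith only [ht.2]⟩
    rw [add_sub_cancel] at this
    rw [this, W]
  have h5 := gram_d4 X c
  have h6 := W_d P c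
  refine ⟨⟨P, h1, h2, h3, ?_⟩, ?_⟩
  · have h7 := h5.1.symm.trans ((key 4).trans h6.1)
    have h8 : X.R c = (-(1 / 8 : ℝ)) • (-(8 : ℝ) • X.R c) := by
      rw [smul_smul]; norm_num
    rw [h8, h7]
    module
  · have h7 := h5.2.symm.trans ((key 5).trans h6.2)
    exact (smul_eq_zero.1 h7).resolve_left (by norm_num)

end Vale.Agent.P231.Ode
end
end

section

section

open Matrix Finset Real MeasureTheory
open scoped ContDiff Topology

namespace Vale.Agent.P231.Ode

open Kazdan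

variable {N : ℕ} {X : JSys N} {q : Matrix.orthogonalGroup (Fin N) ℝ}

theorem Closed.rigid (h : Closed X q) {l : ℕ}
    (hl : ∀ s, Module.finrank ℝ (LinearMap.ker (X.A s (s + π / 2)).mulVecLin) ≤ l)
    (hdet : ∀ s t, s < t → t < s + π / 2 →
      |(X.A s t).det| = cos (t - s) ^ l * sin (t - s) ^ N) :
    ∃ P : Matrix (Fin N) (Fin N) ℝ, Pᵀ = P ∧ P * P = P ∧ P.rank = l ∧
      ∀ t, X.R t = 1 + (3 : ℝ) • P := by
  have hR : ∀ t, X.R t = X.R 0 := fun t =>
    JSys.const_of_ED (fun x => by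
      have := R_ED X x
      rwa [(h.curv hl hdet x).2] at this) t 0
  obtain ⟨⟨P, h1, h2, h3, h4⟩, -⟩ := h.curv hl hdet 0
  refine ⟨P, h1, h2, ?_, fun t => (hR t).trans h4⟩
  rw [zero_add] at h3
  -- rank of P
  have hker : Module.finrank ℝ (LinearMap.ker (X.A 0 (π / 2)).mulVecLin) = P.rank := by
    have : LinearMap.ker (X.A 0 (π / 2)).mulVecLin = LinearMap.range P.mulVecLin := by
      ext v
      rw [LinearMap.mem_ker, Matrix.mulVecLin_apply, h3, LinearMap.mem_range]
      constructor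
      · intro hv
        exact ⟨v, hv⟩
      · rintro ⟨w, rfl⟩
        rw [Matrix.mulVecLin_apply, Matrix.mulVec_mulVec, h2]
    rw [this]
    rfl
  have hle : P.rank ≤ l := by
    rw [← hker]
    have := hl 0
    rwa [zero_add] at this
  refine le_antisymm hle ?_
  have hr : π / 4 ∈ Set.Ioo 0 (π / 2) := ⟨by positivity, by linarith only [pi_pos]⟩
  have h5 := h.ineq hker.le hr
  have hcos : 0 < cos (π / 4) := Real.cos_pos_of_mem_Ioo ⟨by linarith only [pi_pos], by linarith only [pi_pos]⟩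
  have hsin : 0 < sin (π / 4) :=
    Real.sin_pos_of_pos_of_lt_pi (by positivity) (by linarith only [pi_pos])
  have hcos1 : cos (π / 4) < 1 := by
    rw [Real.cos_pi_div_four]
    have : Real.sqrt 2 < 2 := by
      rw [Real.sqrt_lt' (by norm_num)]; norm_num
    linarith only [this]
  have h6 : ∫ s in (0 : ℝ)..π, log |(X.A s (s + π / 4)).det| =
      π * (l * log (cos (π / 4)) + N * log (sin (π / 4))) := by
    have : ∀ s, log |(X.A s (s + π / 4)).det| =
        l * log (cos (π / 4)) + N * log (sin (π / 4)) := by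
      intro s
      rw [hdet s _ (by linarith only [hr.1]) (by linarith only [hr.2]), add_sub_cancel_left,
        Real.log_mul (by (clear * - hcos; positivity)) (by (clear * - hsin; positivity)), Real.log_pow, Real.log_pow]
    simp only [this, intervalIntegral.integral_const, smul_eq_mul, sub_zero]
  rw [h6] at h5
  have h7 := le_of_mul_le_mul_left h5 pi_pos
  have hlog : log (cos (π / 4)) < 0 := Real.log_neg hcos hcos1
  by_contra hlt
  push Not at hlt
  have h8 : (P.rank : ℝ) < l := by exact_mod_cast hlt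
  have := mul_lt_mul_of_neg_right h8 hlog
  linarith only [h7, this]

theorem continuous_det (r : ℝ) : Continuous fun s => |(X.A s (s + r)).det| := by
  have hc : Continuous X.C := (EC.continuous (A := X.C) fun i j =>
    continuous_iff_continuousAt.2 fun t => (X.dC t i j).continuousAt)
  have hs : Continuous X.S := (EC.continuous (A := X.S) fun i j =>
    continuous_iff_continuousAt.2 fun t => (X.dS t i j).continuousAt)
  unfold JSys.A
  refine (Continuous.matrix_det ?_).abs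
  exact ((hs.comp (continuous_id.add continuous_const)).matrix_mul hc.matrix_transpose).sub
    ((hc.comp (continuous_id.add continuous_const)).matrix_mul hs.matrix_transpose)

theorem Closed.det_per (h : Closed X q) (s t : ℝ) :
    |(X.A (s + π) (t + π)).det| = |(X.A s t).det| := by
  have e : X.A (s + π) (t + π) = q.1 * X.A s t * q.1ᵀ := by
    rw [JSys.A, h.hC, h.hS, h.hC, h.hS, JSys.A]
    simp only [Matrix.transpose_mul, Matrix.mul_sub, Matrix.sub_mul, Matrix.mul_assoc]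
  have hq : q.1 * q.1ᵀ = 1 := (Matrix.mem_orthogonalGroup_iff (Fin N) ℝ).1 q.2
  have h1 := congrArg Matrix.det hq
  rw [Matrix.det_mul, Matrix.det_transpose, Matrix.det_one] at h1
  rw [e, Matrix.det_mul, Matrix.det_mul, Matrix.det_transpose, mul_comm, ← mul_assoc, h1, one_mul]

/-- Jensen -/
theorem jensen_aux {f : ℝ → ℝ} (hf : Continuous f) (hpos : ∀ s, 0 < f s) {c : ℝ}
    (h : π * c ≤ ∫ s in (0 : ℝ)..π, log (f s)) :
    π * exp c ≤ ∫ s in (0 : ℝ)..π, f s ∧
      ((∫ s in (0 : ℝ)..π, f s) ≤ π * exp c → ∀ s ∈ Set.Icc 0 π, f s = exp c) := by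
  have hlog : Continuous fun s => log (f s) := hf.log fun s => (hpos s).ne'
  have hint1 : IntervalIntegrable f volume 0 π := hf.intervalIntegrable _ _
  have hint2 : IntervalIntegrable (fun s => log (f s)) volume 0 π := hlog.intervalIntegrable _ _
  -- pointwise inequality
  have hpt : ∀ s, 0 ≤ f s - exp c * (1 + (log (f s) - c)) := by
    intro s
    have h1 := Real.add_one_le_exp (log (f s) - c)
    have h2 : exp (log (f s) - c) = f s / exp c := by
      rw [Real.exp_sub, Real.exp_log (hpos s)]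
    rw [h2, le_div_iff₀ (exp_pos c)] at h1
    linarith
  have hk : Continuous fun s => exp c * (1 + (log (f s) - c)) :=
    continuous_const.mul (continuous_const.add (hlog.sub continuous_const))
  have hg : Continuous fun s => f s - exp c * (1 + (log (f s) - c)) := hf.sub hk
  have hI : (∫ s in (0 : ℝ)..π, (f s - exp c * (1 + (log (f s) - c)))) =
      (∫ s in (0 : ℝ)..π, f s) - exp c * (π * (1 - c) + ∫ s in (0 : ℝ)..π, log (f s)) := by
    rw [intervalIntegral.integral_sub hint1 (hk.intervalIntegrable _ _),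
      intervalIntegral.integral_const_mul]
    congr 2
    have : (fun s => 1 + (log (f s) - c)) = fun s => (1 - c) + log (f s) := by
      funext s; ring
    rw [this, intervalIntegral.integral_add (continuous_const.intervalIntegrable _ _) hint2,
      intervalIntegral.integral_const, smul_eq_mul, sub_zero]
  have hI0 : 0 ≤ ∫ s in (0 : ℝ)..π, (f s - exp c * (1 + (log (f s) - c))) :=
    intervalIntegral.integral_nonneg pi_pos.le fun s _ => hpt s
  have hm := mul_le_mul_of_nonneg_left h (exp_pos c).le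
  constructor
  · linarith
  · intro hle
    have hI1 : (∫ s in (0 : ℝ)..π, (f s - exp c * (1 + (log (f s) - c)))) = 0 := by
      refine le_antisymm ?_ hI0
      linarith
    intro s hs
    have hzero : f s - exp c * (1 + (log (f s) - c)) = 0 := by
      by_contra hne
      have hlt : 0 < f s - exp c * (1 + (log (f s) - c)) := lt_of_le_of_ne (hpt s) (Ne.symm hne)
      have := intervalIntegral.integral_pos pi_pos hg.continuousOn
        (fun x _ => hpt x) ⟨s, hs, hlt⟩
      linarith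
    -- equality in the exponential inequality
    by_contra hne
    have h1 : log (f s) - c ≠ 0 := by
      intro h0
      apply hne
      have : log (f s) = c := by linarith only [h0]
      rw [← this, Real.exp_log (hpos s)]
    have h2 := Real.add_one_lt_exp h1
    have h3 : exp (log (f s) - c) = f s / exp c := by
      rw [Real.exp_sub, Real.exp_log (hpos s)]
    rw [h3, lt_div_iff₀ (exp_pos c)] at h2
    linarith only [hzero, h2]

theorem Closed.det_ineq (h : Closed X q) {l : ℕ}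
    (hl : Module.finrank ℝ (LinearMap.ker (X.A 0 (π / 2)).mulVecLin) ≤ l) {r : ℝ}
    (hr : r ∈ Set.Ioo 0 (π / 2)) :
    π * (cos r ^ l * sin r ^ N) ≤ ∫ s in (0 : ℝ)..π, |(X.A s (s + r)).det| ∧
      ((∫ s in (0 : ℝ)..π, |(X.A s (s + r)).det|) ≤ π * (cos r ^ l * sin r ^ N) →
        ∀ s, |(X.A s (s + r)).det| = cos r ^ l * sin r ^ N) := by
  have hcos : 0 < cos r := Real.cos_pos_of_mem_Ioo ⟨by (clear * - hr; linarith [hr.1, pi_pos]), hr.2⟩
  have hsin : 0 < sin r := Real.sin_pos_of_pos_of_lt_pi hr.1 (by linarith only [hr.2, pi_pos])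
  have hpos : ∀ s, 0 < |(X.A s (s + r)).det| := fun s =>
    abs_pos.2 (h.hinv _ _ (by linarith only [hr.1]) (by linarith only [hr.2]))
  have hexp : exp (l * log (cos r) + N * log (sin r)) = cos r ^ l * sin r ^ N := by
    rw [Real.exp_add, ← Real.log_pow, ← Real.log_pow, Real.exp_log (by (clear * - hcos; positivity)),
      Real.exp_log (by positivity)]
  have h1 := jensen_aux (continuous_det (X := X) r) hpos (h.ineq hl hr)
  rw [hexp] at h1
  refine ⟨h1.1, fun hle s => ?_⟩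
  have h2 := h1.2 hle
  have hper : Function.Periodic (fun s => |(X.A s (s + r)).det|) π := by
    intro s
    show |(X.A (s + π) (s + π + r)).det| = _
    rw [add_right_comm, h.det_per]
  obtain ⟨y, hy, hy'⟩ := hper.exists_mem_Ico₀ pi_pos s
  rw [hy']
  exact h2 y ⟨hy.1, hy.2.le⟩

end Vale.Agent.P231.Ode
end
end

section

section

/-! P231: assembly of the main theorem. -/

set_option maxSynthPendingDepth 3

open Bundle Manifold Set Filter MeasureTheory Module
open scoped ContDiff Manifold Topology ENNReal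

namespace Vale.Agent.P231

noncomputable section

open Vale.Agent.P234

variable {E : Type*} [NormedAddCommGroup E] [NormedSpace ℝ E]
  {M : Type*} [MetricSpace M] [ChartedSpace E M]
  [RiemannianBundle (fun x : M => TangentSpace 𝓘(ℝ, E) x)]

theorem isExpMap_iff [IsManifold 𝓘(ℝ, E) ∞ M] (e : ∀ x : M, TangentSpace 𝓘(ℝ, E) x → M) :
    Blaschke.IsExpMap e ↔ IsExp e :=
  ⟨fun h => ⟨h.smooth, h.map_zero, h.velocity, h.minimizing⟩,
    fun h => ⟨h.smooth, h.map_zero, h.velocity, h.minimizing⟩⟩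

variable [FiniteDimensional ℝ E] [IsManifold 𝓘(ℝ, E) ∞ M]
  [IsContMDiffRiemannianBundle 𝓘(ℝ, E) ∞ E (fun x : M => TangentSpace 𝓘(ℝ, E) x)]
  {e : ∀ x : M, TangentSpace 𝓘(ℝ, E) x → M}

theorem injGE_of_injOn [CompactSpace M] (F : Facts e) {D : ℝ} (hD : 0 < D)
    (h : ∀ x : M, InjOn (e x) (Metric.ball (0 : TangentSpace 𝓘(ℝ, E) x) D)) : InjGE e D := by
  have key : ∀ (x : M) (v : TangentSpace 𝓘(ℝ, E) x), ‖v‖ < D → dist x (e x v) = ‖v‖ := by
    intro x v hv
    obtain ⟨w, hw, hd⟩ := F.hopfRinow x (e x v)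
    have h1 : dist x (e x v) ≤ ‖v‖ := dist_exp_le' F.isExp x v
    have h2 : w = v := h x (by rw [mem_ball_zero_iff]; linarith) (by rwa [mem_ball_zero_iff]) hw
    rw [hd, h2]
  intro x v hv
  rcases hv.lt_or_eq with hv | hv
  · exact key x v hv
  · have hc : Continuous fun t : ℝ => dist x (e x (t • v)) - |t| * ‖v‖ := by
      have h1 : Continuous fun t : ℝ => e x (t • v) :=
        (contMDiff_exp_fiber F.isExp x).continuous.comp (continuous_id.smul continuous_const)
      exact (continuous_const.dist h1).sub (continuous_abs.mul continuous_const)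
    have h0 : (fun t : ℝ => dist x (e x (t • v)) - |t| * ‖v‖) =ᶠ[nhdsWithin 1 (Iio 1)]
        fun _ => 0 := by
      filter_upwards [self_mem_nhdsWithin, nhdsWithin_le_nhds (lt_mem_nhds (zero_lt_one' ℝ))]
        with t ht ht0
      have ht1 : t < 1 := ht
      have h3 : ‖t • v‖ = |t| * ‖v‖ := by rw [norm_smul, Real.norm_eq_abs]
      rw [key x (t • v) ?_, h3, sub_self]
      rw [h3, abs_of_pos ht0, hv]
      nlinarith only [hD, ht1]
    have h1 : Tendsto (fun t : ℝ => dist x (e x (t • v)) - |t| * ‖v‖) (nhdsWithin 1 (Iio 1))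
        (𝓝 (dist x (e x ((1 : ℝ) • v)) - |(1 : ℝ)| * ‖v‖)) :=
      (hc.tendsto 1).mono_left nhdsWithin_le_nhds
    have h2 := tendsto_nhds_unique (h1.congr' h0) tendsto_const_nhds
    rw [one_smul, abs_one, one_mul] at h2
    linarith only [h2]

omit [IsContMDiffRiemannianBundle 𝓘(ℝ, E) ∞ E (fun x : M => TangentSpace 𝓘(ℝ, E) x)] in
theorem diam_pos [CompactSpace M] (he : IsExp e) {N : ℕ} (hN : finrank ℝ E = N + 1) (x : M) :
    0 < Metric.diam (univ : Set M) := by
  obtain ⟨ρ, hρ, h⟩ := he.minimizing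
  have : Nontrivial (Eu E) := by
    have : 0 < finrank ℝ (Eu E) := by rw [finrank_euclideanSpace, Fintype.card_fin, hN]; omega
    exact (finrank_pos_iff (R := ℝ)).1 this
  obtain ⟨a, ha⟩ := exists_norm_eq (Eu E) hρ.le
  have h1 : nm x (fr x a) = ρ := by rw [nm_fr, ha]
  have h2 : dist (e x ((0 : ℝ) • (fr x a : E) : E)) (e x ((1 : ℝ) • (fr x a : E) : E)) = ρ := by
    have h3 := h x (fr x a : E) 0 1 (le_of_eq (by
      change nm x (fr x a) * |1 - 0| = ρ
      rw [h1]; norm_num))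
    change dist (e x ((0 : ℝ) • (fr x a : E) : E)) (e x ((1 : ℝ) • (fr x a : E) : E)) =
      nm x (fr x a) * |1 - 0| at h3
    rw [h3, h1]; norm_num
  have h4 := Metric.dist_le_diam_of_mem (isCompact_univ.isBounded)
    (mem_univ (e x ((0 : ℝ) • (fr x a : E) : E))) (mem_univ (e x ((1 : ℝ) • (fr x a : E) : E)))
  linarith

theorem sphere_const (N : ℕ) :
    ((N : ℝ) + 1) * (volume (Metric.ball (0 : EuclideanSpace ℝ (Fin (N + 1))) 1)).toReal =
      2 * √Real.pi ^ (N + 1) / Real.Gamma ((N + 1) / 2) := by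
  rw [EuclideanSpace.volume_ball, Fintype.card_fin]
  have h1 : (0 : ℝ) < ((N + 1 : ℕ) : ℝ) / 2 := by positivity
  have h2 : Real.Gamma (((N + 1 : ℕ) : ℝ) / 2 + 1) =
      ((N + 1 : ℕ) : ℝ) / 2 * Real.Gamma (((N + 1 : ℕ) : ℝ) / 2) := Real.Gamma_add_one h1.ne'
  have h3 : 0 < Real.Gamma (((N + 1 : ℕ) : ℝ) / 2) := Real.Gamma_pos_of_pos h1
  rw [ENNReal.ofReal_one, one_pow, one_mul, ENNReal.toReal_ofReal (by rw [h2]; (clear * -; positivity)), h2]
  push_cast at h3 ⊢
  field_simp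

theorem mvol_eq (D : ℝ) (N l : ℕ) : mvol D N l = Blaschke.modelVolume N l D := by
  unfold mvol Blaschke.modelVolume
  rw [sphere_const]

theorem riemVol_eq (N : ℕ) (M : Type*) [MetricSpace M] [MeasurableSpace M] [BorelSpace M] :
    riemVol (N + 1) M = Blaschke.riemannianVolume (N + 1) M := by
  unfold riemVol Blaschke.riemannianVolume
  rw [EuclideanSpace.volume_ball, Fintype.card_fin, ENNReal.ofReal_one, one_pow, one_mul]

theorem mfderiv_line (he : IsExp e) (x : M) (v w : TangentSpace 𝓘(ℝ, E) x) :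
    mfderiv 𝓘(ℝ, ℝ) 𝓘(ℝ, E) (fun s : ℝ => e x (v + s • w)) 0 (1 : ℝ) =
      mfderiv 𝓘(ℝ, TangentSpace 𝓘(ℝ, E) x) 𝓘(ℝ, E) (e x) (v + (0 : ℝ) • w) w := by
  have h1 : MDifferentiableAt 𝓘(ℝ, TangentSpace 𝓘(ℝ, E) x) 𝓘(ℝ, E) (e x)
      (v + (0 : ℝ) • w) :=
    ((contMDiff_exp_fiber he x).contMDiffAt).mdifferentiableAt (by simp)
  have h3 : MDifferentiableAt 𝓘(ℝ, ℝ) 𝓘(ℝ, TangentSpace 𝓘(ℝ, E) x)
      (fun t : ℝ => v + t • w) 0 := by
    have h6 : ContMDiff 𝓘(ℝ, ℝ) 𝓘(ℝ, TangentSpace 𝓘(ℝ, E) x) ∞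
        (fun t : ℝ => v + t • w) :=
      (contDiff_const.add (contDiff_id.smul contDiff_const)).contMDiff
    exact h6.contMDiffAt.mdifferentiableAt (by simp)
  have h4 := mfderiv_comp_apply 0 (I'' := 𝓘(ℝ, E))
    (g := e x) (f := fun t : ℝ => v + t • w) h1 h3 (1 : ℝ)
  have h5 : mfderiv 𝓘(ℝ, ℝ) 𝓘(ℝ, TangentSpace 𝓘(ℝ, E) x)
      (fun t : ℝ => v + t • w) 0 (1 : ℝ) = w := by
    rw [mfderiv_eq_fderiv]
    have h2 : HasFDerivAt (fun t : ℝ => v + t • w)
        ((ContinuousLinearMap.id ℝ ℝ).smulRight w) 0 :=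
      ((hasFDerivAt_id 0).smul_const w).const_add v
    rw [h2.fderiv]
    exact one_smul ℝ w
  rw [h5] at h4
  exact h4

theorem mfderiv_line' (he : IsExp e) (x : M) (v w : E) :
    (mfderiv 𝓘(ℝ, ℝ) 𝓘(ℝ, E) (fun s : ℝ => e x ((v : TangentSpace 𝓘(ℝ, E) x) +
      s • (w : TangentSpace 𝓘(ℝ, E) x))) 0 (1 : ℝ) : E) = dE e x v w := by
  have h := mfderiv_line he x v w
  have h2 : (v : TangentSpace 𝓘(ℝ, E) x) + (0 : ℝ) • (w : TangentSpace 𝓘(ℝ, E) x) = v := by
    rw [zero_smul, add_zero]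
  have h3 : (mfderiv 𝓘(ℝ, ℝ) 𝓘(ℝ, E) (fun s : ℝ => e x ((v : TangentSpace 𝓘(ℝ, E) x) +
      s • (w : TangentSpace 𝓘(ℝ, E) x))) 0 (1 : ℝ) : E) =
      dE e x ((v : TangentSpace 𝓘(ℝ, E) x) + (0 : ℝ) • (w : TangentSpace 𝓘(ℝ, E) x)) w := h
  rw [h3, h2]

theorem finrank_le_of_mult (he : IsExp e) {l : ℕ}
    (hl : Blaschke.MultLE e l) (x : M) (v : E) (hv : nm x v = Metric.diam (univ : Set M)) :
    finrank ℝ (LinearMap.ker (dEl e x v)) ≤ l := by
  by_contra hlt
  push Not at hlt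
  obtain ⟨f, hf⟩ := exists_linearIndependent_of_le_finrank (R := ℝ)
    (M := LinearMap.ker (dEl e x v)) (n := l + 1) hlt
  have hg : LinearIndependent ℝ (fun i => (f i : E)) :=
    hf.map' (LinearMap.ker (dEl e x v)).subtype (Submodule.ker_subtype _)
  obtain ⟨i, hi⟩ := hl x v hv (fun i => (f i : E)) hg
  refine hi ?_
  have h1 : dE e x v (f i : E) = 0 := (f i).2
  exact (mfderiv_line' he x v (f i : E)).trans h1

theorem main_theorem [CompactSpace M] [ConnectedSpace M] [IsRiemannianManifold 𝓘(ℝ, E) M]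
    [MeasurableSpace M] [BorelSpace M] (he : IsExp e) (hinj : Blaschke.InjGeDiam e)
    {N l : ℕ} (hN : finrank ℝ E = N + 1) (hl : Blaschke.MultLE e l) :
    ENNReal.ofReal (Blaschke.modelVolume N l (Metric.diam (univ : Set M))) ≤
        Blaschke.riemannianVolume (N + 1) M univ ∧
      (Blaschke.riemannianVolume (N + 1) M univ ≤
          ENNReal.ofReal (Blaschke.modelVolume N l (Metric.diam (univ : Set M))) →
        Blaschke.GeodesicSymmetric e ∧ Blaschke.TwoPointHomogeneous M) := by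
  have F : Facts e := facts_of_isExp he
  obtain ⟨x₀⟩ : Nonempty M := inferInstance
  set D : ℝ := Metric.diam (univ : Set M) with hDdef
  have hD : 0 < D := diam_pos he hN x₀
  have hB : InjGE e D := injGE_of_injOn F hD hinj
  have hd : ∀ x y : M, dist x y ≤ D := fun x y =>
    Metric.dist_le_diam_of_mem (isCompact_univ.isBounded) (mem_univ x) (mem_univ y)
  have hcl : ∀ (x : M) (v : E), nm x v = 2 * D → e x v = x :=
    fun x v hv => closed_of_inj_diam F hD hB hd x v hv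
  have hl' : ∀ (x : M) (v : E), nm x v = D → finrank ℝ (LinearMap.ker (dEl e x v)) ≤ l :=
    fun x v hv => finrank_le_of_mult he hl x v hv
  have e2 : riemVol (finrank ℝ E) M = Blaschke.riemannianVolume (N + 1) M := by
    rw [hN, riemVol_eq]
  refine ⟨?_, fun hV => ?_⟩
  · rw [← mvol_eq, ← e2]
    exact vol_ineq F hD hB hcl hN hl'
  · rw [← mvol_eq, ← e2] at hV
    have hj := vol_rigid F hD hB hcl hN hl' hV
    have hσ : ∀ p : M, ∃ σ : M ≃ᵢ M, ∀ v : E, σ (e p v) = e p (-v) :=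
      exists_symmetry F hD hB hd hcl (geo_rigid F hD hB hcl hN hl' hj)
    refine ⟨hσ, fun x y x' y' h => ?_⟩
    choose P hP using exists_PData F hD hB hcl hN hl' hj
    exact two_point_homogeneous F hD hB hd hcl hN hP hσ h

end

end Vale.Agent.P231
end
end
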